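import Vale.Agent.Lib.P101.JBase

/-! The dimension drop algebras as C*-algebras: fibres, bumps and approximation. -/

namespace Vale.Agent.Lib.P101.J

set_option linter.unusedSectionVars false
set_option linter.unusedSimpArgs false

open scoped Kronecker Matrix.Norms.L2Operator unitInterval

noncomputable section

/-- The index set of the matrices of a dimension drop algebra. -/
abbrev HH (p q : ℕ) : Type := Fin p × Fin q

/-- The matrices of a dimension drop algebra. -/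
abbrev MH (p q : ℕ) : Type := Matrix (HH p q) (HH p q) ℂ

variable {p q : ℕ}

instance dp_isClosed : IsClosed (DP p q : Set C(I, MH p q)) := DP_closed

instance dpCStar : CStarAlgebra (DP p q) := StarSubalgebra.cstarAlgebra (DP p q)

/-- Uniform continuity on the unit interval. -/
lemma exists_delta {E : Type*} [NormedAddCommGroup E] (f : C(I, E)) {ε : ℝ} (hε : 0 < ε) :
    ∃ η > 0, ∀ s s' : I, |(s : ℝ) - s'| < η → ‖f s - f s'‖ < ε := by
  have h := CompactSpace.uniformContinuous_of_continuous f.continuous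
  obtain ⟨η, hη, h2⟩ := Metric.uniformContinuous_iff.1 h ε hε
  refine ⟨η, hη, fun s s' hs => ?_⟩
  have := h2 (a := s) (b := s') (by rw [Subtype.dist_eq, Real.dist_eq]; exact hs)
  rwa [dist_eq_norm] at this

/-- The fibre at a point. -/
def Fibr (s : I) (X : MH p q) : Prop :=
  (s = 0 → ∃ a : Matrix (Fin p) (Fin p) ℂ, X = a ⊗ₖ (1 : Matrix (Fin q) (Fin q) ℂ)) ∧
    (s = 1 → ∃ b : Matrix (Fin q) (Fin q) ℂ, X = (1 : Matrix (Fin p) (Fin p) ℂ) ⊗ₖ b)

lemma fibr_of_dp (f : DP p q) (s : I) : Fibr s (f.1 s) := by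
  refine ⟨fun h => ?_, fun h => ?_⟩
  · rw [h]
    exact f.2.1
  · rw [h]
    exact f.2.2

/-- A function with values in a fixed matrix, as an element of the dimension drop algebra. -/
def bump (h : C(I, ℝ)) (X : MH p q)
    (h0 : h 0 ≠ 0 → ∃ a : Matrix (Fin p) (Fin p) ℂ, X = a ⊗ₖ (1 : Matrix (Fin q) (Fin q) ℂ))
    (h1 : h 1 ≠ 0 → ∃ b : Matrix (Fin q) (Fin q) ℂ, X = (1 : Matrix (Fin p) (Fin p) ℂ) ⊗ₖ b) :
    DP p q :=
  ⟨{ toFun := fun s => ((h s : ℝ) : ℂ) • X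
     continuous_toFun := by
       have : Continuous fun s => ((h s : ℝ) : ℂ) := Complex.continuous_ofReal.comp h.continuous
       exact this.smul continuous_const }, by
    refine ⟨?_, ?_⟩
    · by_cases h2 : h 0 = 0
      · refine ⟨0, ?_⟩
        simp [h2]
      · obtain ⟨a, rfl⟩ := h0 h2
        refine ⟨((h 0 : ℝ) : ℂ) • a, ?_⟩
        simp [Matrix.smul_kronecker]
    · by_cases h2 : h 1 = 0
      · refine ⟨0, ?_⟩
        simp [h2]
      · obtain ⟨a, rfl⟩ := h1 h2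
        refine ⟨((h 1 : ℝ) : ℂ) • a, ?_⟩
        simp [Matrix.kronecker_smul]⟩

@[simp] lemma bump_apply (h : C(I, ℝ)) (X : MH p q) (h0 h1) (s : I) :
    (bump h X h0 h1).1 s = ((h s : ℝ) : ℂ) • X := rfl

lemma norm_apply_le (f : DP p q) (s : I) : ‖f.1 s‖ ≤ ‖f‖ := f.1.norm_coe_le_norm s

lemma norm_dp_le {f : DP p q} {C : ℝ} (hC : 0 ≤ C) (h : ∀ s, ‖f.1 s‖ ≤ C) : ‖f‖ ≤ C :=
  (ContinuousMap.norm_le f.1 hC).2 h

lemma sub_apply' (f g : DP p q) (s : I) : (f - g).1 s = f.1 s - g.1 s := rfl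
lemma add_apply' (f g : DP p q) (s : I) : (f + g).1 s = f.1 s + g.1 s := rfl
lemma mul_apply' (f g : DP p q) (s : I) : (f * g).1 s = f.1 s * g.1 s := rfl
lemma star_apply' (f : DP p q) (s : I) : (star f).1 s = star (f.1 s) := rfl
lemma one_apply' (s : I) : (1 : DP p q).1 s = 1 := rfl
lemma zero_apply' (s : I) : (0 : DP p q).1 s = 0 := rfl
lemma smul_apply' (r : ℂ) (f : DP p q) (s : I) : (r • f).1 s = r • f.1 s := rfl

lemma sum_apply' {ι : Type*} (T : Finset ι) (g : ι → DP p q) (s : I) :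
    (∑ i ∈ T, g i).1 s = ∑ i ∈ T, (g i).1 s := by
  classical
  induction T using Finset.induction_on with
  | empty => rfl
  | insert a T ha ih =>
    rw [Finset.sum_insert ha, Finset.sum_insert ha, add_apply', ih]

section PartEst

variable {ι : Type*} [Fintype ι] {E : Type*} [NormedAddCommGroup E] [NormedSpace ℂ E]

/-- The basic estimate for partitions of unity. -/
lemma part_est (w : ι → ℝ) (hw : ∀ i, 0 ≤ w i) (hs : ∑ i, w i = 1) (x : E) (g : ι → E) {ε : ℝ}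
    (h : ∀ i, w i ≠ 0 → ‖x - g i‖ ≤ ε) (hε : 0 ≤ ε) :
    ‖x - ∑ i, ((w i : ℝ) : ℂ) • g i‖ ≤ ε := by
  have e : x - ∑ i, ((w i : ℝ) : ℂ) • g i = ∑ i, ((w i : ℝ) : ℂ) • (x - g i) := by
    simp only [smul_sub, Finset.sum_sub_distrib]
    congr 1
    rw [← Finset.sum_smul]
    have : ∑ i, ((w i : ℝ) : ℂ) = 1 := by
      rw [← Complex.ofReal_sum, hs]
      simp
    rw [this, one_smul]
  rw [e]
  calc ‖∑ i, ((w i : ℝ) : ℂ) • (x - g i)‖ ≤ ∑ i, ‖((w i : ℝ) : ℂ) • (x - g i)‖ :=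
        norm_sum_le _ _
    _ ≤ ∑ i, w i * ε := by
        refine Finset.sum_le_sum fun i _ => ?_
        rw [norm_smul, Complex.norm_real, Real.norm_eq_abs, abs_of_nonneg (hw i)]
        by_cases h0 : w i = 0
        · simp [h0]
        · exact mul_le_mul_of_nonneg_left (h i h0) (hw i)
    _ = ε := by rw [← Finset.sum_mul, hs, one_mul]

end PartEst

/-- Approximation by finite sums of bumps. -/
theorem dp_approx (f : DP p q) {ε : ℝ} (hε : 0 < ε) :
    ∃ (K : ℕ) (L : ℝ) (h h' : Fin (K + 1) → C(I, ℝ)) (c : Fin (K + 1) → I),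
      (∀ i s, 0 ≤ h i s) ∧ (∀ s, ∑ i, h i s = 1) ∧ (∀ i s, 0 ≤ h' i s ∧ h' i s ≤ 1) ∧
      (∀ i s, h i s ≠ 0 → h' i s = 1) ∧
      (∀ i, h' i 0 ≠ 0 → c i = 0) ∧ (∀ i, h' i 1 ≠ 0 → c i = 1) ∧
      (∀ i s s', |h i s - h i s'| ≤ L * |(s : ℝ) - s'|) ∧
      ∀ s, ‖f.1 s - ∑ i, ((h i s : ℝ) : ℂ) • f.1 (c i)‖ ≤ ε := by
  obtain ⟨η, hη, h1⟩ := exists_delta f.1 hε
  obtain ⟨K, L, h, h', c, h2, h3, h4, h5, h6, h7, h8, h9⟩ := exists_partition hη
  refine ⟨K, L, h, h', c, h2, h3, h4, h5, h7, h8, h9, fun s => ?_⟩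
  refine part_est (fun i => h i s) (fun i => h2 i s) (h3 s) _ _ (fun i hi => ?_) hε.le
  refine (h1 _ _ ?_).le
  exact h6 i s (by rw [h5 i s hi]; exact one_ne_zero)

end

end Vale.Agent.Lib.P101.J
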