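import Mathlib

/-! The universal property of the maximal tensor product, for a presentation of `A` itself. -/

universe u

namespace Vale.Agent.Lib.P101

/-- `(σ, φ)` presents `A` as the maximal tensor product of `A` and `Z`: `σ : A → A` and `φ : Z → A`
are commuting unital star-homomorphisms, and every commuting pair of unital star-homomorphisms from
`A` and `Z` to a unital C*-algebra `Y` factors uniquely through `(σ, φ)`. -/
def IsMaxTensor {A Z : Type u} [CStarAlgebra A] [CStarAlgebra Z] (σ : A →⋆ₐ[ℂ] A)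
    (φ : Z →⋆ₐ[ℂ] A) : Prop :=
  (∀ a z, σ a * φ z = φ z * σ a) ∧
    ∀ (Y : Type u) [CStarAlgebra Y] (α' : A →⋆ₐ[ℂ] Y) (β : Z →⋆ₐ[ℂ] Y),
      (∀ a z, α' a * β z = β z * α' a) →
      ∃! γ : A →⋆ₐ[ℂ] Y, γ.comp σ = α' ∧ γ.comp φ = β

end Vale.Agent.Lib.P101
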