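import Vale.Agent.Lib.P101.GDim

/-! Unital homomorphisms from prime dimension drop algebras into the twisted ones. -/

namespace Vale.Agent.Lib.P101

set_option linter.unusedSectionVars false
set_option linter.unusedSimpArgs false

open scoped Kronecker

noncomputable section

section Rep

variable {D : Type*} [Ring D] [StarRing D] [Algebra ℂ D]
variable {T₁ T₂ T₃ : Type} [Fintype T₁] [DecidableEq T₁]
  [Fintype T₂] [DecidableEq T₂] [Fintype T₃] [DecidableEq T₃]

lemma dsum_right_comm (A : D →⋆ₐ[ℂ] Matrix T₁ T₁ ℂ) (B : D →⋆ₐ[ℂ] Matrix T₂ T₂ ℂ)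
    (C : D →⋆ₐ[ℂ] Matrix T₃ T₃ ℂ) : CE (dsum (dsum A C) B) (dsum (dsum A B) C) :=
  (dsum_assoc A C B).trans ((ce_dsum (CE.refl A) (dsum_comm C B)).trans (dsum_assoc A B C).symm)

end Rep

variable {p q : ℕ}

/-- Evaluation at a point. -/
def evh (t : II) : DP p q →⋆ₐ[ℂ] Matrix (Fin p × Fin q) (Fin p × Fin q) ℂ where
  toFun f := (f : C(II, Matrix (Fin p × Fin q) (Fin p × Fin q) ℂ)) t
  map_one' := rfl
  map_mul' _ _ := rfl
  map_zero' := rfl
  map_add' _ _ := rfl
  commutes' _ := rfl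
  map_star' _ := rfl

lemma evh_cont (f : DP p q) : Continuous fun t => evh t f :=
  (f : C(II, Matrix (Fin p × Fin q) (Fin p × Fin q) ℂ)).continuous

/-- Abstract form of the map into the twisted dimension drop algebras. -/
theorem exists_rep_to_ebd {D : Type*} [Ring D] [StarRing D] [Algebra ℂ D]
    (evh : II → D →⋆ₐ[ℂ] Matrix (Fin p × Fin q) (Fin p × Fin q) ℂ)
    (evh_cont : ∀ f, Continuous fun t => evh t f)
    (h0' : ∀ f, ∃ a, krL (J := Fin p) (L := Fin q) a = evh 0 f)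
    (h1' : ∀ f, ∃ b, krR (J := Fin p) (L := Fin q) b = evh 1 f)
    (hpq : Nat.Coprime p q) (hp : 2 ≤ p) (hq : 2 ≤ q)
    {J : Type} [Fintype J] [DecidableEq J] (hn : 2 * (p * q) ≤ Fintype.card J) :
    Nonempty (D →⋆ₐ[ℂ] Ebd (krL (J := J) (L := Option J)) (Nhg (J := J))) := by
  classical
  haveI : Nonempty (Fin p) := ⟨⟨0, by omega⟩⟩
  haveI : Nonempty (Fin q) := ⟨⟨0, by omega⟩⟩
  obtain ⟨πP, hπP⟩ := exists_lift (evh 0) (krL (J := Fin p) (L := Fin q)) krL_injective h0'
  obtain ⟨πQ, hπQ⟩ := exists_lift (evh 1) (krR (J := Fin p) (L := Fin q)) krR_injective h1'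
  set n := Fintype.card J with hnn
  obtain ⟨a, b, a', b', c, h1, h2, h3, h4⟩ := arith_dim hpq hp hq hn
  let O := Option J
  have hO : Fintype.card O = n + 1 := by simp [O, hnn]
  let d_J : J ≃ (Fin a × Fin p) ⊕ (Fin b × Fin q) := Fintype.equivOfCardEq (by simp [← hnn, h1])
  let d_O : O ≃ (Fin a' × Fin p) ⊕ (Fin b' × Fin q) := Fintype.equivOfCardEq (by simp [hO, h2])
  let J₀ := Fin (n * a')
  let J₁ := Fin ((n + 1) * b)
  let Jc := Fin c
  let e₁ : O × Fin a ≃ J₀ ⊕ (Jc × Fin q) :=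
    Fintype.equivOfCardEq (by simp [J₀, Jc, hO, h3])
  let e₂ : O × Fin b ≃ J₁ := Fintype.equivOfCardEq (by simp [J₁, hO])
  let e₃ : J × Fin a' ≃ J₀ := Fintype.equivOfCardEq (by simp [J₀, ← hnn])
  let e₄ : J × Fin b' ≃ J₁ ⊕ (Jc × Fin p) :=
    Fintype.equivOfCardEq (by simp [J₁, Jc, ← hnn, h4])
  let ρJ : D →⋆ₐ[ℂ] Matrix J J ℂ := (rx d_J).comp (dsum (amp (Fin a) πP) (amp (Fin b) πQ))
  let ρO : D →⋆ₐ[ℂ] Matrix O O ℂ := (rx d_O).comp (dsum (amp (Fin a') πP) (amp (Fin b') πQ))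
  let R : II → (D →⋆ₐ[ℂ] Matrix _ _ ℂ) := fun t =>
    dsum (dsum (amp J₀ πP) (amp J₁ πQ)) (amp Jc (evh t))
  have hR0 : CE (amp Jc (evh 0)) (amp (Jc × Fin q) πP) := by
    have h5 : CE (evh 0) ((krL (J := Fin p) (L := Fin q)).comp πP) :=
      ⟨Equiv.refl _, fun f u v => by
        show (evh 0 f) u v = krL (πP f) u v
        rw [hπP f]⟩
    exact (ce_amp Jc (h5.trans (krL_comp πP))).trans (amp_amp πP)
  have hR1 : CE (amp Jc (evh 1)) (amp (Jc × Fin p) πQ) := by
    have h5 : CE (evh 1) (amp (Fin p) πQ) :=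
      ⟨Equiv.refl _, fun f u v => by
        show (evh 1 f) u v = krR (πQ f) u v
        rw [hπQ f]⟩
    exact (ce_amp Jc h5).trans (amp_amp πQ)
  have h0 : CE ((krL (J := J) (L := O)).comp ρJ) (R 0) := by
    refine (krL_comp ρJ).trans ?_
    refine (ce_amp O (rx_comp d_J _)).trans ?_
    refine (amp_dsum _ _).trans ?_
    refine (ce_dsum (amp_amp _) (amp_amp _)).trans ?_
    refine (ce_dsum (ce_amp_congr e₁ πP) (ce_amp_congr e₂ πQ)).trans ?_
    refine (ce_dsum (sum_amp πP) (CE.refl _)).trans ?_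
    refine (dsum_right_comm _ _ _).trans ?_
    exact ce_dsum (CE.refl _) hR0.symm
  have h1' : CE ((Nhg (J := J)).comp ρO) (R 1) := by
    have h5 : CE ((Nhg (J := J)).comp ρO) (amp J ρO) := rx_comp piJ (amp J ρO)
    refine h5.trans ?_
    refine (ce_amp J (rx_comp d_O _)).trans ?_
    refine (amp_dsum _ _).trans ?_
    refine (ce_dsum (amp_amp _) (amp_amp _)).trans ?_
    refine (ce_dsum (ce_amp_congr e₃ πP) (ce_amp_congr e₄ πQ)).trans ?_
    refine (ce_dsum (CE.refl _) (sum_amp πQ)).trans ?_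
    refine (dsum_assoc _ _ _).symm.trans ?_
    exact ce_dsum (CE.refl _) hR1.symm
  obtain ⟨d₀, hd₀⟩ := h0
  obtain ⟨d₁, hd₁⟩ := h1'
  obtain ⟨U, hU1, hU2, hU3, hU4⟩ := exists_path ((d₀.trans d₁.symm).symm)
  have hUt1 : ∀ t, star (U t) * U t = 1 := fun t => by
    have := congrArg (fun V : C(II, Matrix (J × O) (J × O) ℂ) => V t) hU1
    exact this
  have hUt2 : ∀ t, U t * star (U t) = 1 := fun t => by
    have := congrArg (fun V : C(II, Matrix (J × O) (J × O) ℂ) => V t) hU2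
    exact this
  let Rc : II → (D →⋆ₐ[ℂ] Matrix (J × O) (J × O) ℂ) := fun t => (rx d₀).comp (R t)
  have hRc : ∀ f, Continuous fun t => Rc t f := by
    intro f
    have h6 : Continuous fun t => R t f :=
      dsum_cont f (continuous_const) (amp_cont f (evh_cont f))
    exact h6.matrix_submatrix d₀ d₀
  have hfun : ∀ f : D, Continuous fun t => U t * Rc t f * star (U t) := by
    intro f
    exact (U.continuous.mul (hRc f)).mul (star U).continuous
  have hmem : ∀ f : D, (⟨fun t => U t * Rc t f * star (U t), hfun f⟩ :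
      C(II, Matrix (J × O) (J × O) ℂ)) ∈ Ebd (krL (J := J) (L := O)) (Nhg (J := J)) := by
    intro f
    refine ⟨⟨ρJ f, ?_⟩, ⟨ρO f, ?_⟩⟩
    · show krL (ρJ f) = U 0 * Rc 0 f * star (U 0)
      rw [hU3, star_one, one_mul, mul_one]
      ext u v
      exact hd₀ f u v
    · show Nhg (ρO f) = U 1 * Rc 1 f * star (U 1)
      rw [hU4]
      ext u v
      show Nhg (ρO f) u v = Rc 1 f (((d₀.trans d₁.symm).symm) u) (((d₀.trans d₁.symm).symm) v)
      show Nhg (ρO f) u v
        = R 1 f (d₀ (((d₀.trans d₁.symm).symm) u)) (d₀ (((d₀.trans d₁.symm).symm) v))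
      have e1 : ∀ w, d₀ (((d₀.trans d₁.symm).symm) w) = d₁ w := by
        intro w
        simp
      rw [e1, e1]
      exact hd₁ f u v
  refine ⟨{ toFun := fun f => ⟨⟨fun t => U t * Rc t f * star (U t), hfun f⟩, hmem f⟩
            map_one' := ?_
            map_mul' := ?_
            map_zero' := ?_
            map_add' := ?_
            commutes' := ?_
            map_star' := ?_ }⟩
  · apply Subtype.ext
    ext1 t
    show U t * Rc t 1 * star (U t) = 1
    rw [map_one, mul_one, hUt2]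
  · intro f g
    apply Subtype.ext
    ext1 t
    show U t * Rc t (f * g) * star (U t) = (U t * Rc t f * star (U t)) * (U t * Rc t g * star (U t))
    rw [map_mul]
    calc U t * (Rc t f * Rc t g) * star (U t)
        = U t * Rc t f * 1 * Rc t g * star (U t) := by noncomm_ring
      _ = U t * Rc t f * (star (U t) * U t) * Rc t g * star (U t) := by rw [hUt1]
      _ = _ := by noncomm_ring
  · apply Subtype.ext
    ext1 t
    show U t * Rc t 0 * star (U t) = 0
    rw [map_zero, mul_zero, zero_mul]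
  · intro f g
    apply Subtype.ext
    ext1 t
    show U t * Rc t (f + g) * star (U t) = U t * Rc t f * star (U t) + U t * Rc t g * star (U t)
    rw [map_add]
    noncomm_ring
  · intro r
    apply Subtype.ext
    ext1 t
    show U t * Rc t (algebraMap ℂ _ r) * star (U t) = algebraMap ℂ (Matrix (J × O) (J × O) ℂ) r
    rw [AlgHomClass.commutes, Algebra.algebraMap_eq_smul_one, mul_smul_comm, smul_mul_assoc, mul_one,
      hUt2]
  · intro f
    apply Subtype.ext
    ext1 t
    show U t * Rc t (star f) * star (U t) = star (U t * Rc t f * star (U t))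
    rw [map_star, star_mul, star_mul, star_star]
    noncomm_ring

/-- Unital homomorphisms from prime dimension drop algebras into the twisted ones. -/
theorem exists_dp_to_ebd (hpq : Nat.Coprime p q) (hp : 2 ≤ p) (hq : 2 ≤ q)
    {J : Type} [Fintype J] [DecidableEq J] (hn : 2 * (p * q) ≤ Fintype.card J) :
    Nonempty (DP p q →⋆ₐ[ℂ] Ebd (krL (J := J) (L := Option J)) (Nhg (J := J))) := by
  exact exists_rep_to_ebd (D := DP p q) evh evh_cont
    (fun f => by
      obtain ⟨a, ha⟩ := f.2.1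
      exact ⟨a, ha.symm⟩)
    (fun f => by
      obtain ⟨a, ha⟩ := f.2.2
      exact ⟨a, ha.symm⟩) hpq hp hq hn

/-- From the tuple invariant to a unital homomorphism from any prime dimension drop algebra. -/
theorem exists_hom_dp {F : Type*} [CStarAlgebra F] (hpq : Nat.Coprime p q) (hp : 2 ≤ p) (hq : 2 ≤ q)
    (ht : ∀ k : ℕ, ∃ (x : Fin (k + 1) → F) (s s₁ : F) (v : Fin 1 → F), TInv x s s₁ v) :
    Nonempty (DP p q →⋆ₐ[ℂ] F) := by
  obtain ⟨x, s, s₁, v, h⟩ := ht (2 * (p * q))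
  obtain ⟨J, _, _, hJ, e, c, hcard, R⟩ := grel_of_tinv h
  obtain ⟨Θ⟩ := exists_hom_of_grel R
  have hn : 2 * (p * q) ≤ Fintype.card J := by
    rw [hcard, Fintype.card_fin]
    have := Nat.lt_two_pow_self (n := 2 * (p * q) + 1)
    omega
  obtain ⟨Φ⟩ := exists_dp_to_ebd hpq hp hq hn
  exact ⟨Θ.comp Φ⟩

end

end Vale.Agent.Lib.P101
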