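import Vale.Agent.Lib.P101.TStart

/-! The copying property for the tuple invariant, and the chain of reductions. -/

namespace Vale.Agent.Lib.P101

open Filter Topology BoundedContinuousFunction

section Resid

variable {κ : Type*} [DecidableEq κ] {R S : Type*} [Ring R] [Star R] [Ring S] [Star S]

/-- The residuals of the relations. -/
def residT {M : ℕ} (x : κ → R) (s s₁ : R) (v : Fin (M + 1) → R) :
    κ × κ × Fin (M + 1) × Fin 12 → R
  | (c, c', l, j) => ![x c * x c, if c ≠ c' then x c * x c' - x c' * x c else 0,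
      if c ≠ c' then x c * star (x c') - star (x c') * x c else 0, star s - s,
      star s₁ * s₁ + s * s - 1, s * x c - x c * s, s * star (x c) - star (x c) * s,
      (1 - s * s) * (1 - (x c * star (x c) + star (x c) * x c)),
      ∑ l, star (v l) * v l - s * s, x c * star (x c) * v l - v l, x c * v l, s * v l] j

lemma tInv_iff_resid (c₀ : κ) {M : ℕ} {x : κ → R} {s s₁ : R} {v : Fin (M + 1) → R} :
    TInv x s s₁ v ↔ ∀ i, residT x s s₁ v i = 0 := by
  constructor
  · rintro h ⟨c, c', l, j⟩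
    fin_cases j
    · exact h.x_sq c
    · show (if c ≠ c' then x c * x c' - x c' * x c else 0) = 0
      split_ifs with hne
      · exact sub_eq_zero.2 (h.x_comm c c' hne)
      · rfl
    · show (if c ≠ c' then x c * star (x c') - star (x c') * x c else 0) = 0
      split_ifs with hne
      · exact sub_eq_zero.2 (h.x_scomm c c' hne)
      · rfl
    · exact sub_eq_zero.2 h.s_star
    · exact sub_eq_zero.2 h.s_norm
    · exact sub_eq_zero.2 (h.s_x c)
    · exact sub_eq_zero.2 (h.s_sx c)
    · exact h.s_T c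
    · exact sub_eq_zero.2 h.v_sum
    · exact sub_eq_zero.2 (h.v_range c l)
    · exact h.x_v c l
    · exact h.s_v l
  · intro h
    have hj : ∀ (c c' : κ) (l : Fin (M + 1)) (j : Fin 12), residT x s s₁ v (c, c', l, j) = 0 :=
      fun c c' l j => h _
    refine ⟨fun c => hj c c 0 0, fun c c' hne => ?_, fun c c' hne => ?_,
      sub_eq_zero.1 (hj c₀ c₀ 0 3), sub_eq_zero.1 (hj c₀ c₀ 0 4), fun c => sub_eq_zero.1 (hj c c 0 5),
      fun c => sub_eq_zero.1 (hj c c 0 6), fun c => hj c c 0 7, sub_eq_zero.1 (hj c₀ c₀ 0 8),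
      fun c l => sub_eq_zero.1 (hj c c l 9), fun c l => hj c c l 10, fun l => hj c₀ c₀ l 11⟩
    · have := hj c c' 0 1
      have e : residT x s s₁ v (c, c', 0, 1) = if c ≠ c' then x c * x c' - x c' * x c else 0 := rfl
      rw [e, if_pos hne] at this
      exact sub_eq_zero.1 this
    · have := hj c c' 0 2
      have e : residT x s s₁ v (c, c', 0, 2)
          = if c ≠ c' then x c * star (x c') - star (x c') * x c else 0 := rfl
      rw [e, if_pos hne] at this
      exact sub_eq_zero.1 this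

lemma map_residT (φ : R →+* S) (hφ : ∀ a, φ (star a) = star (φ a)) {M : ℕ} (x : κ → R) (s s₁ : R)
    (v : Fin (M + 1) → R) (i : κ × κ × Fin (M + 1) × Fin 12) :
    φ (residT x s s₁ v i) = residT (fun c => φ (x c)) (φ s) (φ s₁) (fun l => φ (v l)) i := by
  obtain ⟨c, c', l, j⟩ := i
  fin_cases j
  · simp [residT]
  · show φ (if c ≠ c' then x c * x c' - x c' * x c else 0)
      = if c ≠ c' then φ (x c) * φ (x c') - φ (x c') * φ (x c) else 0
    split_ifs <;> simp
  · show φ (if c ≠ c' then x c * star (x c') - star (x c') * x c else 0)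
      = if c ≠ c' then φ (x c) * star (φ (x c')) - star (φ (x c')) * φ (x c) else 0
    split_ifs <;> simp [hφ]
  all_goals simp [residT, hφ, map_sum, map_mul, map_sub, map_add, map_one]

end Resid

/-- The copying property for the tuple invariant. -/
def CopyT (κ : Type*) (F : Type*) [Ring F] [Star F] : Prop :=
  ∀ (M : ℕ) (x : κ → F) (s s₁ : F) (v : Fin (M + 1) → F), TInv x s s₁ v → ∀ W : Set F, W.Finite →
    ∃ (x' : κ → F) (s' s₁' : F) (v' : Fin (M + 1) → F), TInv x' s' s₁' v' ∧
      (∀ c, x' c ∈ Set.centralizer W) ∧ (∀ c, star (x' c) ∈ Set.centralizer W) ∧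
      s' ∈ Set.centralizer W ∧ (∀ l, v' l ∈ Set.centralizer W) ∧
      (∀ l, star (v' l) ∈ Set.centralizer W)

section Chain

variable {F : Type*} [CStarAlgebra F]

lemma tGens_finite {κ : Type*} [Finite κ] {M : ℕ} (x : κ → F) (s : F) (v : Fin (M + 1) → F) :
    (tGens x s v).Finite := by
  unfold tGens
  exact (((((Set.finite_range _).union (Set.finite_range _)).union (Set.finite_singleton _))).union
    (Set.finite_range _)).union (Set.finite_range _)

theorem tinv_chain {κ : Type*} [Fintype κ] [DecidableEq κ] (c₀ : κ) (hcopy : CopyT κ F) :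
    ∀ (M : ℕ) {x : κ → F} {s s₁ : F} {v : Fin (M + 1) → F},
    TInv x s s₁ v → ∃ (x' : κ → F) (s' s₁' : F) (v' : Fin 1 → F), TInv x' s' s₁' v' := by
  intro M
  induction M with
  | zero => exact fun h => ⟨_, _, _, _, h⟩
  | succ M ih =>
    intro x s s₁ v h
    obtain ⟨x', s', s₁', v', hI', h1, h2, h3, h5, h6⟩ :=
      hcopy _ x s s₁ v h (tGens x s v) (tGens_finite x s v)
    obtain ⟨y, t, t₁, w, hw⟩ := tinv_step c₀ h hI' (by
      intro u hu u' hu'
      have : u' ∈ Set.centralizer (tGens x s v) := by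
        simp only [tGens, Set.mem_union, Set.mem_singleton_iff, Set.mem_range] at hu'
        rcases hu' with (((⟨c, rfl⟩ | ⟨c, rfl⟩) | rfl) | ⟨l, rfl⟩) | ⟨l, rfl⟩
        · exact h1 c
        · exact h2 c
        · exact h3
        · exact h5 l
        · exact h6 l
      exact Set.mem_centralizer_iff.1 this u hu)
    exact ih hw

end Chain

section Ultra

variable {A : Type*} [CStarAlgebra A] {ω : Ultrafilter ℕ}

/-- The copying property for the tuple invariant in `F_ω(A)`. -/
theorem copyT_FOmegaSub [TopologicalSpace.SeparableSpace A] (hω : (ω : Filter ℕ) ≤ cofinite)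
    {κ : Type*} [Fintype κ] [DecidableEq κ] (c₀ : κ) : CopyT κ (FOmegaSub A ω) := by
  classical
  intro M x s s₁ v hI W hW
  have hl : ∀ y : FOmegaSub A ω, ∃ u : ℕ →ᵇ A, qk A ω u = coeF y := fun y => qk_surjective A ω _
  choose L hL using hl
  have hLc : ∀ (y : FOmegaSub A ω) (a : A),
      Tendsto (fun n => ‖L y n * a - a * L y n‖) (ω : Filter ℕ) (𝓝 0) := fun y a =>
    central_of_mem (by rw [hL]; exact y.2) a
  have hres0 : ∀ i, qk A ω (residT (fun c => L (x c)) (L s) (L s₁) (fun l => L (v l)) i) = 0 := by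
    intro i
    rw [map_residT (qk A ω) (fun a => (star_qk a).symm)]
    simp only [hL]
    rw [← map_residT coeF coeF_star, (tInv_iff_resid c₀).1 hI i, map_zero]
  let T : Finset (ℕ →ᵇ A) :=
    Finset.univ.image (residT (fun c => L (x c)) (L s) (L s₁) (fun l => L (v l)))
  have hT : ∀ t ∈ T, Tendsto (fun n => ‖t n‖) (ω : Filter ℕ) (𝓝 0) := by
    intro t ht
    simp only [T, Finset.mem_image, Finset.mem_univ, true_and] at ht
    obtain ⟨i, rfl⟩ := ht
    exact qk_eq_zero.1 (hres0 i)
  let X0 : Finset (ℕ →ᵇ A) := {L s, L s₁} ∪ Finset.univ.image (fun c => L (x c)) ∪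
    Finset.univ.image (fun l => L (v l))
  have hX0 : ∀ u ∈ X0, ∀ a : A, Tendsto (fun n => ‖u n * a - a * u n‖) (ω : Filter ℕ) (𝓝 0) := by
    intro u hu a
    simp only [X0, Finset.mem_union, Finset.mem_insert, Finset.mem_singleton, Finset.mem_image,
      Finset.mem_univ, true_and] at hu
    rcases hu with ((rfl | rfl) | ⟨l, rfl⟩) | ⟨l, rfl⟩ <;> exact hLc _ a
  let X : Finset (ℕ →ᵇ A) := X0 ∪ X0.image star
  have hX : ∀ u ∈ X, ∀ a : A, Tendsto (fun n => ‖u n * a - a * u n‖) (ω : Filter ℕ) (𝓝 0) := by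
    intro u hu a
    simp only [X, Finset.mem_union, Finset.mem_image] at hu
    rcases hu with hu | ⟨y, hy, rfl⟩
    · exact hX0 u hu a
    · exact central_star (hX0 y hy) a
  let Y : Finset (ℕ →ᵇ A) := hW.toFinset.image L
  obtain ⟨m, hm1, hm2, hm3⟩ := exists_reindex hω T X Y hT hX
  have hmem : ∀ u ∈ X, reiq (ω := ω) m u ∈ FOmegaSub A ω := fun u hu => mem_of_central (hm2 u hu)
  have hX0X : ∀ u ∈ X0, u ∈ X := fun u hu => Finset.mem_union_left _ hu
  have hsX : ∀ u ∈ X0, star u ∈ X := fun u hu =>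
    Finset.mem_union_right _ (Finset.mem_image_of_mem _ hu)
  have hxX : ∀ c, L (x c) ∈ X0 := fun c => by
    simp only [X0, Finset.mem_union, Finset.mem_image, Finset.mem_univ, true_and]
    exact Or.inl (Or.inr ⟨c, rfl⟩)
  have hsX0 : L s ∈ X0 := by simp [X0]
  have hs₁X : L s₁ ∈ X0 := by simp [X0]
  have hvX : ∀ l, L (v l) ∈ X0 := fun l => by
    simp only [X0, Finset.mem_union, Finset.mem_image, Finset.mem_univ, true_and]
    exact Or.inr ⟨l, rfl⟩
  let mk : (u : ℕ →ᵇ A) → u ∈ X0 → FOmegaSub A ω := fun u hu => ⟨reiq m u, hmem u (hX0X u hu)⟩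
  have hcomm : ∀ u ∈ X, ∀ w ∈ W, ∀ r : FOmegaSub A ω, coeF r = reiq m u → w * r = r * w := by
    intro u hu w hw r hr
    apply coeF_inj
    rw [map_mul, map_mul, hr, ← hL w]
    show qk A ω (L w) * qk A ω (rei m u) = qk A ω (rei m u) * qk A ω (L w)
    rw [← map_mul, ← map_mul, qk_eq_iff]
    have hw' : L w ∈ Y := Finset.mem_image_of_mem _ (hW.mem_toFinset.2 hw)
    have := hm3 u hu (L w) hw'
    refine this.congr fun k => ?_
    rw [norm_sub_rev]
    rfl
  have hcent : ∀ u (hu : u ∈ X0), mk u hu ∈ Set.centralizer W := by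
    intro u hu
    rw [Set.mem_centralizer_iff]
    intro w hw
    exact hcomm u (hX0X u hu) w hw _ rfl
  have hcents : ∀ u (hu : u ∈ X0), star (mk u hu) ∈ Set.centralizer W := by
    intro u hu
    rw [Set.mem_centralizer_iff]
    intro w hw
    refine hcomm (star u) (hsX u hu) w hw _ ?_
    rw [reiq_star]
    rfl
  refine ⟨fun c => mk _ (hxX c), mk _ hsX0, mk _ hs₁X, fun l => mk _ (hvX l), ?_,
    fun c => hcent _ (hxX c), fun c => hcents _ (hxX c),
    hcent _ hsX0, fun l => hcent _ (hvX l), fun l => hcents _ (hvX l)⟩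
  rw [tInv_iff_resid c₀]
  intro i
  apply coeF_inj
  rw [map_residT coeF coeF_star, map_zero]
  show residT (fun c => reiq m (L (x c))) (reiq m (L s)) (reiq m (L s₁))
    (fun l => reiq m (L (v l))) i = 0
  rw [← map_residT (reiq m) (reiq_star m)]
  have hti : residT (fun c => L (x c)) (L s) (L s₁) (fun l => L (v l)) i ∈ T :=
    Finset.mem_image_of_mem _ (Finset.mem_univ _)
  exact qk_eq_zero.2 (hm1 _ hti)

end Ultra

section Main

variable {F : Type*} [CStarAlgebra F]

/-- The abstract theorem: the tuple invariant with one cell. -/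
theorem tinv_of_copy (hcopy : CopyProp F) (hinv : CopyInv F) (hchar : IsEmpty (F →⋆ₐ[ℂ] ℂ))
    (k : ℕ) (hT : CopyT (Fin (k + 1)) F) :
    ∃ (x : Fin (k + 1) → F) (s s₁ : F) (v : Fin 1 → F), TInv x s s₁ v := by
  obtain ⟨z, hz, h1⟩ := exists_full_square_zero hcopy hchar
  obtain ⟨M, x, s, s₁, v, hI⟩ := start hz h1
  obtain ⟨x', s', s₁', v', hI'⟩ := inv_chain hinv M hI
  obtain ⟨y, M', t, t₁, w, hw⟩ := tuple_start_fin hinv hI' (k + 1)
  exact tinv_chain 0 hT M' hw

end Main

section MainO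

variable {A : Type*} [CStarAlgebra A] {ω : Ultrafilter ℕ}

/-- No characters on `F_ω(A)` gives the tuple invariant with one cell, for any number of
coordinates. -/
theorem FOmega_tinv [TopologicalSpace.SeparableSpace A]
    (hω : (ω : Filter ℕ) ≤ cofinite) (hchar : IsEmpty (FOmega A ω →⋆ₐ[ℂ] ℂ)) (k : ℕ) :
    ∃ (x : Fin (k + 1) → FOmega A ω) (s s₁ : FOmega A ω) (v : Fin 1 → FOmega A ω),
      TInv x s s₁ v :=
  tinv_of_copy (F := FOmega A ω) (copyProp_FOmegaSub hω) (copyInv_FOmegaSub hω) hchar k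
    (copyT_FOmegaSub hω 0)

end MainO

end Vale.Agent.Lib.P101
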