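import Vale.Agent.Lib.P101.ZUniv
import Vale.Agent.Lib.P101.GDim2
import Vale.Agent.Lib.P101.TCopy

/-! The final assembly: `A ≅ A ⊗ Z` in the sense of the universal property. -/

universe u

namespace Vale.Agent.Lib.P101

open Filter Topology BoundedContinuousFunction

noncomputable section

section Assemble

variable {A Z X : Type u} [CStarAlgebra A] [CStarAlgebra Z] [CStarAlgebra X] {ω : Ultrafilter ℕ}

/-- Abstract assembly of the universal property. -/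
theorem assembleZ [TopologicalSpace.SeparableSpace A] [TopologicalSpace.SeparableSpace Z]
    (hZ : IsJiangSu Z) (ιX : A →⋆ₐ[ℂ] X)
    (hι : Function.Injective ιX) (ψX : Z →⋆ₐ[ℂ] X) (hc : ∀ a z, ιX a * ψX z = ψX z * ιX a)
    (ψ : Z →⋆ₐ[ℂ] OO A ω) (hψ : ∀ a z, ddH a * ψ z = ψ z * ddH a)
    (hdense : Dense (prodSub ιX ψX hc : Set X))
    (Θ : X →⋆ₐ[ℂ] OO A ω) (hΘ1 : ∀ a, Θ (ιX a) = ddH a) (hΘ2 : ∀ z, Θ (ψX z) = ψ z) :
    ∃ (σ : A →⋆ₐ[ℂ] A) (φ : Z →⋆ₐ[ℂ] A), (∀ a z, σ a * φ z = φ z * σ a) ∧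
      ∀ (Y : Type u) [CStarAlgebra Y] (α' : A →⋆ₐ[ℂ] Y) (β : Z →⋆ₐ[ℂ] Y),
        (∀ a z, α' a * β z = β z * α' a) →
        ∃! γ : A →⋆ₐ[ℂ] Y, γ.comp σ = α' ∧ γ.comp φ = β := by
  obtain ⟨α, hα⟩ := exists_iso hZ ιX hι ψX hc ψ hψ hdense
  let e : A ≃⋆ₐ[ℂ] X := StarAlgEquiv.ofBijective α hα
  let eInv : X →⋆ₐ[ℂ] A := (e.symm : X →⋆ₐ[ℂ] A)
  have he1 : ∀ x, α (eInv x) = x := fun x => e.apply_symm_apply x
  have he2 : ∀ a, eInv (α a) = a := fun a => e.symm_apply_apply a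
  refine ⟨eInv.comp ιX, eInv.comp ψX, ?_, ?_⟩
  · intro a z
    show eInv (ιX a) * eInv (ψX z) = eInv (ψX z) * eInv (ιX a)
    rw [← map_mul, ← map_mul, hc]
  · intro Y _ α' β hαβ
    obtain ⟨γ₀, h1, h2⟩ := univ_exists hZ ιX ψX hc ψ hψ hdense Θ hΘ1 hΘ2 α' β hαβ
    refine ⟨γ₀.comp α, ⟨?_, ?_⟩, ?_⟩
    · ext a
      show γ₀ (α (eInv (ιX a))) = α' a
      rw [he1, h1]
    · ext z
      show γ₀ (α (eInv (ψX z))) = β z
      rw [he1, h2]
    · rintro γ₁ ⟨h3, h4⟩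
      have h5 : γ₁.comp eInv = γ₀ := by
        refine univ_unique ιX ψX hc hdense _ _ (fun a => ?_) (fun z => ?_)
        · rw [h1, ← h3]
          rfl
        · rw [h2, ← h4]
          rfl
      ext a
      show γ₁ a = γ₀ (α a)
      rw [← h5]
      show γ₁ a = γ₁ (eInv (α a))
      rw [he2]

end Assemble

section Closure

variable {A Z W : Type u} [CStarAlgebra A] [CStarAlgebra Z] [CStarAlgebra W]

/-- The closed subalgebra generated by two commuting images. -/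
abbrev XS (f : A →⋆ₐ[ℂ] W) (g : Z →⋆ₐ[ℂ] W) (hc : ∀ a z, f a * g z = g z * f a) :
    StarSubalgebra ℂ W := (prodSub f g hc).topologicalClosure

instance XS_closed (f : A →⋆ₐ[ℂ] W) (g : Z →⋆ₐ[ℂ] W) (hc : ∀ a z, f a * g z = g z * f a) :
    IsClosed (XS f g hc : Set W) := (prodSub f g hc).isClosed_topologicalClosure

instance XS_cstar (f : A →⋆ₐ[ℂ] W) (g : Z →⋆ₐ[ℂ] W) (hc : ∀ a z, f a * g z = g z * f a) :
    CStarAlgebra (XS f g hc) := StarSubalgebra.cstarAlgebra (XS f g hc)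

/-- The first corestriction. -/
def fX (f : A →⋆ₐ[ℂ] W) (g : Z →⋆ₐ[ℂ] W) (hc : ∀ a z, f a * g z = g z * f a) :
    A →⋆ₐ[ℂ] XS f g hc :=
  f.codRestrict _ (fun a => (prodSub f g hc).le_topologicalClosure (by
    have := gen_mem_prodSub (f := f) (g := g) (hc := hc) a 1
    rwa [map_one, mul_one] at this))

/-- The second corestriction. -/
def gX (f : A →⋆ₐ[ℂ] W) (g : Z →⋆ₐ[ℂ] W) (hc : ∀ a z, f a * g z = g z * f a) :
    Z →⋆ₐ[ℂ] XS f g hc :=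
  g.codRestrict _ (fun z => (prodSub f g hc).le_topologicalClosure (by
    have := gen_mem_prodSub (f := f) (g := g) (hc := hc) 1 z
    rwa [map_one, one_mul] at this))

lemma hX (f : A →⋆ₐ[ℂ] W) (g : Z →⋆ₐ[ℂ] W) (hc : ∀ a z, f a * g z = g z * f a) :
    ∀ a z, fX f g hc a * gX f g hc z = gX f g hc z * fX f g hc a :=
  fun a z => Subtype.ext (hc a z)

lemma dense_X (f : A →⋆ₐ[ℂ] W) (g : Z →⋆ₐ[ℂ] W) (hc : ∀ a z, f a * g z = g z * f a) :
    Dense (prodSub (fX f g hc) (gX f g hc) (hX f g hc) : Set (XS f g hc)) := by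
  have h1 : ∀ s ∈ prodSub f g hc, ∀ h : s ∈ XS f g hc,
      (⟨s, h⟩ : XS f g hc) ∈ prodSub (fX f g hc) (gX f g hc) (hX f g hc) := by
    intro s hs
    refine Submodule.span_induction (p := fun s _ => ∀ h : s ∈ XS f g hc,
      (⟨s, h⟩ : XS f g hc) ∈ prodSub (fX f g hc) (gX f g hc) (hX f g hc)) ?_ ?_ ?_ ?_ hs
    · rintro _ ⟨a, z, rfl⟩ h
      exact gen_mem_prodSub (f := fX f g hc) (g := gX f g hc) a z
    · intro h
      exact zero_mem (prodSub (fX f g hc) (gX f g hc) (hX f g hc))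
    · intro x y hx hy ihx ihy h
      exact add_mem (ihx ((prodSub f g hc).le_topologicalClosure hx))
        (ihy ((prodSub f g hc).le_topologicalClosure hy))
    · intro r x hx ih h
      exact SMulMemClass.smul_mem r (ih ((prodSub f g hc).le_topologicalClosure hx))
  rw [Metric.dense_iff]
  rintro ⟨x, hx⟩ ε hε
  have hx' : x ∈ closure (prodSub f g hc : Set W) := hx
  rw [Metric.mem_closure_iff] at hx'
  obtain ⟨s, hs, hd⟩ := hx' ε hε
  have hsX : s ∈ XS f g hc := (prodSub f g hc).le_topologicalClosure hs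
  refine ⟨⟨s, hsX⟩, ?_, h1 s hs hsX⟩
  rw [Metric.mem_ball, dist_comm]
  exact hd

end Closure

section Main

variable {A : Type u} [CStarAlgebra A] {ω : Ultrafilter ℕ}

/-- The inclusion of the central sequence algebra in the ultrapower. -/
def inclF : FOmega A ω →⋆ₐ[ℂ] AOmega A ω := (FOmegaSub A ω).subtype

lemma inclF_comm (x : FOmega A ω) (a : A) :
    diagH (ω := ω) a * inclF x = inclF x * diagH a := by
  have h1 : x.1 ∈ StarSubalgebra.centralizer ℂ (Set.range (diag A ω)) := x.2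
  rw [StarSubalgebra.mem_centralizer_iff] at h1
  exact (h1 (diag A ω a) ⟨a, rfl⟩).1

/-- From a map into the central sequence algebra to a commuting map into the iterated ultrapower. -/
lemma comm_of_F {Z : Type u} [CStarAlgebra Z] (ψF : Z →⋆ₐ[ℂ] AOmega (FOmega A ω) ω) (a : A) (z : Z) :
    ddH (ω := ω) a * ((mapO inclF).comp ψF) z = ((mapO inclF).comp ψF) z * ddH a := by
  obtain ⟨u, hu⟩ := qkH_surjective (ψF z)
  show ddH a * mapO inclF (ψF z) = mapO inclF (ψF z) * ddH a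
  rw [← hu, mapO_qkH]
  show qkH (constH (diagH a)) * _ = _ * qkH (constH (diagH a))
  rw [← map_mul, ← map_mul]
  congr 1
  ext n : 1
  exact inclF_comm (u n) a

/-- The main theorem. -/
theorem main_stable {Z : Type u} [CStarAlgebra Z] [TopologicalSpace.SeparableSpace A]
    (hω : (ω : Filter ℕ) ≤ cofinite) (hZ : IsJiangSu Z)
    (hchar : IsEmpty (FOmega A ω →⋆ₐ[ℂ] ℂ)) :
    ∃ (σ : A →⋆ₐ[ℂ] A) (φ : Z →⋆ₐ[ℂ] A), (∀ a z, σ a * φ z = φ z * σ a) ∧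
      ∀ (Y : Type u) [CStarAlgebra Y] (α' : A →⋆ₐ[ℂ] Y) (β : Z →⋆ₐ[ℂ] Y),
        (∀ a z, α' a * β z = β z * α' a) →
        ∃! γ : A →⋆ₐ[ℂ] Y, γ.comp σ = α' ∧ γ.comp φ = β := by
  have := hZ.separable
  obtain ⟨p, q, ι, hpq, hinj, hmono, hdense⟩ := hZ.limit
  have hρ : ∀ k, Nonempty (DP (p k) (q k) →⋆ₐ[ℂ] FOmega A ω) := fun k =>
    exists_hom_dp (hpq k).1 (hpq k).2.1 (hpq k).2.2 (FOmega_tinv hω hchar)
  let ρ : ∀ k, DP (p k) (q k) →⋆ₐ[ℂ] FOmega A ω := fun k => (hρ k).some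
  have hb : ∀ k t, ‖ρ k t‖ ≤ ‖ι k t‖ := fun k t => dp_norm_le (ι k) (hinj k) (ρ k) t
  have hd : ∀ (z : Z) (ε : ℝ), 0 < ε → ∃ k0, ∀ k, k0 ≤ k → ∃ t : DP (p k) (q k), ‖ι k t - z‖ < ε := by
    intro z ε hε
    obtain ⟨y, hy, hzy⟩ := Metric.dense_iff.1 hdense z ε hε
    obtain ⟨k0, hk0⟩ := Set.mem_iUnion.1 hzy
    refine ⟨k0, fun k hk => ?_⟩
    obtain ⟨t, ht⟩ := hmono k0 k hk hk0
    refine ⟨t, ?_⟩
    rw [ht, ← dist_eq_norm]
    exact Metric.mem_ball.1 hy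
  obtain ⟨ψF⟩ := hom_of_approx (C := fun k => DP (p k) (q k)) hω ι ρ hb hd
  let ψ : Z →⋆ₐ[ℂ] OO A ω := (mapO inclF).comp ψF
  have hψ : ∀ a z, ddH (ω := ω) a * ψ z = ψ z * ddH a := comm_of_F ψF
  refine assembleZ (ω := ω) (X := XS ddH ψ hψ) hZ (fX ddH ψ hψ) (fun a b h => ddH_injective
    (congrArg Subtype.val h)) (gX ddH ψ hψ) (hX ddH ψ hψ) ψ hψ (dense_X ddH ψ hψ)
    (XS ddH ψ hψ).subtype (fun _ => rfl) (fun _ => rfl)

end Main

end

end Vale.Agent.Lib.P101
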