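import Vale.Agent.Lib.P101.Merge

/-! Functional calculus helpers: cut-offs and the normalization of a square-zero element. -/

namespace Vale.Agent.Lib.P101

open scoped ComplexOrder

attribute [local instance] CStarAlgebra.spectralOrder CStarAlgebra.spectralOrderedRing

noncomputable section

/-- `max (1 - s) 0` -/
def Qf (s : ℝ) : ℝ := max (1 - s) 0

/-- the square root of `1 / max s (1/4)` -/
def nuf (s : ℝ) : ℝ := Real.sqrt (1 / max s (1 / 4))

/-- `nuf s * nuf s * s` -/
def tauf (s : ℝ) : ℝ := nuf s * nuf s * s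

/-- the cut-off `min 1 (4 * max (1/2 - s) 0)` -/
def Gf (s : ℝ) : ℝ := min 1 (4 * max (1 / 2 - s) 0)

/-- the square root of `Gf` -/
def Gsf (s : ℝ) : ℝ := Real.sqrt (Gf s)

/-- the square root of `1 - Gf` -/
def Ksf (s : ℝ) : ℝ := Real.sqrt (1 - Gf s)

lemma Qf_cont : Continuous Qf := by unfold Qf; fun_prop

lemma max_quarter_pos (s : ℝ) : 0 < max s (1 / 4) := lt_max_of_lt_right (by norm_num)

lemma nuf_cont : Continuous nuf := by
  unfold nuf
  refine Real.continuous_sqrt.comp ?_
  exact continuous_const.div (continuous_id.max continuous_const)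
    (fun s => (max_quarter_pos s).ne')

lemma tauf_cont : Continuous tauf := by
  unfold tauf
  exact (nuf_cont.mul nuf_cont).mul continuous_id

lemma Gf_cont : Continuous Gf := by unfold Gf; fun_prop

lemma Gsf_cont : Continuous Gsf := Real.continuous_sqrt.comp Gf_cont

lemma Ksf_cont : Continuous Ksf := Real.continuous_sqrt.comp (continuous_const.sub Gf_cont)

lemma Gf_nonneg (s : ℝ) : 0 ≤ Gf s := by
  unfold Gf
  refine le_min zero_le_one ?_
  have := le_max_right (1 / 2 - s) 0
  linarith

lemma Gf_le_one (s : ℝ) : Gf s ≤ 1 := min_le_left _ _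

lemma Gf_of_ge {s : ℝ} (h : 1 / 2 ≤ s) : Gf s = 0 := by
  unfold Gf
  rw [max_eq_right (by linarith)]
  simp

lemma Gf_of_le {s : ℝ} (h : s ≤ 1 / 4) : Gf s = 1 := by
  unfold Gf
  rw [max_eq_left (by linarith)]
  exact min_eq_left (by linarith)

lemma tauf_of_ge {s : ℝ} (h : 1 / 4 ≤ s) : tauf s = 1 := by
  unfold tauf nuf
  have hs : 0 < s := by linarith
  rw [max_eq_left h, Real.mul_self_sqrt (by positivity)]
  field_simp

lemma Gsf_mul (s : ℝ) : Gsf s * Gsf s = Gf s := Real.mul_self_sqrt (Gf_nonneg s)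

lemma Ksf_mul (s : ℝ) : Ksf s * Ksf s = 1 - Gf s :=
  Real.mul_self_sqrt (by linarith [Gf_le_one s])

lemma Gf_tauf (s : ℝ) : (1 - Gf s) * (1 - tauf s) = 0 := by
  rcases le_total s (1 / 4) with h | h
  · rw [Gf_of_le h]; simp
  · rw [tauf_of_ge h]; simp

variable {F : Type*} [CStarAlgebra F]

/-- Product rule. -/
lemma cf_mul {D : F} {f g h : ℝ → ℝ} (hf : Continuous f) (hg : Continuous g)
    (e : ∀ s, f s * g s = h s) : cfc f D * cfc g D = cfc h D := by
  rw [← cfc_mul f g D hf.continuousOn hg.continuousOn]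
  congr 1
  funext s
  exact e s

lemma cf_comm {D : F} {f g : ℝ → ℝ} (hf : Continuous f) (hg : Continuous g) :
    cfc f D * cfc g D = cfc g D * cfc f D := by
  rw [cf_mul hf hg (h := fun s => f s * g s) (fun _ => rfl),
    cf_mul hg hf (h := fun s => f s * g s) (fun s => mul_comm _ _)]

lemma cf_star (f : ℝ → ℝ) (D : F) : star (cfc f D) = cfc f D :=
  (cfc_predicate f D : IsSelfAdjoint (cfc f D))

lemma cf_id {D : F} (hD : IsSelfAdjoint D) : cfc (fun s : ℝ => s) D = D := cfc_id' ℝ D hD

lemma cf_one_sub {D : F} (hD : IsSelfAdjoint D) {f : ℝ → ℝ} (hf : Continuous f) :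
    cfc (fun s => 1 - f s) D = 1 - cfc f D := by
  rw [cfc_sub (fun _ => (1 : ℝ)) f D continuousOn_const hf.continuousOn]
  congr 1
  exact cfc_const_one ℝ D hD

lemma cf_mul_self {D : F} (hD : IsSelfAdjoint D) {f g : ℝ → ℝ} (hf : Continuous f)
    (e : ∀ s, f s * s = g s) : cfc f D * D = cfc g D := by
  conv_lhs => rw [← cf_id hD]
  rw [cf_id hD]
  have := cf_mul (D := D) hf continuous_id (h := g) (fun s => e s)
  simpa [show cfc (id : ℝ → ℝ) D = D from cfc_id ℝ D hD] using this

/-- The cut-off `Qc D`. -/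
def Qc (D : F) : F := cfc Qf D

/-- A function vanishing near `[1/2, ∞)` is divisible by `Qf`. -/
lemma qc_imp {D y : F} (hy : Qc D * y = 0) {f : ℝ → ℝ} (hf : Continuous f)
    (h0 : ∀ s, 1 / 2 ≤ s → f s = 0) : cfc f D * y = 0 := by
  let g : ℝ → ℝ := fun s => f s / max (1 - s) (1 / 2)
  have hmax : ∀ s : ℝ, 0 < max (1 - s) (1 / 2) := fun s => lt_max_of_lt_right (by norm_num)
  have hg : Continuous g := hf.div (by fun_prop) (fun s => (hmax s).ne')
  have e : ∀ s, g s * Qf s = f s := by
    intro s
    rcases le_total (1 / 2) s with h | h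
    · simp [g, h0 s h]
    · have h1 : max (1 - s) (1 / 2) = 1 - s := max_eq_left (by linarith)
      have h2 : Qf s = 1 - s := max_eq_left (by linarith)
      have h3 : 1 - s ≠ 0 := by
        have : 0 < 1 - s := by linarith
        exact this.ne'
      simp only [g, h1, h2]
      field_simp
  rw [← cf_mul hg Qf_cont e, mul_assoc]
  have : cfc Qf D * y = 0 := hy
  rw [this, mul_zero]

/-- The region lemma. -/
lemma region {D y c : F} (hD : IsSelfAdjoint D) (hc : 0 ≤ c) (hcD : Commute c D)
    (h : D * y = y + c * y) : Qc D * y = 0 := by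
  let qf : ℝ → ℝ := fun s => Real.sqrt (Qf s)
  have hqf : Continuous qf := Real.continuous_sqrt.comp Qf_cont
  let q : F := cfc qf D
  have hqq : q * q = Qc D := cf_mul hqf hqf (fun s => Real.mul_self_sqrt (le_max_right _ _))
  have hqs : star q = q := cf_star _ _
  have hQs : star (Qc D) = Qc D := cf_star _ _
  have hqc : q * c = c * q := (Commute.cfc_real hcD.symm qf).eq
  have hQQ : Qc D * Qc D = Qc D * (1 - D) := by
    have h1 : Qc D * Qc D = cfc (fun s => Qf s * (1 - s)) D := by
      refine cf_mul Qf_cont Qf_cont (fun s => ?_)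
      unfold Qf
      rcases le_total (1 - s) 0 with h | h
      · rw [max_eq_right h]; ring
      · rw [max_eq_left h]
    have h2 : cfc (fun s => Qf s * (1 - s)) D = Qc D * (1 - D) := by
      have h3 : cfc (fun s : ℝ => 1 - s) D = 1 - D := by
        rw [cf_one_sub (f := fun s => s) hD continuous_id, cf_id hD]
      rw [← h3]
      exact (cf_mul Qf_cont (continuous_const.sub continuous_id) (fun s => rfl)).symm
    rw [h1, h2]
  have hkey : star (Qc D * y) * (Qc D * y) + star (q * y) * (c * (q * y)) = 0 := by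
    have h1 : (1 - D) * y = - (c * y) := by
      rw [sub_mul, one_mul, h]; abel
    have h2 : star (Qc D * y) * (Qc D * y) = star y * (Qc D * Qc D * y) := by
      rw [star_mul, hQs]; noncomm_ring
    have h3 : Qc D * Qc D * y = - (q * c * q * y) := by
      calc Qc D * Qc D * y = Qc D * ((1 - D) * y) := by rw [hQQ, mul_assoc]
        _ = - (q * q * (c * y)) := by rw [h1, hqq, mul_neg]
        _ = - (q * (q * c) * y) := by noncomm_ring
        _ = - (q * (c * q) * y) := by rw [hqc]
        _ = - (q * c * q * y) := by noncomm_ring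
    rw [h2, h3, star_mul q y, hqs]
    noncomm_ring
  have h1 : 0 ≤ star (Qc D * y) * (Qc D * y) := star_mul_self_nonneg _
  have h2 : 0 ≤ star (q * y) * (c * (q * y)) := by
    have := star_left_conjugate_nonneg hc (q * y)
    rwa [mul_assoc] at this
  have h3 := (nonneg_sum_eq_zero h1 h2 hkey).1
  exact eq_zero_of_star_mul_self h3

end

end Vale.Agent.Lib.P101
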