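import Vale.Agent.Lib.P101.Cf

/-! The invariant: a square-zero element with a covering by cells, and normalization. -/

namespace Vale.Agent.Lib.P101

open scoped ComplexOrder

attribute [local instance] CStarAlgebra.spectralOrder CStarAlgebra.spectralOrderedRing

/-- The relations of the invariant. -/
structure IsInv {R : Type*} [Ring R] [Star R] {M : ℕ} (x s s₁ : R) (v : Fin (M + 1) → R) : Prop where
  x_sq : x * x = 0
  s_star : star s = s
  s_norm : star s₁ * s₁ + s * s = 1
  s_x : s * x = x * s
  s_sx : s * star x = star x * s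
  s_T : (1 - s * s) * (1 - (x * star x + star x * x)) = 0
  v_sum : ∑ l, star (v l) * v l = s * s
  v_range : ∀ l, x * star x * v l = v l
  x_v : ∀ l, x * v l = 0
  s_v : ∀ l, s * v l = 0

noncomputable section

variable {F : Type*} [CStarAlgebra F]

lemma tt_sa (Y : F) : IsSelfAdjoint (tt Y) := star_tt Y

lemma star_tt_comm {Y : F} (hY : Y * Y = 0) : star Y * tt Y = tt Y * star Y := by
  have hs := star_sq hY
  have h1 : star Y * (star Y * Y) = 0 := by rw [← mul_assoc, hs, zero_mul]
  have h2 : Y * star Y * star Y = 0 := by rw [mul_assoc, hs, mul_zero]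
  simp only [tt, mul_add, add_mul, h1, h2, add_zero, zero_add]
  noncomm_ring

lemma tt_mul_self {Y : F} (hY : Y * Y = 0) : tt Y * Y = Y * star Y * Y := by
  have h' : star Y * Y * Y = 0 := by rw [mul_assoc, hY, mul_zero]
  simp only [tt, add_mul, h', add_zero]

/-- Normalization of a square-zero element. -/
theorem normalize {Y : F} (hY : Y * Y = 0) :
    ∃ x s s₁ : F, x * x = 0 ∧ star s = s ∧ star s₁ * s₁ + s * s = 1 ∧ s * x = x * s ∧
      s * star x = star x * s ∧ (1 - s * s) * (1 - (x * star x + star x * x)) = 0 ∧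
      (∀ y, Qc (tt Y) * y = 0 →
        x * star x * (Y * y) = Y * y ∧ x * (Y * y) = 0 ∧ s * (Y * y) = 0) ∧
      (∀ y, Qc (tt Y) * y = 0 → s * y = 0) := by
  set D := tt Y with hDdef
  have hD : IsSelfAdjoint D := tt_sa Y
  have cY : ∀ f : ℝ → ℝ, Commute (cfc f D) Y := fun f =>
    Commute.cfc_real (a := D) (b := Y) (z_tt hY).symm f
  have csY : ∀ f : ℝ → ℝ, Commute (cfc f D) (star Y) := fun f =>
    Commute.cfc_real (a := D) (b := star Y) (star_tt_comm hY).symm f
  set n := cfc nuf D with hn
  have hns : star n = n := cf_star _ _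
  have hnY : n * Y = Y * n := (cY nuf).eq
  have hnsY : n * star Y = star Y * n := (csY nuf).eq
  let x : F := Y * n
  have hxs : star x = n * star Y := by
    show star (Y * n) = _
    rw [star_mul, hns]
  let s : F := cfc Gsf D
  let s₁ : F := cfc Ksf D
  have hss : star s = s := cf_star _ _
  have hss₁ : star s₁ = s₁ := cf_star _ _
  have hsY : s * Y = Y * s := (cY Gsf).eq
  have hssY : s * star Y = star Y * s := (csY Gsf).eq
  have hsn : s * n = n * s := cf_comm Gsf_cont nuf_cont
  have hsG : s * s = cfc Gf D := cf_mul Gsf_cont Gsf_cont Gsf_mul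
  have hTx : x * star x + star x * x = cfc tauf D := by
    have h1 : x * star x = n * n * (Y * star Y) := by
      rw [hxs]
      show Y * n * (n * star Y) = _
      calc Y * n * (n * star Y) = (Y * n) * n * star Y := by noncomm_ring
        _ = (n * Y) * n * star Y := by rw [hnY]
        _ = n * (Y * n) * star Y := by noncomm_ring
        _ = n * (n * Y) * star Y := by rw [hnY]
        _ = _ := by noncomm_ring
    have h2 : star x * x = n * n * (star Y * Y) := by
      rw [hxs]
      show n * star Y * (Y * n) = _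
      calc n * star Y * (Y * n) = n * (star Y * Y * n) := by noncomm_ring
        _ = n * (star Y * (n * Y)) := by rw [hnY]; noncomm_ring
        _ = n * ((star Y * n) * Y) := by noncomm_ring
        _ = n * ((n * star Y) * Y) := by rw [hnsY]
        _ = _ := by noncomm_ring
    rw [h1, h2, ← mul_add]
    have h3 : n * n * D = cfc tauf D := by
      have h4 : n * n = cfc (fun s => nuf s * nuf s) D := cf_mul nuf_cont nuf_cont (fun _ => rfl)
      rw [h4]
      exact cf_mul_self hD (nuf_cont.mul nuf_cont) (fun _ => rfl)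
    rw [← h3]
    rfl
  refine ⟨x, s, s₁, ?_, hss, ?_, ?_, ?_, ?_, ?_, ?_⟩
  · show Y * n * (Y * n) = 0
    calc Y * n * (Y * n) = Y * (n * Y) * n := by noncomm_ring
      _ = Y * (Y * n) * n := by rw [hnY]
      _ = (Y * Y) * n * n := by noncomm_ring
      _ = 0 := by rw [hY]; simp
  · rw [hss₁, hsG]
    have h1 : s₁ * s₁ = cfc (fun s => 1 - Gf s) D := cf_mul Ksf_cont Ksf_cont Ksf_mul
    rw [h1, cf_one_sub hD Gf_cont]
    abel
  · show s * (Y * n) = Y * n * s
    calc s * (Y * n) = (s * Y) * n := by noncomm_ring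
      _ = Y * (s * n) := by rw [hsY]; noncomm_ring
      _ = Y * (n * s) := by rw [hsn]
      _ = _ := by noncomm_ring
  · rw [hxs]
    calc s * (n * star Y) = (s * n) * star Y := by noncomm_ring
      _ = n * (s * star Y) := by rw [hsn]; noncomm_ring
      _ = n * (star Y * s) := by rw [hssY]
      _ = _ := by noncomm_ring
  · rw [hTx, hsG, ← cf_one_sub hD Gf_cont, ← cf_one_sub hD tauf_cont]
    have := cf_mul (D := D) (f := fun s => 1 - Gf s) (g := fun s => 1 - tauf s)
      (continuous_const.sub Gf_cont) (continuous_const.sub tauf_cont)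
      (h := fun _ => 0) Gf_tauf
    rw [this]
    exact cfc_const_zero ℝ D
  · intro y hy
    have h1 : cfc (fun s => 1 - tauf s) D * y = 0 := by
      refine qc_imp hy (continuous_const.sub tauf_cont) (fun s hs => ?_)
      rw [tauf_of_ge (by linarith)]
      simp
    rw [cf_one_sub hD tauf_cont, sub_mul, one_mul, sub_eq_zero] at h1
    have h2 : n * n * D = cfc tauf D := by
      have h4 : n * n = cfc (fun s => nuf s * nuf s) D := cf_mul nuf_cont nuf_cont (fun _ => rfl)
      rw [h4]
      exact cf_mul_self hD (nuf_cont.mul nuf_cont) (fun _ => rfl)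
    refine ⟨?_, ?_, ?_⟩
    · rw [hxs]
      show Y * n * (n * star Y) * (Y * y) = _
      have h3 : Y * star Y * Y = D * Y := (tt_mul_self hY).symm
      calc Y * n * (n * star Y) * (Y * y) = (Y * n) * n * (star Y * Y) * y := by noncomm_ring
        _ = (n * Y) * n * (star Y * Y) * y := by rw [hnY]
        _ = n * (Y * n) * (star Y * Y) * y := by noncomm_ring
        _ = n * (n * Y) * (star Y * Y) * y := by rw [hnY]
        _ = n * n * (Y * star Y * Y) * y := by noncomm_ring
        _ = n * n * (D * Y) * y := by rw [h3]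
        _ = n * n * ((Y * D)) * y := by rw [(z_tt hY)]
        _ = (n * n) * Y * D * y := by noncomm_ring
        _ = n * (n * Y) * D * y := by noncomm_ring
        _ = n * (Y * n) * D * y := by rw [hnY]
        _ = (n * Y) * n * D * y := by noncomm_ring
        _ = (Y * n) * n * D * y := by rw [hnY]
        _ = Y * (n * n * D * y) := by noncomm_ring
        _ = Y * y := by rw [h2, ← h1]
    · show Y * n * (Y * y) = 0
      calc Y * n * (Y * y) = Y * (n * Y) * y := by noncomm_ring
        _ = Y * (Y * n) * y := by rw [hnY]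
        _ = (Y * Y) * n * y := by noncomm_ring
        _ = 0 := by rw [hY]; simp
    · have h5 : s * y = 0 := by
        refine qc_imp hy Gsf_cont (fun s hs => ?_)
        unfold Gsf
        rw [Gf_of_ge hs]
        simp
      calc s * (Y * y) = (s * Y) * y := by noncomm_ring
        _ = Y * (s * y) := by rw [hsY]; noncomm_ring
        _ = 0 := by rw [h5, mul_zero]
  · intro y hy
    refine qc_imp hy Gsf_cont (fun s hs => ?_)
    unfold Gsf
    rw [Gf_of_ge hs]
    simp

/-- Assembling the invariant from cells in the range of `Y`. -/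
theorem assemble {Y : F} (hY : Y * Y = 0) {M : ℕ} (y : Fin (M + 1) → F) (R : F)
    (hy : ∀ l, Qc (tt Y) * y l = 0) (hR : ∑ l, star (Y * y l) * (Y * y l) = R)
    (hQR : Qc (tt Y) * (1 - R) = 0) :
    ∃ (x s s₁ : F) (v : Fin (M + 1) → F), IsInv x s s₁ v := by
  obtain ⟨x, s, s₁, h1, h2, h3, h4, h5, h6, h7, h8⟩ := normalize hY
  refine ⟨x, s, s₁, fun l => Y * y l * s, ⟨h1, h2, h3, h4, h5, h6, ?_, ?_, ?_, ?_⟩⟩
  · have h9 : s * R = s := by
      have := h8 _ hQR
      rw [mul_sub, mul_one, sub_eq_zero] at this
      exact this.symm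
    have h10 : ∀ l, star (Y * y l * s) * (Y * y l * s) = s * (star (Y * y l) * (Y * y l)) * s := by
      intro l
      rw [star_mul (Y * y l) s, h2]
      noncomm_ring
    simp only [h10]
    rw [← Finset.sum_mul, ← Finset.mul_sum, hR, h9]
  · intro l
    rw [← mul_assoc, (h7 _ (hy l)).1]
  · intro l
    rw [← mul_assoc, (h7 _ (hy l)).2.1, zero_mul]
  · intro l
    rw [← mul_assoc, (h7 _ (hy l)).2.2, zero_mul]

/-- Elements `1 + c` with `c ≥ 0` have inverse square roots (as a self-adjoint element). -/
theorem inv_sqrt {m c : F} (hc : 0 ≤ c) (hm : m = 1 + c) :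
    cfc nuf m * cfc nuf m * m = 1 := by
  have hmsa : IsSelfAdjoint m := by
    rw [hm]; exact (IsSelfAdjoint.one F).add hc.isSelfAdjoint
  have hcm : Commute c m := by
    rw [hm]; exact (Commute.one_right c).add_right (Commute.refl c)
  have h1 : Qc m * 1 = 0 := region hmsa hc hcm (by rw [mul_one, mul_one, hm])
  have h2 : cfc (fun s => 1 - tauf s) m * 1 = 0 := by
    refine qc_imp h1 (continuous_const.sub tauf_cont) (fun s hs => ?_)
    rw [tauf_of_ge (by linarith)]
    simp
  rw [mul_one, cf_one_sub hmsa tauf_cont, sub_eq_zero] at h2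
  have h4 : cfc nuf m * cfc nuf m = cfc (fun s => nuf s * nuf s) m :=
    cf_mul nuf_cont nuf_cont (fun _ => rfl)
  rw [h4, h2]
  exact cf_mul_self hmsa (nuf_cont.mul nuf_cont) (fun _ => rfl)

end

end Vale.Agent.Lib.P101
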