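import Vale.Agent.Lib.P101.Model
import Vale.Agent.Lib.P101.Inv

/-! Matrix units and columns from the invariant with one cell. -/

namespace Vale.Agent.Lib.P101

set_option linter.unusedSectionVars false

open scoped ComplexOrder

attribute [local instance] CStarAlgebra.spectralOrder CStarAlgebra.spectralOrderedRing

noncomputable section

variable {D : Type*} [CStarAlgebra D]

/-- The relations in the form used for the columns. -/
structure ColRel (x s s₁ v : D) : Prop where
  x_sq : x * x = 0
  s_star : star s = s
  s_norm : star s₁ * s₁ + s * s = 1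
  s_x : s * x = x * s
  s_sx : s * star x = star x * s
  s_T : (1 - s * s) * (1 - (x * star x + star x * x)) = 0
  v_v : star v * v = s * s
  v_range : x * star x * v = v
  x_v : x * v = 0
  s_v : s * v = 0

lemma colRel_of_inv {x s s₁ : D} {v : Fin 1 → D} (h : IsInv x s s₁ v) : ColRel x s s₁ (v 0) where
  x_sq := h.x_sq
  s_star := h.s_star
  s_norm := h.s_norm
  s_x := h.s_x
  s_sx := h.s_sx
  s_T := h.s_T
  v_v := by
    have := h.v_sum
    rwa [Fin.sum_univ_one] at this
  v_range := h.v_range 0
  x_v := h.x_v 0
  s_v := h.s_v 0

/-- `1 - s²` -/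
def hh (s : D) : D := 1 - s * s

/-- The pre-matrix units. -/
def uu (x : D) : Fin 2 → Fin 2 → D := ![![x * star x, x], ![star x, star x * x]]

/-- The matrix units of the order-zero map. -/
def ee (x s : D) (i j : Fin 2) : D := hh s * uu x i j

/-- The columns. -/
def CC (x s v : D) : Fin 3 → D := ![v, star x * v, s]

/-- The first two columns. -/
def C2 (x v : D) : Fin 2 → D := ![v, star x * v]

section Rel

variable {x s s₁ v : D} (R : ColRel x s s₁ v)

include R

lemma sx_sq : star x * star x = 0 := star_sq R.x_sq

lemma h_x : hh s * x = x * hh s := by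
  unfold hh
  rw [sub_mul, mul_sub, one_mul, mul_one, mul_assoc, R.s_x, ← mul_assoc, R.s_x, mul_assoc]

lemma h_sx : hh s * star x = star x * hh s := by
  unfold hh
  rw [sub_mul, mul_sub, one_mul, mul_one, mul_assoc, R.s_sx, ← mul_assoc, R.s_sx, mul_assoc]

lemma h_star : star (hh s) = hh s := by
  unfold hh
  rw [star_sub, star_one, star_mul, R.s_star]

lemma h_T : hh s * (x * star x + star x * x) = hh s := by
  have := R.s_T
  rw [mul_sub, mul_one, sub_eq_zero] at this
  exact this.symm

lemma h_v : hh s * v = v := by
  unfold hh
  rw [sub_mul, one_mul, mul_assoc, R.s_v, mul_zero, sub_zero]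

lemma h_sxv : hh s * (star x * v) = star x * v := by
  rw [← mul_assoc, h_sx R, mul_assoc, h_v R]

lemma h_xsxx : hh s * (x * star x * x) = hh s * x := by
  have h1 : (x * star x + star x * x) * x = x * star x * x := by
    rw [add_mul, mul_assoc (star x), R.x_sq, mul_zero, add_zero]
  rw [← h1, ← mul_assoc, h_T R]

lemma h_sxxsx : hh s * (star x * x * star x) = hh s * star x := by
  have h1 : (x * star x + star x * x) * star x = star x * x * star x := by
    rw [add_mul, mul_assoc x, sx_sq R, mul_zero, zero_add]
  rw [← h1, ← mul_assoc, h_T R]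

lemma star_uu (i j : Fin 2) : star (uu x i j) = uu x j i := by
  fin_cases i <;> fin_cases j <;> simp [uu]

lemma h_a : hh s * (x * star x) = x * star x * hh s := by
  rw [← mul_assoc, h_x R, mul_assoc, h_sx R, mul_assoc]

lemma h_b : hh s * (star x * x) = star x * x * hh s := by
  rw [← mul_assoc, h_sx R, mul_assoc, h_x R, mul_assoc]

lemma h_uu (i j : Fin 2) : hh s * uu x i j = uu x i j * hh s := by
  fin_cases i <;> fin_cases j <;> simp [uu]
  · exact h_a R
  · exact h_x R
  · exact h_sx R
  · exact h_b R

lemma star_ee (i j : Fin 2) : star (ee x s i j) = ee x s j i := by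
  unfold ee
  rw [star_mul, h_star R, star_uu R]
  exact (h_uu R _ _).symm

lemma h_uu_mul (i j k l : Fin 2) :
    hh s * (uu x i j * uu x k l) = if j = k then hh s * uu x i l else 0 := by
  have hx := R.x_sq
  have hs := sx_sq R
  have e1 := h_xsxx R
  have e2 := h_sxxsx R
  have f1 : hh s * (x * star x * (x * star x)) = hh s * (x * star x) := by
    calc _ = (hh s * (x * star x * x)) * star x := by noncomm_ring
      _ = _ := by rw [e1, mul_assoc]
  have f3 : hh s * (x * star x * star x) = 0 := by
    rw [mul_assoc x, hs, mul_zero, mul_zero]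
  have f4 : hh s * (x * star x * (star x * x)) = 0 := by
    calc _ = hh s * (x * (star x * star x) * x) := by noncomm_ring
      _ = 0 := by rw [hs]; simp
  have f5 : hh s * (x * (x * star x)) = 0 := by
    rw [← mul_assoc x, hx]; simp
  have f6 : hh s * (x * x) = 0 := by rw [hx, mul_zero]
  have f7 : hh s * (x * (star x * x)) = hh s * x := by rw [← mul_assoc x]; exact e1
  have f8 : hh s * (star x * (x * star x)) = hh s * star x := by
    rw [← mul_assoc (star x)]; exact e2
  have f9 : hh s * (star x * star x) = 0 := by rw [hs, mul_zero]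
  have f10 : hh s * (star x * (star x * x)) = 0 := by
    rw [← mul_assoc (star x), hs]; simp
  have f11 : hh s * (star x * x * (x * star x)) = 0 := by
    calc _ = hh s * (star x * (x * x) * star x) := by noncomm_ring
      _ = 0 := by rw [hx]; simp
  have f12 : hh s * (star x * x * x) = 0 := by
    rw [mul_assoc (star x), hx]; simp
  have f14 : hh s * (star x * x * (star x * x)) = hh s * (star x * x) := by
    calc _ = (hh s * (star x * x * star x)) * x := by noncomm_ring
      _ = _ := by rw [e2, mul_assoc]
  fin_cases i <;> fin_cases j <;> fin_cases k <;> fin_cases l <;>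
    simp [uu] <;> first
      | exact f1 | exact e1 | exact f3 | exact f4 | exact f5 | exact f6 | exact f7 | exact f8
      | exact f9 | exact f10 | exact f11 | exact f12 | exact e2 | exact f14

lemma ee_mul (i j k l : Fin 2) :
    ee x s i j * ee x s k l = if j = k then hh s * ee x s i l else 0 := by
  unfold ee
  calc hh s * uu x i j * (hh s * uu x k l) = hh s * (uu x i j * hh s) * uu x k l := by noncomm_ring
    _ = hh s * (hh s * uu x i j) * uu x k l := by rw [h_uu R]
    _ = hh s * (hh s * (uu x i j * uu x k l)) := by noncomm_ring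
    _ = _ := by
      rw [h_uu_mul R]
      split_ifs <;> simp

lemma s_h : s * hh s = hh s * s := by
  unfold hh
  noncomm_ring

lemma s_uu (i j : Fin 2) : s * uu x i j = uu x i j * s := by
  have h1 := R.s_x
  have h2 := R.s_sx
  have h3 : s * (x * star x) = x * star x * s := by
    rw [← mul_assoc, h1, mul_assoc, h2, mul_assoc]
  have h4 : s * (star x * x) = star x * x * s := by
    rw [← mul_assoc, h2, mul_assoc, h1, mul_assoc]
  fin_cases i <;> fin_cases j <;> simp [uu]
  · exact h3
  · exact h1
  · exact h2
  · exact h4

lemma s_ee (i j : Fin 2) : s * ee x s i j = ee x s i j * s := by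
  unfold ee
  rw [← mul_assoc, s_h R, mul_assoc, s_uu R, mul_assoc]

lemma C2_eq (i : Fin 2) : C2 x v i = CC x s v i.castSucc := by
  fin_cases i <;> simp [C2, CC]

lemma CC_two : CC x s v 2 = s := by simp [CC]

lemma star_CC_mul (b b' : Fin 3) :
    star (CC x s v b) * CC x s v b' = if b = b' then s * s else 0 := by
  have h1 : star v * v = s * s := R.v_v
  have h2 : star v * (star x * v) = 0 := by
    rw [← mul_assoc, ← star_mul, R.x_v, star_zero, zero_mul]
  have h3 : star v * s = 0 := by
    have := congrArg star R.s_v
    rwa [star_mul, R.s_star, star_zero] at this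
  have h4 : star v * x * v = 0 := by
    rw [mul_assoc, R.x_v, mul_zero]
  have h5 : star v * x * (star x * v) = s * s := by
    calc star v * x * (star x * v) = star v * (x * star x * v) := by noncomm_ring
      _ = _ := by rw [R.v_range, h1]
  have h6 : star v * x * s = 0 := by
    rw [mul_assoc, ← R.s_x, ← mul_assoc, h3, zero_mul]
  have h7 : star s * v = 0 := by rw [R.s_star, R.s_v]
  have h8 : star s * (star x * v) = 0 := by
    rw [R.s_star, ← mul_assoc, R.s_sx, mul_assoc, R.s_v, mul_zero]
  have h9 : star s * s = s * s := by rw [R.s_star]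
  fin_cases b <;> fin_cases b' <;> simp [CC] <;> first
    | exact h1 | exact h2 | exact h3 | exact h4 | exact h5 | exact h6 | exact h7 | exact h8
    | exact h9

lemma star_CC_mul_C2 (b : Fin 3) (k : Fin 2) :
    star (CC x s v b) * C2 x v k = if b = k.castSucc then s * s else 0 := by
  rw [C2_eq R, star_CC_mul R]

lemma uu_C2 (i j k : Fin 2) : uu x i j * C2 x v k = if j = k then C2 x v i else 0 := by
  have h1 : x * star x * v = v := R.v_range
  have h2 : x * v = 0 := R.x_v
  have h3 : star x * x * v = 0 := by rw [mul_assoc, h2, mul_zero]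
  have h4 : x * star x * (star x * v) = 0 := by
    rw [mul_assoc x, ← mul_assoc (star x), sx_sq R, zero_mul, mul_zero]
  have h5 : x * (star x * v) = v := by rw [← mul_assoc, h1]
  have h6 : star x * (star x * v) = 0 := by rw [← mul_assoc, sx_sq R, zero_mul]
  have h7 : star x * x * (star x * v) = star x * v := by
    calc _ = star x * (x * star x * v) := by noncomm_ring
      _ = _ := by rw [h1]
  fin_cases i <;> fin_cases j <;> fin_cases k <;> simp [uu, C2] <;> first
    | exact h1 | exact h2 | exact h3 | exact h4 | exact h5 | exact h6 | exact h7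

lemma h_C2 (i : Fin 2) : hh s * C2 x v i = C2 x v i := by
  fin_cases i
  · simpa [C2] using h_v R
  · simpa [C2] using h_sxv R

lemma ee_C2 (i j k : Fin 2) : ee x s i j * C2 x v k = if j = k then C2 x v i else 0 := by
  unfold ee
  rw [mul_assoc, uu_C2 R]
  split_ifs
  · exact h_C2 R i
  · simp

/-- `v w = 0` as soon as `s w = 0`. -/
lemma v_mul_of {w : D} (hw : s * w = 0) : v * w = 0 := by
  apply eq_zero_of_star_mul_self
  have h1 : star w * (star s * (s * w)) = 0 := by rw [hw]; simp
  calc star (v * w) * (v * w) = star w * (star v * v) * w := by rw [star_mul]; noncomm_ring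
    _ = star w * (s * s) * w := by rw [R.v_v]
    _ = star w * (star s * (s * w)) := by rw [R.s_star]; noncomm_ring
    _ = 0 := h1

/-- Left multiplication by the first two columns kills the first two columns. -/
lemma CC_C2 (b : Fin 3) (k : Fin 2) : CC x s v b * C2 x v k = 0 := by
  have h0 : s * C2 x v k = 0 := by
    fin_cases k
    · simpa [C2] using R.s_v
    · simp only [C2]
      show s * (star x * v) = 0
      rw [← mul_assoc, R.s_sx, mul_assoc, R.s_v, mul_zero]
  have h1 := v_mul_of R h0
  fin_cases b
  · simpa [CC] using h1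
  · simp only [CC]
    show star x * v * C2 x v k = 0
    rw [mul_assoc, h1, mul_zero]
  · simpa [CC] using h0

end Rel

end

end Vale.Agent.Lib.P101
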