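import Vale.Agent.Lib.P101.MergeAlg

/-! The reduction step: two commuting copies of the invariant with `M + 2` cells give `M + 1` cells. -/

namespace Vale.Agent.Lib.P101

open scoped ComplexOrder

attribute [local instance] CStarAlgebra.spectralOrder CStarAlgebra.spectralOrderedRing

noncomputable section

variable {F : Type*} [CStarAlgebra F]

lemma tt_nonneg (z : F) : 0 ≤ tt z := by
  have h1 : 0 ≤ z * star z := by simp
  exact add_nonneg h1 (star_mul_self_nonneg z)

lemma sq_nonneg_of_sa {P : F} (h : IsSelfAdjoint P) : 0 ≤ P * P := by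
  have := star_mul_self_nonneg P
  rwa [h.star_eq] at this

/-- Fixed vectors of one factor lie in the good region. -/
lemma qc_of_fix {P P' D y : F} (hP0 : 0 ≤ P') (hPP' : Commute P P')
    (hD : D = (P * P + P' * P') * (P + P')) (hDsa : IsSelfAdjoint D) (hy : P * y = y) :
    Qc D * y = 0 := by
  have hPs : Commute (P' * P') P' := (Commute.refl P').mul_left (Commute.refl P')
  have h2 : 0 ≤ P' * P' := sq_nonneg_of_sa hP0.isSelfAdjoint
  have h3 : 0 ≤ P' * P' * P' := Commute.mul_nonneg h2 hP0 hPs
  have hc : 0 ≤ P' + P' * P' + P' * P' * P' := add_nonneg (add_nonneg hP0 h2) h3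
  have hP'D : Commute P' D := by
    rw [hD]
    exact ((hPP'.symm.mul_right hPP'.symm).add_right
      ((Commute.refl P').mul_right (Commute.refl P'))).mul_right
        (hPP'.symm.add_right (Commute.refl P'))
  have hcD : Commute (P' + P' * P' + P' * P' * P') D :=
    (hP'D.add_left (hP'D.mul_left hP'D)).add_left ((hP'D.mul_left hP'D).mul_left hP'D)
  refine region hDsa hc hcD ?_
  have h4 : P * P * y = y := by rw [mul_assoc, hy, hy]
  have h5 : P * P * (P' * y) = P' * y := by
    have : P * P * P' = P' * (P * P) := (hPP'.mul_left hPP').eq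
    calc P * P * (P' * y) = (P * P * P') * y := by noncomm_ring
      _ = P' * (P * P * y) := by rw [this]; noncomm_ring
      _ = P' * y := by rw [h4]
  rw [hD]
  calc (P * P + P' * P') * (P + P') * y = (P * P + P' * P') * (P * y + P' * y) := by noncomm_ring
    _ = P * P * y + P * P * (P' * y) + P' * P' * y + P' * P' * (P' * y) := by
        rw [hy]; noncomm_ring
    _ = y + (P' + P' * P' + P' * P' * P') * y := by
        rw [h4, h5]; noncomm_ring

lemma IsInv.T_v {M : ℕ} {x s s₁ : F} {v : Fin (M + 1) → F} (h : IsInv x s s₁ v) (l : Fin (M + 1)) :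
    tt x * v l = v l := by
  show (x * star x + star x * x) * v l = v l
  rw [add_mul, h.v_range, mul_assoc (star x), h.x_v, mul_zero, add_zero]

lemma IsInv.T_fix {M : ℕ} {x s s₁ : F} {v : Fin (M + 1) → F} (h : IsInv x s s₁ v) :
    tt x * (1 - s * s) = 1 - s * s := by
  have h1 : s * tt x = tt x * s := by
    show s * (x * star x + star x * x) = (x * star x + star x * x) * s
    calc s * (x * star x + star x * x) = (s * x) * star x + (s * star x) * x := by noncomm_ring
      _ = x * (s * star x) + star x * (s * x) := by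
          rw [h.s_x, h.s_sx, mul_assoc, mul_assoc]
          rw [h.s_sx, h.s_x]
      _ = x * (star x * s) + star x * (x * s) := by rw [h.s_x, h.s_sx]
      _ = _ := by noncomm_ring
  have h2 : tt x * (1 - s * s) = (1 - s * s) * tt x := by
    have h3 : tt x * (s * s) = s * s * tt x := by
      calc tt x * (s * s) = (tt x * s) * s := (mul_assoc _ _ _).symm
        _ = (s * tt x) * s := by rw [h1]
        _ = s * (tt x * s) := mul_assoc _ _ _
        _ = s * (s * tt x) := by rw [h1]
        _ = _ := (mul_assoc _ _ _).symm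
    rw [mul_sub, sub_mul, h3, mul_one, one_mul]
  have h4 := h.s_T
  rw [h2]
  have h5 : (1 - s * s) * (1 - tt x) = 0 := h4
  rw [mul_sub, mul_one, sub_eq_zero] at h5
  exact h5.symm

section Cells

variable {A A' : Subalgebra ℂ F}

/-- Cross terms. -/
lemma star_mul_cell {p r s' q : F} (hA : ∀ u ∈ A, ∀ u' ∈ A', u * u' = u' * u)
    (hp : p ∈ A) (hr : r ∈ A) (hsp : star p ∈ A) (hsr : star r ∈ A)
    (hs' : s' ∈ A') (hq : q ∈ A') (hsq : star q ∈ A') (hss : star s' = s') (h0 : s' * q = 0) :
    star (p * s' + r * q) * (p * s' + r * q)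
      = star p * p * (s' * s') + star r * r * (star q * q) := by
  have h0' : star q * s' = 0 := by
    have := congrArg star h0
    rwa [star_mul, hss, star_zero] at this
  have e1 : star (p * s' + r * q) = s' * star p + star q * star r := by
    rw [star_add, star_mul, star_mul, hss]
  rw [e1]
  have t1 : s' * star p * (p * s') = star p * p * (s' * s') := by
    have : s' * (star p * p) = (star p * p) * s' := (hA _ (mul_mem hsp hp) _ hs').symm
    calc s' * star p * (p * s') = (s' * (star p * p)) * s' := by noncomm_ring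
      _ = _ := by rw [this]; noncomm_ring
  have t2 : s' * star p * (r * q) = 0 := by
    have : s' * (star p * r) = (star p * r) * s' := (hA _ (mul_mem hsp hr) _ hs').symm
    calc s' * star p * (r * q) = (s' * (star p * r)) * q := by noncomm_ring
      _ = (star p * r) * (s' * q) := by rw [this]; noncomm_ring
      _ = 0 := by rw [h0, mul_zero]
  have t3 : star q * star r * (p * s') = 0 := by
    have : star q * (star r * p) = (star r * p) * star q := (hA _ (mul_mem hsr hp) _ hsq).symm
    calc star q * star r * (p * s') = (star q * (star r * p)) * s' := by noncomm_ring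
      _ = (star r * p) * (star q * s') := by rw [this]; noncomm_ring
      _ = 0 := by rw [h0', mul_zero]
  have t4 : star q * star r * (r * q) = star r * r * (star q * q) := by
    have : star q * (star r * r) = (star r * r) * star q := (hA _ (mul_mem hsr hr) _ hsq).symm
    calc star q * star r * (r * q) = (star q * (star r * r)) * q := by noncomm_ring
      _ = _ := by rw [this]; noncomm_ring
  rw [add_mul, mul_add, mul_add, t1, t2, t3, t4]
  abel

/-- The auxiliary cells of the second copy. -/
def qcell {M : ℕ} (z' : F) (v' : Fin (M + 1 + 1) → F) (k : Fin (M + 1)) : F :=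
  v' k.castSucc + if k = 0 then star z' * v' (Fin.last _) else 0

lemma qcell_star_mul {M : ℕ} {z' s' s₁' : F} {v' : Fin (M + 1 + 1) → F} (hI' : IsInv z' s' s₁' v')
    (k : Fin (M + 1)) :
    star (qcell z' v' k) * qcell z' v' k = star (v' k.castSucc) * v' k.castSucc
      + if k = 0 then star (v' (Fin.last _)) * v' (Fin.last _) else 0 := by
  unfold qcell
  by_cases hk : k = 0
  · simp only [hk, if_true]
    set a := v' (Fin.castSucc (0 : Fin (M + 1))) with ha
    set b := v' (Fin.last _) with hb
    have h1 : z' * a = 0 := hI'.x_v _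
    have h1' : star a * star z' = 0 := by
      rw [← star_mul, h1, star_zero]
    have h2 : z' * star z' * b = b := hI'.v_range _
    rw [star_add, star_mul, star_star, add_mul, mul_add, mul_add]
    have t1 : star a * (star z' * b) = 0 := by rw [← mul_assoc, h1', zero_mul]
    have t2 : star b * z' * a = 0 := by rw [mul_assoc, h1, mul_zero]
    have t3 : star b * z' * (star z' * b) = star b * b := by
      calc star b * z' * (star z' * b) = star b * (z' * star z' * b) := by noncomm_ring
        _ = _ := by rw [h2]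
    rw [t1, t2, t3]
    abel
  · simp [hk]

lemma qcell_sum {M : ℕ} {z' s' s₁' : F} {v' : Fin (M + 1 + 1) → F} (hI' : IsInv z' s' s₁' v') :
    ∑ k, star (qcell z' v' k) * qcell z' v' k = s' * s' := by
  simp only [qcell_star_mul hI']
  rw [Finset.sum_add_distrib, Finset.sum_ite_eq' Finset.univ (0 : Fin (M + 1))]
  simp only [Finset.mem_univ, if_true]
  rw [← hI'.v_sum]
  exact (Fin.sum_univ_castSucc (fun l => star (v' l) * v' l)).symm

lemma s_qcell {M : ℕ} {z' s' s₁' : F} {v' : Fin (M + 1 + 1) → F} (hI' : IsInv z' s' s₁' v')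
    (k : Fin (M + 1)) : s' * qcell z' v' k = 0 := by
  unfold qcell
  rw [mul_add, hI'.s_v, zero_add]
  by_cases hk : k = 0
  · simp only [hk, if_true]
    rw [← mul_assoc, hI'.s_sx, mul_assoc, hI'.s_v, mul_zero]
  · simp [hk]

/-- The cells of the merge. -/
def wcell {M : ℕ} (s' z' : F) (v v' : Fin (M + 1 + 1) → F) (k : Fin (M + 1)) : F :=
  v k.castSucc * s' + v (Fin.last _) * qcell z' v' k

lemma wcell_sum {M : ℕ} {z s s₁ z' s' s₁' : F} {v v' : Fin (M + 1 + 1) → F}
    (hI : IsInv z s s₁ v) (hI' : IsInv z' s' s₁' v')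
    (hA : ∀ u ∈ A, ∀ u' ∈ A', u * u' = u' * u) (hAs' : ∀ u ∈ A', star u ∈ A')
    (hv : ∀ l, v l ∈ A) (hvs : ∀ l, star (v l) ∈ A) (hs' : s' ∈ A') (hz' : z' ∈ A')
    (hv' : ∀ l, v' l ∈ A') :
    ∑ k, star (wcell s' z' v v' k) * wcell s' z' v v' k = s * s * (s' * s') := by
  have hq : ∀ k, qcell z' v' k ∈ A' := by
    intro k
    unfold qcell
    refine add_mem (hv' _) ?_
    split_ifs
    · exact mul_mem (hAs' _ hz') (hv' _)
    · exact zero_mem _
  have h1 : ∀ k, star (wcell s' z' v v' k) * wcell s' z' v v' k =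
      star (v k.castSucc) * v k.castSucc * (s' * s') + star (v (Fin.last _)) * v (Fin.last _)
        * (star (qcell z' v' k) * qcell z' v' k) := fun k =>
    star_mul_cell hA (hv _) (hv _) (hvs _) (hvs _) hs' (hq k) (hAs' _ (hq k)) hI'.s_star
      (s_qcell hI' k)
  simp only [h1]
  rw [Finset.sum_add_distrib, ← Finset.sum_mul, ← Finset.mul_sum, qcell_sum hI', ← add_mul,
    ← hI.v_sum]
  congr 1
  exact (Fin.sum_univ_castSucc (fun l => star (v l) * v l)).symm

end Cells

/-- The action of `K` on vectors in the range. -/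
lemma kact {T T' a b' w : F} (hTT' : Commute T T') (hab' : Commute a b') (hTb' : Commute T b')
    (ha : a * w = w) (hT : T * w = w) :
    (T * T + T' * T') * a * (a + b') * w = (1 + T' * T') * (1 + b') * w := by
  have h1 : (a + b') * w = w + b' * w := by rw [add_mul, ha]
  have h2 : a * (w + b' * w) = w + b' * w := by
    have : a * (b' * w) = b' * (a * w) := by
      calc a * (b' * w) = (a * b') * w := by noncomm_ring
        _ = (b' * a) * w := by rw [hab'.eq]
        _ = _ := by noncomm_ring
    rw [mul_add, ha, this, ha]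
  have h3 : T * T * w = w := by rw [mul_assoc, hT, hT]
  have h4 : T * T * (b' * w) = b' * w := by
    have : T * T * b' = b' * (T * T) := (hTb'.mul_left hTb').eq
    calc T * T * (b' * w) = (T * T * b') * w := by noncomm_ring
      _ = b' * (T * T * w) := by rw [this]; noncomm_ring
      _ = _ := by rw [h3]
  calc (T * T + T' * T') * a * (a + b') * w = (T * T + T' * T') * (a * ((a + b') * w)) := by
        noncomm_ring
    _ = T * T * w + T * T * (b' * w) + T' * T' * w + T' * T' * (b' * w) := by
        rw [h1, h2]; noncomm_ring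
    _ = _ := by rw [h3, h4]; noncomm_ring

lemma comm_BB {U U' : Set F} (hcomm : ∀ u ∈ U, ∀ u' ∈ U', u * u' = u' * u) :
    ∀ u ∈ BB U, ∀ u' ∈ BB U', u * u' = u' * u := by
  intro u hu u' hu'
  have h1 : u ∈ Set.centralizer U' := by
    rw [Set.mem_centralizer_iff]
    intro w hw
    have h2 : w ∈ Set.centralizer U := by
      rw [Set.mem_centralizer_iff]
      intro t ht
      exact hcomm t ht w hw
    exact mem_BB.1 hu w h2
  exact mem_BB.1 hu' u h1

lemma cfc_mem_BB {U : Set F} {m : F} (hm : m ∈ BB U) (f : ℝ → ℝ) : cfc f m ∈ BB U := by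
  rw [mem_BB]
  intro r hr
  have h1 : Commute m r := (mem_BB.1 hm r hr).symm
  exact (Commute.cfc_real h1 f).symm

lemma tt_comm_b (z : F) (hz : z * z = 0) : Commute (tt z) (star z * z) := by
  have hs := star_sq hz
  have h1 : z * star z * (star z * z) = 0 := by
    calc _ = z * (star z * star z) * z := by noncomm_ring
      _ = 0 := by rw [hs]; simp
  have h2 : star z * z * (z * star z) = 0 := by
    calc _ = star z * (z * z) * star z := by noncomm_ring
      _ = 0 := by rw [hz]; simp
  show (z * star z + star z * z) * (star z * z) = (star z * z) * (z * star z + star z * z)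
  rw [add_mul, mul_add, h1, h2]

/-- The reduction step. -/
theorem step_core {M : ℕ} {z s s₁ z' s' s₁' : F} {v v' : Fin (M + 1 + 1) → F}
    (hI : IsInv z s s₁ v) (hI' : IsInv z' s' s₁' v')
    (U U' : Set F) (hU : ∀ u ∈ U, star u ∈ U) (hU' : ∀ u ∈ U', star u ∈ U')
    (hcomm : ∀ u ∈ U, ∀ u' ∈ U', u * u' = u' * u)
    (hzU : z ∈ U) (hsU : s ∈ U) (hvU : ∀ l, v l ∈ U)
    (hzU' : z' ∈ U') (hsU' : s' ∈ U') (hvU' : ∀ l, v' l ∈ U') :
    ∃ (x t t₁ : F) (w : Fin (M + 1) → F), IsInv x t t₁ w := by
  have c1 := comm_BB hcomm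
  have hz : z ∈ BB U := subset_BB U hzU
  have hzs : star z ∈ BB U := subset_BB U (hU z hzU)
  have hs : s ∈ BB U := subset_BB U hsU
  have hv : ∀ l, v l ∈ BB U := fun l => subset_BB U (hvU l)
  have hvs : ∀ l, star (v l) ∈ BB U := fun l => subset_BB U (hU _ (hvU l))
  have hz' : z' ∈ BB U' := subset_BB U' hzU'
  have hzs' : star z' ∈ BB U' := subset_BB U' (hU' z' hzU')
  have hs' : s' ∈ BB U' := subset_BB U' hsU'
  have hv' : ∀ l, v' l ∈ BB U' := fun l => subset_BB U' (hvU' l)
  have hsAs' : ∀ u ∈ BB U', star u ∈ BB U' := fun u hu => star_mem_BB hU' hu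
  set T := tt z with hT
  set T' := tt z' with hT'
  set a := z * star z with ha
  set b' := star z' * z' with hb'
  have hTB : T ∈ BB U := add_mem (mul_mem hz hzs) (mul_mem hzs hz)
  have haB : a ∈ BB U := mul_mem hz hzs
  have hTB' : T' ∈ BB U' := add_mem (mul_mem hz' hzs') (mul_mem hzs' hz')
  have hbB' : b' ∈ BB U' := mul_mem hzs' hz'
  have cTT' : Commute T T' := c1 _ hTB _ hTB'
  obtain ⟨hY, hD, hK⟩ := merge_ids (z := z) (z' := z') hI.x_sq hI'.x_sq (c1 _ hz _ hz').symm
    (c1 _ hzs _ hz').symm (c1 _ hz _ hzs').symm (c1 _ hzs _ hzs').symm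
  set Y := merge z z' with hYdef
  -- the inverse square root
  set m' := (1 + T' * T') * (1 + b') with hm'
  have hTT0 : 0 ≤ T' * T' := sq_nonneg_of_sa (tt_nonneg z').isSelfAdjoint
  have hb0 : 0 ≤ b' := star_mul_self_nonneg z'
  have cTb' : Commute T' b' := tt_comm_b z' hI'.x_sq
  have hTTb : 0 ≤ T' * T' * b' := Commute.mul_nonneg hTT0 hb0 (cTb'.mul_left cTb')
  have hmeq : m' = 1 + (T' * T' + b' + T' * T' * b') := by
    rw [hm']; noncomm_ring
  have hnn := inv_sqrt (m := m') (c := T' * T' + b' + T' * T' * b')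
    (add_nonneg (add_nonneg hTT0 hb0) hTTb) hmeq
  set n' := cfc nuf m' with hn'
  have hmB : m' ∈ BB U' :=
    mul_mem (add_mem (one_mem _) (mul_mem hTB' hTB')) (add_mem (one_mem _) hbB')
  have hnB : n' ∈ BB U' := cfc_mem_BB hmB nuf
  have hns : star n' = n' := cf_star _ _
  have hnm : n' * m' = m' * n' := (Commute.cfc_real (Commute.refl m') nuf).eq
  -- the cells
  let W := wcell s' z' v v'
  have hTW : ∀ k, T * W k = W k := by
    intro k
    show T * (v k.castSucc * s' + v (Fin.last _) * qcell z' v' k) = _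
    rw [mul_add, ← mul_assoc, ← mul_assoc, hI.T_v, hI.T_v]
    rfl
  have haW : ∀ k, a * W k = W k := by
    intro k
    show a * (v k.castSucc * s' + v (Fin.last _) * qcell z' v' k) = _
    rw [mul_add, ← mul_assoc, ← mul_assoc, hI.v_range, hI.v_range]
    rfl
  have hTw : ∀ k, T * (n' * W k) = n' * W k := by
    intro k
    rw [← mul_assoc, c1 _ hTB _ hnB, mul_assoc, hTW]
  have haw : ∀ k, a * (n' * W k) = n' * W k := by
    intro k
    rw [← mul_assoc, c1 _ haB _ hnB, mul_assoc, haW]
  let y : Fin (M + 1) → F := fun k => star z * (n' * W k)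
  have cTsz : T * star z = star z * T := (star_tt_comm hI.x_sq).symm
  have hTy : ∀ k, T * y k = y k := by
    intro k
    show T * (star z * (n' * W k)) = star z * (n' * W k)
    rw [← mul_assoc, cTsz, mul_assoc, hTw]
  have hDsa : IsSelfAdjoint (tt Y) := tt_sa Y
  have hQy : ∀ k, Qc (tt Y) * y k = 0 := fun k =>
    qc_of_fix (tt_nonneg z') cTT' hD hDsa (hTy k)
  have hstarW : ∀ k, star (Y * y k) * (Y * y k) = star (W k) * W k := by
    intro k
    have e1 : Y * y k = (Y * star z) * (n' * W k) := by
      show Y * (star z * (n' * W k)) = _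
      noncomm_ring
    have e2 : star (Y * star z) = z * star Y := by
      rw [star_mul, star_star]
    have e3 : (z * star Y * (Y * star z)) * (n' * W k) = m' * (n' * W k) := by
      rw [hK]
      exact kact cTT' (c1 _ haB _ hbB') (c1 _ hTB _ hbB') (haw k) (hTw k)
    rw [e1, star_mul (Y * star z), e2, star_mul n', hns]
    calc star (W k) * n' * (z * star Y) * (Y * star z * (n' * W k))
        = star (W k) * n' * ((z * star Y * (Y * star z)) * (n' * W k)) := by noncomm_ring
      _ = star (W k) * n' * (m' * (n' * W k)) := by rw [e3]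
      _ = star (W k) * (n' * (m' * n')) * W k := by noncomm_ring
      _ = star (W k) * (n' * (n' * m')) * W k := by rw [hnm]
      _ = star (W k) * (n' * n' * m') * W k := by noncomm_ring
      _ = star (W k) * W k := by rw [hnn, mul_one]
  have hsum : ∑ k, star (Y * y k) * (Y * y k) = s * s * (s' * s') := by
    simp only [hstarW]
    exact wcell_sum hI hI' c1 hsAs' hv hvs hs' hz' hv'
  have hQR : Qc (tt Y) * (1 - s * s * (s' * s')) = 0 := by
    have h1 : Qc (tt Y) * (1 - s * s) = 0 :=
      qc_of_fix (tt_nonneg z') cTT' hD hDsa hI.T_fix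
    have h2 : Qc (tt Y) * (1 - s' * s') = 0 := by
      refine qc_of_fix (P := T') (P' := T) (tt_nonneg z) cTT'.symm ?_ hDsa hI'.T_fix
      rw [hD, add_comm (T * T), add_comm T]
    have hss : (s * s) * (s' * s') = (s' * s') * (s * s) :=
      c1 _ (mul_mem hs hs) _ (mul_mem hs' hs')
    have h3 : 1 - s * s * (s' * s') = (1 - s * s) + (1 - s' * s') * (s * s) := by
      rw [hss]; noncomm_ring
    rw [h3, mul_add, h1, ← mul_assoc, h2, zero_mul, add_zero]
  exact assemble hY y _ hQy hsum hQR

end

end Vale.Agent.Lib.P101
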