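import Vale.Agent.Lib.P101.Cols
import Vale.Agent.Lib.P101.Step

/-! The central element and the weighted matrix units. -/

namespace Vale.Agent.Lib.P101

set_option linter.unusedSectionVars false

open scoped ComplexOrder

attribute [local instance] CStarAlgebra.spectralOrder CStarAlgebra.spectralOrderedRing

noncomputable section

variable {D : Type*} [CStarAlgebra D]

/-- The central element. -/
def cen (x s v : D) : D := ∑ b, CC x s v b * star (CC x s v b)

/-- The `M_2` part. -/
def aij (x s v : D) (i j : Fin 2) : D := ee x s i j - C2 x v i * star (C2 x v j)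

/-- The `M_3` part. -/
def bbk (x s v : D) (a b : Fin 3) : D := CC x s v a * star (CC x s v b)

/-- The weighted matrix units. -/
def WW (x s v : D) (p r : Fin 2 × Fin 3) : D :=
  CC x s v (pi6 p).2 * ee x s (pi6 p).1 (pi6 r).1 * star (CC x s v (pi6 r).2)

lemma pi6_low (i k : Fin 2) : pi6 (i, k.castSucc) = (k, i.castSucc) := by
  revert i k
  decide

lemma pi6_two (i : Fin 2) : pi6 (i, 2) = (i, 2) := by
  revert i
  decide

lemma fin3_cases (k : Fin 3) : (∃ k' : Fin 2, k = k'.castSucc) ∨ k = 2 := by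
  revert k
  decide

lemma castSucc_ne_two (j : Fin 2) : j.castSucc ≠ (2 : Fin 3) := by
  revert j
  decide

section Rel

variable {x s s₁ v : D} (R : ColRel x s s₁ v)

include R

lemma cen_star : star (cen x s v) = cen x s v := by
  simp only [cen, star_sum, star_mul, star_star]

lemma cen_C (b : Fin 3) : cen x s v * CC x s v b = CC x s v b * (s * s) := by
  unfold cen
  rw [Finset.sum_mul]
  simp only [mul_assoc, star_CC_mul R]
  simp

lemma C_cen (b : Fin 3) : CC x s v b * cen x s v = CC x s v b * (s * s) := by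
  unfold cen
  rw [Fin.sum_univ_three]
  have h0 : CC x s v b * CC x s v 0 = 0 := by
    have := CC_C2 R b 0
    simpa [C2, CC] using this
  have h1 : CC x s v b * CC x s v 1 = 0 := by
    have := CC_C2 R b 1
    simpa [C2, CC] using this
  have h2 : star (CC x s v 2) = s := by
    rw [CC_two R, R.s_star]
  rw [mul_add, mul_add, ← mul_assoc, ← mul_assoc, ← mul_assoc, h0, h1, h2, CC_two R]
  simp [mul_assoc]

lemma cen_comm_C (b : Fin 3) : cen x s v * CC x s v b = CC x s v b * cen x s v := by
  rw [cen_C R, C_cen R]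

lemma cen_comm_sC (b : Fin 3) :
    cen x s v * star (CC x s v b) = star (CC x s v b) * cen x s v := by
  have := congrArg star (cen_comm_C R b)
  rw [star_mul, star_mul, cen_star R] at this
  exact this.symm

lemma sC_cen (b : Fin 3) : star (CC x s v b) * cen x s v = s * s * star (CC x s v b) := by
  have := congrArg star (cen_C R b)
  rw [star_mul, star_mul, cen_star R, star_mul, R.s_star] at this
  exact this

lemma C_h (b : Fin 3) : CC x s v b * hh s = (1 - cen x s v) * CC x s v b := by
  unfold hh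
  rw [mul_sub, sub_mul, mul_one, one_mul, cen_C R]

lemma e_cen (i j : Fin 2) :
    ee x s i j * cen x s v = C2 x v i * star (C2 x v j) + s * ee x s i j * s := by
  unfold cen
  rw [Fin.sum_univ_three, mul_add, mul_add]
  have h0 : ee x s i j * CC x s v 0 = if j = 0 then C2 x v i else 0 := by
    have := ee_C2 R i j 0
    simpa [C2, CC] using this
  have h1 : ee x s i j * CC x s v 1 = if j = 1 then C2 x v i else 0 := by
    have := ee_C2 R i j 1
    simpa [C2, CC] using this
  have h2 : star (CC x s v 2) = s := by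
    rw [CC_two R, R.s_star]
  rw [← mul_assoc, ← mul_assoc, ← mul_assoc, h0, h1, h2, CC_two R, ← s_ee R]
  fin_cases j <;> simp [C2, CC]

lemma cen_e (i j : Fin 2) :
    cen x s v * ee x s i j = C2 x v i * star (C2 x v j) + s * ee x s i j * s := by
  have := congrArg star (e_cen R j i)
  simp only [star_mul, star_add, star_star, cen_star R, star_ee R, R.s_star] at this
  rw [this]
  simp only [mul_assoc]

lemma cen_comm_e (i j : Fin 2) : cen x s v * ee x s i j = ee x s i j * cen x s v := by
  rw [cen_e R, e_cen R]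

lemma cen_comm_C2 (k : Fin 2) : cen x s v * C2 x v k = C2 x v k * cen x s v := by
  rw [C2_eq R]
  exact cen_comm_C R _

lemma cen_comm_sC2 (k : Fin 2) :
    cen x s v * star (C2 x v k) = star (C2 x v k) * cen x s v := by
  rw [C2_eq R]
  exact cen_comm_sC R _

lemma cen_comm_a (i j : Fin 2) : cen x s v * aij x s v i j = aij x s v i j * cen x s v := by
  unfold aij
  rw [mul_sub, sub_mul, cen_comm_e R, ← mul_assoc, cen_comm_C2 R, mul_assoc, cen_comm_sC2 R,
    mul_assoc]

lemma cen_comm_b (a b : Fin 3) : cen x s v * bbk x s v a b = bbk x s v a b * cen x s v := by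
  unfold bbk
  rw [← mul_assoc, cen_comm_C R, mul_assoc, cen_comm_sC R, mul_assoc]

lemma cen_comm_W (p r : Fin 2 × Fin 3) : cen x s v * WW x s v p r = WW x s v p r * cen x s v := by
  unfold WW
  rw [← mul_assoc, ← mul_assoc, cen_comm_C R, mul_assoc (CC x s v _), cen_comm_e R, mul_assoc,
    mul_assoc, mul_assoc, cen_comm_sC R]
  simp only [mul_assoc]

lemma hh_nonneg : 0 ≤ hh s := by
  have h1 : hh s = star s₁ * s₁ := by
    unfold hh
    rw [← R.s_norm]
    abel
  rw [h1]
  exact star_mul_self_nonneg s₁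

lemma cen_nonneg : 0 ≤ cen x s v :=
  Finset.sum_nonneg fun b _ => by simp

lemma cen_sq : cen x s v * cen x s v = ∑ b, CC x s v b * (s * s) * star (CC x s v b) := by
  have h1 : cen x s v * cen x s v = ∑ b, cen x s v * (CC x s v b * star (CC x s v b)) := by
    rw [← Finset.mul_sum]
    rfl
  rw [h1]
  refine Finset.sum_congr rfl fun b _ => ?_
  rw [← mul_assoc, cen_C R]

lemma cen_le_one : cen x s v ≤ 1 := by
  have h0 := cen_nonneg R
  have h1 : cen x s v * cen x s v ≤ cen x s v := by
    rw [cen_sq R]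
    apply sub_nonneg.1
    have h2 : cen x s v - ∑ b, CC x s v b * (s * s) * star (CC x s v b)
        = ∑ b, CC x s v b * hh s * star (CC x s v b) := by
      unfold cen hh
      rw [← Finset.sum_sub_distrib]
      refine Finset.sum_congr rfl fun b _ => ?_
      noncomm_ring
    rw [h2]
    refine Finset.sum_nonneg fun b _ => ?_
    simpa using star_left_conjugate_nonneg (hh_nonneg R) (star (CC x s v b))
  have h2 : 0 ≤ cen x s v * cen x s v := sq_nonneg_of_sa h0.isSelfAdjoint
  have h3 := CStarAlgebra.norm_le_norm_of_nonneg_of_le h2 h1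
  rw [norm_mul_self_of_nonneg h0.isSelfAdjoint] at h3
  have h4 : ‖cen x s v‖ ≤ 1 := by
    by_contra h5
    push_neg at h5
    nlinarith
  exact (CStarAlgebra.norm_le_one_iff_of_nonneg _ h0).1 h4

/-- `M_2`-relations. -/
lemma a_C2 (i j k : Fin 2) :
    aij x s v i j * C2 x v k = if j = k then (1 - cen x s v) * C2 x v i else 0 := by
  unfold aij
  rw [sub_mul, ee_C2 R, mul_assoc]
  have h1 : star (C2 x v j) * C2 x v k = if j = k then s * s else 0 := by
    rw [C2_eq R j, star_CC_mul_C2 R]
    simp [Fin.castSucc_inj]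
  rw [h1]
  split_ifs
  · rw [C2_eq R i, sub_mul, one_mul, cen_C R]
  · simp

lemma sC2_s (j : Fin 2) : star (C2 x v j) * s = 0 := by
  have h1 := star_CC_mul R j.castSucc 2
  rw [CC_two R, if_neg (castSucc_ne_two j)] at h1
  rw [C2_eq R]
  exact h1

lemma a_s (i j : Fin 2) : aij x s v i j * s = s * ee x s i j := by
  unfold aij
  rw [sub_mul, mul_assoc, sC2_s R, mul_zero, sub_zero, s_ee R]

lemma sC2_e (j k l : Fin 2) :
    star (C2 x v j) * ee x s k l = if k = j then star (C2 x v l) else 0 := by
  have h1 := congrArg star (ee_C2 R l k j)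
  rw [star_mul, star_ee R] at h1
  rw [h1]
  split_ifs <;> simp

lemma star_C2_mul (j k : Fin 2) :
    star (C2 x v j) * C2 x v k = if j = k then s * s else 0 := by
  rw [C2_eq R j, star_CC_mul_C2 R]
  simp [Fin.castSucc_inj]

lemma s_e_s (i j : Fin 2) : s * ee x s i j * s = s * s * ee x s i j := by
  rw [mul_assoc, ← s_ee R, mul_assoc]

lemma cen_e' (i l : Fin 2) :
    hh s * ee x s i l - C2 x v i * star (C2 x v l) = (1 - cen x s v) * ee x s i l := by
  rw [sub_mul, one_mul, cen_e R, s_e_s R]
  unfold hh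
  rw [sub_mul, one_mul]
  abel

lemma a_mul_a (i j k l : Fin 2) :
    aij x s v i j * aij x s v k l = if j = k then (1 - cen x s v) * aij x s v i l else 0 := by
  conv_lhs => rw [aij, aij]
  have h1 : (ee x s i j - C2 x v i * star (C2 x v j)) * (ee x s k l - C2 x v k * star (C2 x v l))
      = ee x s i j * ee x s k l - C2 x v i * (star (C2 x v j) * ee x s k l)
        - ((ee x s i j - C2 x v i * star (C2 x v j)) * C2 x v k) * star (C2 x v l) := by
    noncomm_ring
  rw [h1]
  have h2 := a_C2 R i j k
  unfold aij at h2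
  rw [h2, ee_mul R, sC2_e R]
  by_cases hjk : j = k
  · subst hjk
    simp only [if_true]
    unfold aij
    rw [mul_sub (1 - cen x s v), ← cen_e' R]
    noncomm_ring
  · have hkj : k ≠ j := Ne.symm hjk
    simp [hjk, hkj]

lemma b_mul_b (a b d f : Fin 3) :
    bbk x s v a b * bbk x s v d f = if b = d then cen x s v * bbk x s v a f else 0 := by
  unfold bbk
  have h1 : CC x s v a * star (CC x s v b) * (CC x s v d * star (CC x s v f))
      = CC x s v a * (star (CC x s v b) * CC x s v d) * star (CC x s v f) := by noncomm_ring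
  rw [h1, star_CC_mul R]
  split_ifs
  · rw [← cen_C R]
    noncomm_ring
  · simp

lemma star_a (i j : Fin 2) : star (aij x s v i j) = aij x s v j i := by
  unfold aij
  rw [star_sub, star_ee R, star_mul, star_star]

lemma star_b (a b : Fin 3) : star (bbk x s v a b) = bbk x s v b a := by
  unfold bbk
  rw [star_mul, star_star]

lemma star_W (p r : Fin 2 × Fin 3) : star (WW x s v p r) = WW x s v r p := by
  unfold WW
  rw [star_mul, star_mul, star_star, star_ee R]
  noncomm_ring

lemma a_W (i j j₀ : Fin 2) (k₀ : Fin 3) (r : Fin 2 × Fin 3) :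
    aij x s v i j * WW x s v (j₀, k₀) r
      = if j = j₀ then (1 - cen x s v) * WW x s v (i, k₀) r else 0 := by
  rcases fin3_cases k₀ with ⟨k, rfl⟩ | rfl
  · unfold WW
    rw [pi6_low, pi6_low]
    simp only
    rw [← C2_eq R, ← C2_eq R]
    rw [← mul_assoc, ← mul_assoc, a_C2 R]
    split_ifs
    · noncomm_ring
    · simp
  · unfold WW
    rw [pi6_two, pi6_two]
    simp only
    rw [CC_two R, ← mul_assoc, ← mul_assoc, a_s R]
    have h1 : s * ee x s i j * ee x s j₀ (pi6 r).1 = s * (ee x s i j * ee x s j₀ (pi6 r).1) :=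
      mul_assoc _ _ _
    rw [h1, ee_mul R]
    split_ifs
    · have h2 : s * hh s = (1 - cen x s v) * s := by
        have := C_h R 2
        rwa [CC_two R] at this
      rw [← mul_assoc s, h2]
      noncomm_ring
    · simp

lemma b_W (a b : Fin 3) (p r : Fin 2 × Fin 3) :
    bbk x s v a b * WW x s v p r
      = if b = (pi6 p).2 then cen x s v * WW x s v (pi6 ((pi6 p).1, a)) r else 0 := by
  unfold bbk
  have h1 : WW x s v (pi6 ((pi6 p).1, a)) r
      = CC x s v a * ee x s (pi6 p).1 (pi6 r).1 * star (CC x s v (pi6 r).2) := by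
    unfold WW
    rw [pi6_pi6]
  rw [h1]
  unfold WW
  have h2 : CC x s v a * star (CC x s v b) *
      (CC x s v (pi6 p).2 * ee x s (pi6 p).1 (pi6 r).1 * star (CC x s v (pi6 r).2))
      = CC x s v a * (star (CC x s v b) * CC x s v (pi6 p).2) * ee x s (pi6 p).1 (pi6 r).1
        * star (CC x s v (pi6 r).2) := by noncomm_ring
  rw [h2, star_CC_mul R]
  split_ifs
  · rw [← cen_C R]
    noncomm_ring
  · simp

lemma W_W (p r p' r' : Fin 2 × Fin 3) :
    WW x s v p r * WW x s v p' r'
      = if r = p' then (cen x s v * (1 - cen x s v)) * WW x s v p r' else 0 := by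
  unfold WW
  set e1 := ee x s (pi6 p).1 (pi6 r).1 with he1
  set e2 := ee x s (pi6 p').1 (pi6 r').1 with he2
  have h1 : CC x s v (pi6 p).2 * e1 * star (CC x s v (pi6 r).2) *
      (CC x s v (pi6 p').2 * e2 * star (CC x s v (pi6 r').2))
      = CC x s v (pi6 p).2 * e1 * (star (CC x s v (pi6 r).2) * CC x s v (pi6 p').2) * e2
        * star (CC x s v (pi6 r').2) := by noncomm_ring
  rw [h1, star_CC_mul R]
  by_cases h2 : r = p'
  · subst h2
    simp only [if_true]
    have h3 : e1 * (s * s) = s * s * e1 := by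
      rw [he1, ← mul_assoc, ← s_ee R, mul_assoc, ← s_ee R, mul_assoc]
    have h4 : e1 * e2 = hh s * ee x s (pi6 p).1 (pi6 r').1 := by
      rw [he1, he2, ee_mul R, if_pos rfl]
    calc CC x s v (pi6 p).2 * e1 * (s * s) * e2 * star (CC x s v (pi6 r').2)
        = CC x s v (pi6 p).2 * (e1 * (s * s)) * e2 * star (CC x s v (pi6 r').2) := by noncomm_ring
      _ = (CC x s v (pi6 p).2 * (s * s)) * (e1 * e2) * star (CC x s v (pi6 r').2) := by
          rw [h3]; noncomm_ring
      _ = (cen x s v * CC x s v (pi6 p).2 * hh s) * ee x s (pi6 p).1 (pi6 r').1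
            * star (CC x s v (pi6 r').2) := by
          rw [h4, cen_C R]; noncomm_ring
      _ = cen x s v * (CC x s v (pi6 p).2 * hh s) * ee x s (pi6 p).1 (pi6 r').1
            * star (CC x s v (pi6 r').2) := by noncomm_ring
      _ = _ := by rw [C_h R]; noncomm_ring
  · by_cases h3 : (pi6 r).2 = (pi6 p').2
    · have h4 : (pi6 r).1 ≠ (pi6 p').1 := by
        intro h5
        exact h2 ((pi6).injective (Prod.ext h5 h3))
      rw [if_pos h3, if_neg h2]
      have h5 : e1 * (s * s) = s * s * e1 := by
        rw [he1, ← mul_assoc, ← s_ee R, mul_assoc, ← s_ee R, mul_assoc]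
      have h6 : e1 * e2 = 0 := by
        rw [he1, he2, ee_mul R, if_neg h4]
      calc CC x s v (pi6 p).2 * e1 * (s * s) * e2 * star (CC x s v (pi6 r').2)
          = CC x s v (pi6 p).2 * (e1 * (s * s)) * e2 * star (CC x s v (pi6 r').2) := by noncomm_ring
        _ = CC x s v (pi6 p).2 * (s * s) * (e1 * e2) * star (CC x s v (pi6 r').2) := by
            rw [h5]; noncomm_ring
        _ = 0 := by rw [h6]; simp
    · rw [if_neg h3, if_neg h2]
      simp

lemma ee_sum : ee x s 0 0 + ee x s 1 1 = hh s := by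
  unfold ee
  rw [← mul_add]
  simpa [uu] using h_T R

lemma c_a (i j : Fin 2) :
    cen x s v * aij x s v i j = ∑ k : Fin 3, WW x s v (i, k) (j, k) := by
  rw [Fin.sum_univ_three]
  unfold WW
  have e0 : (0 : Fin 3) = (0 : Fin 2).castSucc := rfl
  have e1 : (1 : Fin 3) = (1 : Fin 2).castSucc := rfl
  rw [e0, e1, pi6_low, pi6_low, pi6_low, pi6_low, pi6_two, pi6_two]
  simp only
  rw [← C2_eq R, ← C2_eq R, CC_two R, R.s_star]
  have h1 : C2 x v i * ee x s 0 0 * star (C2 x v j) + C2 x v i * ee x s 1 1 * star (C2 x v j)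
      = C2 x v i * hh s * star (C2 x v j) := by
    rw [← ee_sum R]
    noncomm_ring
  have h3 : C2 x v i * hh s * star (C2 x v j)
      = C2 x v i * star (C2 x v j) - C2 x v i * (s * s) * star (C2 x v j) := by
    unfold hh
    noncomm_ring
  have h4 : cen x s v * (C2 x v i * star (C2 x v j)) = C2 x v i * (s * s) * star (C2 x v j) := by
    rw [← mul_assoc, C2_eq R i, cen_C R]
  unfold aij
  rw [mul_sub, cen_e R, h4, h1, h3]
  abel

lemma h1_b (a b : Fin 3) :
    (1 - cen x s v) * bbk x s v a b = ∑ l : Fin 2, WW x s v (pi6 (l, a)) (pi6 (l, b)) := by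
  rw [Fin.sum_univ_two]
  unfold WW bbk
  simp only [pi6_pi6]
  rw [← mul_assoc, ← C_h R, ← ee_sum R]
  noncomm_ring

lemma a_b (i j : Fin 2) (a b : Fin 3) :
    aij x s v i j * bbk x s v a b = ∑ l : Fin 2,
      if j = (pi6 (l, a)).1 then WW x s v (i, (pi6 (l, a)).2) (pi6 (l, b)) else 0 := by
  rcases fin3_cases a with ⟨a', rfl⟩ | rfl
  · simp only [pi6_low]
    have hW : ∀ l : Fin 2, WW x s v (i, l.castSucc) (pi6 (l, b))
        = C2 x v i * ee x s l l * star (CC x s v b) := by
      intro l
      unfold WW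
      rw [pi6_low, pi6_pi6]
      simp only
      rw [← C2_eq R]
    unfold bbk
    rw [← C2_eq R, ← mul_assoc, a_C2 R]
    by_cases h : j = a'
    · simp only [h, if_true, hW]
      rw [Fin.sum_univ_two, C2_eq R i, ← C_h R, ← ee_sum R, ← C2_eq R i]
      noncomm_ring
    · simp [h]
  · simp only [pi6_two]
    rw [Finset.sum_ite_eq Finset.univ j]
    simp only [Finset.mem_univ, if_true]
    unfold WW bbk
    rw [pi6_two, pi6_pi6]
    simp only
    rw [CC_two R, ← mul_assoc, a_s R]

lemma sum_one : ∑ i, aij x s v i i + ∑ b, bbk x s v b b = 1 := by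
  rw [Fin.sum_univ_two, Fin.sum_univ_three]
  unfold aij bbk
  have h1 : CC x s v 0 = C2 x v 0 := by simp [CC, C2]
  have h2 : CC x s v 1 = C2 x v 1 := by simp [CC, C2]
  rw [h1, h2, CC_two R, R.s_star]
  have h3 := ee_sum R
  have h4 : hh s = 1 - s * s := rfl
  calc ee x s 0 0 - C2 x v 0 * star (C2 x v 0) + (ee x s 1 1 - C2 x v 1 * star (C2 x v 1))
      + (C2 x v 0 * star (C2 x v 0) + C2 x v 1 * star (C2 x v 1) + s * s)
      = (ee x s 0 0 + ee x s 1 1) + s * s := by abel
    _ = 1 := by rw [h3, h4]; abel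

end Rel

end

end Vale.Agent.Lib.P101
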