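import Vale.Agent.Lib.P101.Cols2

/-! The glue data from the invariant with one cell. -/

namespace Vale.Agent.Lib.P101

set_option linter.unusedSectionVars false

open scoped ComplexOrder

attribute [local instance] CStarAlgebra.spectralOrder CStarAlgebra.spectralOrderedRing

noncomputable section

section Matrices

lemma kr1_single (i j : Fin 2) (z : ℂ) :
    kr1 (Matrix.single i j z) = ∑ k : Fin 3, Matrix.single (i, k) (j, k) z := by
  ext ⟨a, b⟩ ⟨c, d⟩
  show (Matrix.single i j z) a c * (1 : Matrix (Fin 3) (Fin 3) ℂ) b d = _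
  rw [Matrix.sum_apply, Finset.sum_eq_single b]
  · by_cases h1 : i = a <;> by_cases h2 : j = c <;> by_cases h3 : b = d <;>
      simp [Matrix.single_apply, Matrix.one_apply, h1, h2, h3]
  · intro k _ hk
    simp [Matrix.single_apply, Prod.ext_iff, hk.symm, Ne.symm hk]
    tauto
  · simp

lemma kr2_single (a b : Fin 3) (z : ℂ) :
    kr2 (Matrix.single a b z) = ∑ l : Fin 2, Matrix.single (l, a) (l, b) z := by
  ext ⟨c, d⟩ ⟨e, f⟩
  show (1 : Matrix (Fin 2) (Fin 2) ℂ) c e * (Matrix.single a b z) d f = _
  rw [Matrix.sum_apply, Finset.sum_eq_single c]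
  · by_cases h1 : c = e <;> by_cases h2 : a = d <;> by_cases h3 : b = f <;>
      simp [Matrix.single_apply, Matrix.one_apply, h1, h2, h3]
  · intro k _ hk
    simp [Matrix.single_apply, Prod.ext_iff, hk.symm, Ne.symm hk]
    tauto
  · simp

lemma Nh_single (a b : Fin 3) (z : ℂ) :
    Nh (Matrix.single a b z) = ∑ l : Fin 2, Matrix.single (pi6 (l, a)) (pi6 (l, b)) z := by
  ext u w
  rw [Nh_apply, kr2_single, Matrix.sum_apply, Matrix.sum_apply]
  refine Finset.sum_congr rfl fun l _ => ?_
  simp only [Matrix.single_apply]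
  have h1 : (l, a) = pi6 u ↔ pi6 (l, a) = u := by
    constructor
    · intro h; rw [h, pi6_pi6]
    · intro h; rw [← h, pi6_pi6]
  have h2 : (l, b) = pi6 w ↔ pi6 (l, b) = w := by
    constructor
    · intro h; rw [h, pi6_pi6]
    · intro h; rw [← h, pi6_pi6]
  simp only [h1, h2]

lemma kr1_single_mul (i j j₀ : Fin 2) (k₀ : Fin 3) (r : Fin 2 × Fin 3) (z w : ℂ) :
    kr1 (Matrix.single i j z) * Matrix.single (j₀, k₀) r w
      = if j = j₀ then Matrix.single (i, k₀) r (z * w) else 0 := by
  rw [kr1_single, Finset.sum_mul]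
  by_cases h : j = j₀
  · subst h
    rw [if_pos rfl, Finset.sum_eq_single k₀]
    · exact Matrix.single_mul_single_same _ _ _ _ _
    · intro k _ hk
      apply Matrix.single_mul_single_of_ne
      simpa [Prod.ext_iff] using hk
    · simp
  · rw [if_neg h]
    refine Finset.sum_eq_zero fun k _ => ?_
    apply Matrix.single_mul_single_of_ne
    simp [Prod.ext_iff, h]

lemma Nh_single_mul (a b : Fin 3) (p r : Fin 2 × Fin 3) (z w : ℂ) :
    Nh (Matrix.single a b z) * Matrix.single p r w
      = if b = (pi6 p).2 then Matrix.single (pi6 ((pi6 p).1, a)) r (z * w) else 0 := by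
  rw [Nh_single, Finset.sum_mul]
  by_cases h : b = (pi6 p).2
  · rw [if_pos h, Finset.sum_eq_single (pi6 p).1]
    · have : pi6 ((pi6 p).1, b) = p := by
        rw [h]
        exact pi6_pi6 p
      rw [this]
      exact Matrix.single_mul_single_same _ _ _ _ _
    · intro l _ hl
      apply Matrix.single_mul_single_of_ne
      intro h2
      apply hl
      have h3 := congrArg pi6 h2
      rw [pi6_pi6] at h3
      exact congrArg Prod.fst h3
    · simp
  · rw [if_neg h]
    refine Finset.sum_eq_zero fun l _ => ?_
    apply Matrix.single_mul_single_of_ne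
    intro h2
    apply h
    have h3 := congrArg pi6 h2
    rw [pi6_pi6] at h3
    exact congrArg Prod.snd h3

end Matrices

section Lin

variable {D : Type*} [CStarAlgebra D]

/-- The linear extension of a family of matrix units. -/
def lin {κ : Type} [Fintype κ] [DecidableEq κ] (W : κ → κ → D) : Matrix κ κ ℂ →ₗ[ℂ] D where
  toFun X := ∑ p, ∑ r, X p r • W p r
  map_add' X Y := by simp [add_smul, Finset.sum_add_distrib]
  map_smul' c X := by simp [Finset.smul_sum, smul_smul]

variable {κ : Type} [Fintype κ] [DecidableEq κ] (W : κ → κ → D)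

lemma lin_apply (X : Matrix κ κ ℂ) : lin W X = ∑ p, ∑ r, X p r • W p r := rfl

lemma lin_single (p r : κ) (z : ℂ) : lin W (Matrix.single p r z) = z • W p r := by
  rw [lin_apply, Finset.sum_eq_single p, Finset.sum_eq_single r]
  · simp
  · intro b _ hb
    simp [Matrix.single_apply, Ne.symm hb]
  · simp
  · intro b _ hb
    refine Finset.sum_eq_zero fun c _ => ?_
    simp [Matrix.single_apply, Ne.symm hb]
  · simp

lemma lin_star (hW : ∀ p r, star (W p r) = W r p) (X : Matrix κ κ ℂ) :
    lin W (star X) = star (lin W X) := by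
  simp only [lin_apply, star_sum, star_smul, hW, Matrix.star_apply]
  rw [Finset.sum_comm]

lemma lin_comm {a : D} (ha : ∀ p r, a * W p r = W p r * a) (X : Matrix κ κ ℂ) :
    a * lin W X = lin W X * a := by
  simp only [lin_apply, Finset.mul_sum, Finset.sum_mul, mul_smul_comm, smul_mul_assoc, ha]

/-- Bilinear identities can be checked on matrix units. -/
lemma mat_ext2 {κ κ' : Type} [Fintype κ] [DecidableEq κ] [Fintype κ'] [DecidableEq κ']
    {V : Type*} [AddCommGroup V] (f g : Matrix κ κ ℂ → Matrix κ' κ' ℂ → V)
    (hf1 : ∀ a b c, f (a + b) c = f a c + f b c) (hf2 : ∀ a b c, f a (b + c) = f a b + f a c)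
    (hg1 : ∀ a b c, g (a + b) c = g a c + g b c) (hg2 : ∀ a b c, g a (b + c) = g a b + g a c)
    (h : ∀ i j z k l w, f (Matrix.single i j z) (Matrix.single k l w)
      = g (Matrix.single i j z) (Matrix.single k l w)) (a : Matrix κ κ ℂ) (b : Matrix κ' κ' ℂ) :
    f a b = g a b := by
  have zf1 : ∀ c, f 0 c = 0 := fun c => by
    have := hf1 0 0 c
    rw [add_zero] at this
    simpa using this
  have zg1 : ∀ c, g 0 c = 0 := fun c => by
    have := hg1 0 0 c
    rw [add_zero] at this
    simpa using this
  have zf2 : ∀ c, f c 0 = 0 := fun c => by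
    have := hf2 c 0 0
    rw [add_zero] at this
    simpa using this
  have zg2 : ∀ c, g c 0 = 0 := fun c => by
    have := hg2 c 0 0
    rw [add_zero] at this
    simpa using this
  induction a using Matrix.induction_on' with
  | h_zero => rw [zf1, zg1]
  | h_add p q hp hq => rw [hf1, hg1, hp, hq]
  | h_std_basis i j z =>
    induction b using Matrix.induction_on' with
    | h_zero => rw [zf2, zg2]
    | h_add p q hp hq => rw [hf2, hg2, hp, hq]
    | h_std_basis k l w => exact h i j z k l w

end Lin

section Gam

variable {D : Type*} [CStarAlgebra D]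

lemma spec_unit {c : D} (h0 : 0 ≤ c) (h1 : c ≤ 1) (z : ℂ) (hz : z ∈ spectrum ℂ c) :
    z.re ∈ Set.Icc (0 : ℝ) 1 := by
  have hsa : IsSelfAdjoint c := h0.isSelfAdjoint
  have e : z = ((z.re : ℝ) : ℂ) := hsa.mem_spectrum_eq_re hz
  have hr : z.re ∈ spectrum ℝ c := by
    rw [← spectrum.preimage_algebraMap ℂ]
    show ((z.re : ℝ) : ℂ) ∈ spectrum ℂ c
    rw [← e]
    exact hz
  constructor
  · exact spectrum_nonneg_of_nonneg h0 hr
  · by_cases hnt : Nontrivial D
    · have h2 : ‖z‖ ≤ ‖c‖ := spectrum.norm_le_norm_of_mem hz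
      have h3 : ‖c‖ ≤ 1 := (CStarAlgebra.norm_le_one_iff_of_nonneg c h0).2 h1
      have h4 : |z.re| ≤ ‖z‖ := Complex.abs_re_le_norm z
      exact (le_abs_self _).trans (h4.trans (h2.trans h3))
    · rw [not_nontrivial_iff_subsingleton] at hnt
      exact absurd hz (by simp [spectrum.of_subsingleton])

/-- The functional calculus of `c`, on the unit interval. -/
def gam (c : D) (h0 : 0 ≤ c) (h1 : c ≤ 1) : C(II, ℂ) →⋆ₐ[ℂ] D :=
  (cfcHom (h0.isSelfAdjoint.isStarNormal)).comp
    (ContinuousMap.compStarAlgHom' ℂ ℂ
      (⟨fun z => ⟨(z : ℂ).re, spec_unit h0 h1 z.1 z.2⟩, by fun_prop⟩ : C(spectrum ℂ c, II)))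

lemma gam_tc (c : D) (h0 : 0 ≤ c) (h1 : c ≤ 1) : gam c h0 h1 tc = c := by
  have h := cfcHom_id (R := ℂ) (p := IsStarNormal) (h0.isSelfAdjoint.isStarNormal)
  conv_rhs => rw [← h]
  show cfcHom (h0.isSelfAdjoint.isStarNormal) _ = _
  congr 1
  ext z
  exact (h0.isSelfAdjoint.mem_spectrum_eq_re z.2).symm

lemma gam_comm (c : D) (h0 : 0 ≤ c) (h1 : c ≤ 1) {b : D} (h : c * b = b * c) (F : C(II, ℂ)) :
    gam c h0 h1 F * b = b * gam c h0 h1 F := by
  have h2 : Commute c b := h
  have h3 : Commute (star c) b := by
    rw [h0.isSelfAdjoint.star_eq]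
    exact h2
  exact (Commute.cfcHom (h0.isSelfAdjoint.isStarNormal) h2 h3 _).eq

end Gam

section Data

variable {D : Type*} [CStarAlgebra D] {x s s₁ v : D} (R : ColRel x s s₁ v)

/-- The glue data of the invariant with one cell. -/
def glueData : GlueData kr1 Nh D where
  γ := gam (cen x s v) (cen_nonneg R) (cen_le_one R)
  A := lin (aij x s v)
  B := lin (bbk x s v)
  Ψ₀ := lin (WW x s v)
  A_star := lin_star _ (star_a R)
  B_star := lin_star _ (star_b R)
  Ψ_star := lin_star _ (star_W R)
  γA := fun F m => gam_comm _ _ _ (lin_comm _ (cen_comm_a R) m) F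
  γB := fun F m => gam_comm _ _ _ (lin_comm _ (cen_comm_b R) m) F
  γΨ := fun F m => gam_comm _ _ _ (lin_comm _ (cen_comm_W R) m) F
  g1 := by
    have hc : gam (cen x s v) (cen_nonneg R) (cen_le_one R) (1 - tc) = 1 - cen x s v := by
      rw [map_sub, map_one, gam_tc]
    rw [hc]
    refine mat_ext2 (fun m m' => lin (aij x s v) m * lin (aij x s v) m')
      (fun m m' => (1 - cen x s v) * lin (aij x s v) (m * m')) ?_ ?_ ?_ ?_ ?_
    · intro a b c; simp only [map_add, add_mul]
    · intro a b c; simp only [map_add, mul_add]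
    · intro a b c; simp only [add_mul, map_add, mul_add]
    · intro a b c; simp only [mul_add, map_add]
    · intro i j z k l w
      simp only [lin_single, smul_mul_smul_comm, a_mul_a R]
      by_cases h : j = k
      · subst h
        rw [if_pos rfl, Matrix.single_mul_single_same, lin_single, mul_smul_comm]
      · rw [if_neg h, Matrix.single_mul_single_of_ne (h := h), map_zero]
        simp
  g2 := by
    rw [gam_tc]
    refine mat_ext2 (fun m m' => lin (bbk x s v) m * lin (bbk x s v) m')
      (fun m m' => cen x s v * lin (bbk x s v) (m * m')) ?_ ?_ ?_ ?_ ?_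
    · intro a b c; simp only [map_add, add_mul]
    · intro a b c; simp only [map_add, mul_add]
    · intro a b c; simp only [add_mul, map_add, mul_add]
    · intro a b c; simp only [mul_add, map_add]
    · intro i j z k l w
      simp only [lin_single, smul_mul_smul_comm, b_mul_b R]
      by_cases h : j = k
      · subst h
        rw [if_pos rfl, Matrix.single_mul_single_same, lin_single, mul_smul_comm]
      · rw [if_neg h, Matrix.single_mul_single_of_ne (h := h), map_zero]
        simp
  g3 := by
    refine mat_ext2 (fun m n => lin (aij x s v) m * lin (bbk x s v) n)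
      (fun m n => lin (WW x s v) (kr1 m * Nh n)) ?_ ?_ ?_ ?_ ?_
    · intro a b c; simp only [map_add, add_mul]
    · intro a b c; simp only [map_add, mul_add]
    · intro a b c; simp only [map_add, add_mul]
    · intro a b c; simp only [map_add, mul_add]
    · intro i j z a b w
      simp only [lin_single, smul_mul_smul_comm, a_b R]
      rw [Nh_single, Finset.mul_sum, map_sum, Finset.smul_sum]
      refine Finset.sum_congr rfl fun l _ => ?_
      have h1 : pi6 (l, a) = ((pi6 (l, a)).1, (pi6 (l, a)).2) := rfl
      rw [h1, kr1_single_mul]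
      simp only
      split_ifs
      · rw [lin_single]
      · simp
  g4 := by
    have hc : gam (cen x s v) (cen_nonneg R) (cen_le_one R) (1 - tc) = 1 - cen x s v := by
      rw [map_sub, map_one, gam_tc]
    rw [hc]
    refine mat_ext2 (fun m X => lin (aij x s v) m * lin (WW x s v) X)
      (fun m X => (1 - cen x s v) * lin (WW x s v) (kr1 m * X)) ?_ ?_ ?_ ?_ ?_
    · intro a b c; simp only [map_add, add_mul]
    · intro a b c; simp only [map_add, mul_add]
    · intro a b c; simp only [map_add, add_mul, mul_add]
    · intro a b c; simp only [map_add, mul_add]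
    · rintro i j z ⟨j₀, k₀⟩ r w
      simp only [lin_single, smul_mul_smul_comm, a_W R]
      rw [kr1_single_mul]
      split_ifs
      · rw [lin_single, mul_smul_comm]
      · simp
  g5 := by
    rw [gam_tc]
    refine mat_ext2 (fun m X => lin (bbk x s v) m * lin (WW x s v) X)
      (fun m X => cen x s v * lin (WW x s v) (Nh m * X)) ?_ ?_ ?_ ?_ ?_
    · intro a b c; simp only [map_add, add_mul]
    · intro a b c; simp only [map_add, mul_add]
    · intro a b c; simp only [map_add, add_mul, mul_add]
    · intro a b c; simp only [map_add, mul_add]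
    · intro a b z p r w
      simp only [lin_single, smul_mul_smul_comm, b_W R]
      rw [Nh_single_mul]
      split_ifs
      · rw [lin_single, mul_smul_comm]
      · simp
  g6 := by
    have hc : gam (cen x s v) (cen_nonneg R) (cen_le_one R) (tc * (1 - tc))
        = cen x s v * (1 - cen x s v) := by
      rw [map_mul, map_sub, map_one, gam_tc]
    rw [hc]
    refine mat_ext2 (fun X X' => lin (WW x s v) X * lin (WW x s v) X')
      (fun X X' => (cen x s v * (1 - cen x s v)) * lin (WW x s v) (X * X')) ?_ ?_ ?_ ?_ ?_
    · intro a b c; simp only [map_add, add_mul]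
    · intro a b c; simp only [map_add, mul_add]
    · intro a b c; simp only [add_mul, map_add, mul_add]
    · intro a b c; simp only [mul_add, map_add]
    · intro p r z p' r' w
      simp only [lin_single, smul_mul_smul_comm, W_W R]
      by_cases h : r = p'
      · subst h
        rw [if_pos rfl, Matrix.single_mul_single_same, lin_single, mul_smul_comm]
      · rw [if_neg h, Matrix.single_mul_single_of_ne (h := h), map_zero]
        simp
  g7 := by
    rw [gam_tc]
    intro m
    induction m using Matrix.induction_on' with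
    | h_zero => simp
    | h_add p q hp hq => simp only [map_add, mul_add, hp, hq]
    | h_std_basis i j z =>
      rw [lin_single, mul_smul_comm, c_a R, kr1_single, map_sum, Finset.smul_sum]
      refine Finset.sum_congr rfl fun k _ => ?_
      rw [lin_single]
  g8 := by
    have hc : gam (cen x s v) (cen_nonneg R) (cen_le_one R) (1 - tc) = 1 - cen x s v := by
      rw [map_sub, map_one, gam_tc]
    rw [hc]
    intro m
    induction m using Matrix.induction_on' with
    | h_zero => simp
    | h_add p q hp hq => simp only [map_add, mul_add, hp, hq]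
    | h_std_basis i j z =>
      rw [lin_single, mul_smul_comm, h1_b R, Nh_single, map_sum, Finset.smul_sum]
      refine Finset.sum_congr rfl fun k _ => ?_
      rw [lin_single]
  g9 := by
    have h1 : ∀ {κ : Type} [Fintype κ] [DecidableEq κ] (W : κ → κ → D),
        lin W 1 = ∑ i, W i i := by
      intro κ _ _ W
      rw [lin_apply]
      refine Finset.sum_congr rfl fun p _ => ?_
      rw [Finset.sum_eq_single p]
      · simp
      · intro b _ hb
        simp [Matrix.one_apply, Ne.symm hb]
      · simp
    rw [h1, h1]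
    exact sum_one R

include R in
/-- The unital homomorphism from `Z_{2,3}`. -/
theorem exists_hom_of_colRel : Nonempty (Z23 →⋆ₐ[ℂ] D) :=
  exists_hom_of_glue (glueData R)

end Data

end

end Vale.Agent.Lib.P101
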