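import Vale.Agent.Lib.P101.Max

/-! Commuting coordinates and positivity helpers. -/

namespace Vale.Agent.Lib.P101

open scoped ComplexOrder

attribute [local instance] CStarAlgebra.spectralOrder CStarAlgebra.spectralOrderedRing

section Pos

variable {S : Type*} [CStarAlgebra S]

lemma nonneg_sum_eq_zero {x y : S} (hx : 0 ≤ x) (hy : 0 ≤ y) (h : x + y = 0) : x = 0 ∧ y = 0 := by
  have h1 : x ≤ 0 := by
    have : x ≤ x + y := by simpa using hy
    rwa [h] at this
  have h2 : y ≤ 0 := by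
    have : y ≤ x + y := by simpa using hx
    rwa [h] at this
  exact ⟨le_antisymm h1 hx, le_antisymm h2 hy⟩

lemma norm_mul_self_of_nonneg {x : S} (hx : IsSelfAdjoint x) : ‖x * x‖ = ‖x‖ * ‖x‖ := by
  have := CStarRing.norm_star_mul_self (x := x)
  rwa [hx.star_eq] at this

/-- If `0 ≤ x ≤ y` then `‖x‖² ≤ ‖x y‖`. -/
lemma norm_sq_le_of_le {x y : S} (hx : 0 ≤ x) (hxy : x ≤ y) : ‖x‖ * ‖x‖ ≤ ‖x * y‖ := by
  have hsa : IsSelfAdjoint x := hx.isSelfAdjoint
  by_cases h0 : ‖x‖ = 0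
  · rw [h0]; simp
  have hpos : 0 < ‖x‖ := lt_of_le_of_ne (norm_nonneg _) (Ne.symm h0)
  have h1 : x * x * x ≤ x * y * x := by
    have := star_left_conjugate_le_conjugate hxy x
    rwa [hsa.star_eq] at this
  have h2 : (0 : S) ≤ x * x * x := by
    have := star_left_conjugate_nonneg hx x
    rwa [hsa.star_eq] at this
  have h3 : ‖x * x * x‖ ≤ ‖x * y * x‖ := CStarAlgebra.norm_le_norm_of_nonneg_of_le h2 h1
  have h4 : ‖x * x * (x * x)‖ = ‖x‖ * ‖x‖ * (‖x‖ * ‖x‖) := by
    rw [norm_mul_self_of_nonneg (hsa.mul_self_nonneg.isSelfAdjoint), norm_mul_self_of_nonneg hsa]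
  have h5 : ‖x * x * (x * x)‖ ≤ ‖x * x * x‖ * ‖x‖ := by
    rw [← mul_assoc]; exact norm_mul_le _ _
  have h6 : ‖x * y * x‖ ≤ ‖x * y‖ * ‖x‖ := norm_mul_le _ _
  have h7 : ‖x‖ * ‖x‖ * (‖x‖ * ‖x‖) ≤ ‖x * y‖ * ‖x‖ * ‖x‖ := by
    rw [← h4]
    calc _ ≤ ‖x * x * x‖ * ‖x‖ := h5
      _ ≤ (‖x * y‖ * ‖x‖) * ‖x‖ := by gcongr; exact h3.trans h6
  have h8 : ‖x‖ * ‖x‖ * (‖x‖ * ‖x‖) = (‖x‖ * ‖x‖) * (‖x‖ * ‖x‖) := rfl
  have hpp : 0 < ‖x‖ * ‖x‖ := mul_pos hpos hpos
  have h9 : (‖x‖ * ‖x‖) * (‖x‖ * ‖x‖) ≤ ‖x * y‖ * (‖x‖ * ‖x‖) := by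
    calc _ ≤ ‖x * y‖ * ‖x‖ * ‖x‖ := h7
      _ = _ := by ring
  exact le_of_mul_le_mul_right h9 hpp

/-- Elements with `star z * z = 0` vanish. -/
lemma eq_zero_of_star_mul_self {z : S} (h : star z * z = 0) : z = 0 :=
  CStarRing.star_mul_self_eq_zero_iff z |>.1 h

/-- A self-adjoint element squaring to zero vanishes. -/
lemma eq_zero_of_sq {x : S} (hx : IsSelfAdjoint x) (h : x * x = 0) : x = 0 := by
  apply eq_zero_of_star_mul_self
  rwa [hx.star_eq]

end Pos

section Coord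

variable {E : Type*} [CStarAlgebra E]

/-- The bicommutant of a set, as a subalgebra. -/
def BB (U : Set E) : Subalgebra ℂ E := Subalgebra.centralizer ℂ (Set.centralizer U)

lemma mem_BB {U : Set E} {x : E} : x ∈ BB U ↔ ∀ s ∈ Set.centralizer U, s * x = x * s :=
  Subalgebra.mem_centralizer_iff ℂ

lemma subset_BB (U : Set E) : U ⊆ BB U := by
  intro x hx
  rw [SetLike.mem_coe, mem_BB]
  intro s hs
  exact (Set.mem_centralizer_iff.1 hs x hx).symm

lemma BB_mono {U V : Set E} (h : U ⊆ V) : BB U ≤ BB V := by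
  intro x hx
  rw [mem_BB] at hx ⊢
  intro s hs
  exact hx s (Set.centralizer_subset h hs)

lemma star_mem_centralizer {U : Set E} (hU : ∀ x ∈ U, star x ∈ U) {s : E}
    (hs : s ∈ Set.centralizer U) : star s ∈ Set.centralizer U := by
  rw [Set.mem_centralizer_iff] at hs ⊢
  intro x hx
  have := hs (star x) (hU x hx)
  have h2 := congrArg star this
  simpa [star_mul] using h2.symm

lemma star_mem_BB {U : Set E} (hU : ∀ x ∈ U, star x ∈ U) {x : E} (hx : x ∈ BB U) :
    star x ∈ BB U := by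
  rw [mem_BB] at hx ⊢
  intro s hs
  have := hx (star s) (star_mem_centralizer hU hs)
  have h2 := congrArg star this
  simpa [star_mul] using h2.symm

lemma resolv_mem_BB {U : Set E} (hU : ∀ x ∈ U, star x ∈ U) {L : E} (hL : L ∈ BB U) :
    resolv L ∈ BB U := by
  rw [mem_BB]
  intro s hs
  have h1 : star L * L ∈ BB U := mul_mem (star_mem_BB hU hL) hL
  have h2 : Commute s (1 + star L * L) := by
    refine (Commute.one_right s).add_right ?_
    exact mem_BB.1 h1 s hs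
  have h3 : Commute s (Ring.inverse (1 + star L * L)) := by
    have hu := isUnit_one_add_star_mul L
    obtain ⟨u, hu'⟩ := hu
    rw [← hu'] at h2 ⊢
    rw [Ring.inverse_unit]
    exact (Commute.units_inv_right_iff).2 h2
  exact h3

lemma posPart_mem_BB {U : Set E} {x : E} (hx : x ∈ BB U) : x⁺ ∈ BB U := by
  rw [mem_BB]
  intro s hs
  have h1 : Commute x s := (mem_BB.1 hx s hs).symm
  have := h1.cfcₙ_real (· ⁺)
  exact this.symm

lemma negPart_mem_BB {U : Set E} {x : E} (hx : x ∈ BB U) : x⁻ ∈ BB U := by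
  rw [mem_BB]
  intro s hs
  have h1 : Commute x s := (mem_BB.1 hx s hs).symm
  have := h1.cfcₙ_real (· ⁻)
  exact this.symm

/-- Commuting coordinate subsets generating the algebra. -/
structure CoordSys (E : Type*) [CStarAlgebra E] (ι : Type*) where
  /-- the sets -/
  U : ι → Set E
  star_mem : ∀ i, ∀ x ∈ U i, star x ∈ U i
  comm : ∀ i j, i ≠ j → ∀ x ∈ U i, ∀ y ∈ U j, x * y = y * x
  gen : Generates (⋃ i, U i)

namespace CoordSys

variable {ι : Type*} (C : CoordSys E ι)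

/-- union over a set of coordinates -/
def UI (I : Set ι) : Set E := ⋃ i ∈ I, C.U i

/-- the algebra of a set of coordinates -/
def B (I : Set ι) : Subalgebra ℂ E := BB (C.UI I)

lemma UI_star (I : Set ι) : ∀ x ∈ C.UI I, star x ∈ C.UI I := by
  intro x hx
  simp only [UI, Set.mem_iUnion] at hx ⊢
  obtain ⟨i, hi, hx⟩ := hx
  exact ⟨i, hi, C.star_mem i x hx⟩

lemma UI_mono {I J : Set ι} (h : I ⊆ J) : C.UI I ⊆ C.UI J := by
  intro x hx
  simp only [UI, Set.mem_iUnion] at hx ⊢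
  obtain ⟨i, hi, hx⟩ := hx
  exact ⟨i, h hi, hx⟩

lemma B_mono {I J : Set ι} (h : I ⊆ J) : C.B I ≤ C.B J := BB_mono (C.UI_mono h)

lemma U_mem_B {i : ι} {I : Set ι} (hi : i ∈ I) {x : E} (hx : x ∈ C.U i) : x ∈ C.B I := by
  apply subset_BB
  simp only [UI, Set.mem_iUnion]
  exact ⟨i, hi, hx⟩

lemma star_mem_B {I : Set ι} {x : E} (hx : x ∈ C.B I) : star x ∈ C.B I :=
  star_mem_BB (C.UI_star I) hx

lemma resolv_mem_B {I : Set ι} {x : E} (hx : x ∈ C.B I) : resolv x ∈ C.B I :=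
  resolv_mem_BB (C.UI_star I) hx

lemma posPart_mem_B {I : Set ι} {x : E} (hx : x ∈ C.B I) : x⁺ ∈ C.B I := posPart_mem_BB hx

lemma negPart_mem_B {I : Set ι} {x : E} (hx : x ∈ C.B I) : x⁻ ∈ C.B I := negPart_mem_BB hx

lemma UI_subset_centralizer {I J : Set ι} (h : Disjoint I J) :
    C.UI J ⊆ Set.centralizer (C.UI I) := by
  intro y hy
  rw [Set.mem_centralizer_iff]
  intro x hx
  simp only [UI, Set.mem_iUnion] at hx hy
  obtain ⟨i, hi, hx⟩ := hx
  obtain ⟨j, hj, hy⟩ := hy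
  have hij : i ≠ j := fun e => Set.disjoint_left.1 h hi (e ▸ hj)
  exact (C.comm i j hij x hx y hy)

/-- elements of `B J` lie in the centralizer of `UI I` for disjoint `I, J`. -/
lemma B_subset_centralizer {I J : Set ι} (h : Disjoint I J) {y : E} (hy : y ∈ C.B J) :
    y ∈ Set.centralizer (C.UI I) := by
  rw [Set.mem_centralizer_iff]
  intro x hx
  have hxc : x ∈ Set.centralizer (C.UI J) := by
    rw [Set.mem_centralizer_iff]
    intro w hw
    have := Set.mem_centralizer_iff.1 (C.UI_subset_centralizer h hw) x hx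
    exact this.symm
  exact (mem_BB.1 hy x hxc).symm ▸ rfl

/-- commutation of disjoint coordinates -/
lemma comm_B {I J : Set ι} (h : Disjoint I J) {x y : E} (hx : x ∈ C.B I) (hy : y ∈ C.B J) :
    x * y = y * x := by
  have := mem_BB.1 hx y (C.B_subset_centralizer h hy)
  exact this.symm

lemma commute_B {I J : Set ι} (h : Disjoint I J) {x y : E} (hx : x ∈ C.B I) (hy : y ∈ C.B J) :
    Commute x y := C.comm_B h hx hy

lemma generates_UI (I : Set ι) : Generates (C.UI I ∪ Set.centralizer (C.UI I)) := by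
  refine C.gen.mono ?_
  intro x hx
  simp only [Set.mem_iUnion] at hx
  obtain ⟨i, hx⟩ := hx
  by_cases hi : i ∈ I
  · left
    simp only [UI, Set.mem_iUnion]
    exact ⟨i, hi, hx⟩
  · right
    refine C.UI_subset_centralizer (I := I) (J := {i}) (by simpa using hi) ?_
    simp only [UI, Set.mem_iUnion]
    exact ⟨i, rfl, hx⟩

/-- The prime property for disjoint coordinates. -/
theorem prime (M : MaxIdeal E) {I J : Set ι} (h : Disjoint I J) {x y : E}
    (hx : x ∈ C.B I) (hy : y ∈ C.B J) (hxy : x * y ∈ M.m) : x ∈ M.m ∨ y ∈ M.m :=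
  prime_lemma M (C.UI I) (C.generates_UI I) (a := x) (b := y)
    (by
      rw [Set.mem_centralizer_iff]
      exact fun s hs => (mem_BB.1 hx s hs))
    (C.B_subset_centralizer h hy) hxy

/-- The prime property in terms of the quotient map. -/
theorem prime_π (M : MaxIdeal E) {I J : Set ι} (h : Disjoint I J) {x y : E}
    (hx : x ∈ C.B I) (hy : y ∈ C.B J) (hxy : M.π x * M.π y = 0) : M.π x = 0 ∨ M.π y = 0 := by
  rw [← map_mul, M.π_eq_zero] at hxy
  rw [M.π_eq_zero, M.π_eq_zero]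
  exact C.prime M h hx hy hxy

end CoordSys

end Coord

end Vale.Agent.Lib.P101
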