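import Vale.Agent.Lib.P101.Ultra

/-! The copying property of `F_ω(A)`. -/

namespace Vale.Agent.Lib.P101

open Filter Topology BoundedContinuousFunction

variable {A : Type*} [CStarAlgebra A] {ω : Ultrafilter ℕ}

/-- The copying property. -/
theorem copyProp_FOmegaSub [TopologicalSpace.SeparableSpace A] (hω : (ω : Filter ℕ) ≤ cofinite) :
    CopyProp (FOmegaSub A ω) := by
  classical
  intro α ι _ _ D W hW
  have hl : ∀ x : FOmegaSub A ω, ∃ u : ℕ →ᵇ A, qk A ω u = (x : AOmega A ω) := fun x => qk_surjective A ω _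
  choose L hL using hl
  have hLc : ∀ (x : FOmegaSub A ω) (a : A),
      Tendsto (fun n => ‖L x n * a - a * L x n‖) (ω : Filter ℕ) (𝓝 0) := fun x a =>
    central_of_mem (by rw [hL]; exact x.2) a
  let X0 : Finset (ℕ →ᵇ A) := (Finset.univ.image fun a => L (D.z a)) ∪
    (Finset.univ.image fun i => L (D.c i)) ∪ (Finset.univ.image fun i => L (D.d i))
  have hX0 : ∀ x ∈ X0, ∀ a : A, Tendsto (fun n => ‖x n * a - a * x n‖) (ω : Filter ℕ) (𝓝 0) := by
    intro x hx a
    simp only [X0, Finset.mem_union, Finset.mem_image, Finset.mem_univ, true_and] at hx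
    rcases hx with ((⟨b, rfl⟩ | ⟨b, rfl⟩) | ⟨b, rfl⟩) <;> exact hLc _ a
  let X : Finset (ℕ →ᵇ A) := X0 ∪ X0.image star
  have hX : ∀ x ∈ X, ∀ a : A, Tendsto (fun n => ‖x n * a - a * x n‖) (ω : Filter ℕ) (𝓝 0) := by
    intro x hx a
    simp only [X, Finset.mem_union, Finset.mem_image] at hx
    rcases hx with hx | ⟨y, hy, rfl⟩
    · exact hX0 x hx a
    · exact central_star (hX0 y hy) a
  let t0 : ℕ →ᵇ A := ∑ i, L (D.c i) * L (D.z (D.j i)) * L (D.d i) - 1
  have ht0 : qk A ω t0 = 0 := by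
    have h1 : ((∑ i, D.c i * D.z (D.j i) * D.d i : FOmegaSub A ω) : AOmega A ω) = 1 := by
      rw [D.rel]; rfl
    simp only [t0, map_sub, map_sum, map_mul, map_one, hL]
    rw [sub_eq_zero, ← h1]
    push_cast
    rfl
  let T : Finset (ℕ →ᵇ A) := (Finset.univ.image fun a => L (D.z a) * L (D.z a)) ∪ {t0}
  have hT : ∀ t ∈ T, Tendsto (fun n => ‖t n‖) (ω : Filter ℕ) (𝓝 0) := by
    intro t ht
    simp only [T, Finset.mem_union, Finset.mem_image, Finset.mem_univ, true_and,
      Finset.mem_singleton] at ht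
    rw [← qk_eq_zero]
    rcases ht with ⟨a, rfl⟩ | rfl
    · rw [map_mul, hL]
      have := congrArg (fun x : FOmegaSub A ω => (x : AOmega A ω)) (D.sq a)
      exact this
    · exact ht0
  let Y : Finset (ℕ →ᵇ A) := hW.toFinset.image L
  obtain ⟨m, hm1, hm2, hm3⟩ := exists_reindex hω T X Y hT hX
  have hmem : ∀ u ∈ X, qk A ω (rei m u) ∈ FOmegaSub A ω := fun u hu =>
    mem_of_central (hm2 u hu)
  have hX0X : ∀ u ∈ X0, u ∈ X := fun u hu => Finset.mem_union_left _ hu
  have hzX : ∀ a, L (D.z a) ∈ X0 := fun a => by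
    simp only [X0, Finset.mem_union, Finset.mem_image, Finset.mem_univ, true_and]
    exact Or.inl (Or.inl ⟨a, rfl⟩)
  have hcX : ∀ i, L (D.c i) ∈ X0 := fun i => by
    simp only [X0, Finset.mem_union, Finset.mem_image, Finset.mem_univ, true_and]
    exact Or.inl (Or.inr ⟨i, rfl⟩)
  have hdX : ∀ i, L (D.d i) ∈ X0 := fun i => by
    simp only [X0, Finset.mem_union, Finset.mem_image, Finset.mem_univ, true_and]
    exact Or.inr ⟨i, rfl⟩
  have hsX : ∀ u ∈ X0, star u ∈ X := fun u hu =>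
    Finset.mem_union_right _ (Finset.mem_image_of_mem _ hu)
  have hcomm : ∀ u ∈ X, ∀ w ∈ W, ∀ v : FOmegaSub A ω, (v : AOmega A ω) = qk A ω (rei m u) →
      w * v = v * w := by
    intro u hu w hw v hv
    apply Subtype.ext
    show (w : AOmega A ω) * (v : AOmega A ω) = (v : AOmega A ω) * (w : AOmega A ω)
    rw [hv, ← hL w, ← map_mul, ← map_mul, qk_eq_iff]
    have hw' : L w ∈ Y := Finset.mem_image_of_mem _ (hW.mem_toFinset.2 hw)
    have := hm3 u hu (L w) hw'
    refine this.congr fun k => ?_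
    rw [norm_sub_rev]
    rfl
  let D' : CData (FOmegaSub A ω) α ι :=
    { z := fun a => ⟨qk A ω (rei m (L (D.z a))), hmem _ (hX0X _ (hzX a))⟩
      j := D.j
      c := fun i => ⟨qk A ω (rei m (L (D.c i))), hmem _ (hX0X _ (hcX i))⟩
      d := fun i => ⟨qk A ω (rei m (L (D.d i))), hmem _ (hX0X _ (hdX i))⟩
      sq := by
        intro a
        apply Subtype.ext
        show qk A ω (rei m (L (D.z a))) * qk A ω (rei m (L (D.z a))) = 0
        rw [← map_mul, ← map_mul, qk_eq_zero]
        have h1 : L (D.z a) * L (D.z a) ∈ T := by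
          simp only [T, Finset.mem_union, Finset.mem_image, Finset.mem_univ, true_and]
          exact Or.inl ⟨a, rfl⟩
        exact hm1 _ h1
      rel := by
        apply Subtype.ext
        have h1 : t0 ∈ T := Finset.mem_union_right _ (Finset.mem_singleton_self _)
        have h2 : qk A ω (rei m t0) = 0 := by
          rw [qk_eq_zero]
          exact hm1 _ h1
        simp only [t0, map_sub, map_sum, map_mul, map_one] at h2
        rw [sub_eq_zero] at h2
        push_cast
        exact h2 }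
  refine ⟨D', ?_⟩
  intro v hv
  rw [Set.mem_centralizer_iff]
  intro w hw
  simp only [CData.V, Set.mem_union, Set.mem_range] at hv
  rcases hv with (((((⟨a, rfl⟩ | ⟨a, rfl⟩) | ⟨a, rfl⟩) | ⟨a, rfl⟩) | ⟨a, rfl⟩) | ⟨a, rfl⟩)
  · exact hcomm _ (hX0X _ (hzX a)) w hw _ rfl
  · refine hcomm _ (hsX _ (hzX a)) w hw _ ?_
    rw [rei_star, ← star_qk]
    rfl
  · exact hcomm _ (hX0X _ (hcX a)) w hw _ rfl
  · refine hcomm _ (hsX _ (hcX a)) w hw _ ?_
    rw [rei_star, ← star_qk]
    rfl
  · exact hcomm _ (hX0X _ (hdX a)) w hw _ rfl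
  · refine hcomm _ (hsX _ (hdX a)) w hw _ ?_
    rw [rei_star, ← star_qk]
    rfl

/-- The main theorem: no characters on `F_ω(A)` gives a full square-zero element. -/
theorem FOmega_full_square_zero [TopologicalSpace.SeparableSpace A]
    (hω : (ω : Filter ℕ) ≤ cofinite) (hchar : IsEmpty (FOmega A ω →⋆ₐ[ℂ] ℂ)) :
    ∃ z : FOmega A ω, z * z = 0 ∧ (1 : FOmega A ω) ∈ TwoSidedIdeal.span {z} :=
  exists_full_square_zero (F := FOmega A ω) (copyProp_FOmegaSub hω) hchar

end Vale.Agent.Lib.P101
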