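import Vale.Agent.Lib.P101.Final
import Vale.Agent.Lib.P101.Ultra2

/-! The copying property for the invariant, and the chain of reductions. -/

namespace Vale.Agent.Lib.P101

open Filter Topology BoundedContinuousFunction

section Resid

variable {R S : Type*} [Ring R] [Star R] [Ring S] [Star S]

/-- The residuals of the relations. -/
def resid {M : ℕ} (x s s₁ : R) (v : Fin (M + 1) → R) : Fin 7 ⊕ (Fin 3 × Fin (M + 1)) → R
  | Sum.inl i => ![x * x, star s - s, star s₁ * s₁ + s * s - 1, s * x - x * s,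
      s * star x - star x * s, (1 - s * s) * (1 - (x * star x + star x * x)),
      ∑ l, star (v l) * v l - s * s] i
  | Sum.inr (j, l) => ![x * star x * v l - v l, x * v l, s * v l] j

lemma isInv_iff_resid {M : ℕ} {x s s₁ : R} {v : Fin (M + 1) → R} :
    IsInv x s s₁ v ↔ ∀ i, resid x s s₁ v i = 0 := by
  constructor
  · intro h i
    rcases i with i | ⟨j, l⟩
    · fin_cases i
      · exact h.x_sq
      · exact sub_eq_zero.2 h.s_star
      · exact sub_eq_zero.2 h.s_norm
      · exact sub_eq_zero.2 h.s_x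
      · exact sub_eq_zero.2 h.s_sx
      · exact h.s_T
      · exact sub_eq_zero.2 h.v_sum
    · fin_cases j
      · exact sub_eq_zero.2 (h.v_range l)
      · exact h.x_v l
      · exact h.s_v l
  · intro h
    refine ⟨h (Sum.inl 0), sub_eq_zero.1 (h (Sum.inl 1)), sub_eq_zero.1 (h (Sum.inl 2)),
      sub_eq_zero.1 (h (Sum.inl 3)), sub_eq_zero.1 (h (Sum.inl 4)), h (Sum.inl 5),
      sub_eq_zero.1 (h (Sum.inl 6)), fun l => sub_eq_zero.1 (h (Sum.inr (0, l))),
      fun l => h (Sum.inr (1, l)), fun l => h (Sum.inr (2, l))⟩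

lemma map_resid (φ : R →+* S) (hφ : ∀ a, φ (star a) = star (φ a)) {M : ℕ} (x s s₁ : R)
    (v : Fin (M + 1) → R) (i : Fin 7 ⊕ (Fin 3 × Fin (M + 1))) :
    φ (resid x s s₁ v i) = resid (φ x) (φ s) (φ s₁) (fun l => φ (v l)) i := by
  rcases i with i | ⟨j, l⟩
  · fin_cases i <;> simp [resid, hφ, map_sum, map_mul, map_sub, map_add, map_one]
  · fin_cases j <;> simp [resid, hφ, map_mul, map_sub]

end Resid

/-- The copying property for the invariant. -/
def CopyInv (F : Type*) [Ring F] [Star F] : Prop :=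
  ∀ (M : ℕ) (x s s₁ : F) (v : Fin (M + 1) → F), IsInv x s s₁ v → ∀ W : Set F, W.Finite →
    ∃ (x' s' s₁' : F) (v' : Fin (M + 1) → F), IsInv x' s' s₁' v' ∧
      x' ∈ Set.centralizer W ∧ star x' ∈ Set.centralizer W ∧
      s' ∈ Set.centralizer W ∧ star s' ∈ Set.centralizer W ∧
      (∀ l, v' l ∈ Set.centralizer W) ∧ (∀ l, star (v' l) ∈ Set.centralizer W)

section Chain

variable {F : Type*} [CStarAlgebra F]

/-- The generators of the invariant, with adjoints. -/
def invGens {M : ℕ} (x s : F) (v : Fin (M + 1) → F) : Set F :=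
  {x, star x, s, star s} ∪ Set.range v ∪ Set.range (fun l => star (v l))

lemma invGens_finite {M : ℕ} (x s : F) (v : Fin (M + 1) → F) : (invGens x s v).Finite := by
  unfold invGens
  exact ((Set.toFinite _).union (Set.finite_range _)).union (Set.finite_range _)

lemma invGens_star {M : ℕ} (x s : F) (v : Fin (M + 1) → F) :
    ∀ u ∈ invGens x s v, star u ∈ invGens x s v := by
  intro u hu
  simp only [invGens, Set.mem_union, Set.mem_insert_iff, Set.mem_singleton_iff, Set.mem_range] at hu ⊢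
  rcases hu with ((rfl | rfl | rfl | rfl) | ⟨l, rfl⟩) | ⟨l, rfl⟩
  · simp
  · simp
  · simp
  · simp
  · exact Or.inr ⟨l, rfl⟩
  · exact Or.inl (Or.inr ⟨l, by simp⟩)

theorem inv_step (hcopy : CopyInv F) {M : ℕ} {x s s₁ : F} {v : Fin (M + 1 + 1) → F}
    (hI : IsInv x s s₁ v) : ∃ (x' s' s₁' : F) (v' : Fin (M + 1) → F), IsInv x' s' s₁' v' := by
  obtain ⟨x', s', s₁', v', hI', h1, h2, h3, h4, h5, h6⟩ :=
    hcopy _ x s s₁ v hI (invGens x s v) (invGens_finite x s v)
  refine step_core hI hI' (invGens x s v) (invGens x' s' v') (invGens_star x s v)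
    (invGens_star x' s' v') ?_ ?_ ?_ ?_ ?_ ?_ ?_
  · intro u hu u' hu'
    have : u' ∈ Set.centralizer (invGens x s v) := by
      simp only [invGens, Set.mem_union, Set.mem_insert_iff, Set.mem_singleton_iff,
        Set.mem_range] at hu'
      rcases hu' with ((rfl | rfl | rfl | rfl) | ⟨l, rfl⟩) | ⟨l, rfl⟩
      · exact h1
      · exact h2
      · exact h3
      · exact h4
      · exact h5 l
      · exact h6 l
    exact Set.mem_centralizer_iff.1 this u hu
  · simp [invGens]
  · simp [invGens]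
  · intro l; exact Or.inl (Or.inr ⟨l, rfl⟩)
  · simp [invGens]
  · simp [invGens]
  · intro l; exact Or.inl (Or.inr ⟨l, rfl⟩)

theorem inv_chain (hcopy : CopyInv F) : ∀ (M : ℕ) {x s s₁ : F} {v : Fin (M + 1) → F},
    IsInv x s s₁ v → ∃ (x' s' s₁' : F) (v' : Fin 1 → F), IsInv x' s' s₁' v' := by
  intro M
  induction M with
  | zero => exact fun h => ⟨_, _, _, _, h⟩
  | succ M ih =>
    intro x s s₁ v h
    obtain ⟨x', s', s₁', v', h'⟩ := inv_step hcopy h
    exact ih h'

/-- The abstract theorem. -/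
theorem z23_of_copy (hcopy : CopyProp F) (hinv : CopyInv F) (hchar : IsEmpty (F →⋆ₐ[ℂ] ℂ)) :
    ∃ y v : F, Z23Rel y v := by
  obtain ⟨z, hz, h1⟩ := exists_full_square_zero hcopy hchar
  obtain ⟨M, x, s, s₁, v, hI⟩ := start hz h1
  obtain ⟨x', s', s₁', v', hI'⟩ := inv_chain hinv M hI
  exact final_core hI'

end Chain

section Ultra

variable {A : Type*} [CStarAlgebra A] {ω : Ultrafilter ℕ}

/-- Reindexing as a star-ring homomorphism to the ultrapower. -/
noncomputable def reiq (m : ℕ → ℕ) : (ℕ →ᵇ A) →+* AOmega A ω := (qk A ω).comp (rei m)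

lemma reiq_star (m : ℕ → ℕ) (u : ℕ →ᵇ A) : reiq (ω := ω) m (star u) = star (reiq m u) := by
  show qk A ω (rei m (star u)) = star (qk A ω (rei m u))
  rw [rei_star, star_qk]

/-- The inclusion as a ring homomorphism. -/
noncomputable def coeF : FOmegaSub A ω →+* AOmega A ω := (FOmegaSub A ω).subtype

lemma coeF_star (u : FOmegaSub A ω) : coeF (star u) = star (coeF u) := rfl

lemma coeF_inj : Function.Injective (coeF (A := A) (ω := ω)) := Subtype.val_injective

/-- The copying property for the invariant in `F_ω(A)`. -/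
theorem copyInv_FOmegaSub [TopologicalSpace.SeparableSpace A] (hω : (ω : Filter ℕ) ≤ cofinite) :
    CopyInv (FOmegaSub A ω) := by
  classical
  intro M x s s₁ v hI W hW
  have hl : ∀ y : FOmegaSub A ω, ∃ u : ℕ →ᵇ A, qk A ω u = coeF y := fun y => qk_surjective A ω _
  choose L hL using hl
  have hLc : ∀ (y : FOmegaSub A ω) (a : A),
      Tendsto (fun n => ‖L y n * a - a * L y n‖) (ω : Filter ℕ) (𝓝 0) := fun y a =>
    central_of_mem (by rw [hL]; exact y.2) a
  -- the residuals of the lifts vanish in the ultrapower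
  have hres0 : ∀ i, qk A ω (resid (L x) (L s) (L s₁) (fun l => L (v l)) i) = 0 := by
    intro i
    rw [map_resid (qk A ω) (fun a => (star_qk a).symm)]
    simp only [hL]
    rw [← map_resid coeF coeF_star, isInv_iff_resid.1 hI i, map_zero]
  let T : Finset (ℕ →ᵇ A) := Finset.univ.image (resid (L x) (L s) (L s₁) (fun l => L (v l)))
  have hT : ∀ t ∈ T, Tendsto (fun n => ‖t n‖) (ω : Filter ℕ) (𝓝 0) := by
    intro t ht
    simp only [T, Finset.mem_image, Finset.mem_univ, true_and] at ht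
    obtain ⟨i, rfl⟩ := ht
    exact qk_eq_zero.1 (hres0 i)
  let X0 : Finset (ℕ →ᵇ A) := {L x, L s, L s₁} ∪ Finset.univ.image (fun l => L (v l))
  have hX0 : ∀ u ∈ X0, ∀ a : A, Tendsto (fun n => ‖u n * a - a * u n‖) (ω : Filter ℕ) (𝓝 0) := by
    intro u hu a
    simp only [X0, Finset.mem_union, Finset.mem_insert, Finset.mem_singleton, Finset.mem_image,
      Finset.mem_univ, true_and] at hu
    rcases hu with (rfl | rfl | rfl) | ⟨l, rfl⟩ <;> exact hLc _ a
  let X : Finset (ℕ →ᵇ A) := X0 ∪ X0.image star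
  have hX : ∀ u ∈ X, ∀ a : A, Tendsto (fun n => ‖u n * a - a * u n‖) (ω : Filter ℕ) (𝓝 0) := by
    intro u hu a
    simp only [X, Finset.mem_union, Finset.mem_image] at hu
    rcases hu with hu | ⟨y, hy, rfl⟩
    · exact hX0 u hu a
    · exact central_star (hX0 y hy) a
  let Y : Finset (ℕ →ᵇ A) := hW.toFinset.image L
  obtain ⟨m, hm1, hm2, hm3⟩ := exists_reindex hω T X Y hT hX
  have hmem : ∀ u ∈ X, reiq (ω := ω) m u ∈ FOmegaSub A ω := fun u hu => mem_of_central (hm2 u hu)
  have hX0X : ∀ u ∈ X0, u ∈ X := fun u hu => Finset.mem_union_left _ hu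
  have hsX : ∀ u ∈ X0, star u ∈ X := fun u hu =>
    Finset.mem_union_right _ (Finset.mem_image_of_mem _ hu)
  have hxX : L x ∈ X0 := by simp [X0]
  have hsX0 : L s ∈ X0 := by simp [X0]
  have hs₁X : L s₁ ∈ X0 := by simp [X0]
  have hvX : ∀ l, L (v l) ∈ X0 := fun l => by
    simp only [X0, Finset.mem_union, Finset.mem_image, Finset.mem_univ, true_and]
    exact Or.inr ⟨l, rfl⟩
  let mk : (u : ℕ →ᵇ A) → u ∈ X0 → FOmegaSub A ω := fun u hu => ⟨reiq m u, hmem u (hX0X u hu)⟩
  have hcomm : ∀ u ∈ X, ∀ w ∈ W, ∀ r : FOmegaSub A ω, coeF r = reiq m u → w * r = r * w := by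
    intro u hu w hw r hr
    apply coeF_inj
    rw [map_mul, map_mul, hr, ← hL w]
    show qk A ω (L w) * qk A ω (rei m u) = qk A ω (rei m u) * qk A ω (L w)
    rw [← map_mul, ← map_mul, qk_eq_iff]
    have hw' : L w ∈ Y := Finset.mem_image_of_mem _ (hW.mem_toFinset.2 hw)
    have := hm3 u hu (L w) hw'
    refine this.congr fun k => ?_
    rw [norm_sub_rev]
    rfl
  have hcent : ∀ u (hu : u ∈ X0), mk u hu ∈ Set.centralizer W := by
    intro u hu
    rw [Set.mem_centralizer_iff]
    intro w hw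
    exact hcomm u (hX0X u hu) w hw _ rfl
  have hcents : ∀ u (hu : u ∈ X0), star (mk u hu) ∈ Set.centralizer W := by
    intro u hu
    rw [Set.mem_centralizer_iff]
    intro w hw
    refine hcomm (star u) (hsX u hu) w hw _ ?_
    rw [reiq_star]
    rfl
  refine ⟨mk _ hxX, mk _ hsX0, mk _ hs₁X, fun l => mk _ (hvX l), ?_, hcent _ hxX, hcents _ hxX,
    hcent _ hsX0, hcents _ hsX0, fun l => hcent _ (hvX l), fun l => hcents _ (hvX l)⟩
  rw [isInv_iff_resid]
  intro i
  apply coeF_inj
  rw [map_resid coeF coeF_star, map_zero]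
  show resid (reiq m (L x)) (reiq m (L s)) (reiq m (L s₁)) (fun l => reiq m (L (v l))) i = 0
  rw [← map_resid (reiq m) (reiq_star m)]
  have hti : resid (L x) (L s) (L s₁) (fun l => L (v l)) i ∈ T :=
    Finset.mem_image_of_mem _ (Finset.mem_univ _)
  exact qk_eq_zero.2 (hm1 _ hti)

/-- The main theorem: no characters on `F_ω(A)` gives the relations. -/
theorem FOmega_z23 [TopologicalSpace.SeparableSpace A]
    (hω : (ω : Filter ℕ) ≤ cofinite) (hchar : IsEmpty (FOmega A ω →⋆ₐ[ℂ] ℂ)) :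
    ∃ y v : FOmega A ω, Z23Rel y v :=
  z23_of_copy (F := FOmega A ω) (copyProp_FOmegaSub hω) (copyInv_FOmegaSub hω) hchar

end Ultra

end Vale.Agent.Lib.P101
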