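import Vale.Agent.Lib.P101.Lower

/-! No characters implies that square-zero elements generate the algebra as an ideal. -/

namespace Vale.Agent.Lib.P101

open scoped ComplexOrder

attribute [local instance] CStarAlgebra.spectralOrder CStarAlgebra.spectralOrderedRing

variable {F : Type*} [CStarAlgebra F]

/-- Maximal ideals are prime. -/
lemma maxIdeal_prime (M : MaxIdeal F) {a b : F} (h : ∀ y, a * y * b ∈ M.m) :
    a ∈ M.m ∨ b ∈ M.m := by
  by_contra hcon
  push Not at hcon
  obtain ⟨ha, hb⟩ := hcon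
  let T : TwoSidedIdeal F := TwoSidedIdeal.mk' {x | ∀ y, x * y * b ∈ M.m}
    (by intro y; simp [M.m.zero_mem])
    (by
      intro x x' hx hx' y
      have : (x + x') * y * b = x * y * b + x' * y * b := by noncomm_ring
      rw [this]
      exact M.m.add_mem (hx y) (hx' y))
    (by
      intro x hx y
      have : (-x) * y * b = -(x * y * b) := by noncomm_ring
      rw [this]
      exact M.m.neg_mem (hx y))
    (by
      intro x x' hx' y
      have : (x * x') * y * b = x * (x' * y * b) := by noncomm_ring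
      rw [this]
      exact M.m.mul_mem_left _ _ (hx' y))
    (by
      intro x x' hx y
      have : (x * x') * y * b = x * (x' * y) * b := by noncomm_ring
      rw [this]
      exact hx _)
  have hmT : M.m ≤ T := by
    intro x hx
    show x ∈ T
    rw [TwoSidedIdeal.mem_mk']
    intro y
    have : x * y * b = x * (y * b) := by noncomm_ring
    rw [this]
    exact M.m.mul_mem_right _ _ hx
  have haT : a ∈ T := by
    rw [TwoSidedIdeal.mem_mk']
    exact h
  have hT := M.eq_top_of_gt hmT haT ha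
  have h1 : (1 : F) ∈ T := by rw [hT]; exact TwoSidedIdeal.mem_top F
  rw [TwoSidedIdeal.mem_mk'] at h1
  have := h1 1
  simp only [mul_one, one_mul] at this
  exact hb this

/-- The order dichotomy in the quotient. -/
lemma dichotomy (M : MaxIdeal F) (hM : ∀ z : F, z * z = 0 → z ∈ M.m) {s : M.Q}
    (hs : IsSelfAdjoint s) : 0 ≤ s ∨ s ≤ 0 := by
  obtain ⟨x, rfl⟩ := M.π_surjective s
  -- a selfadjoint lift
  let d : F := (1 / 2 : ℝ) • (x + star x)
  have hd : IsSelfAdjoint d := by
    simp only [d, IsSelfAdjoint, star_smul, star_add, star_star]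
    rw [add_comm]
    simp
  have hπd : M.π d = M.π x := by
    have h1 : M.π (star x) = M.π x := by
      rw [map_star]; exact hs
    simp only [d]
    rw [π_real_smul, map_add, h1, ← two_smul ℝ (M.π x), smul_smul]
    norm_num
  have hpm : d⁺ * d⁻ = 0 := CFC.posPart_mul_negPart d
  have hprime := maxIdeal_prime M (a := d⁺) (b := d⁻) (by
    intro y
    apply hM
    calc d⁺ * y * d⁻ * (d⁺ * y * d⁻) = d⁺ * y * (d⁻ * d⁺) * y * d⁻ := by noncomm_ring
      _ = 0 := by rw [CFC.negPart_mul_posPart]; simp)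
  have hsub := CFC.posPart_sub_negPart d hd
  rw [← hπd]
  rcases hprime with h | h
  · right
    rw [← M.π_eq_zero] at h
    have : M.π d = - M.π d⁻ := by
      calc M.π d = M.π (d⁺ - d⁻) := by rw [hsub]
        _ = _ := by rw [map_sub, h, zero_sub]
    rw [this]
    exact neg_nonpos.2 (π_nonneg M (CFC.negPart_nonneg d))
  · left
    rw [← M.π_eq_zero] at h
    have : M.π d = M.π d⁺ := by
      calc M.π d = M.π (d⁺ - d⁻) := by rw [hsub]
        _ = _ := by rw [map_sub, h, sub_zero]
    rw [this]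
    exact π_nonneg M (CFC.posPart_nonneg d)

/-- Under the dichotomy every selfadjoint element is a real scalar. -/
lemma selfAdjoint_scalar {Q : Type*} [CStarAlgebra Q] [Nontrivial Q]
    (hdi : ∀ s : Q, IsSelfAdjoint s → 0 ≤ s ∨ s ≤ 0) {s : Q} (hs : IsSelfAdjoint s) :
    ∃ t : ℝ, s = algebraMap ℝ Q t := by
  have hmono : ∀ r r' : ℝ, algebraMap ℝ Q r ≤ algebraMap ℝ Q r' → r ≤ r' := by
    intro r r' h
    by_contra hcon
    push Not at hcon
    have h1 : algebraMap ℝ Q r' ≤ algebraMap ℝ Q r := by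
      have : (0 : ℝ) ≤ r - r' := by linarith
      have h2 : (0 : Q) ≤ (r - r') • (1 : Q) := smul_nonneg this zero_le_one
      have h3 : algebraMap ℝ Q r - algebraMap ℝ Q r' = (r - r') • (1 : Q) := by
        rw [← map_sub, Algebra.algebraMap_eq_smul_one]
      exact sub_nonneg.1 (h3 ▸ h2)
    have h4 := le_antisymm h h1
    have h5 : (r - r') • (1 : Q) = 0 := by
      rw [sub_smul, ← Algebra.algebraMap_eq_smul_one, ← Algebra.algebraMap_eq_smul_one, h4, sub_self]
    rcases smul_eq_zero.1 h5 with h6 | h6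
    · linarith
    · exact one_ne_zero h6
  let A : Set ℝ := {r | algebraMap ℝ Q r ≤ s}
  have hAc : IsClosed A := isClosed_le (by
    exact continuous_algebraMap ℝ Q) continuous_const
  have hA1 : (-‖s‖) ∈ A := by
    show algebraMap ℝ Q (-‖s‖) ≤ s
    rw [map_neg]
    exact hs.neg_algebraMap_norm_le_self
  have hA2 : BddAbove A := by
    refine ⟨‖s‖, ?_⟩
    intro r hr
    exact hmono _ _ (le_trans hr hs.le_algebraMap_norm_self)
  set t := sSup A with ht
  have htA : t ∈ A := hAc.csSup_mem ⟨_, hA1⟩ hA2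
  refine ⟨t, le_antisymm ?_ htA⟩
  have hB : IsClosed {r : ℝ | s ≤ algebraMap ℝ Q r} :=
    isClosed_le continuous_const (continuous_algebraMap ℝ Q)
  have hsub : Set.Ioi t ⊆ {r : ℝ | s ≤ algebraMap ℝ Q r} := by
    intro r hr
    have h1 : r ∉ A := fun h => not_le_of_gt hr (le_csSup hA2 h)
    have hsa : IsSelfAdjoint (s - algebraMap ℝ Q r) := hs.sub (by
      rw [IsSelfAdjoint, ← algebraMap_star_comm]
      simp)
    rcases hdi _ hsa with h2 | h2
    · exact absurd (sub_nonneg.1 h2) h1
    · exact sub_nonpos.1 h2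
  have h2 : t ∈ closure (Set.Ioi t) := by
    rw [closure_Ioi]
    exact Set.self_mem_Ici
  exact closure_minimal hsub hB h2

/-- No characters implies square-zero elements generate. -/
theorem one_mem_span_of_no_char (hchar : IsEmpty (F →⋆ₐ[ℂ] ℂ)) :
    (1 : F) ∈ TwoSidedIdeal.span {z : F | z * z = 0} := by
  by_contra h1
  obtain ⟨M, hM⟩ := exists_maxIdeal _ h1
  have hM' : ∀ z : F, z * z = 0 → z ∈ M.m := fun z hz => hM (TwoSidedIdeal.subset_span hz)
  have hdi : ∀ s : M.Q, IsSelfAdjoint s → 0 ≤ s ∨ s ≤ 0 := fun s hs => dichotomy M hM' hs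
  have hsc : ∀ s : M.Q, IsSelfAdjoint s → ∃ t : ℝ, s = algebraMap ℝ M.Q t :=
    fun s hs => selfAdjoint_scalar hdi hs
  have hreal : ∀ t : ℝ, algebraMap ℝ M.Q t = algebraMap ℂ M.Q (t : ℂ) := by
    intro t
    rw [IsScalarTower.algebraMap_apply ℝ ℂ M.Q]
    rfl
  have hsurj : Function.Surjective (algebraMap ℂ M.Q) := by
    intro x
    obtain ⟨a, ha⟩ := hsc (realPart x) (realPart x).2
    obtain ⟨b, hb⟩ := hsc (imaginaryPart x) (imaginaryPart x).2
    refine ⟨(a : ℂ) + Complex.I * b, ?_⟩
    have h2 := realPart_add_I_smul_imaginaryPart x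
    rw [← h2, ha, hb, hreal a, hreal b, Algebra.smul_def, map_add, map_mul]
  have hinj : Function.Injective (algebraMap ℂ M.Q) := (algebraMap ℂ M.Q).injective
  let φ : ℂ ≃ₐ[ℂ] M.Q := AlgEquiv.ofBijective (Algebra.ofId ℂ M.Q) ⟨hinj, hsurj⟩
  have hφ : ∀ w : ℂ, φ w = algebraMap ℂ M.Q w := fun _ => rfl
  let χ : F →⋆ₐ[ℂ] ℂ :=
    { (φ.symm.toAlgHom.comp (M.π : F →ₐ[ℂ] M.Q)) with
      map_star' := by
        intro x
        apply φ.injective
        show φ (φ.symm (M.π (star x))) = φ (star (φ.symm (M.π x)))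
        rw [AlgEquiv.apply_symm_apply, hφ (star _), algebraMap_star_comm, ← hφ,
          AlgEquiv.apply_symm_apply, map_star] }
  exact hchar.false χ

end Vale.Agent.Lib.P101
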