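import Vale.Agent.Lib.P101.Reduce
import Vale.Agent.Lib.P101.Step0

/-! The abstract theorem: the copying property plus no characters gives a full square-zero element. -/

namespace Vale.Agent.Lib.P101

open scoped ComplexOrder

section Rep

variable {F : Type*} [Ring F] {α : Type*}

/-- Elements of the ideal spanned by a family are finite sums `∑ c z d`. -/
lemma rep_of_mem_span {z : α → F} {x : F} (hx : x ∈ TwoSidedIdeal.span (Set.range z)) :
    ∃ (ι : Type) (_ : Fintype ι) (j : ι → α) (c d : ι → F), x = ∑ i, c i * z (j i) * d i := by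
  classical
  induction hx using TwoSidedIdeal.span_induction with
  | mem x h =>
    obtain ⟨a, rfl⟩ := h
    exact ⟨Unit, inferInstance, fun _ => a, fun _ => 1, fun _ => 1, by simp⟩
  | zero =>
    exact ⟨Empty, inferInstance, Empty.elim, Empty.elim, Empty.elim, by simp⟩
  | add x y _ _ hx hy =>
    obtain ⟨ι, _, j, c, d, rfl⟩ := hx
    obtain ⟨ι', _, j', c', d', rfl⟩ := hy
    refine ⟨ι ⊕ ι', inferInstance, Sum.elim j j', Sum.elim c c', Sum.elim d d', ?_⟩
    simp
  | neg x _ hx =>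
    obtain ⟨ι, _, j, c, d, rfl⟩ := hx
    refine ⟨ι, inferInstance, j, fun i => - c i, d, ?_⟩
    simp [Finset.sum_neg_distrib]
  | left_absorb a x _ hx =>
    obtain ⟨ι, _, j, c, d, rfl⟩ := hx
    refine ⟨ι, inferInstance, j, fun i => a * c i, d, ?_⟩
    simp [Finset.mul_sum, mul_assoc]
  | right_absorb b x _ hx =>
    obtain ⟨ι, _, j, c, d, rfl⟩ := hx
    refine ⟨ι, inferInstance, j, c, fun i => d i * b, ?_⟩
    simp [Finset.sum_mul, mul_assoc]

/-- Finite-colour form of membership in the span of a set. -/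
lemma rep_of_mem_span_set {S : Set F} {x : F} (hx : x ∈ TwoSidedIdeal.span S) :
    ∃ (ι : Type) (_ : Fintype ι) (j : ι → F) (c d : ι → F),
      (∀ i, j i ∈ S) ∧ x = ∑ i, c i * j i * d i := by
  classical
  induction hx using TwoSidedIdeal.span_induction with
  | mem x h =>
    exact ⟨Unit, inferInstance, fun _ => x, fun _ => 1, fun _ => 1, fun _ => h, by simp⟩
  | zero =>
    exact ⟨Empty, inferInstance, Empty.elim, Empty.elim, Empty.elim, fun i => i.elim, by simp⟩
  | add x y _ _ hx hy =>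
    obtain ⟨ι, _, j, c, d, hj, rfl⟩ := hx
    obtain ⟨ι', _, j', c', d', hj', rfl⟩ := hy
    refine ⟨ι ⊕ ι', inferInstance, Sum.elim j j', Sum.elim c c', Sum.elim d d', ?_, ?_⟩
    · rintro (i | i)
      · exact hj i
      · exact hj' i
    · simp
  | neg x _ hx =>
    obtain ⟨ι, _, j, c, d, hj, rfl⟩ := hx
    refine ⟨ι, inferInstance, j, fun i => - c i, d, hj, ?_⟩
    simp [Finset.sum_neg_distrib]
  | left_absorb a x _ hx =>
    obtain ⟨ι, _, j, c, d, hj, rfl⟩ := hx
    refine ⟨ι, inferInstance, j, fun i => a * c i, d, hj, ?_⟩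
    simp [Finset.mul_sum, mul_assoc]
  | right_absorb b x _ hx =>
    obtain ⟨ι, _, j, c, d, hj, rfl⟩ := hx
    refine ⟨ι, inferInstance, j, c, fun i => d i * b, hj, ?_⟩
    simp [Finset.sum_mul, mul_assoc]

end Rep

section Gen

variable {F : Type*} [CStarAlgebra F]

/-- The closed star-subalgebra generated by a set. -/
def genAlg (S : Set F) : StarSubalgebra ℂ F := (StarAlgebra.adjoin ℂ S).topologicalClosure

instance genAlg_closed (S : Set F) : IsClosed (genAlg S : Set F) :=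
  (StarAlgebra.adjoin ℂ S).isClosed_topologicalClosure

lemma subset_genAlg (S : Set F) : S ⊆ genAlg S := by
  intro x hx
  exact (StarSubalgebra.le_topologicalClosure _) (StarAlgebra.subset_adjoin ℂ S hx)

/-- Generation inside `genAlg S`. -/
lemma genAlg_top {S : Set F} (hstarS : ∀ x ∈ S, star x ∈ S) (R : Subalgebra ℂ (genAlg S))
    (hR : IsClosed (R : Set (genAlg S)))
    (hS : ∀ x, ∀ hx : x ∈ S, (⟨x, subset_genAlg S hx⟩ : genAlg S) ∈ R) : R = ⊤ := by
  -- the image of `R` in `F`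
  let R' : Subalgebra ℂ F :=
    { carrier := {x | ∃ h : x ∈ genAlg S, (⟨x, h⟩ : genAlg S) ∈ R}
      mul_mem' := by
        rintro a b ⟨ha, ha'⟩ ⟨hb, hb'⟩
        exact ⟨mul_mem ha hb, mul_mem ha' hb'⟩
      add_mem' := by
        rintro a b ⟨ha, ha'⟩ ⟨hb, hb'⟩
        exact ⟨add_mem ha hb, add_mem ha' hb'⟩
      algebraMap_mem' := by
        intro r
        refine ⟨Subalgebra.algebraMap_mem (genAlg S).toSubalgebra r, ?_⟩
        exact R.algebraMap_mem r }
  have hR'eq : (R' : Set F) = Subtype.val '' (R : Set (genAlg S)) := by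
    ext x
    constructor
    · rintro ⟨h, h'⟩
      exact ⟨⟨x, h⟩, h', rfl⟩
    · rintro ⟨y, hy, rfl⟩
      exact ⟨y.2, hy⟩
  have hEcl : IsClosed (genAlg S : Set F) := genAlg_closed S
  have hR'cl : IsClosed (R' : Set F) := by
    rw [hR'eq]
    exact hEcl.isClosedEmbedding_subtypeVal.isClosedMap _ hR
  have hSR' : S ⊆ R' := by
    intro x hx
    exact ⟨subset_genAlg S hx, hS x hx⟩
  have hadj : ((StarAlgebra.adjoin ℂ S : StarSubalgebra ℂ F) : Set F) ⊆ R' := by
    have h1 : (StarAlgebra.adjoin ℂ S).toSubalgebra ≤ R' := by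
      rw [StarAlgebra.adjoin_toSubalgebra]
      apply Algebra.adjoin_le
      rintro x (hx | hx)
      · exact hSR' hx
      · have : star x ∈ S := hx
        have h2 := hstarS _ this
        rw [star_star] at h2
        exact hSR' h2
    exact h1
  have hcl : (genAlg S : Set F) ⊆ R' := by
    have : (genAlg S : Set F) = closure ((StarAlgebra.adjoin ℂ S : StarSubalgebra ℂ F) : Set F) := rfl
    rw [this]
    exact closure_minimal hadj hR'cl
  rw [eq_top_iff]
  rintro y -
  obtain ⟨h, h'⟩ := hcl y.2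
  exact h'

/-- The coordinate system in the generated algebra. -/
noncomputable def coordSysOf {ι : Type*} (V : ι → Set F) (hstar : ∀ i, ∀ x ∈ V i, star x ∈ V i)
    (hcomm : ∀ i j, i ≠ j → ∀ x ∈ V i, ∀ y ∈ V j, x * y = y * x) :
    CoordSys (genAlg (⋃ i, V i)) ι where
  U := fun i => {y | (y : F) ∈ V i}
  star_mem := fun i x hx => hstar i _ hx
  comm := fun i j hij x hx y hy => Subtype.ext (hcomm i j hij _ hx _ hy)
  gen := by
    intro R hR hS
    refine genAlg_top ?_ R hR ?_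
    · intro x hx
      simp only [Set.mem_iUnion] at hx ⊢
      obtain ⟨i, hi⟩ := hx
      exact ⟨i, hstar i x hi⟩
    · intro x hx
      apply hS
      simp only [Set.mem_iUnion] at hx ⊢
      obtain ⟨i, hi⟩ := hx
      exact ⟨i, hi⟩

lemma mem_span_of_subtype {S : Set F} {E : StarSubalgebra ℂ F} [IsClosed (E : Set F)]
    {x : E} {T : Set E} (hx : x ∈ TwoSidedIdeal.span T) (hT : (Subtype.val '' T) ⊆ S) :
    (x : F) ∈ TwoSidedIdeal.span S := by
  induction hx using TwoSidedIdeal.span_induction with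
  | mem x h => exact TwoSidedIdeal.subset_span (hT ⟨x, h, rfl⟩)
  | zero => exact TwoSidedIdeal.zero_mem _
  | add x y _ _ hx hy => exact TwoSidedIdeal.add_mem _ hx hy
  | neg x _ hx => exact TwoSidedIdeal.neg_mem _ hx
  | left_absorb a x _ hx => exact TwoSidedIdeal.mul_mem_left _ _ _ hx
  | right_absorb b x _ hx => exact TwoSidedIdeal.mul_mem_right _ _ _ hx

end Gen

section Copy

/-- Finite data: colours `z`, and a relation `∑ c z d = 1`. -/
structure CData (F : Type*) [Ring F] (α ι : Type) [Fintype ι] where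
  /-- colours -/
  z : α → F
  /-- colour of a term -/
  j : ι → α
  /-- left coefficient -/
  c : ι → F
  /-- right coefficient -/
  d : ι → F
  sq : ∀ a, z a * z a = 0
  rel : ∑ i, c i * z (j i) * d i = 1

/-- All elements of the data, with adjoints. -/
def CData.V {F : Type*} [Ring F] [Star F] {α ι : Type} [Fintype ι] (D : CData F α ι) : Set F :=
  Set.range D.z ∪ Set.range (fun a => star (D.z a)) ∪ Set.range D.c ∪
    Set.range (fun a => star (D.c a)) ∪ Set.range D.d ∪ Set.range (fun a => star (D.d a))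

/-- The copying property. -/
def CopyProp (F : Type*) [Ring F] [Star F] : Prop :=
  ∀ (α ι : Type) [Fintype α] [Fintype ι] (D : CData F α ι) (W : Set F), W.Finite →
    ∃ D' : CData F α ι, D'.V ⊆ Set.centralizer W

variable {F : Type*} [CStarAlgebra F]

lemma CData.V_finite {α ι : Type} [Fintype α] [Fintype ι] (D : CData F α ι) : D.V.Finite := by
  simp only [CData.V]
  exact (((((Set.finite_range _).union (Set.finite_range _)).union (Set.finite_range _)).union
    (Set.finite_range _)).union (Set.finite_range _)).union (Set.finite_range _)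

lemma CData.V_star {α ι : Type} [Fintype ι] (D : CData F α ι) : ∀ x ∈ D.V, star x ∈ D.V := by
  intro x hx
  simp only [CData.V, Set.mem_union, Set.mem_range] at hx ⊢
  rcases hx with (((((⟨a, rfl⟩ | ⟨a, rfl⟩) | ⟨a, rfl⟩) | ⟨a, rfl⟩) | ⟨a, rfl⟩) | ⟨a, rfl⟩)
  · exact Or.inl <| Or.inl <| Or.inl <| Or.inl <| Or.inr ⟨a, rfl⟩
  · exact Or.inl <| Or.inl <| Or.inl <| Or.inl <| Or.inl ⟨a, by simp⟩
  · exact Or.inl <| Or.inl <| Or.inr ⟨a, rfl⟩
  · exact Or.inl <| Or.inl <| Or.inl <| Or.inr ⟨a, by simp⟩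
  · exact Or.inr ⟨a, rfl⟩
  · exact Or.inl <| Or.inr ⟨a, by simp⟩

/-- Colours covering the unit. -/
def Cov (F : Type*) [Ring F] (n : ℕ) : Prop :=
  ∃ x : Option (Fin n) → F, (∀ a, x a * x a = 0) ∧ (1 : F) ∈ TwoSidedIdeal.span (Set.range x)

end Copy

section Main

variable {F : Type*} [CStarAlgebra F]

/-- The relation gives a lower bound in each maximal quotient. -/
lemma activity_of_rel {E : Type*} [CStarAlgebra E] {α ι : Type} [Fintype α] [Fintype ι]
    (x : α → E) (j : ι → α) (c d : ι → E) (hrel : ∑ i, c i * x (j i) * d i = 1)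
    (M : MaxIdeal E) : 1 ≤ (∑ i, ‖c i‖ * ‖d i‖) * ∑ a, ‖M.π (x a)‖ := by
  have h1 : ∑ i, M.π (c i * x (j i) * d i) = 1 := by rw [← map_sum, hrel, map_one]
  have h2 : ‖(1 : M.Q)‖ = 1 := CStarRing.norm_one
  have h3 : ‖∑ i, M.π (c i * x (j i) * d i)‖ ≤ ∑ i, ‖M.π (c i * x (j i) * d i)‖ := norm_sum_le _ _
  have h3' : (1 : ℝ) ≤ ∑ i, ‖M.π (c i * x (j i) * d i)‖ := by
    calc (1 : ℝ) = ‖(1 : M.Q)‖ := h2.symm
      _ = ‖∑ i, M.π (c i * x (j i) * d i)‖ := by rw [h1]
      _ ≤ _ := h3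
  refine h3'.trans ?_
  rw [Finset.sum_mul]
  refine Finset.sum_le_sum fun i _ => ?_
  have h4 : ‖M.π (x (j i))‖ ≤ ∑ a, ‖M.π (x a)‖ :=
    Finset.single_le_sum (f := fun a => ‖M.π (x a)‖) (fun _ _ => norm_nonneg _) (Finset.mem_univ _)
  have h5 : ‖M.π (c i * x (j i) * d i)‖ ≤ ‖M.π (c i)‖ * ‖M.π (x (j i))‖ * ‖M.π (d i)‖ := by
    rw [map_mul, map_mul]
    exact (norm_mul_le _ _).trans (mul_le_mul_of_nonneg_right (norm_mul_le _ _) (norm_nonneg _))
  have h6 : ‖M.π (c i)‖ ≤ ‖c i‖ := M.norm_π_le _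
  have h7 : ‖M.π (d i)‖ ≤ ‖d i‖ := M.norm_π_le _
  have h8 : ‖M.π (c i)‖ * ‖M.π (x (j i))‖ * ‖M.π (d i)‖ ≤ ‖c i‖ * (∑ a, ‖M.π (x a)‖) * ‖d i‖ :=
    mul_le_mul (mul_le_mul h6 h4 (norm_nonneg _) (norm_nonneg _)) h7 (norm_nonneg _)
      (mul_nonneg (norm_nonneg _) (Finset.sum_nonneg fun _ _ => norm_nonneg _))
  have h9 : ‖c i‖ * (∑ a, ‖M.π (x a)‖) * ‖d i‖ = ‖c i‖ * ‖d i‖ * ∑ a, ‖M.π (x a)‖ := by ring
  linarith

/-- Reduction inside an abstract algebra with coordinates. -/
theorem cov_in_E {E : Type*} [CStarAlgebra E] (C : CoordSys E (Fin 4)) {n : ℕ} {ι : Type}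
    [Fintype ι] (y : Fin 4 → Option (Fin (n + 1)) → E) (cE dE : Fin 4 → ι → E)
    (j : Fin 4 → ι → Option (Fin (n + 1)))
    (hy : ∀ i a, y i a ∈ C.B {i}) (hysq : ∀ i a, y i a * y i a = 0)
    (hrelE : ∀ i, ∑ l, cE i l * y i (j i l) * dE i l = 1) :
    ∃ w : Option (Fin n) → E, (∀ a, w a * w a = 0) ∧
      (1 : E) ∈ TwoSidedIdeal.span (Set.range w) :=
  reduce_core C y hy hysq (fun i => ∑ l, ‖cE i l‖ * ‖dE i l‖)
    (fun i M => activity_of_rel (y i) (j i) (cE i) (dE i) (hrelE i) M)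

/-- Transfer of a cover from a closed star-subalgebra. -/
theorem cov_of_subalgebra (E : StarSubalgebra ℂ F) [IsClosed (E : Set F)] {n : ℕ}
    (w : Option (Fin n) → E) (hw1 : ∀ a, w a * w a = 0)
    (hw2 : (1 : E) ∈ TwoSidedIdeal.span (Set.range w)) : Cov F n := by
  refine ⟨fun a => (w a : F), fun a => ?_, ?_⟩
  · have := congrArg Subtype.val (hw1 a)
    exact this
  · have := mem_span_of_subtype (S := Set.range (fun a => (w a : F))) hw2 (by
      rintro _ ⟨_, ⟨a, rfl⟩, rfl⟩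
      exact ⟨a, rfl⟩)
    exact this

end Main

end Vale.Agent.Lib.P101
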