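import Vale.Agent.Lib.P101.Cover

/-! The abstract theorem, continued. -/

namespace Vale.Agent.Lib.P101

open scoped ComplexOrder

section Main

variable {F : Type*} [CStarAlgebra F]

lemma coordSysOf_mem_B {V : Fin 4 → Set F} (hstar : ∀ i, ∀ y ∈ V i, star y ∈ V i)
    (hcomm : ∀ i k, i ≠ k → ∀ y ∈ V i, ∀ w ∈ V k, y * w = w * y) (i : Fin 4)
    (x : genAlg (⋃ i, V i)) (hx : (x : F) ∈ V i) : x ∈ (coordSysOf V hstar hcomm).B {i} :=
  (coordSysOf V hstar hcomm).U_mem_B (i := i) (I := {i}) rfl (x := x) hx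

/-- One reduction step, given four commuting copies. -/
theorem cov_of_four {n : ℕ} {ι : Type} [Fintype ι]
    (Ds : Fin 4 → CData F (Option (Fin (n + 1))) ι)
    (hcomm : ∀ i k, i ≠ k → ∀ y ∈ (Ds i).V, ∀ w ∈ (Ds k).V, y * w = w * y) : Cov F n := by
  have hstar : ∀ i, ∀ y ∈ (fun i => (Ds i).V) i, star y ∈ (fun i => (Ds i).V) i :=
    fun i => (Ds i).V_star
  have hVS : ∀ i, (Ds i).V ⊆ genAlg (⋃ i, (Ds i).V) := fun i =>
    (Set.subset_iUnion (fun i => (Ds i).V) i).trans (subset_genAlg _)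
  have hz : ∀ i a, (Ds i).z a ∈ (Ds i).V := fun i a =>
    Or.inl <| Or.inl <| Or.inl <| Or.inl <| Or.inl ⟨a, rfl⟩
  have hc : ∀ i l, (Ds i).c l ∈ (Ds i).V := fun i l =>
    Or.inl <| Or.inl <| Or.inl <| Or.inr ⟨l, rfl⟩
  have hd : ∀ i l, (Ds i).d l ∈ (Ds i).V := fun i l =>
    Or.inl <| Or.inr ⟨l, rfl⟩
  obtain ⟨w, hw1, hw2⟩ := cov_in_E (coordSysOf (fun i => (Ds i).V) hstar hcomm)
    (fun i a => ⟨(Ds i).z a, hVS i (hz i a)⟩) (fun i a => ⟨(Ds i).c a, hVS i (hc i a)⟩)
    (fun i a => ⟨(Ds i).d a, hVS i (hd i a)⟩) (fun i => (Ds i).j)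
    (fun i a => coordSysOf_mem_B hstar hcomm i ⟨(Ds i).z a, hVS i (hz i a)⟩ (hz i a))
    (fun i a => Subtype.ext ((Ds i).sq a))
    (fun i => Subtype.ext (by
      have := (Ds i).rel
      push_cast
      exact this))
  exact cov_of_subalgebra _ w hw1 hw2

/-- One reduction step. -/
theorem cov_step (hcopy : CopyProp F) {n : ℕ} (h : Cov F (n + 1)) : Cov F n := by
  classical
  obtain ⟨x, hsq, h1⟩ := h
  obtain ⟨ι, _, j, c, d, hrel⟩ := rep_of_mem_span h1
  let D : CData F (Option (Fin (n + 1))) ι :=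
    { z := x, j := j, c := c, d := d, sq := hsq, rel := hrel.symm }
  -- four commuting copies
  obtain ⟨D0, -⟩ := hcopy _ _ D ∅ Set.finite_empty
  obtain ⟨D1, h1⟩ := hcopy _ _ D D0.V D0.V_finite
  obtain ⟨D2, h2⟩ := hcopy _ _ D (D0.V ∪ D1.V) (D0.V_finite.union D1.V_finite)
  obtain ⟨D3, h3⟩ := hcopy _ _ D (D0.V ∪ D1.V ∪ D2.V)
    ((D0.V_finite.union D1.V_finite).union D2.V_finite)
  have h10 : ∀ y ∈ D0.V, ∀ w ∈ D1.V, y * w = w * y := fun y hy w hw =>
    Set.mem_centralizer_iff.1 (h1 hw) y hy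
  have h20 : ∀ y ∈ D0.V, ∀ w ∈ D2.V, y * w = w * y := fun y hy w hw =>
    Set.mem_centralizer_iff.1 (h2 hw) y (Or.inl hy)
  have h21 : ∀ y ∈ D1.V, ∀ w ∈ D2.V, y * w = w * y := fun y hy w hw =>
    Set.mem_centralizer_iff.1 (h2 hw) y (Or.inr hy)
  have h30 : ∀ y ∈ D0.V, ∀ w ∈ D3.V, y * w = w * y := fun y hy w hw =>
    Set.mem_centralizer_iff.1 (h3 hw) y (Or.inl (Or.inl hy))
  have h31 : ∀ y ∈ D1.V, ∀ w ∈ D3.V, y * w = w * y := fun y hy w hw =>
    Set.mem_centralizer_iff.1 (h3 hw) y (Or.inl (Or.inr hy))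
  have h32 : ∀ y ∈ D2.V, ∀ w ∈ D3.V, y * w = w * y := fun y hy w hw =>
    Set.mem_centralizer_iff.1 (h3 hw) y (Or.inr hy)
  refine cov_of_four ![D0, D1, D2, D3] ?_
  have hlt : ∀ i k : Fin 4, i < k → ∀ y ∈ (![D0, D1, D2, D3] i).V, ∀ w ∈ (![D0, D1, D2, D3] k).V,
      y * w = w * y := by
    intro i k hik
    fin_cases i <;> fin_cases k <;> first
      | exact absurd hik (by decide)
      | exact h10
      | exact h20
      | exact h21
      | exact h30
      | exact h31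
      | exact h32
  intro i k hik y hy w hw
  rcases lt_or_gt_of_ne hik with h | h
  · exact hlt i k h y hy w hw
  · exact (hlt k i h w hw y hy).symm

/-- The abstract theorem. -/
theorem exists_full_square_zero (hcopy : CopyProp F) (hchar : IsEmpty (F →⋆ₐ[ℂ] ℂ)) :
    ∃ z : F, z * z = 0 ∧ (1 : F) ∈ TwoSidedIdeal.span {z} := by
  classical
  have h1 := one_mem_span_of_no_char hchar
  obtain ⟨ι, _, j, c, d, hj, hrel⟩ := rep_of_mem_span_set h1
  -- enumerate
  let e := Fintype.equivFin ι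
  let n := Fintype.card ι
  have hcov : Cov F n := by
    refine ⟨fun a => match a with
      | none => 0
      | some k => j (e.symm k), ?_, ?_⟩
    · intro a
      cases a with
      | none => simp
      | some k => exact hj _
    · rw [hrel]
      refine sum_mem fun i _ => ?_
      refine TwoSidedIdeal.mul_mem_right _ _ _ (TwoSidedIdeal.mul_mem_left _ _ _ ?_)
      apply TwoSidedIdeal.subset_span
      exact ⟨some (e i), by simp⟩
  have hall : ∀ m, Cov F m → Cov F 0 := by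
    intro m
    induction m with
    | zero => exact id
    | succ m ih => exact fun h => ih (cov_step hcopy h)
  obtain ⟨x, hx, hx1⟩ := hall n hcov
  refine ⟨x none, hx none, ?_⟩
  have hr : Set.range x = {x none} := by
    ext y
    constructor
    · rintro ⟨a, rfl⟩
      cases a with
      | none => rfl
      | some k => exact k.elim0
    · rintro rfl
      exact ⟨none, rfl⟩
  rwa [hr] at hx1

end Main

end Vale.Agent.Lib.P101
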