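import Vale.Agent.Lib.P101.Quot

/-! The ultrapower and the central sequence algebra. -/

namespace Vale.Agent.Lib.P101

open Filter Topology BoundedContinuousFunction

variable (A : Type*) [CStarAlgebra A] (ω : Ultrafilter ℕ)

/-- The ideal of bounded sequences whose norms tend to zero along `ω`. -/
noncomputable def nullIdeal : TwoSidedIdeal (ℕ →ᵇ A) :=
  TwoSidedIdeal.mk' {x | Tendsto (fun n => ‖x n‖) (ω : Filter ℕ) (𝓝 0)}
    (by simp)
    (fun {x y} hx hy => by
      refine squeeze_zero (fun _ => norm_nonneg _) (fun n => norm_add_le (x n) (y n)) ?_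
      simpa using hx.add hy)
    (fun {x} hx => by simpa using hx)
    (fun {x y} hy => by
      refine squeeze_zero (fun _ => norm_nonneg _)
        (fun n => (norm_mul_le (x n) (y n)).trans
          (mul_le_mul_of_nonneg_right (x.norm_coe_le_norm n) (norm_nonneg _))) ?_
      simpa using hy.const_mul ‖x‖)
    (fun {x y} hx => by
      refine squeeze_zero (fun _ => norm_nonneg _)
        (fun n => (norm_mul_le (x n) (y n)).trans
          (mul_le_mul_of_nonneg_left (y.norm_coe_le_norm n) (norm_nonneg _))) ?_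
      simpa using hx.mul_const ‖y‖)

variable {A ω} in
lemma mem_nullIdeal {x : ℕ →ᵇ A} :
    x ∈ nullIdeal A ω ↔ Tendsto (fun n => ‖x n‖) (ω : Filter ℕ) (𝓝 0) := by
  rw [nullIdeal, TwoSidedIdeal.mem_mk']
  rfl

instance nullIdeal_closed : IsClosed ((nullIdeal A ω).asIdeal : Set (ℕ →ᵇ A)) := by
  rw [TwoSidedIdeal.coe_asIdeal, ← closure_subset_iff_isClosed]
  intro x hx
  rw [SetLike.mem_coe, mem_nullIdeal, Metric.tendsto_nhds]
  intro ε hε
  rw [Metric.mem_closure_iff] at hx
  obtain ⟨y, hy, hxy⟩ := hx (ε / 2) (half_pos hε)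
  have hy' := Metric.tendsto_nhds.1 (mem_nullIdeal.1 hy) (ε / 2) (half_pos hε)
  filter_upwards [hy'] with n hn
  rw [Real.dist_eq, sub_zero, abs_of_nonneg (norm_nonneg _)] at hn ⊢
  have h1 : ‖x n - y n‖ ≤ ‖x - y‖ := (x - y).norm_coe_le_norm n
  have h2 : ‖x - y‖ < ε / 2 := by rwa [dist_eq_norm] at hxy
  have h3 : ‖x n‖ ≤ ‖x n - y n‖ + ‖y n‖ := by
    simpa using norm_add_le (x n - y n) (y n)
  linarith

/-- The ultrapower `A_ω = ℓ^∞(ℕ, A) / c_ω`. -/
def AOmega : Type _ := (ℕ →ᵇ A) ⧸ (nullIdeal A ω).asIdeal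

/-- The ultrapower is a unital C*-algebra, with the quotient structure. -/
noncomputable instance instCStarAlgebraAOmega : CStarAlgebra (AOmega A ω) :=
  quotCStarAlgebra (nullIdeal A ω).asIdeal

/-- The quotient map to the ultrapower. -/
noncomputable def qk : (ℕ →ᵇ A) →+* AOmega A ω := Ideal.Quotient.mk (nullIdeal A ω).asIdeal

/-- The constant sequences. -/
noncomputable def diag (a : A) : AOmega A ω := qk A ω (const ℕ a)

/-- The central sequence algebra `F_ω(A) = A_ω ∩ A'`, as a star-subalgebra of `A_ω`. -/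
noncomputable def FOmegaSub : StarSubalgebra ℂ (AOmega A ω) :=
  StarSubalgebra.centralizer ℂ (Set.range (diag A ω))

instance FOmegaSub_closed : IsClosed (FOmegaSub A ω : Set (AOmega A ω)) := by
  rw [FOmegaSub, StarSubalgebra.coe_centralizer]
  exact Set.isClosed_centralizer _

noncomputable instance : SubringClass (StarSubalgebra ℂ (AOmega A ω)) (AOmega A ω) :=
  StarSubalgebra.subringClass

/-- The central sequence algebra `F_ω(A)` as a type. -/
def FOmega : Type _ := FOmegaSub A ω

/-- `F_ω(A)` is a unital C*-algebra, with the structure induced from `A_ω`. -/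
noncomputable instance instCStarAlgebraFOmega : CStarAlgebra (FOmega A ω) :=
  StarSubalgebra.cstarAlgebra (FOmegaSub A ω)

end Vale.Agent.Lib.P101
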