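import Mathlib

/-! The dimension-drop algebra `Z_{2,3}`. -/

namespace Vale.Agent.Lib.P101

open scoped Kronecker

/-- `M_2 ⊗ M_3` -/
abbrev Mat6 : Type := Matrix (Fin 2 × Fin 3) (Fin 2 × Fin 3) ℂ

/-- The unital star-homomorphism `a ↦ a ⊗ 1`. -/
noncomputable def kr1 : Matrix (Fin 2) (Fin 2) ℂ →⋆ₐ[ℂ] Mat6 where
  toFun a := a ⊗ₖ (1 : Matrix (Fin 3) (Fin 3) ℂ)
  map_one' := by
    ext i j
    simp [Matrix.one_apply, Prod.ext_iff]
    grind
  map_mul' a b := by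
    have := Matrix.mul_kronecker_mul a b (1 : Matrix (Fin 3) (Fin 3) ℂ) (1 : Matrix (Fin 3) (Fin 3) ℂ)
    simpa only [mul_one] using this
  map_zero' := by simp
  map_add' a b := Matrix.add_kronecker a b _
  commutes' r := by
    ext i j
    simp [Matrix.algebraMap_matrix_apply, Matrix.one_apply, Prod.ext_iff]
    grind
  map_star' a := by
    simp [Matrix.star_eq_conjTranspose, Matrix.conjTranspose_kronecker]

/-- The unital star-homomorphism `b ↦ 1 ⊗ b`. -/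
noncomputable def kr2 : Matrix (Fin 3) (Fin 3) ℂ →⋆ₐ[ℂ] Mat6 where
  toFun b := (1 : Matrix (Fin 2) (Fin 2) ℂ) ⊗ₖ b
  map_one' := by
    ext i j
    simp [Matrix.one_apply, Prod.ext_iff]
    grind
  map_mul' a b := by
    have := Matrix.mul_kronecker_mul (1 : Matrix (Fin 2) (Fin 2) ℂ) (1 : Matrix (Fin 2) (Fin 2) ℂ) a b
    simpa only [mul_one] using this
  map_zero' := by simp
  map_add' a b := Matrix.kronecker_add _ a b
  commutes' r := by
    ext i j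
    simp [Matrix.algebraMap_matrix_apply, Matrix.one_apply, Prod.ext_iff]
    grind
  map_star' a := by
    simp [Matrix.star_eq_conjTranspose, Matrix.conjTranspose_kronecker]

/-- The dimension-drop algebra
`Z_{2,3} = {f ∈ C([0,1], M_2 ⊗ M_3) : f(0) ∈ M_2 ⊗ 1, f(1) ∈ 1 ⊗ M_3}`. -/
noncomputable def Z23 : StarSubalgebra ℂ C(unitInterval, Mat6) where
  carrier := {f | (∃ a : Matrix (Fin 2) (Fin 2) ℂ, f 0 = a ⊗ₖ (1 : Matrix (Fin 3) (Fin 3) ℂ)) ∧
    ∃ b : Matrix (Fin 3) (Fin 3) ℂ, f 1 = (1 : Matrix (Fin 2) (Fin 2) ℂ) ⊗ₖ b}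
  mul_mem' := by
    rintro f g ⟨⟨a, ha⟩, ⟨b, hb⟩⟩ ⟨⟨a', ha'⟩, ⟨b', hb'⟩⟩
    refine ⟨⟨a * a', ?_⟩, ⟨b * b', ?_⟩⟩
    · have := map_mul kr1 a a'
      show f 0 * g 0 = kr1 (a * a')
      rw [this, ha, ha']
      rfl
    · have := map_mul kr2 b b'
      show f 1 * g 1 = kr2 (b * b')
      rw [this, hb, hb']
      rfl
  add_mem' := by
    rintro f g ⟨⟨a, ha⟩, ⟨b, hb⟩⟩ ⟨⟨a', ha'⟩, ⟨b', hb'⟩⟩
    refine ⟨⟨a + a', ?_⟩, ⟨b + b', ?_⟩⟩
    · have := map_add kr1 a a'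
      show f 0 + g 0 = kr1 (a + a')
      rw [this, ha, ha']
      rfl
    · have := map_add kr2 b b'
      show f 1 + g 1 = kr2 (b + b')
      rw [this, hb, hb']
      rfl
  algebraMap_mem' := by
    intro r
    refine ⟨⟨algebraMap ℂ _ r, ?_⟩, ⟨algebraMap ℂ _ r, ?_⟩⟩
    · exact (kr1.commutes r).symm
    · exact (kr2.commutes r).symm
  star_mem' := by
    rintro f ⟨⟨a, ha⟩, ⟨b, hb⟩⟩
    refine ⟨⟨star a, ?_⟩, ⟨star b, ?_⟩⟩
    · have := map_star kr1 a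
      show star (f 0) = kr1 (star a)
      rw [this, ha]
      rfl
    · have := map_star kr2 b
      show star (f 1) = kr2 (star b)
      rw [this, hb]
      rfl

end Vale.Agent.Lib.P101
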