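import Vale.Agent.Lib.P101.Start

/-! From the invariant with one cell to the relations of the dimension-drop algebra. -/

namespace Vale.Agent.Lib.P101

open scoped ComplexOrder

attribute [local instance] CStarAlgebra.spectralOrder CStarAlgebra.spectralOrderedRing

noncomputable section

variable {F : Type*} [CStarAlgebra F]

/-- The Rørdam-Winter relations, with the order-zero map on `M_2` given by the image `y` of the
matrix unit `e₁₂`: `φ(e₁₁) = √(y y^*)`, `φ(e₂₂) = √(y^* y)`. -/
def Z23Rel (y v : F) : Prop :=
  y * y = 0 ∧ ‖y‖ ≤ 1 ∧ star v * v = 1 - CFC.sqrt (y * star y) - CFC.sqrt (star y * y) ∧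
    CFC.sqrt (y * star y) * v = v

theorem final_core {x s s₁ : F} {v : Fin 1 → F} (hI : IsInv x s s₁ v) : ∃ y w : F, Z23Rel y w := by
  set h := 1 - s * s with hh
  have hh0 : 0 ≤ h := by
    have h1 : h = star s₁ * s₁ := by
      rw [hh, ← hI.s_norm]; abel
    rw [h1]
    exact star_mul_self_nonneg s₁
  have hsa : IsSelfAdjoint h := hh0.isSelfAdjoint
  have hss0 : 0 ≤ s * s := by
    have := star_mul_self_nonneg s
    rwa [hI.s_star] at this
  have hle1 : h ≤ 1 := by
    rw [hh]
    exact sub_le_self _ hss0
  have hhx : h * x = x * h := by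
    rw [hh, sub_mul, mul_sub, one_mul, mul_one]
    have : s * s * x = x * (s * s) := by
      calc s * s * x = s * (s * x) := mul_assoc _ _ _
        _ = s * (x * s) := by rw [hI.s_x]
        _ = (s * x) * s := (mul_assoc _ _ _).symm
        _ = (x * s) * s := by rw [hI.s_x]
        _ = _ := mul_assoc _ _ _
    rw [this]
  have hhsx : h * star x = star x * h := by
    have := congrArg star hhx
    simp only [star_mul, hsa.star_eq] at this
    exact this.symm
  set a := x * star x with ha
  set b := star x * x with hb
  have ha0 : 0 ≤ a := by simp [ha]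
  have hb0 : 0 ≤ b := star_mul_self_nonneg x
  have hT : h * (a + b) = h := by
    have := hI.s_T
    rw [mul_sub, mul_one, sub_eq_zero] at this
    exact this.symm
  have hha : h * a = a * h := by
    rw [ha]
    calc h * (x * star x) = (h * x) * star x := (mul_assoc _ _ _).symm
      _ = x * (h * star x) := by rw [hhx, mul_assoc]
      _ = x * (star x * h) := by rw [hhsx]
      _ = _ := (mul_assoc _ _ _).symm
  have hhb : h * b = b * h := by
    rw [hb]
    calc h * (star x * x) = (h * star x) * x := (mul_assoc _ _ _).symm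
      _ = star x * (h * x) := by rw [hhsx, mul_assoc]
      _ = star x * (x * h) := by rw [hhx]
      _ = _ := (mul_assoc _ _ _).symm
  have hs := star_sq hI.x_sq
  have hba : b * a = 0 := by
    calc b * a = star x * (x * x) * star x := by simp only [ha, hb]; noncomm_ring
      _ = 0 := by rw [hI.x_sq]; simp
  have hab : a * b = 0 := by
    calc a * b = x * (star x * star x) * x := by simp only [ha, hb]; noncomm_ring
      _ = 0 := by rw [hs]; simp
  have haa : h * a * (h * a) = h * h * a := by
    calc h * a * (h * a) = h * (a * h) * a := by noncomm_ring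
      _ = h * (h * a) * a := by rw [hha]
      _ = h * h * (a * a) := by noncomm_ring
      _ = h * h * ((a + b) * a) := by rw [add_mul, hba, add_zero]
      _ = h * (h * (a + b)) * a := by noncomm_ring
      _ = h * h * a := by rw [hT]
  have hbb : h * b * (h * b) = h * h * b := by
    calc h * b * (h * b) = h * (b * h) * b := by noncomm_ring
      _ = h * (h * b) * b := by rw [hhb]
      _ = h * h * (b * b) := by noncomm_ring
      _ = h * h * ((a + b) * b) := by rw [add_mul, hab, zero_add]
      _ = h * (h * (a + b)) * b := by noncomm_ring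
      _ = h * h * b := by rw [hT]
  have hha0 : 0 ≤ h * a := Commute.mul_nonneg hh0 ha0 hha
  have hhb0 : 0 ≤ h * b := Commute.mul_nonneg hh0 hb0 hhb
  obtain ⟨y, hy⟩ : ∃ y, y = h * x := ⟨_, rfl⟩
  have hys : star y = star x * h := by
    rw [hy, star_mul, hsa.star_eq]
  have hyy : y * star y = h * a * (h * a) := by
    rw [hys, haa, hy, ha]
    calc h * x * (star x * h) = h * (x * star x * h) := by noncomm_ring
      _ = h * (h * (x * star x)) := by rw [← ha, hha]
      _ = _ := by noncomm_ring
  have hsyy : star y * y = h * b * (h * b) := by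
    rw [hys, hbb, hy]
    calc star x * h * (h * x) = (star x * h) * (h * x) := rfl
      _ = (h * star x) * (h * x) := by rw [hhsx]
      _ = h * ((star x * h) * x) := by noncomm_ring
      _ = h * ((h * star x) * x) := by rw [hhsx]
      _ = _ := by rw [hb]; noncomm_ring
  have hs1 : CFC.sqrt (y * star y) = h * a := CFC.sqrt_unique hyy.symm hha0
  have hs2 : CFC.sqrt (star y * y) = h * b := CFC.sqrt_unique hsyy.symm hhb0
  refine ⟨y, v 0, ?_, ?_, ?_, ?_⟩
  · rw [hy]
    calc h * x * (h * x) = h * (x * h) * x := by noncomm_ring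
      _ = h * (h * x) * x := by rw [hhx]
      _ = h * h * (x * x) := by noncomm_ring
      _ = 0 := by rw [hI.x_sq, mul_zero]
  · have h1 : ‖y‖ * ‖y‖ = ‖h * b‖ * ‖h * b‖ := by
      rw [← CStarRing.norm_star_mul_self, hsyy, norm_mul_self_of_nonneg hhb0.isSelfAdjoint]
    have h2 : h * b ≤ 1 := by
      have : h * b ≤ h * a + h * b := le_add_of_nonneg_left hha0
      rw [← mul_add, hT] at this
      exact this.trans hle1
    have h3 : ‖h * b‖ ≤ 1 := (CStarAlgebra.norm_le_one_iff_of_nonneg _ hhb0).2 h2
    have h4 : ‖y‖ = ‖h * b‖ := by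
      exact (mul_self_inj_of_nonneg (norm_nonneg _) (norm_nonneg _)).1 h1
    rw [h4]
    exact h3
  · rw [hs1, hs2]
    have h1 : star (v 0) * v 0 = s * s := by
      have := hI.v_sum
      rwa [Fin.sum_univ_one] at this
    rw [h1]
    have h2 : h * a + h * b = h := by rw [← mul_add, hT]
    have h3 : (1 : F) - h * a - h * b = 1 - (h * a + h * b) := by abel
    rw [h3, h2, hh]
    abel
  · rw [hs1, mul_assoc, hI.v_range, hh, sub_mul, one_mul, mul_assoc, hI.s_v, mul_zero, sub_zero]

end

end Vale.Agent.Lib.P101
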