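import Vale.Agent.Lib.P101.Cols3
import Vale.Agent.Lib.P101.TCopy

/-! Weighted matrix units and columns for a general matrix size. -/

namespace Vale.Agent.Lib.P101

set_option linter.unusedSectionVars false

open scoped ComplexOrder

attribute [local instance] CStarAlgebra.spectralOrder CStarAlgebra.spectralOrderedRing

noncomputable section

variable {J : Type} [Fintype J] [DecidableEq J]

/-- The involution `(i, k) ↦ (k, i)`, `(i, ∞) ↦ (i, ∞)` of `J × (J ∪ {∞})`. -/
def piF : J × Option J → J × Option J
  | (i, some k) => (k, some i)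
  | (i, none) => (i, none)

lemma piF_piF (p : J × Option J) : piF (piF p) = p := by
  rcases p with ⟨i, _ | k⟩ <;> rfl

/-- The involution as a permutation. -/
def piJ : Equiv.Perm (J × Option J) := Function.Involutive.toPerm piF piF_piF

@[simp] lemma piJ_some (i k : J) : piJ (i, some k) = (k, some i) := rfl
@[simp] lemma piJ_none (i : J) : piJ (i, none) = (i, none) := rfl
lemma piJ_piJ (p : J × Option J) : piJ (piJ p) = p := piF_piF p

variable {D : Type*} [CStarAlgebra D]

/-- The relations of weighted matrix units with columns. -/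
structure GRel (e : J → J → D) (c : J → D) (s s₁ : D) : Prop where
  s_star : star s = s
  s_norm : star s₁ * s₁ + s * s = 1
  e_star : ∀ i j, star (e i j) = e j i
  e_mul : ∀ i j k l, e i j * e k l = if j = k then hh s * e i l else 0
  e_sum : ∑ i, e i i = hh s
  s_e : ∀ i j, s * e i j = e i j * s
  e_c : ∀ i j k, e i j * c k = if j = k then c i else 0
  c_c : ∀ j k, star (c j) * c k = if j = k then s * s else 0
  s_c : ∀ k, s * c k = 0

/-- All the columns. -/
def CO (c : J → D) (s : D) : Option J → D
  | some i => c i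
  | none => s

/-- The central element. -/
def gcen (c : J → D) (s : D) : D := ∑ b, CO c s b * star (CO c s b)

/-- The `M_n` part. -/
def gaij (e : J → J → D) (c : J → D) (i j : J) : D := e i j - c i * star (c j)

/-- The `M_{n+1}` part. -/
def gbbk (c : J → D) (s : D) (a b : Option J) : D := CO c s a * star (CO c s b)

/-- The weighted matrix units. -/
def gWW (e : J → J → D) (c : J → D) (s : D) (p r : J × Option J) : D :=
  CO c s (piJ p).2 * e (piJ p).1 (piJ r).1 * star (CO c s (piJ r).2)

section Rel

variable {e : J → J → D} {c : J → D} {s s₁ : D} (R : GRel e c s s₁)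

include R

lemma star_c_s (j : J) : star (c j) * s = 0 := by
  have := congrArg star (R.s_c j)
  rwa [star_mul, R.s_star, star_zero] at this

lemma star_CO_mul (b b' : Option J) :
    star (CO c s b) * CO c s b' = if b = b' then s * s else 0 := by
  rcases b with _ | j <;> rcases b' with _ | k
  · simp [CO, R.s_star]
  · simp [CO, R.s_star, R.s_c]
  · simp [CO, star_c_s R]
  · simpa [CO] using R.c_c j k

lemma c_mul_c (i k : J) : c i * c k = 0 := by
  apply eq_zero_of_star_mul_self
  have h1 : star (c k) * (s * s) * c k = 0 := by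
    rw [mul_assoc, mul_assoc, R.s_c, mul_zero, mul_zero]
  calc star (c i * c k) * (c i * c k) = star (c k) * (star (c i) * c i) * c k := by
        rw [star_mul]; noncomm_ring
    _ = star (c k) * (s * s) * c k := by rw [R.c_c, if_pos rfl]
    _ = 0 := h1

lemma CO_mul_c (b : Option J) (k : J) : CO c s b * c k = 0 := by
  rcases b with _ | i
  · exact R.s_c k
  · exact c_mul_c R i k

lemma gcen_star : star (gcen c s) = gcen c s := by
  simp only [gcen, star_sum, star_mul, star_star]

lemma gcen_C (b : Option J) : gcen c s * CO c s b = CO c s b * (s * s) := by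
  unfold gcen
  rw [Finset.sum_mul]
  simp only [mul_assoc, star_CO_mul R]
  simp

lemma C_gcen (b : Option J) : CO c s b * gcen c s = CO c s b * (s * s) := by
  unfold gcen
  rw [Fintype.sum_option, mul_add, Finset.mul_sum]
  have h : ∀ a : J, CO c s b * (CO c s (some a) * star (CO c s (some a))) = 0 := by
    intro a
    rw [← mul_assoc]
    have : CO c s b * CO c s (some a) = 0 := CO_mul_c R b a
    rw [this, zero_mul]
  simp only [h, Finset.sum_const_zero, add_zero]
  simp [CO, R.s_star]

lemma gcen_comm_C (b : Option J) : gcen c s * CO c s b = CO c s b * gcen c s := by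
  rw [gcen_C R, C_gcen R]

lemma gcen_comm_sC (b : Option J) :
    gcen c s * star (CO c s b) = star (CO c s b) * gcen c s := by
  have := congrArg star (gcen_comm_C R b)
  rw [star_mul, star_mul, gcen_star R] at this
  exact this.symm

lemma gC_h (b : Option J) : CO c s b * hh s = (1 - gcen c s) * CO c s b := by
  unfold hh
  rw [mul_sub, sub_mul, mul_one, one_mul, gcen_C R]

lemma e_gcen (i j : J) :
    e i j * gcen c s = c i * star (c j) + s * e i j * s := by
  unfold gcen
  rw [Fintype.sum_option, mul_add, Finset.mul_sum]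
  have h : ∀ a : J, e i j * (CO c s (some a) * star (CO c s (some a)))
      = if j = a then c i * star (c a) else 0 := by
    intro a
    rw [← mul_assoc]
    have : e i j * CO c s (some a) = if j = a then c i else 0 := R.e_c i j a
    rw [this]
    split_ifs <;> simp [CO]
  simp only [h, Finset.sum_ite_eq, Finset.mem_univ, if_true]
  simp only [CO, R.s_star]
  rw [R.s_e, add_comm]
  noncomm_ring

lemma gcen_e (i j : J) :
    gcen c s * e i j = c i * star (c j) + s * e i j * s := by
  have := congrArg star (e_gcen R j i)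
  simp only [star_mul, star_add, star_star, gcen_star R, R.e_star, R.s_star] at this
  rw [this]
  simp only [mul_assoc]

lemma gcen_comm_e (i j : J) : gcen c s * e i j = e i j * gcen c s := by
  rw [gcen_e R, e_gcen R]

lemma gcen_comm_c (k : J) : gcen c s * c k = c k * gcen c s := gcen_comm_C R (some k)

lemma gcen_comm_sc (k : J) : gcen c s * star (c k) = star (c k) * gcen c s :=
  gcen_comm_sC R (some k)

lemma gcen_comm_a (i j : J) : gcen c s * gaij e c i j = gaij e c i j * gcen c s := by
  unfold gaij
  rw [mul_sub, sub_mul, gcen_comm_e R, ← mul_assoc, gcen_comm_c R, mul_assoc, gcen_comm_sc R,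
    mul_assoc]

lemma gcen_comm_b (a b : Option J) : gcen c s * gbbk c s a b = gbbk c s a b * gcen c s := by
  unfold gbbk
  rw [← mul_assoc, gcen_comm_C R, mul_assoc, gcen_comm_sC R, mul_assoc]

lemma gcen_comm_W (p r : J × Option J) : gcen c s * gWW e c s p r = gWW e c s p r * gcen c s := by
  unfold gWW
  rw [← mul_assoc, ← mul_assoc, gcen_comm_C R, mul_assoc (CO c s _), gcen_comm_e R, mul_assoc,
    mul_assoc, mul_assoc, gcen_comm_sC R]
  simp only [mul_assoc]

lemma ghh_nonneg : 0 ≤ hh s := by
  have h1 : hh s = star s₁ * s₁ := by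
    unfold hh
    rw [← R.s_norm]
    abel
  rw [h1]
  exact star_mul_self_nonneg s₁

lemma gcen_nonneg : 0 ≤ gcen c s :=
  Finset.sum_nonneg fun b _ => by simp

lemma gcen_sq : gcen c s * gcen c s = ∑ b, CO c s b * (s * s) * star (CO c s b) := by
  have h1 : gcen c s * gcen c s = ∑ b, gcen c s * (CO c s b * star (CO c s b)) := by
    rw [← Finset.mul_sum]
    rfl
  rw [h1]
  refine Finset.sum_congr rfl fun b _ => ?_
  rw [← mul_assoc, gcen_C R]

lemma gcen_le_one : gcen c s ≤ 1 := by
  have h0 := gcen_nonneg (c := c) (s := s) R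
  have h1 : gcen c s * gcen c s ≤ gcen c s := by
    rw [gcen_sq R]
    apply sub_nonneg.1
    have h2 : gcen c s - ∑ b, CO c s b * (s * s) * star (CO c s b)
        = ∑ b, CO c s b * hh s * star (CO c s b) := by
      unfold gcen hh
      rw [← Finset.sum_sub_distrib]
      refine Finset.sum_congr rfl fun b _ => ?_
      noncomm_ring
    rw [h2]
    refine Finset.sum_nonneg fun b _ => ?_
    simpa using star_left_conjugate_nonneg (ghh_nonneg R) (star (CO c s b))
  have h2 : 0 ≤ gcen c s * gcen c s := sq_nonneg_of_sa h0.isSelfAdjoint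
  have h3 := CStarAlgebra.norm_le_norm_of_nonneg_of_le h2 h1
  rw [norm_mul_self_of_nonneg h0.isSelfAdjoint] at h3
  have h4 : ‖gcen c s‖ ≤ 1 := by
    by_contra h5
    rw [not_le] at h5
    nlinarith
  exact (CStarAlgebra.norm_le_one_iff_of_nonneg _ h0).1 h4

lemma ga_c (i j k : J) :
    gaij e c i j * c k = if j = k then (1 - gcen c s) * c i else 0 := by
  unfold gaij
  rw [sub_mul, R.e_c, mul_assoc, R.c_c]
  split_ifs
  · have : gcen c s * c i = c i * (s * s) := gcen_C R (some i)
    rw [sub_mul, one_mul, this]
  · simp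

lemma ga_s (i j : J) : gaij e c i j * s = s * e i j := by
  unfold gaij
  rw [sub_mul, mul_assoc, star_c_s R, mul_zero, sub_zero, R.s_e]

lemma sc_e (j k l : J) :
    star (c j) * e k l = if k = j then star (c l) else 0 := by
  have h1 := congrArg star (R.e_c l k j)
  rw [star_mul, R.e_star] at h1
  rw [h1]
  split_ifs <;> simp

lemma gs_e_s (i j : J) : s * e i j * s = s * s * e i j := by
  rw [mul_assoc, ← R.s_e, mul_assoc]

lemma gcen_e' (i l : J) :
    hh s * e i l - c i * star (c l) = (1 - gcen c s) * e i l := by
  rw [sub_mul, one_mul, gcen_e R, gs_e_s R]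
  unfold hh
  rw [sub_mul, one_mul]
  abel

lemma ga_mul_a (i j k l : J) :
    gaij e c i j * gaij e c k l = if j = k then (1 - gcen c s) * gaij e c i l else 0 := by
  conv_lhs => rw [gaij, gaij]
  have h1 : (e i j - c i * star (c j)) * (e k l - c k * star (c l))
      = e i j * e k l - c i * (star (c j) * e k l)
        - ((e i j - c i * star (c j)) * c k) * star (c l) := by
    noncomm_ring
  rw [h1]
  have h2 := ga_c R i j k
  unfold gaij at h2
  rw [h2, R.e_mul, sc_e R]
  by_cases hjk : j = k
  · subst hjk
    simp only [if_true]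
    unfold gaij
    rw [mul_sub (1 - gcen c s), ← gcen_e' R]
    noncomm_ring
  · have hkj : k ≠ j := Ne.symm hjk
    simp [hjk, hkj]

lemma gb_mul_b (a b d f : Option J) :
    gbbk c s a b * gbbk c s d f = if b = d then gcen c s * gbbk c s a f else 0 := by
  unfold gbbk
  have h1 : CO c s a * star (CO c s b) * (CO c s d * star (CO c s f))
      = CO c s a * (star (CO c s b) * CO c s d) * star (CO c s f) := by noncomm_ring
  rw [h1, star_CO_mul R]
  split_ifs
  · rw [← gcen_C R]
    noncomm_ring
  · simp

lemma gstar_a (i j : J) : star (gaij e c i j) = gaij e c j i := by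
  unfold gaij
  rw [star_sub, R.e_star, star_mul, star_star]

lemma gstar_b (a b : Option J) : star (gbbk c s a b) = gbbk c s b a := by
  unfold gbbk
  rw [star_mul, star_star]

lemma gstar_W (p r : J × Option J) : star (gWW e c s p r) = gWW e c s r p := by
  unfold gWW
  rw [star_mul, star_mul, star_star, R.e_star]
  noncomm_ring

lemma ga_W (i j j₀ : J) (k₀ : Option J) (r : J × Option J) :
    gaij e c i j * gWW e c s (j₀, k₀) r
      = if j = j₀ then (1 - gcen c s) * gWW e c s (i, k₀) r else 0 := by
  rcases k₀ with _ | k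
  · unfold gWW
    simp only [piJ_none, CO]
    rw [← mul_assoc, ← mul_assoc, ga_s R]
    have h1 : s * e i j * e j₀ (piJ r).1 = s * (e i j * e j₀ (piJ r).1) := mul_assoc _ _ _
    rw [h1, R.e_mul]
    split_ifs
    · have h2 : s * hh s = (1 - gcen c s) * s := gC_h R none
      rw [← mul_assoc s, h2]
      noncomm_ring
    · simp
  · unfold gWW
    simp only [piJ_some, CO]
    rw [← mul_assoc, ← mul_assoc, ga_c R]
    split_ifs
    · noncomm_ring
    · simp

lemma gb_W (a b : Option J) (p r : J × Option J) :
    gbbk c s a b * gWW e c s p r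
      = if b = (piJ p).2 then gcen c s * gWW e c s (piJ ((piJ p).1, a)) r else 0 := by
  unfold gbbk
  have h1 : gWW e c s (piJ ((piJ p).1, a)) r
      = CO c s a * e (piJ p).1 (piJ r).1 * star (CO c s (piJ r).2) := by
    unfold gWW
    rw [piJ_piJ]
  rw [h1]
  unfold gWW
  have h2 : CO c s a * star (CO c s b) *
      (CO c s (piJ p).2 * e (piJ p).1 (piJ r).1 * star (CO c s (piJ r).2))
      = CO c s a * (star (CO c s b) * CO c s (piJ p).2) * e (piJ p).1 (piJ r).1
        * star (CO c s (piJ r).2) := by noncomm_ring
  rw [h2, star_CO_mul R]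
  split_ifs
  · rw [← gcen_C R]
    noncomm_ring
  · simp

lemma gW_W (p r p' r' : J × Option J) :
    gWW e c s p r * gWW e c s p' r'
      = if r = p' then (gcen c s * (1 - gcen c s)) * gWW e c s p r' else 0 := by
  unfold gWW
  set e1 := e (piJ p).1 (piJ r).1 with he1
  set e2 := e (piJ p').1 (piJ r').1 with he2
  have h1 : CO c s (piJ p).2 * e1 * star (CO c s (piJ r).2) *
      (CO c s (piJ p').2 * e2 * star (CO c s (piJ r').2))
      = CO c s (piJ p).2 * e1 * (star (CO c s (piJ r).2) * CO c s (piJ p').2) * e2
        * star (CO c s (piJ r').2) := by noncomm_ring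
  rw [h1, star_CO_mul R]
  have h5 : e1 * (s * s) = s * s * e1 := by
    rw [he1, ← mul_assoc, ← R.s_e, mul_assoc, ← R.s_e, mul_assoc]
  by_cases h2 : r = p'
  · subst h2
    simp only [if_true]
    have h4 : e1 * e2 = hh s * e (piJ p).1 (piJ r').1 := by
      rw [he1, he2, R.e_mul, if_pos rfl]
    calc CO c s (piJ p).2 * e1 * (s * s) * e2 * star (CO c s (piJ r').2)
        = CO c s (piJ p).2 * (e1 * (s * s)) * e2 * star (CO c s (piJ r').2) := by noncomm_ring
      _ = (CO c s (piJ p).2 * (s * s)) * (e1 * e2) * star (CO c s (piJ r').2) := by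
          rw [h5]; noncomm_ring
      _ = (gcen c s * CO c s (piJ p).2 * hh s) * e (piJ p).1 (piJ r').1
            * star (CO c s (piJ r').2) := by
          rw [h4, gcen_C R]; noncomm_ring
      _ = gcen c s * (CO c s (piJ p).2 * hh s) * e (piJ p).1 (piJ r').1
            * star (CO c s (piJ r').2) := by noncomm_ring
      _ = _ := by rw [gC_h R]; noncomm_ring
  · by_cases h3 : (piJ r).2 = (piJ p').2
    · have h4 : (piJ r).1 ≠ (piJ p').1 := by
        intro h5
        exact h2 ((piJ).injective (Prod.ext h5 h3))
      rw [if_pos h3, if_neg h2]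
      have h6 : e1 * e2 = 0 := by
        rw [he1, he2, R.e_mul, if_neg h4]
      calc CO c s (piJ p).2 * e1 * (s * s) * e2 * star (CO c s (piJ r').2)
          = CO c s (piJ p).2 * (e1 * (s * s)) * e2 * star (CO c s (piJ r').2) := by noncomm_ring
        _ = CO c s (piJ p).2 * (s * s) * (e1 * e2) * star (CO c s (piJ r').2) := by
            rw [h5]; noncomm_ring
        _ = 0 := by rw [h6]; simp
    · rw [if_neg h3, if_neg h2]
      simp

lemma gc_a (i j : J) :
    gcen c s * gaij e c i j = ∑ k : Option J, gWW e c s (i, k) (j, k) := by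
  rw [Fintype.sum_option]
  unfold gWW
  simp only [piJ_none, piJ_some, CO, R.s_star]
  have h1 : ∑ m, c i * e m m * star (c j) = c i * hh s * star (c j) := by
    rw [← R.e_sum, Finset.mul_sum, Finset.sum_mul]
  have h3 : c i * hh s * star (c j)
      = c i * star (c j) - c i * (s * s) * star (c j) := by
    unfold hh
    noncomm_ring
  have h4 : gcen c s * (c i * star (c j)) = c i * (s * s) * star (c j) := by
    have : gcen c s * c i = c i * (s * s) := gcen_C R (some i)
    rw [← mul_assoc, this]
  unfold gaij
  rw [mul_sub, gcen_e R, h4, h1, h3]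
  abel

lemma gh1_b (a b : Option J) :
    (1 - gcen c s) * gbbk c s a b = ∑ l : J, gWW e c s (piJ (l, a)) (piJ (l, b)) := by
  unfold gWW gbbk
  simp only [piJ_piJ]
  rw [← Finset.sum_mul, ← Finset.mul_sum, R.e_sum, ← mul_assoc, gC_h R]

lemma ga_b (i j : J) (a b : Option J) :
    gaij e c i j * gbbk c s a b = ∑ l : J,
      if j = (piJ (l, a)).1 then gWW e c s (i, (piJ (l, a)).2) (piJ (l, b)) else 0 := by
  rcases a with _ | a'
  · have h0 : ∀ l : J, (if j = (piJ (l, (none : Option J))).1 then
        gWW e c s (i, (piJ (l, (none : Option J))).2) (piJ (l, b)) else 0)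
        = if j = l then gWW e c s (i, none) (piJ (l, b)) else 0 := fun l => rfl
    rw [Finset.sum_congr rfl (fun l _ => h0 l), Finset.sum_ite_eq Finset.univ j]
    simp only [Finset.mem_univ, if_true]
    unfold gWW gbbk
    rw [piJ_none, piJ_piJ]
    simp only [CO]
    rw [← mul_assoc, ga_s R]
  · have h0 : ∀ l : J, (if j = (piJ (l, some a')).1 then
        gWW e c s (i, (piJ (l, some a')).2) (piJ (l, b)) else 0)
        = if j = a' then gWW e c s (i, some l) (piJ (l, b)) else 0 := fun l => rfl
    rw [Finset.sum_congr rfl (fun l _ => h0 l)]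
    have hW : ∀ l : J, gWW e c s (i, some l) (piJ (l, b))
        = c i * e l l * star (CO c s b) := by
      intro l
      unfold gWW
      rw [piJ_some, piJ_piJ]
      rfl
    unfold gbbk
    have e0 : CO c s (some a') = c a' := rfl
    rw [e0, ← mul_assoc, ga_c R]
    by_cases h : j = a'
    · simp only [h, if_true, hW]
      have h2 : (1 - gcen c s) * c i = c i * hh s := (gC_h R (some i)).symm
      rw [h2, ← R.e_sum, Finset.mul_sum, Finset.sum_mul]
    · simp [h]

lemma gsum_one : ∑ i, gaij e c i i + ∑ b, gbbk c s b b = 1 := by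
  rw [Fintype.sum_option]
  unfold gaij gbbk
  simp only [CO, R.s_star]
  rw [Finset.sum_sub_distrib, R.e_sum]
  unfold hh
  abel

end Rel

end

end Vale.Agent.Lib.P101
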