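import Mathlib

/-! The prime dimension drop algebras, and the properties of the Jiang-Su algebra. -/

universe u

namespace Vale.Agent.Lib.P101

open scoped Kronecker ComplexOrder

/-- The dimension drop algebra
`Z_{p,q} = {f ∈ C([0,1], M_p ⊗ M_q) : f(0) ∈ M_p ⊗ 1, f(1) ∈ 1 ⊗ M_q}`. -/
noncomputable def DP (p q : ℕ) :
    StarSubalgebra ℂ C(unitInterval, Matrix (Fin p × Fin q) (Fin p × Fin q) ℂ) where
  carrier := {f | (∃ a : Matrix (Fin p) (Fin p) ℂ, f 0 = a ⊗ₖ (1 : Matrix (Fin q) (Fin q) ℂ)) ∧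
    ∃ b : Matrix (Fin q) (Fin q) ℂ, f 1 = (1 : Matrix (Fin p) (Fin p) ℂ) ⊗ₖ b}
  mul_mem' := by
    rintro f g ⟨⟨a, ha⟩, ⟨b, hb⟩⟩ ⟨⟨a', ha'⟩, ⟨b', hb'⟩⟩
    refine ⟨⟨a * a', ?_⟩, ⟨b * b', ?_⟩⟩
    · have := Matrix.mul_kronecker_mul a a' (1 : Matrix (Fin q) (Fin q) ℂ) (1 : Matrix (Fin q) (Fin q) ℂ)
      rw [mul_one] at this
      rw [this, ← ha, ← ha']
      rfl
    · have := Matrix.mul_kronecker_mul (1 : Matrix (Fin p) (Fin p) ℂ) (1 : Matrix (Fin p) (Fin p) ℂ) b b'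
      rw [mul_one] at this
      rw [this, ← hb, ← hb']
      rfl
  add_mem' := by
    rintro f g ⟨⟨a, ha⟩, ⟨b, hb⟩⟩ ⟨⟨a', ha'⟩, ⟨b', hb'⟩⟩
    refine ⟨⟨a + a', ?_⟩, ⟨b + b', ?_⟩⟩
    · rw [Matrix.add_kronecker, ← ha, ← ha']
      rfl
    · rw [Matrix.kronecker_add, ← hb, ← hb']
      rfl
  algebraMap_mem' := by
    intro r
    refine ⟨⟨algebraMap ℂ _ r, ?_⟩, ⟨algebraMap ℂ _ r, ?_⟩⟩
    · ext i j
      simp [Matrix.algebraMap_matrix_apply, Matrix.one_apply, Prod.ext_iff]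
      grind
    · ext i j
      simp [Matrix.algebraMap_matrix_apply, Matrix.one_apply, Prod.ext_iff]
      grind
  star_mem' := by
    rintro f ⟨⟨a, ha⟩, ⟨b, hb⟩⟩
    refine ⟨⟨star a, ?_⟩, ⟨star b, ?_⟩⟩
    · show star (f 0) = _
      rw [ha]
      simp [Matrix.star_eq_conjTranspose, Matrix.conjTranspose_kronecker]
    · show star (f 1) = _
      rw [hb]
      simp [Matrix.star_eq_conjTranspose, Matrix.conjTranspose_kronecker]

/-- The properties of the Jiang-Su algebra `Z` used in the statement: a separable unital C*-algebra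
which is simple and monotracial, an increasing union of prime dimension drop algebras (these
properties determine `Z` up to isomorphism, by Jiang-Su 1999), and which has an approximately inner
half-flip (Jiang-Su 1999), in the form: any two commuting unital copies of `Z` in a unital
C*-algebra are approximately unitarily equivalent. -/
structure IsJiangSu (Z : Type u) [CStarAlgebra Z] : Prop where
  /-- `Z` is separable and nonzero. -/
  separable : TopologicalSpace.SeparableSpace Z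
  nontrivial : Nontrivial Z
  /-- `Z` is an increasing union of prime dimension drop algebras. -/
  limit : ∃ (p q : ℕ → ℕ) (ι : ∀ k, DP (p k) (q k) →⋆ₐ[ℂ] Z),
    (∀ k, Nat.Coprime (p k) (q k) ∧ 2 ≤ p k ∧ 2 ≤ q k) ∧ (∀ k, Function.Injective (ι k)) ∧
    (∀ k l, k ≤ l → Set.range (ι k) ⊆ Set.range (ι l)) ∧ Dense (⋃ k, Set.range (ι k))
  /-- `Z` is simple: its only closed two-sided ideals are `0` and `Z`. -/
  simple : ∀ I : TwoSidedIdeal Z, IsClosed (I : Set Z) → I = ⊥ ∨ I = ⊤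
  /-- `Z` has a unique tracial state. -/
  trace : ∃! τ : Z →ₗ[ℂ] ℂ, (∀ x, 0 ≤ τ (star x * x)) ∧ τ 1 = 1 ∧ ∀ x y, τ (x * y) = τ (y * x)
  /-- The approximately inner half-flip. -/
  flip : ∀ (Y : Type u) [CStarAlgebra Y] (c d : Z →⋆ₐ[ℂ] Y), (∀ z z', c z * d z' = d z' * c z) →
    ∀ (G : Finset Z) (ε : ℝ), 0 < ε → ∃ w : Y, star w * w = 1 ∧ w * star w = 1 ∧
      ∀ z ∈ G, ‖w * c z * star w - d z‖ < ε

end Vale.Agent.Lib.P101
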