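import Vale.Agent.Lib.P101.GGlue
import Vale.Agent.Lib.P101.ZDefs

/-! Unital homomorphisms between dimension drop algebras: combinators for representations. -/

namespace Vale.Agent.Lib.P101

set_option linter.unusedSectionVars false
set_option linter.unusedSimpArgs false

open scoped Kronecker

noncomputable section

section Rep

variable {D : Type*} [Ring D] [StarRing D] [Algebra ℂ D]
variable {T T₁ T₂ T₃ T' : Type} [Fintype T] [DecidableEq T] [Fintype T₁] [DecidableEq T₁]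
  [Fintype T₂] [DecidableEq T₂] [Fintype T₃] [DecidableEq T₃] [Fintype T'] [DecidableEq T']
variable {K K' K₁ K₂ : Type} [Fintype K] [DecidableEq K] [Fintype K'] [DecidableEq K']
  [Fintype K₁] [DecidableEq K₁] [Fintype K₂] [DecidableEq K₂]

/-- Direct sums of representations. -/
def dsum (ρ₁ : D →⋆ₐ[ℂ] Matrix T₁ T₁ ℂ) (ρ₂ : D →⋆ₐ[ℂ] Matrix T₂ T₂ ℂ) :
    D →⋆ₐ[ℂ] Matrix (T₁ ⊕ T₂) (T₁ ⊕ T₂) ℂ where
  toFun x := Matrix.fromBlocks (ρ₁ x) 0 0 (ρ₂ x)
  map_one' := by simp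
  map_mul' x y := by simp [Matrix.fromBlocks_multiply]
  map_zero' := by simp
  map_add' x y := by simp [Matrix.fromBlocks_add]
  commutes' r := by
    show Matrix.fromBlocks (ρ₁ (algebraMap ℂ D r)) 0 0 (ρ₂ (algebraMap ℂ D r)) = _
    rw [AlgHomClass.commutes ρ₁ r, AlgHomClass.commutes ρ₂ r]
    ext i j
    rcases i with i | i <;> rcases j with j | j <;>
      simp [Matrix.algebraMap_matrix_apply]
  map_star' x := by
    show Matrix.fromBlocks (ρ₁ (star x)) 0 0 (ρ₂ (star x)) = star (Matrix.fromBlocks (ρ₁ x) 0 0 (ρ₂ x))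
    rw [map_star, map_star]
    simp [Matrix.star_eq_conjTranspose, Matrix.fromBlocks_conjTranspose]

/-- Multiples of a representation. -/
def amp (K : Type) [Fintype K] [DecidableEq K] (ρ : D →⋆ₐ[ℂ] Matrix T T ℂ) :
    D →⋆ₐ[ℂ] Matrix (K × T) (K × T) ℂ := (krR (J := K) (L := T)).comp ρ

lemma amp_apply (ρ : D →⋆ₐ[ℂ] Matrix T T ℂ) (x : D) (u v : K × T) :
    amp K ρ x u v = (1 : Matrix K K ℂ) u.1 v.1 * ρ x u.2 v.2 := rfl

/-- Conjugacy of representations by a bijection of the index sets. -/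
def CE (ρ : D →⋆ₐ[ℂ] Matrix T T ℂ) (ρ' : D →⋆ₐ[ℂ] Matrix T' T' ℂ) : Prop :=
  ∃ d : T ≃ T', ∀ x u v, ρ x u v = ρ' x (d u) (d v)

lemma CE.refl (ρ : D →⋆ₐ[ℂ] Matrix T T ℂ) : CE ρ ρ := ⟨Equiv.refl _, fun _ _ _ => rfl⟩

lemma CE.trans {ρ : D →⋆ₐ[ℂ] Matrix T T ℂ} {ρ' : D →⋆ₐ[ℂ] Matrix T' T' ℂ}
    {ρ₂ : D →⋆ₐ[ℂ] Matrix T₂ T₂ ℂ} (h : CE ρ ρ') (h' : CE ρ' ρ₂) : CE ρ ρ₂ := by
  obtain ⟨d, hd⟩ := h
  obtain ⟨d', hd'⟩ := h'
  exact ⟨d.trans d', fun x u v => by rw [hd, hd']; rfl⟩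

lemma CE.symm {ρ : D →⋆ₐ[ℂ] Matrix T T ℂ} {ρ' : D →⋆ₐ[ℂ] Matrix T' T' ℂ} (h : CE ρ ρ') :
    CE ρ' ρ := by
  obtain ⟨d, hd⟩ := h
  exact ⟨d.symm, fun x u v => by rw [hd]; simp⟩

lemma ce_amp (K : Type) [Fintype K] [DecidableEq K] {ρ : D →⋆ₐ[ℂ] Matrix T T ℂ}
    {ρ' : D →⋆ₐ[ℂ] Matrix T' T' ℂ} (h : CE ρ ρ') : CE (amp K ρ) (amp K ρ') := by
  obtain ⟨d, hd⟩ := h
  exact ⟨Equiv.prodCongr (Equiv.refl _) d, fun x u v => by
    rw [amp_apply, amp_apply, hd]; rfl⟩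

lemma ce_amp_congr (e : K ≃ K') (ρ : D →⋆ₐ[ℂ] Matrix T T ℂ) : CE (amp K ρ) (amp K' ρ) := by
  refine ⟨Equiv.prodCongr e (Equiv.refl _), fun x u v => ?_⟩
  rw [amp_apply, amp_apply]
  simp [Matrix.one_apply, e.injective.eq_iff]

lemma ce_dsum {ρ₁ : D →⋆ₐ[ℂ] Matrix T₁ T₁ ℂ} {ρ₂ : D →⋆ₐ[ℂ] Matrix T₂ T₂ ℂ}
    {ρ₁' : D →⋆ₐ[ℂ] Matrix K₁ K₁ ℂ} {ρ₂' : D →⋆ₐ[ℂ] Matrix K₂ K₂ ℂ} (h₁ : CE ρ₁ ρ₁')
    (h₂ : CE ρ₂ ρ₂') : CE (dsum ρ₁ ρ₂) (dsum ρ₁' ρ₂') := by
  obtain ⟨d₁, hd₁⟩ := h₁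
  obtain ⟨d₂, hd₂⟩ := h₂
  refine ⟨Equiv.sumCongr d₁ d₂, fun x u v => ?_⟩
  rcases u with u | u <;> rcases v with v | v <;> simp [dsum, hd₁, hd₂]

lemma dsum_comm (ρ₁ : D →⋆ₐ[ℂ] Matrix T₁ T₁ ℂ) (ρ₂ : D →⋆ₐ[ℂ] Matrix T₂ T₂ ℂ) :
    CE (dsum ρ₁ ρ₂) (dsum ρ₂ ρ₁) := by
  refine ⟨Equiv.sumComm _ _, fun x u v => ?_⟩
  rcases u with u | u <;> rcases v with v | v <;> simp [dsum]

lemma dsum_assoc (ρ₁ : D →⋆ₐ[ℂ] Matrix T₁ T₁ ℂ) (ρ₂ : D →⋆ₐ[ℂ] Matrix T₂ T₂ ℂ)
    (ρ₃ : D →⋆ₐ[ℂ] Matrix T₃ T₃ ℂ) :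
    CE (dsum (dsum ρ₁ ρ₂) ρ₃) (dsum ρ₁ (dsum ρ₂ ρ₃)) := by
  refine ⟨Equiv.sumAssoc _ _ _, fun x u v => ?_⟩
  rcases u with (u | u) | u <;> rcases v with (v | v) | v <;> simp [dsum]

lemma amp_dsum (ρ₁ : D →⋆ₐ[ℂ] Matrix T₁ T₁ ℂ) (ρ₂ : D →⋆ₐ[ℂ] Matrix T₂ T₂ ℂ) :
    CE (amp K (dsum ρ₁ ρ₂)) (dsum (amp K ρ₁) (amp K ρ₂)) := by
  refine ⟨Equiv.prodSumDistrib _ _ _, fun x u v => ?_⟩
  obtain ⟨k, u⟩ := u
  obtain ⟨k', v⟩ := v
  rw [amp_apply]
  rcases u with u | u <;> rcases v with v | v <;> simp [dsum, amp_apply]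

lemma sum_amp (ρ : D →⋆ₐ[ℂ] Matrix T T ℂ) :
    CE (amp (K₁ ⊕ K₂) ρ) (dsum (amp K₁ ρ) (amp K₂ ρ)) := by
  refine ⟨Equiv.sumProdDistrib _ _ _, fun x u v => ?_⟩
  obtain ⟨k, u⟩ := u
  obtain ⟨k', v⟩ := v
  rw [amp_apply]
  rcases k with k | k <;> rcases k' with k' | k' <;> simp [dsum, amp_apply, Matrix.one_apply]

lemma amp_amp (ρ : D →⋆ₐ[ℂ] Matrix T T ℂ) : CE (amp K (amp K' ρ)) (amp (K × K') ρ) := by
  refine ⟨(Equiv.prodAssoc _ _ _).symm, fun x u v => ?_⟩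
  obtain ⟨k, l, u⟩ := u
  obtain ⟨k', l', v⟩ := v
  simp only [amp_apply, Equiv.prodAssoc_symm_apply, Matrix.one_apply, Prod.mk.injEq]
  by_cases h1 : k = k' <;> by_cases h2 : l = l' <;> simp [h1, h2]

lemma krL_comp (ρ : D →⋆ₐ[ℂ] Matrix T T ℂ) :
    CE ((krL (J := T) (L := K)).comp ρ) (amp K ρ) := by
  refine ⟨Equiv.prodComm _ _, fun x u v => ?_⟩
  show ρ x u.1 v.1 * (1 : Matrix K K ℂ) u.2 v.2 = (1 : Matrix K K ℂ) u.2 v.2 * ρ x u.1 v.1
  exact mul_comm _ _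

lemma rx_comp (d : T ≃ T') (ρ : D →⋆ₐ[ℂ] Matrix T' T' ℂ) : CE ((rx d).comp ρ) ρ :=
  ⟨d, fun _ _ _ => rfl⟩

lemma dsum_cont {X : Type*} [TopologicalSpace X] {ρ₁ : X → D →⋆ₐ[ℂ] Matrix T₁ T₁ ℂ}
    {ρ₂ : X → D →⋆ₐ[ℂ] Matrix T₂ T₂ ℂ} (x : D) (h₁ : Continuous fun t => ρ₁ t x)
    (h₂ : Continuous fun t => ρ₂ t x) : Continuous fun t => dsum (ρ₁ t) (ρ₂ t) x :=
  Continuous.matrix_fromBlocks h₁ continuous_const continuous_const h₂

lemma amp_cont {X : Type*} [TopologicalSpace X] {ρ : X → D →⋆ₐ[ℂ] Matrix T T ℂ} (x : D)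
    (h : Continuous fun t => ρ t x) : Continuous fun t => amp K (ρ t) x := by
  refine continuous_matrix fun u v => ?_
  simp only [amp_apply]
  exact continuous_const.mul (h.matrix_elem _ _)

end Rep

section Path

variable {E : Type} [Fintype E] [DecidableEq E]

/-- Lifting a representation with values in the range of an injective homomorphism. -/
theorem exists_lift {D M P : Type*} [Ring D] [StarRing D] [Algebra ℂ D] [Ring M] [StarRing M]
    [Algebra ℂ M] [Ring P] [StarRing P] [Algebra ℂ P] (Φ : D →⋆ₐ[ℂ] M) (ι : P →⋆ₐ[ℂ] M)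
    (hι : Function.Injective ι) (h : ∀ x, ∃ y, ι y = Φ x) :
    ∃ π : D →⋆ₐ[ℂ] P, ∀ x, ι (π x) = Φ x := by
  choose g hg using h
  refine ⟨{ toFun := g
            map_one' := hι (by rw [hg, map_one, map_one])
            map_mul' := fun x y => hι (by rw [hg, map_mul, map_mul, hg, hg])
            map_zero' := hι (by rw [hg, map_zero, map_zero])
            map_add' := fun x y => hι (by rw [hg, map_add, map_add, hg, hg])
            commutes' := fun r => hι (by rw [hg]; exact (Φ.commutes r).trans (ι.commutes r).symm)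
            map_star' := fun x => hι (by rw [hg, map_star, map_star, hg]) }, hg⟩

/-- The permutation matrix of an involution. -/
def Wm (σ : E → E) : Matrix E E ℂ := (1 : Matrix E E ℂ).submatrix σ id

lemma Wm_mul (σ : E → E) (A : Matrix E E ℂ) : Wm σ * A = A.submatrix σ id := by
  ext u z
  simp [Wm, Matrix.mul_apply, Matrix.one_apply]

lemma mul_Wm {σ : E → E} (hσ : ∀ p, σ (σ p) = p) (A : Matrix E E ℂ) :
    A * Wm σ = A.submatrix id σ := by
  ext u z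
  simp only [Wm, Matrix.mul_apply, Matrix.submatrix_apply, id_eq, Matrix.one_apply,
    Matrix.submatrix_id_id]
  rw [Finset.sum_eq_single (σ z)]
  · simp [hσ]
  · intro y _ hy
    have : σ y ≠ z := fun e => hy (by rw [← e, hσ])
    simp [this]
  · simp

lemma Wm_mul_Wm {σ : E → E} (hσ : ∀ p, σ (σ p) = p) : Wm σ * Wm σ = 1 := by
  rw [Wm_mul]
  ext u z
  show (1 : Matrix E E ℂ) (σ (σ u)) z = (1 : Matrix E E ℂ) u z
  rw [hσ]

lemma Wm_star {σ : E → E} (hσ : ∀ p, σ (σ p) = p) : star (Wm σ) = Wm σ := by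
  ext u z
  simp only [Wm, Matrix.star_apply, Matrix.submatrix_apply, id_eq, Matrix.one_apply]
  by_cases h : σ z = u
  · have h2 : σ u = z := by rw [← h, hσ]
    simp [h, h2]
  · have h2 : σ u ≠ z := fun e => h (by rw [← e, hσ])
    simp [h, h2]

/-- The path of unitaries `cos + i sin W`. -/
def UUm (σ : E → E) : C(II, Matrix E E ℂ) := el csn 1 + el (Complex.I • snn) (Wm σ)

lemma UUm_apply (σ : E → E) (u : II) :
    UUm σ u = csn u • (1 : Matrix E E ℂ) + (Complex.I * snn u) • Wm σ := by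
  simp [UUm]

lemma UUm_star_apply {σ : E → E} (hσ : ∀ p, σ (σ p) = p) (u : II) :
    star (UUm σ u) = csn u • (1 : Matrix E E ℂ) + (-Complex.I * snn u) • Wm σ := by
  rw [UUm_apply, star_add, star_smul, star_smul, star_one, Wm_star hσ]
  have h1 : star (csn u) = csn u := Complex.conj_ofReal _
  have h2 : star (snn u) = snn u := Complex.conj_ofReal _
  rw [h1, star_mul', h2]
  congr 2
  simp

lemma path_mulm {σ : E → E} (hσ : ∀ p, σ (σ p) = p) (a b i : ℂ) (hi : i * i = -1) :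
    (a • (1 : Matrix E E ℂ) + (i * b) • Wm σ) * (a • (1 : Matrix E E ℂ) + (-i * b) • Wm σ)
      = (a * a + b * b) • 1 := by
  simp only [add_mul, mul_add, smul_mul_assoc, mul_smul_comm, one_mul, mul_one, Wm_mul_Wm hσ,
    smul_add, smul_smul]
  have h2 : -i * b * (i * b) = b * b := by linear_combination (-b * b) * hi
  rw [h2]
  module

lemma UUm_mul_star {σ : E → E} (hσ : ∀ p, σ (σ p) = p) : UUm σ * star (UUm σ) = 1 := by
  ext1 u
  show UUm σ u * star (UUm σ u) = 1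
  rw [UUm_star_apply hσ, UUm_apply, path_mulm hσ _ _ _ Complex.I_mul_I, csn_snn, one_smul]

lemma star_mul_UUm {σ : E → E} (hσ : ∀ p, σ (σ p) = p) : star (UUm σ) * UUm σ = 1 := by
  ext1 u
  show star (UUm σ u) * UUm σ u = 1
  rw [UUm_star_apply hσ, UUm_apply]
  have h : (-Complex.I) * (-Complex.I) = -1 := by
    rw [neg_mul_neg, Complex.I_mul_I]
  have := path_mulm hσ (csn u) (snn u) (-Complex.I) h
  rw [neg_neg] at this
  rw [this, csn_snn, one_smul]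

lemma UUm_zero (σ : E → E) : UUm σ 0 = 1 := by
  rw [UUm_apply]
  simp [csn, snn]

lemma UUm_one (σ : E → E) : UUm σ 1 = Complex.I • Wm σ := by
  rw [UUm_apply]
  simp [csn, snn]

/-- Every permutation is connected to the identity by a path of unitaries. -/
theorem exists_path (σ : Equiv.Perm E) :
    ∃ U : C(II, Matrix E E ℂ), star U * U = 1 ∧ U * star U = 1 ∧ U 0 = 1 ∧
      ∀ X : Matrix E E ℂ, U 1 * X * star (U 1) = rx σ X := by
  classical
  induction σ using Equiv.Perm.swap_induction_on with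
  | one =>
    refine ⟨1, by simp, by simp, rfl, fun X => ?_⟩
    ext u v
    simp
  | swap_mul f x y hxy ih =>
    obtain ⟨U, h1, h2, h3, h4⟩ := ih
    have hs : ∀ p, (Equiv.swap x y) ((Equiv.swap x y) p) = p := Equiv.swap_apply_self x y
    refine ⟨U * UUm (Equiv.swap x y), ?_, ?_, ?_, fun X => ?_⟩
    · rw [star_mul]
      calc star (UUm (Equiv.swap x y)) * star U * (U * UUm (Equiv.swap x y))
          = star (UUm (Equiv.swap x y)) * (star U * U) * UUm (Equiv.swap x y) := by noncomm_ring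
        _ = 1 := by rw [h1, mul_one, star_mul_UUm hs]
    · rw [star_mul]
      calc U * UUm (Equiv.swap x y) * (star (UUm (Equiv.swap x y)) * star U)
          = U * (UUm (Equiv.swap x y) * star (UUm (Equiv.swap x y))) * star U := by noncomm_ring
        _ = 1 := by rw [UUm_mul_star hs, mul_one, h2]
    · show U 0 * UUm (Equiv.swap x y) 0 = 1
      rw [h3, UUm_zero, one_mul]
    · have e0 : ∀ V : Matrix E E ℂ, UUm (Equiv.swap x y) 1 * V * star (UUm (Equiv.swap x y) 1)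
          = rx (Equiv.swap x y) V := by
        intro V
        rw [UUm_one, star_smul, Wm_star hs]
        simp only [smul_mul_assoc, mul_smul_comm, smul_smul]
        have e1 : star Complex.I * Complex.I = 1 := by simp
        rw [e1, one_smul, Wm_mul, mul_Wm hs]
        ext u v
        rfl
      show U 1 * UUm (Equiv.swap x y) 1 * X * star (U 1 * UUm (Equiv.swap x y) 1) = _
      rw [star_mul]
      calc U 1 * UUm (Equiv.swap x y) 1 * X * (star (UUm (Equiv.swap x y) 1) * star (U 1))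
          = U 1 * (UUm (Equiv.swap x y) 1 * X * star (UUm (Equiv.swap x y) 1)) * star (U 1) := by
            noncomm_ring
        _ = _ := by
            rw [e0, h4]
            ext u v
            rfl

end Path

section Arith

/-- The arithmetic behind the maps between dimension drop algebras. -/
theorem arith_dim {p q n : ℕ} (hpq : Nat.Coprime p q) (hp : 2 ≤ p) (hq : 2 ≤ q)
    (hn : 2 * (p * q) ≤ n) :
    ∃ a b a' b' c : ℕ, a * p + b * q = n ∧ a' * p + b' * q = n + 1 ∧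
      (n + 1) * a = n * a' + c * q ∧ n * b' = (n + 1) * b + c * p := by
  -- the inverse of `q` modulo `p`
  obtain ⟨g, hgp, hqg⟩ := Nat.exists_mul_mod_eq_one_of_coprime hpq.symm (by omega : 1 < p)
  set e := q * g / p with he
  have hqg' : q * g = p * e + 1 := by
    have := Nat.div_add_mod (q * g) p
    rw [hqg] at this
    exact this.symm
  have hepq : e < q := by
    have h2 : q * g < q * p := (Nat.mul_lt_mul_left (by omega : 0 < q)).2 hgp
    have h3 : q * p = p * q := mul_comm _ _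
    have h1 : p * e < p * q := by omega
    exact Nat.lt_of_mul_lt_mul_left h1
  -- a solution with `a` in `[q, 2q)`
  obtain ⟨m₂, -, hm₂⟩ := Nat.exists_mul_mod_eq_one_of_coprime hpq (by omega : 1 < q)
  set a₀ := (n * m₂) % q with ha₀
  have ha₀q : a₀ < q := Nat.mod_lt _ (by omega)
  set a := a₀ + q with ha
  have hmod : a * p ≡ n [MOD q] := by
    have h1 : a * p ≡ a₀ * p [MOD q] := by
      rw [ha]
      have : (a₀ + q) * p = a₀ * p + q * p := by ring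
      rw [this]
      exact Nat.add_mul_mod_self_left _ _ _
    have h2 : a₀ * p ≡ (n * m₂) * p [MOD q] := Nat.ModEq.mul_right _ (Nat.mod_modEq _ _)
    have h3 : (n * m₂) * p ≡ n * 1 [MOD q] := by
      rw [mul_assoc, mul_comm m₂ p]
      refine Nat.ModEq.mul_left _ ?_
      have : p * m₂ % q = 1 % q := by rw [hm₂, Nat.mod_eq_of_lt (by omega : 1 < q)]
      exact this
    rw [mul_one] at h3
    exact h1.trans (h2.trans h3)
  have hle : a * p ≤ n := by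
    have h1 : a ≤ 2 * q := by omega
    calc a * p ≤ 2 * q * p := Nat.mul_le_mul_right _ h1
      _ = 2 * (p * q) := by ring
      _ ≤ n := hn
  obtain ⟨b, hb⟩ := (Nat.modEq_iff_dvd' hle).1 hmod
  have hb' : a * p + q * b = n := by omega
  obtain ⟨r, hr⟩ : ∃ r, a = r + e := ⟨a - e, by omega⟩
  have e1 : a - e = r := by omega
  refine ⟨a, b, a - e, b + g, a * g + b * e, ?_, ?_, ?_, ?_⟩
  · rw [← hb']; ring
  · rw [e1, ← hb', hr]
    zify at hqg' ⊢
    linear_combination hqg'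
  · rw [e1, ← hb', hr]
    zify at hqg' ⊢
    linear_combination (-((r : ℤ) + e)) * hqg'
  · rw [← hb']
    zify at hqg' ⊢
    linear_combination (b : ℤ) * hqg'

end Arith

end

end Vale.Agent.Lib.P101
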