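import Vale.Agent.Lib.P101.GCols

/-! The glue data for a general matrix size, and the passage from the tuple invariant. -/

namespace Vale.Agent.Lib.P101

set_option linter.unusedSectionVars false
set_option linter.unusedSimpArgs false

open scoped ComplexOrder Kronecker

attribute [local instance] CStarAlgebra.spectralOrder CStarAlgebra.spectralOrderedRing

noncomputable section

section Hom

variable {J L : Type} [Fintype J] [DecidableEq J] [Fintype L] [DecidableEq L]

/-- The unital star-homomorphism `a ↦ a ⊗ 1`. -/
def krL : Matrix J J ℂ →⋆ₐ[ℂ] Matrix (J × L) (J × L) ℂ where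
  toFun a := a ⊗ₖ (1 : Matrix L L ℂ)
  map_one' := by
    ext i j
    simp [Matrix.one_apply, Prod.ext_iff]
    grind
  map_mul' a b := by
    have := Matrix.mul_kronecker_mul a b (1 : Matrix L L ℂ) (1 : Matrix L L ℂ)
    simpa only [mul_one] using this
  map_zero' := by simp
  map_add' a b := Matrix.add_kronecker a b _
  commutes' r := by
    ext i j
    simp [Matrix.algebraMap_matrix_apply, Matrix.one_apply, Prod.ext_iff]
    grind
  map_star' a := by
    simp [Matrix.star_eq_conjTranspose, Matrix.conjTranspose_kronecker]

/-- The unital star-homomorphism `b ↦ 1 ⊗ b`. -/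
def krR : Matrix L L ℂ →⋆ₐ[ℂ] Matrix (J × L) (J × L) ℂ where
  toFun b := (1 : Matrix J J ℂ) ⊗ₖ b
  map_one' := by
    ext i j
    simp [Matrix.one_apply, Prod.ext_iff]
    grind
  map_mul' a b := by
    have := Matrix.mul_kronecker_mul (1 : Matrix J J ℂ) (1 : Matrix J J ℂ) a b
    simpa only [mul_one] using this
  map_zero' := by simp
  map_add' a b := Matrix.kronecker_add _ a b
  commutes' r := by
    ext i j
    simp [Matrix.algebraMap_matrix_apply, Matrix.one_apply, Prod.ext_iff]
    grind
  map_star' a := by
    simp [Matrix.star_eq_conjTranspose, Matrix.conjTranspose_kronecker]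

@[simp] lemma krL_apply (a : Matrix J J ℂ) (u v : J × L) :
    krL (L := L) a u v = a u.1 v.1 * (1 : Matrix L L ℂ) u.2 v.2 := rfl

@[simp] lemma krR_apply (b : Matrix L L ℂ) (u v : J × L) :
    krR (J := J) b u v = (1 : Matrix J J ℂ) u.1 v.1 * b u.2 v.2 := rfl

/-- Reindexing by a bijection. -/
def rx {T T' : Type} [Fintype T] [DecidableEq T] [Fintype T'] [DecidableEq T'] (d : T ≃ T') :
    Matrix T' T' ℂ →⋆ₐ[ℂ] Matrix T T ℂ where
  toFun X := X.submatrix d d
  map_one' := Matrix.submatrix_one_equiv d
  map_mul' a b := (Matrix.submatrix_mul_equiv _ _ _ d _).symm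
  map_zero' := rfl
  map_add' a b := rfl
  commutes' r := by
    ext i j
    simp [Matrix.algebraMap_matrix_apply, EmbeddingLike.apply_eq_iff_eq]
  map_star' a := rfl

@[simp] lemma rx_apply {T T' : Type} [Fintype T] [DecidableEq T] [Fintype T'] [DecidableEq T']
    (d : T ≃ T') (X : Matrix T' T' ℂ) (u v : T) : rx d X u v = X (d u) (d v) := rfl

lemma krL_injective [Nonempty L] : Function.Injective (krL (J := J) (L := L)) := by
  intro a b h
  ext i j
  obtain ⟨l⟩ := ‹Nonempty L›
  have := congrFun (congrFun h (i, l)) (j, l)
  simpa using this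

lemma krR_injective [Nonempty J] : Function.Injective (krR (J := J) (L := L)) := by
  intro a b h
  ext i j
  obtain ⟨l⟩ := ‹Nonempty J›
  have := congrFun (congrFun h (l, i)) (l, j)
  simpa using this

lemma rx_injective {T T' : Type} [Fintype T] [DecidableEq T] [Fintype T'] [DecidableEq T']
    (d : T ≃ T') : Function.Injective (rx d) := by
  intro a b h
  ext i j
  have := congrFun (congrFun h (d.symm i)) (d.symm j)
  simpa using this

lemma krL_single (i j : J) (z : ℂ) :
    krL (L := L) (Matrix.single i j z) = ∑ k : L, Matrix.single (i, k) (j, k) z := by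
  ext ⟨a, b⟩ ⟨c, d⟩
  rw [Matrix.sum_apply, Finset.sum_eq_single b]
  · by_cases h1 : i = a <;> by_cases h2 : j = c <;> by_cases h3 : b = d <;>
      simp [Matrix.single_apply, Matrix.one_apply, h1, h2, h3]
  · intro k _ hk
    simp [Matrix.single_apply, Prod.ext_iff, hk.symm, Ne.symm hk]
    tauto
  · simp

lemma krR_single (a b : L) (z : ℂ) :
    krR (J := J) (Matrix.single a b z) = ∑ l : J, Matrix.single (l, a) (l, b) z := by
  ext ⟨c, d⟩ ⟨e, f⟩
  rw [Matrix.sum_apply, Finset.sum_eq_single c]
  · by_cases h1 : c = e <;> by_cases h2 : a = d <;> by_cases h3 : b = f <;>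
      simp [Matrix.single_apply, Matrix.one_apply, h1, h2, h3]
  · intro k _ hk
    simp [Matrix.single_apply, Prod.ext_iff, hk.symm, Ne.symm hk]
    tauto
  · simp

lemma krL_single_mul (i j j₀ : J) (k₀ : L) (r : J × L) (z w : ℂ) :
    krL (L := L) (Matrix.single i j z) * Matrix.single (j₀, k₀) r w
      = if j = j₀ then Matrix.single (i, k₀) r (z * w) else 0 := by
  rw [krL_single, Finset.sum_mul]
  by_cases h : j = j₀
  · subst h
    rw [if_pos rfl, Finset.sum_eq_single k₀]
    · exact Matrix.single_mul_single_same _ _ _ _ _
    · intro k _ hk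
      apply Matrix.single_mul_single_of_ne
      simpa [Prod.ext_iff] using hk
    · simp
  · rw [if_neg h]
    refine Finset.sum_eq_zero fun k _ => ?_
    apply Matrix.single_mul_single_of_ne
    simp [Prod.ext_iff, h]

end Hom

section Nhg

variable {J : Type} [Fintype J] [DecidableEq J]

/-- The twisted copy of `M_{n+1}`. -/
def Nhg : Matrix (Option J) (Option J) ℂ →⋆ₐ[ℂ] Matrix (J × Option J) (J × Option J) ℂ :=
  (rx piJ).comp krR

lemma Nhg_injective [Nonempty J] : Function.Injective (Nhg (J := J)) :=
  (rx_injective piJ).comp krR_injective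

lemma Nhg_single (a b : Option J) (z : ℂ) :
    Nhg (J := J) (Matrix.single a b z) = ∑ l : J, Matrix.single (piJ (l, a)) (piJ (l, b)) z := by
  ext u w
  show krR (J := J) (Matrix.single a b z) (piJ u) (piJ w) = _
  rw [krR_single, Matrix.sum_apply, Matrix.sum_apply]
  refine Finset.sum_congr rfl fun l _ => ?_
  simp only [Matrix.single_apply]
  have h1 : (l, a) = piJ u ↔ piJ (l, a) = u := by
    constructor
    · intro h; rw [h, piJ_piJ]
    · intro h; rw [← h, piJ_piJ]
  have h2 : (l, b) = piJ w ↔ piJ (l, b) = w := by
    constructor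
    · intro h; rw [h, piJ_piJ]
    · intro h; rw [← h, piJ_piJ]
  simp only [h1, h2]

lemma Nhg_single_mul (a b : Option J) (p r : J × Option J) (z w : ℂ) :
    Nhg (J := J) (Matrix.single a b z) * Matrix.single p r w
      = if b = (piJ p).2 then Matrix.single (piJ ((piJ p).1, a)) r (z * w) else 0 := by
  rw [Nhg_single, Finset.sum_mul]
  by_cases h : b = (piJ p).2
  · rw [if_pos h, Finset.sum_eq_single (piJ p).1]
    · have : piJ ((piJ p).1, b) = p := by
        rw [h]
        exact piJ_piJ p
      rw [this]
      exact Matrix.single_mul_single_same _ _ _ _ _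
    · intro l _ hl
      apply Matrix.single_mul_single_of_ne
      intro h2
      apply hl
      have h3 := congrArg piJ h2
      rw [piJ_piJ] at h3
      exact congrArg Prod.fst h3
    · simp
  · rw [if_neg h]
    refine Finset.sum_eq_zero fun l _ => ?_
    apply Matrix.single_mul_single_of_ne
    intro h2
    apply h
    have h3 := congrArg piJ h2
    rw [piJ_piJ] at h3
    exact congrArg Prod.snd h3

end Nhg

section Data

variable {J : Type} [Fintype J] [DecidableEq J]
variable {D : Type*} [CStarAlgebra D] {e : J → J → D} {c : J → D} {s s₁ : D} (R : GRel e c s s₁)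

/-- The glue data of the weighted matrix units. -/
def gglueData : GlueData (krL (J := J) (L := Option J)) (Nhg (J := J)) D where
  γ := gam (gcen c s) (gcen_nonneg R) (gcen_le_one R)
  A := lin (gaij e c)
  B := lin (gbbk c s)
  Ψ₀ := lin (gWW e c s)
  A_star := lin_star _ (gstar_a R)
  B_star := lin_star _ (gstar_b R)
  Ψ_star := lin_star _ (gstar_W R)
  γA := fun F m => gam_comm _ _ _ (lin_comm _ (gcen_comm_a R) m) F
  γB := fun F m => gam_comm _ _ _ (lin_comm _ (gcen_comm_b R) m) F
  γΨ := fun F m => gam_comm _ _ _ (lin_comm _ (gcen_comm_W R) m) F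
  g1 := by
    have hc : gam (gcen c s) (gcen_nonneg R) (gcen_le_one R) (1 - tc) = 1 - gcen c s := by
      rw [map_sub, map_one, gam_tc]
    rw [hc]
    refine mat_ext2 (fun m m' => lin (gaij e c) m * lin (gaij e c) m')
      (fun m m' => (1 - gcen c s) * lin (gaij e c) (m * m')) ?_ ?_ ?_ ?_ ?_
    · intro a b c; simp only [map_add, add_mul]
    · intro a b c; simp only [map_add, mul_add]
    · intro a b c; simp only [add_mul, map_add, mul_add]
    · intro a b c; simp only [mul_add, map_add]
    · intro i j z k l w
      simp only [lin_single, smul_mul_smul_comm, ga_mul_a R]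
      by_cases h : j = k
      · subst h
        rw [if_pos rfl, Matrix.single_mul_single_same, lin_single, mul_smul_comm]
      · rw [if_neg h, Matrix.single_mul_single_of_ne (h := h), map_zero]
        simp
  g2 := by
    rw [gam_tc]
    refine mat_ext2 (fun m m' => lin (gbbk c s) m * lin (gbbk c s) m')
      (fun m m' => gcen c s * lin (gbbk c s) (m * m')) ?_ ?_ ?_ ?_ ?_
    · intro a b c; simp only [map_add, add_mul]
    · intro a b c; simp only [map_add, mul_add]
    · intro a b c; simp only [add_mul, map_add, mul_add]
    · intro a b c; simp only [mul_add, map_add]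
    · intro i j z k l w
      simp only [lin_single, smul_mul_smul_comm, gb_mul_b R]
      by_cases h : j = k
      · subst h
        rw [if_pos rfl, Matrix.single_mul_single_same, lin_single, mul_smul_comm]
      · rw [if_neg h, Matrix.single_mul_single_of_ne (h := h), map_zero]
        simp
  g3 := by
    refine mat_ext2 (fun m n => lin (gaij e c) m * lin (gbbk c s) n)
      (fun m n => lin (gWW e c s) (krL m * Nhg n)) ?_ ?_ ?_ ?_ ?_
    · intro a b c; simp only [map_add, add_mul]
    · intro a b c; simp only [map_add, mul_add]
    · intro a b c; simp only [map_add, add_mul]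
    · intro a b c; simp only [map_add, mul_add]
    · intro i j z a b w
      simp only [lin_single, smul_mul_smul_comm, ga_b R]
      rw [Nhg_single, Finset.mul_sum, map_sum, Finset.smul_sum]
      refine Finset.sum_congr rfl fun l _ => ?_
      have h1 : piJ (l, a) = ((piJ (l, a)).1, (piJ (l, a)).2) := rfl
      rw [h1, krL_single_mul]
      simp only
      split_ifs
      · rw [lin_single]
      · simp
  g4 := by
    have hc : gam (gcen c s) (gcen_nonneg R) (gcen_le_one R) (1 - tc) = 1 - gcen c s := by
      rw [map_sub, map_one, gam_tc]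
    rw [hc]
    refine mat_ext2 (fun m X => lin (gaij e c) m * lin (gWW e c s) X)
      (fun m X => (1 - gcen c s) * lin (gWW e c s) (krL m * X)) ?_ ?_ ?_ ?_ ?_
    · intro a b c; simp only [map_add, add_mul]
    · intro a b c; simp only [map_add, mul_add]
    · intro a b c; simp only [map_add, add_mul, mul_add]
    · intro a b c; simp only [map_add, mul_add]
    · rintro i j z ⟨j₀, k₀⟩ r w
      simp only [lin_single, smul_mul_smul_comm, ga_W R]
      rw [krL_single_mul]
      split_ifs
      · rw [lin_single, mul_smul_comm]
      · simp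
  g5 := by
    rw [gam_tc]
    refine mat_ext2 (fun m X => lin (gbbk c s) m * lin (gWW e c s) X)
      (fun m X => gcen c s * lin (gWW e c s) (Nhg m * X)) ?_ ?_ ?_ ?_ ?_
    · intro a b c; simp only [map_add, add_mul]
    · intro a b c; simp only [map_add, mul_add]
    · intro a b c; simp only [map_add, add_mul, mul_add]
    · intro a b c; simp only [map_add, mul_add]
    · intro a b z p r w
      simp only [lin_single, smul_mul_smul_comm, gb_W R]
      rw [Nhg_single_mul]
      split_ifs
      · rw [lin_single, mul_smul_comm]
      · simp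
  g6 := by
    have hc : gam (gcen c s) (gcen_nonneg R) (gcen_le_one R) (tc * (1 - tc))
        = gcen c s * (1 - gcen c s) := by
      rw [map_mul, map_sub, map_one, gam_tc]
    rw [hc]
    refine mat_ext2 (fun X X' => lin (gWW e c s) X * lin (gWW e c s) X')
      (fun X X' => (gcen c s * (1 - gcen c s)) * lin (gWW e c s) (X * X')) ?_ ?_ ?_ ?_ ?_
    · intro a b c; simp only [map_add, add_mul]
    · intro a b c; simp only [map_add, mul_add]
    · intro a b c; simp only [add_mul, map_add, mul_add]
    · intro a b c; simp only [mul_add, map_add]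
    · intro p r z p' r' w
      simp only [lin_single, smul_mul_smul_comm, gW_W R]
      by_cases h : r = p'
      · subst h
        rw [if_pos rfl, Matrix.single_mul_single_same, lin_single, mul_smul_comm]
      · rw [if_neg h, Matrix.single_mul_single_of_ne (h := h), map_zero]
        simp
  g7 := by
    rw [gam_tc]
    intro m
    induction m using Matrix.induction_on' with
    | h_zero => simp
    | h_add p q hp hq => simp only [map_add, mul_add, hp, hq]
    | h_std_basis i j z =>
      rw [lin_single, mul_smul_comm, gc_a R, krL_single, map_sum, Finset.smul_sum]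
      refine Finset.sum_congr rfl fun k _ => ?_
      rw [lin_single]
  g8 := by
    have hc : gam (gcen c s) (gcen_nonneg R) (gcen_le_one R) (1 - tc) = 1 - gcen c s := by
      rw [map_sub, map_one, gam_tc]
    rw [hc]
    intro m
    induction m using Matrix.induction_on' with
    | h_zero => simp
    | h_add p q hp hq => simp only [map_add, mul_add, hp, hq]
    | h_std_basis i j z =>
      rw [lin_single, mul_smul_comm, gh1_b R, Nhg_single, map_sum, Finset.smul_sum]
      refine Finset.sum_congr rfl fun k _ => ?_
      rw [lin_single]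
  g9 := by
    have h1 : ∀ {κ : Type} [Fintype κ] [DecidableEq κ] (W : κ → κ → D),
        lin W 1 = ∑ i, W i i := by
      intro κ _ _ W
      rw [lin_apply]
      refine Finset.sum_congr rfl fun p _ => ?_
      rw [Finset.sum_eq_single p]
      · simp
      · intro b _ hb
        simp [Matrix.one_apply, Ne.symm hb]
      · simp
    rw [h1, h1]
    exact gsum_one R

include R in
/-- The unital homomorphism from the twisted dimension drop algebra. -/
theorem exists_hom_of_grel [Nonempty J] :
    Nonempty (Ebd (krL (J := J) (L := Option J)) (Nhg (J := J)) →⋆ₐ[ℂ] D) :=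
  exists_glue (gglueData R) krL_injective Nhg_injective

end Data

section FromTuple

variable {F : Type*} [CStarAlgebra F]

lemma uu_comm {z w : F} (h1 : z * w = w * z) (h2 : star z * w = w * star z) (a b : Fin 2) :
    uu z a b * w = w * uu z a b := by
  have h3 : z * star z * w = w * (z * star z) := by
    rw [mul_assoc, h2, ← mul_assoc, h1, mul_assoc]
  have h4 : star z * z * w = w * (star z * z) := by
    rw [mul_assoc, h1, ← mul_assoc, h2, mul_assoc]
  fin_cases a <;> fin_cases b <;> simp [uu]
  · exact h3
  · exact h1
  · exact h2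
  · exact h4

lemma hh_comm {s y : F} (h : s * y = y * s) : hh s * y = y * hh s := by
  unfold hh
  rw [sub_mul, mul_sub, one_mul, mul_one, mul_assoc, h, ← mul_assoc, h, mul_assoc]

/-- The tuple invariant with one cell gives weighted matrix units of size `2 ^ #κ`. -/
theorem grel_of_tinv {κ : Type*} [Fintype κ] [DecidableEq κ] {x : κ → F} {s s₁ : F}
    {v : Fin 1 → F} (h : TInv x s s₁ v) :
    ∃ (J : Type) (_ : Fintype J) (_ : DecidableEq J) (_ : Nonempty J) (e : J → J → F) (c : J → F),
      Fintype.card J = 2 ^ Fintype.card κ ∧ GRel e c s s₁ := by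
  classical
  have hcol : ∀ c, ColRel (x c) s s₁ (v 0) := fun c => colRel_of_inv (h.proj c)
  set P := hh s with hP
  set v0 := v 0 with hv0
  have hPs : star P = P := by
    rw [hP]; unfold hh; rw [star_sub, star_one, star_mul, h.s_star]
  have hPv : P * v0 = v0 := by
    unfold hh at hP
    rw [hP, sub_mul, one_mul, mul_assoc, h.s_v, mul_zero, sub_zero]
  have hind : ∀ S : Finset κ, ∃ (J : Type) (_ : Fintype J) (_ : DecidableEq J) (j₀ : J)
      (u : J → J → F), Fintype.card J = 2 ^ S.card ∧
      (∀ i j k l, P * (u i j * u k l) = if j = k then P * u i l else 0) ∧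
      (∀ i j, star (u i j) = u j i) ∧
      (P * ∑ i, u i i = P) ∧
      (u j₀ j₀ * v0 = v0) ∧
      (∀ i j, s * u i j = u i j * s) ∧
      (∀ c, c ∉ S → ∀ i j, x c * u i j = u i j * x c ∧ star (x c) * u i j = u i j * star (x c)) := by
    intro S
    induction S using Finset.induction_on with
    | empty =>
      refine ⟨Unit, inferInstance, inferInstance, (), fun _ _ => 1, by simp, by simp, by simp,
        by simp, by simp, by simp, by simp⟩
    | insert c S hc ih =>
      obtain ⟨J, _, _, j₀, u, h1, h2, h3, h4, h5, h6, h7⟩ := ih
      have hR := hcol c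
      refine ⟨J × Fin 2, inferInstance, inferInstance, (j₀, 0),
        fun p r => u p.1 r.1 * uu (x c) p.2 r.2, ?_, ?_, ?_, ?_, ?_, ?_, ?_⟩
      · rw [Fintype.card_prod, h1, Finset.card_insert_of_notMem hc, Fintype.card_fin, pow_succ]
      · rintro ⟨i, a⟩ ⟨j, b⟩ ⟨k, a'⟩ ⟨l, b'⟩
        have e1 : uu (x c) b a' * 1 = uu (x c) b a' := mul_one _
        have hcu : uu (x c) a b * u k l = u k l * uu (x c) a b :=
          uu_comm (h7 c hc k l).1 (h7 c hc k l).2 a b
        have hPu : P * u i l = u i l * P := hh_comm (h6 i l)
        show P * (u i j * uu (x c) a b * (u k l * uu (x c) a' b')) = _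
        calc P * (u i j * uu (x c) a b * (u k l * uu (x c) a' b'))
            = P * (u i j * (uu (x c) a b * u k l) * uu (x c) a' b') := by noncomm_ring
          _ = (P * (u i j * u k l)) * (uu (x c) a b * uu (x c) a' b') := by
              rw [hcu]; noncomm_ring
          _ = _ := by
              rw [h2]
              by_cases hjk : j = k
              · rw [if_pos hjk, hPu, mul_assoc, h_uu_mul hR]
                by_cases hb : b = a'
                · have : (j, b) = (k, a') := by rw [hjk, hb]
                  rw [if_pos hb]
                  simp only [Prod.mk.injEq]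
                  rw [if_pos ⟨hjk, hb⟩, ← mul_assoc, ← hPu, mul_assoc]
                · rw [if_neg hb]
                  simp only [Prod.mk.injEq]
                  rw [if_neg (fun hh => hb hh.2), mul_zero]
              · rw [if_neg hjk, zero_mul]
                simp only [Prod.mk.injEq]
                rw [if_neg (fun hh => hjk hh.1)]
      · rintro ⟨i, a⟩ ⟨j, b⟩
        show star (u i j * uu (x c) a b) = u j i * uu (x c) b a
        rw [star_mul, h3, star_uu hR]
        exact (uu_comm (h7 c hc j i).1 (h7 c hc j i).2 b a)
      · have e1 : ∑ i : J × Fin 2, u i.1 i.1 * uu (x c) i.2 i.2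
            = (∑ i, u i i) * (x c * star (x c) + star (x c) * x c) := by
          rw [Fintype.sum_prod_type, Finset.sum_mul]
          refine Finset.sum_congr rfl fun i _ => ?_
          rw [Fin.sum_univ_two, ← mul_add]
          simp [uu]
        rw [e1, ← mul_assoc, h4, h_T hR]
      · show u j₀ j₀ * uu (x c) 0 0 * v0 = v0
        have e2 : uu (x c) 0 0 = x c * star (x c) := by simp [uu]
        rw [e2, mul_assoc, h.v_range, h5]
      · rintro ⟨i, a⟩ ⟨j, b⟩
        show s * (u i j * uu (x c) a b) = u i j * uu (x c) a b * s
        rw [← mul_assoc, h6, mul_assoc, s_uu hR, mul_assoc]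
      · rintro c' hc' ⟨i, a⟩ ⟨j, b⟩
        rw [Finset.mem_insert, not_or] at hc'
        obtain ⟨g1, g2⟩ := h7 c' hc'.2 i j
        have hne : c' ≠ c := hc'.1
        have e1 : x c * x c' = x c' * x c := h.x_comm c c' hne.symm
        have e2 : star (x c) * x c' = x c' * star (x c) := (h.x_scomm c' c hne).symm
        have e3 : x c * star (x c') = star (x c') * x c := h.x_scomm c c' hne.symm
        have e4 : star (x c) * star (x c') = star (x c') * star (x c) := by
          rw [← star_mul, ← star_mul, e1]
        constructor
        · show x c' * (u i j * uu (x c) a b) = u i j * uu (x c) a b * x c'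
          rw [← mul_assoc, g1, mul_assoc, (uu_comm e1 e2 a b).symm, mul_assoc]
        · show star (x c') * (u i j * uu (x c) a b) = u i j * uu (x c) a b * star (x c')
          rw [← mul_assoc, g2, mul_assoc, (uu_comm e3 e4 a b).symm, mul_assoc]
  obtain ⟨J, _, _, j₀, u, h1, h2, h3, h4, h5, h6, -⟩ := hind Finset.univ
  have hPcomm : ∀ i j, P * u i j = u i j * P := fun i j => hh_comm (h6 i j)
  have hvv : star v0 * v0 = s * s := by
    have := h.v_sum
    rwa [Fin.sum_univ_one] at this
  have hvP : star v0 * P = star v0 := by
    have := congrArg star hPv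
    rwa [star_mul, hPs] at this
  refine ⟨J, inferInstance, inferInstance, ⟨j₀⟩, fun i j => P * u i j, fun i => u i j₀ * v0, ?_, ?_⟩
  · rw [h1, Finset.card_univ]
  · refine ⟨h.s_star, h.s_norm, ?_, ?_, ?_, ?_, ?_, ?_, ?_⟩
    · intro i j
      show star (P * u i j) = P * u j i
      rw [star_mul, h3, hPs, hPcomm]
    · intro i j k l
      show P * u i j * (P * u k l) = if j = k then P * (P * u i l) else 0
      calc P * u i j * (P * u k l) = P * (u i j * P) * u k l := by noncomm_ring
        _ = P * (P * u i j) * u k l := by rw [hPcomm]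
        _ = P * (P * (u i j * u k l)) := by noncomm_ring
        _ = _ := by
          rw [h2]
          split_ifs <;> simp
    · show ∑ i, P * u i i = P
      rw [← Finset.mul_sum, h4]
    · intro i j
      show s * (P * u i j) = P * u i j * s
      have : s * P = P * s := by
        rw [hP]; unfold hh; noncomm_ring
      rw [← mul_assoc, this, mul_assoc, h6, mul_assoc]
    · intro i j k
      show P * u i j * (u k j₀ * v0) = if j = k then u i j₀ * v0 else 0
      calc P * u i j * (u k j₀ * v0) = (P * (u i j * u k j₀)) * v0 := by noncomm_ring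
        _ = _ := by
          rw [h2]
          split_ifs
          · rw [hPcomm, mul_assoc, hPv]
          · simp
    · intro j k
      show star (u j j₀ * v0) * (u k j₀ * v0) = if j = k then s * s else 0
      rw [star_mul, h3]
      calc star v0 * u j₀ j * (u k j₀ * v0) = star v0 * P * u j₀ j * (u k j₀ * v0) := by rw [hvP]
        _ = star v0 * (P * (u j₀ j * u k j₀)) * v0 := by noncomm_ring
        _ = _ := by
          rw [h2]
          split_ifs
          · calc star v0 * (P * u j₀ j₀) * v0 = (star v0 * P) * (u j₀ j₀ * v0) := by noncomm_ring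
              _ = s * s := by rw [hvP, h5, hvv]
          · simp
    · intro k
      show s * (u k j₀ * v0) = 0
      rw [← mul_assoc, h6, mul_assoc, h.s_v, mul_zero]

end FromTuple

end

end Vale.Agent.Lib.P101
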