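import Vale.Agent.Lib.P101.Merge

/-! The two-colour gadget in one coordinate. -/

namespace Vale.Agent.Lib.P101

open scoped ComplexOrder

attribute [local instance] CStarAlgebra.spectralOrder CStarAlgebra.spectralOrderedRing

variable {E : Type*} [CStarAlgebra E]

section Defs

variable (ν : ℝ) (z : Bool → E)

/-- `a_c = z_c z_c^*`. -/
def aa (c : Bool) : E := z c * star (z c)

/-- `b_c = z_c^* z_c`. -/
def bb (c : Bool) : E := star (z c) * z c

/-- `K_c = a_c b_{¬c}`. -/
def KK (c : Bool) : E := aa z c * bb z (!c)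

/-- `r_c = (1 + ν⁻² K_c K_c^*)⁻¹`. -/
noncomputable def rr (c : Bool) : E := resolv ((ν⁻¹ : ℝ) • star (KK z c))

/-- `s_c = (1 + ν⁻² K_{¬c}^* K_{¬c})⁻¹`. -/
noncomputable def ss (c : Bool) : E := resolv ((ν⁻¹ : ℝ) • KK z (!c))

/-- exact (`false`) or cut (`true`) version of `a_c`. -/
noncomputable def XX (c e : Bool) : E := if e then aa z c * rr ν z c * aa z c else aa z c

/-- exact (`false`) or cut (`true`) version of `b_c`. -/
noncomputable def YY (c e : Bool) : E := if e then bb z c * ss ν z c * bb z c else bb z c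

end Defs

section Basic

variable {ν : ℝ} {z : Bool → E}

lemma aa_nonneg (c : Bool) : 0 ≤ aa z c := by
  have := star_mul_self_nonneg (star (z c))
  rw [star_star] at this
  exact this

lemma bb_nonneg (c : Bool) : 0 ≤ bb z c := star_mul_self_nonneg (z c)

lemma star_aa (c : Bool) : star (aa z c) = aa z c := (aa_nonneg c).isSelfAdjoint.star_eq

lemma star_bb (c : Bool) : star (bb z c) = bb z c := (bb_nonneg c).isSelfAdjoint.star_eq

lemma XX_nonneg (c e : Bool) : 0 ≤ XX ν z c e := by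
  unfold XX
  split_ifs
  · have := star_left_conjugate_nonneg (resolv_nonneg ((ν⁻¹ : ℝ) • star (KK z c))) (aa z c)
    rwa [star_aa] at this
  · exact aa_nonneg c

lemma YY_nonneg (c e : Bool) : 0 ≤ YY ν z c e := by
  unfold YY
  split_ifs
  · have := star_left_conjugate_nonneg (resolv_nonneg ((ν⁻¹ : ℝ) • (KK z (!c)))) (bb z c)
    rwa [star_bb] at this
  · exact bb_nonneg c

lemma aa_mul_bb (hz : ∀ c, z c * z c = 0) (c : Bool) : aa z c * bb z c = 0 := by
  have h := star_sq (hz c)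
  calc aa z c * bb z c = z c * (star (z c) * star (z c)) * z c := by
        simp only [aa, bb]; noncomm_ring
    _ = 0 := by rw [h]; simp

lemma XX_mul_YY (hz : ∀ c, z c * z c = 0) (c e e' : Bool) : XX ν z c e * YY ν z c e' = 0 := by
  have h := aa_mul_bb hz c
  unfold XX YY
  split_ifs
  · calc _ = aa z c * rr ν z c * (aa z c * bb z c) * (ss ν z c * bb z c) := by noncomm_ring
      _ = 0 := by rw [h]; simp
  · calc _ = aa z c * rr ν z c * (aa z c * bb z c) := by noncomm_ring
      _ = 0 := by rw [h]; simp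
  · calc _ = (aa z c * bb z c) * (ss ν z c * bb z c) := by noncomm_ring
      _ = 0 := by rw [h]; simp
  · exact h

lemma norm_aa_le (hn : ∀ c, ‖z c‖ ≤ 1) (c : Bool) : ‖aa z c‖ ≤ 1 := by
  unfold aa
  rw [CStarRing.norm_self_mul_star]
  have := hn c
  nlinarith [norm_nonneg (z c)]

lemma norm_bb_le (hn : ∀ c, ‖z c‖ ≤ 1) (c : Bool) : ‖bb z c‖ ≤ 1 := by
  unfold bb
  rw [CStarRing.norm_star_mul_self]
  have := hn c
  nlinarith [norm_nonneg (z c)]

/-- `‖K resolv(ν⁻¹ K)‖ ≤ ν / 2`. -/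
lemma norm_mul_resolv_smul_le (hν : 0 < ν) (K : E) : ‖K * resolv ((ν⁻¹ : ℝ) • K)‖ ≤ ν / 2 := by
  set L := (ν⁻¹ : ℝ) • K with hL
  have h1 : K = ν • L := by simp [hL, smul_smul, hν.ne']
  have h2 := norm_mul_resolv_le L
  have h3 : K * resolv L = ν • (L * resolv L) := by
    conv_lhs => rw [h1]
    rw [smul_mul_assoc]
  rw [h3, norm_smul, Real.norm_eq_abs, abs_of_pos hν]
  nlinarith

lemma XX_mul_YY_small (hν : 0 < ν) (hn : ∀ c, ‖z c‖ ≤ 1) (c e : Bool) :
    ‖XX ν z c e * YY ν z (!c) (!e)‖ ≤ ν / 2 := by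
  cases e with
  | false =>
    simp only [XX, YY, Bool.not_false, if_true, Bool.false_eq_true, if_false]
    have hs : ss ν z (!c) = resolv ((ν⁻¹ : ℝ) • KK z c) := by
      simp [ss]
    have h1 : aa z c * (bb z (!c) * ss ν z (!c) * bb z (!c))
        = (KK z c * resolv ((ν⁻¹ : ℝ) • KK z c)) * bb z (!c) := by
      rw [hs]; simp only [KK]; noncomm_ring
    rw [h1]
    calc _ ≤ ‖KK z c * resolv ((ν⁻¹ : ℝ) • KK z c)‖ * ‖bb z (!c)‖ := norm_mul_le _ _
      _ ≤ (ν / 2) * 1 := by
          gcongr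
          · exact norm_mul_resolv_smul_le hν _
          · exact norm_bb_le hn _
      _ = ν / 2 := by ring
  | true =>
    simp only [XX, YY, Bool.not_true, if_true, Bool.false_eq_true, if_false]
    have h1 : aa z c * rr ν z c * aa z c * bb z (!c)
        = aa z c * star (star (KK z c) * resolv ((ν⁻¹ : ℝ) • star (KK z c))) := by
      rw [star_mul, star_star, resolv_star]
      simp only [rr, KK]
      noncomm_ring
    rw [h1]
    calc _ ≤ ‖aa z c‖ * ‖star (star (KK z c) * resolv ((ν⁻¹ : ℝ) • star (KK z c)))‖ :=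
          norm_mul_le _ _
      _ ≤ 1 * (ν / 2) := by
          gcongr
          · exact norm_aa_le hn _
          · rw [norm_star]; exact norm_mul_resolv_smul_le hν _
      _ = ν / 2 := by ring

/-- Swapping `z` with its adjoint exchanges the `X`'s and the `Y`'s. -/
lemma XX_star (c e : Bool) : XX ν (fun c => star (z c)) c e = YY ν z c e := by
  have ha : ∀ c, aa (fun c => star (z c)) c = bb z c := by
    intro c; simp [aa, bb]
  have hb : ∀ c, bb (fun c => star (z c)) c = aa z c := by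
    intro c; simp [aa, bb]
  have hK : KK (fun c => star (z c)) c = star (KK z (!c)) := by
    simp only [KK, ha, hb, star_mul, star_aa, star_bb, Bool.not_not]
  have hr : rr ν (fun c => star (z c)) c = ss ν z c := by
    simp only [rr, ss, hK, star_star]
  simp only [XX, YY, ha, hr]

end Basic

section Lower

variable {ν : ℝ} {z : Bool → E} (M : MaxIdeal E)

lemma norm_π_aa (c : Bool) : ‖M.π (aa z c)‖ = ‖M.π (z c)‖ * ‖M.π (z c)‖ := by
  simp only [aa, map_mul, map_star]
  rw [CStarRing.norm_self_mul_star]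

lemma norm_π_bb (c : Bool) : ‖M.π (bb z c)‖ = ‖M.π (z c)‖ * ‖M.π (z c)‖ := by
  simp only [bb, map_mul, map_star]
  rw [CStarRing.norm_star_mul_self]

/-- If `K` is small in the quotient, the resolvent is at least `1/2`. -/
lemma half_le_resolv (hν : 0 < ν) {K : E} (hK : ‖M.π K‖ ≤ ν) :
    (1 / 2 : ℝ) • (1 : M.Q) ≤ M.π (resolv ((ν⁻¹ : ℝ) • K)) := by
  set L := (ν⁻¹ : ℝ) • K with hL
  set R := M.π (resolv L) with hR
  have hR0 : 0 ≤ R := π_nonneg M (resolv_nonneg L)
  set h := M.π (star L * L) with hh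
  have h0 : 0 ≤ h := π_nonneg M (star_mul_self_nonneg L)
  have hRx : R * (1 + h) = 1 := by
    rw [hR, hh, ← map_one M.π, ← map_add, ← map_mul, resolv_mul]
  have hnL : ‖M.π L‖ ≤ 1 := by
    rw [hL, π_real_smul, norm_smul, Real.norm_eq_abs, abs_of_pos (inv_pos.2 hν)]
    rw [inv_mul_le_iff₀ hν]
    linarith
  have hnh : ‖h‖ ≤ 1 := by
    rw [hh, map_mul, map_star, CStarRing.norm_star_mul_self]
    nlinarith [norm_nonneg (M.π L)]
  have hh1 : h ≤ 1 := (CStarAlgebra.norm_le_one_iff_of_nonneg _ h0).1 hnh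
  have h1h : 0 ≤ 1 - h := sub_nonneg.2 hh1
  have hcomm : Commute R (1 - h) := by
    have h2 : Commute (resolv L) (star L * L) := by
      have h3 : resolv L * (star L * L) = star L * L * resolv L := by
        rw [resolv_star_mul, star_mul_resolv]
      exact h3
    have h4 : Commute R h := by
      rw [hR, hh]
      exact h2.map M.π
    exact (Commute.one_right R).sub_right h4
  have hprod : 0 ≤ R * (1 - h) := Commute.mul_nonneg hR0 h1h hcomm
  have hid : R - (1 / 2 : ℝ) • (1 : M.Q) = (1 / 2 : ℝ) • (R * (1 - h)) := by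
    have h5 : R * h = 1 - R := by
      rw [mul_add, mul_one] at hRx
      rw [eq_sub_iff_add_eq, add_comm]
      exact hRx
    rw [mul_sub, mul_one, h5]
    have h6 : R - (1 - R) = R + R - 1 := by abel
    rw [h6, smul_sub, smul_add]
    have h7 : (1 / 2 : ℝ) • R + (1 / 2 : ℝ) • R = R := by
      rw [← add_smul]; norm_num
    rw [h7]
  have : 0 ≤ R - (1 / 2 : ℝ) • (1 : M.Q) := by
    rw [hid]
    exact smul_nonneg (by norm_num) hprod
  exact sub_nonneg.1 this

/-- Lower bound for `a r a` when `K` is small. -/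
lemma lower_cut (hν : 0 < ν) {K a : E} (ha : 0 ≤ a) (hK : ‖M.π K‖ ≤ ν) :
    ‖M.π a‖ * ‖M.π a‖ / 2 ≤ ‖M.π (a * resolv ((ν⁻¹ : ℝ) • K) * a)‖ := by
  have h1 := half_le_resolv M hν hK
  have hsa : IsSelfAdjoint (M.π a) := (π_nonneg M ha).isSelfAdjoint
  have h2 := star_left_conjugate_le_conjugate h1 (M.π a)
  rw [hsa.star_eq, mul_smul_comm, smul_mul_assoc, mul_one] at h2
  have h3 : 0 ≤ (1 / 2 : ℝ) • (M.π a * M.π a) := by
    refine smul_nonneg (by norm_num) ?_
    have := star_mul_self_nonneg (M.π a)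
    rwa [hsa.star_eq] at this
  have h4 := CStarAlgebra.norm_le_norm_of_nonneg_of_le h3 h2
  rw [norm_smul, norm_mul_self_of_nonneg hsa, Real.norm_eq_abs,
    abs_of_pos (by norm_num : (0 : ℝ) < 1 / 2)] at h4
  rw [map_mul, map_mul]
  linarith

/-- First alternative at a cut term. -/
lemma XX_true_lower (hν : 0 < ν) {c : Bool} (hK : ‖M.π (KK z c)‖ ≤ ν) :
    ‖M.π (z c)‖ * ‖M.π (z c)‖ * (‖M.π (z c)‖ * ‖M.π (z c)‖) / 2 ≤ ‖M.π (XX ν z c true)‖ := by
  have hK' : ‖M.π (star (KK z c))‖ ≤ ν := by rwa [map_star, norm_star]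
  have := lower_cut M hν (a := aa z c) (aa_nonneg c) hK'
  rw [norm_π_aa] at this
  simpa [XX, rr] using this

/-- Second alternative at a cut term: the other colour is active. -/
lemma KK_large (hn : ∀ c, ‖z c‖ ≤ 1) {c : Bool} (hK : ν < ‖M.π (KK z c)‖) :
    ν < ‖M.π (z (!c))‖ * ‖M.π (z (!c))‖ := by
  have h1 : ‖M.π (KK z c)‖ ≤ ‖M.π (aa z c)‖ * ‖M.π (bb z (!c))‖ := by
    simp only [KK, map_mul]
    exact norm_mul_le _ _
  have h2 : ‖M.π (aa z c)‖ ≤ 1 := (M.norm_π_le _).trans (norm_aa_le hn c)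
  rw [norm_π_bb] at h1
  have h3 : 0 ≤ ‖M.π (z (!c))‖ * ‖M.π (z (!c))‖ := by positivity
  nlinarith

end Lower

end Vale.Agent.Lib.P101
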