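import Vale.Agent.Lib.P101.Dim0

/-! The gluing theorem: a unital homomorphism from a boundary-condition algebra, from relations. -/

namespace Vale.Agent.Lib.P101

set_option linter.unusedSectionVars false

noncomputable section

/-- The unit interval. -/
abbrev II : Type := unitInterval

/-- The coordinate function. -/
def tc : C(II, ℂ) := ⟨fun u => ((u : ℝ) : ℂ), by fun_prop⟩

@[simp] lemma tc_apply (u : II) : tc u = ((u : ℝ) : ℂ) := rfl

section Basic

variable {ι : Type} [Fintype ι] [DecidableEq ι]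

/-- Elementary functions `F · X`. -/
def el (F : C(II, ℂ)) (X : Matrix ι ι ℂ) : C(II, Matrix ι ι ℂ) :=
  ⟨fun u => F u • X, F.continuous.smul continuous_const⟩

@[simp] lemma el_apply (F : C(II, ℂ)) (X : Matrix ι ι ℂ) (u : II) : el F X u = F u • X := rfl

/-- An entry of a matrix function. -/
def entry (R : C(II, Matrix ι ι ℂ)) (i j : ι) : C(II, ℂ) :=
  ⟨fun u => R u i j, (continuous_apply j).comp ((continuous_apply i).comp R.continuous)⟩

@[simp] lemma entry_apply (R : C(II, Matrix ι ι ℂ)) (i j : ι) (u : II) :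
    entry R i j u = R u i j := rfl

lemma decomp (R : C(II, Matrix ι ι ℂ)) :
    R = ∑ i, ∑ j, el (entry R i j) (Matrix.single i j 1) := by
  ext u a b
  have h1 : ∀ (S : Finset ι) (f : ι → C(II, Matrix ι ι ℂ)),
      (∑ i ∈ S, f i) u = ∑ i ∈ S, f i u := fun S f => by
    exact ContinuousMap.sum_apply S f u
  simp only [ContinuousMap.coe_sum, Finset.sum_apply, el_apply, entry_apply, Matrix.sum_apply,
    Matrix.smul_apply, Matrix.single_apply, smul_eq_mul]
  rw [Finset.sum_eq_single a, Finset.sum_eq_single b]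
  · simp
  · intro j _ hj; simp [hj]
  · simp
  · intro i _ hi
    simp [hi]
  · simp

/-- Induction on matrix functions. -/
lemma fn_induct {P : C(II, Matrix ι ι ℂ) → Prop} (h0 : P 0)
    (hadd : ∀ R R', P R → P R' → P (R + R')) (hel : ∀ F X, P (el F X)) (R) : P R := by
  rw [decomp R]
  refine Finset.sum_induction _ P hadd h0 fun i _ => ?_
  exact Finset.sum_induction _ P hadd h0 fun j _ => hel _ _

lemma el_mul_el (F F' : C(II, ℂ)) (X X' : Matrix ι ι ℂ) :
    el F X * el F' X' = el (F * F') (X * X') := by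
  ext u a b
  simp
  ring

end Basic

section Psi

variable {ι : Type} [Fintype ι] [DecidableEq ι]
variable {D : Type*} [Ring D] [StarRing D] [Algebra ℂ D] [StarModule ℂ D]

/-- The extension of `Ψ₀` to matrix functions. -/
def Psi (γ : C(II, ℂ) →⋆ₐ[ℂ] D) (Ψ₀ : Matrix ι ι ℂ →ₗ[ℂ] D) (R : C(II, Matrix ι ι ℂ)) : D :=
  ∑ i, ∑ j, γ (entry R i j) * Ψ₀ (Matrix.single i j 1)

variable (γ : C(II, ℂ) →⋆ₐ[ℂ] D) (Ψ₀ : Matrix ι ι ℂ →ₗ[ℂ] D)

lemma entry_add (R R' : C(II, Matrix ι ι ℂ)) (i j : ι) :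
    entry (R + R') i j = entry R i j + entry R' i j := by
  ext u; simp

lemma Psi_add (R R' : C(II, Matrix ι ι ℂ)) : Psi γ Ψ₀ (R + R') = Psi γ Ψ₀ R + Psi γ Ψ₀ R' := by
  simp only [Psi, entry_add, map_add, add_mul, Finset.sum_add_distrib]

lemma Psi_zero : Psi γ Ψ₀ (0 : C(II, Matrix ι ι ℂ)) = 0 := by
  have : ∀ i j, entry (0 : C(II, Matrix ι ι ℂ)) i j = 0 := fun i j => by ext u; simp
  simp [Psi, this]

lemma Psi_el (F : C(II, ℂ)) (X : Matrix ι ι ℂ) : Psi γ Ψ₀ (el F X) = γ F * Ψ₀ X := by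
  have h : ∀ i j, entry (el F X) i j = X i j • F := fun i j => by
    ext u; simp [mul_comm]
  have hX : X = ∑ i, ∑ j, X i j • Matrix.single i j (1 : ℂ) := by
    conv_lhs => rw [Matrix.matrix_eq_sum_single X]
    refine Finset.sum_congr rfl fun i _ => Finset.sum_congr rfl fun j _ => ?_
    simp
  conv_rhs => rw [hX]
  simp only [Psi, h, map_smul, map_sum, Finset.mul_sum, smul_mul_assoc, mul_smul_comm]

/-- Left action. -/
lemma Psi_left {L : D} {ρ : C(II, ℂ)} {Pm : Matrix ι ι ℂ}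
    (hL : ∀ F, γ F * L = L * γ F)
    (h : ∀ X, L * Ψ₀ X = γ ρ * Ψ₀ (Pm * X)) (R : C(II, Matrix ι ι ℂ)) :
    Psi γ Ψ₀ (el ρ Pm * R) = L * Psi γ Ψ₀ R := by
  induction R using fn_induct with
  | h0 => simp [Psi_zero]
  | hadd R R' h1 h2 => rw [mul_add, Psi_add, Psi_add, h1, h2, mul_add]
  | hel F X =>
    rw [el_mul_el, Psi_el, Psi_el]
    calc γ (ρ * F) * Ψ₀ (Pm * X) = γ F * (γ ρ * Ψ₀ (Pm * X)) := by
          rw [mul_comm ρ F, map_mul, mul_assoc]
      _ = γ F * (L * Ψ₀ X) := by rw [h]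
      _ = (γ F * L) * Ψ₀ X := (mul_assoc _ _ _).symm
      _ = (L * γ F) * Ψ₀ X := by rw [hL]
      _ = L * (γ F * Ψ₀ X) := mul_assoc _ _ _

/-- Right action. -/
lemma Psi_right {L : D} {ρ : C(II, ℂ)} {Pm : Matrix ι ι ℂ}
    (h : ∀ X, Ψ₀ X * L = γ ρ * Ψ₀ (X * Pm)) (R : C(II, Matrix ι ι ℂ)) :
    Psi γ Ψ₀ (R * el ρ Pm) = Psi γ Ψ₀ R * L := by
  induction R using fn_induct with
  | h0 => simp [Psi_zero]
  | hadd R R' h1 h2 => rw [add_mul, Psi_add, Psi_add, h1, h2, add_mul]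
  | hel F X =>
    rw [el_mul_el, Psi_el, Psi_el, mul_assoc (γ F), h, ← mul_assoc, ← map_mul]

/-- Products. -/
lemma Psi_mul {ρ : C(II, ℂ)} (hc : ∀ F X, γ F * Ψ₀ X = Ψ₀ X * γ F)
    (h : ∀ X X', Ψ₀ X * Ψ₀ X' = γ ρ * Ψ₀ (X * X')) (R R' : C(II, Matrix ι ι ℂ)) :
    Psi γ Ψ₀ (el ρ 1 * R * R') = Psi γ Ψ₀ R * Psi γ Ψ₀ R' := by
  induction R using fn_induct with
  | h0 => simp [Psi_zero]
  | hadd R R' h1 h2 =>
    rw [mul_add, add_mul, Psi_add, Psi_add, h1, h2, add_mul]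
  | hel F X =>
    induction R' using fn_induct with
    | h0 => simp [Psi_zero]
    | hadd R R' h1 h2 => rw [mul_add, Psi_add, Psi_add, h1, h2, mul_add]
    | hel F' X' =>
      rw [el_mul_el, el_mul_el, Psi_el, Psi_el, Psi_el, one_mul]
      have h1 : γ F * Ψ₀ X * (γ F' * Ψ₀ X') = γ F * γ F' * (Ψ₀ X * Ψ₀ X') := by
        rw [mul_assoc (γ F), ← mul_assoc (Ψ₀ X), ← hc, mul_assoc (γ F'), mul_assoc (γ F)]
      have h2 : γ (ρ * F * F') = γ F * γ F' * γ ρ := by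
        rw [← map_mul, ← map_mul]
        congr 1
        ring
      rw [h1, h, h2]
      simp only [mul_assoc]

lemma star_el (F : C(II, ℂ)) (X : Matrix ι ι ℂ) : star (el F X) = el (star F) (star X) := by
  ext u a b
  simp [Matrix.star_eq_conjTranspose]

/-- Star-compatibility. -/
lemma Psi_star (hc : ∀ F X, γ F * Ψ₀ X = Ψ₀ X * γ F) (hs : ∀ X, Ψ₀ (star X) = star (Ψ₀ X))
    (R : C(II, Matrix ι ι ℂ)) : Psi γ Ψ₀ (star R) = star (Psi γ Ψ₀ R) := by
  induction R using fn_induct with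
  | h0 => simp [Psi_zero]
  | hadd R R' h1 h2 => rw [star_add, Psi_add, Psi_add, h1, h2, star_add]
  | hel F X =>
    rw [star_el, Psi_el, Psi_el, star_mul, map_star, hs, ← star_mul, ← star_mul, hc]

end Psi

end

end Vale.Agent.Lib.P101
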