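import Vale.Agent.Lib.P101.Glue

/-! The gluing theorem, continued. -/

namespace Vale.Agent.Lib.P101

set_option linter.unusedSectionVars false

noncomputable section

/-- The reparametrization, constant near the endpoints. -/
def gg : C(II, II) :=
  ⟨fun u => Set.projIcc (0 : ℝ) 1 zero_le_one (3 * (u : ℝ) - 1), by fun_prop⟩

lemma gg_low {u : II} (h : (u : ℝ) ≤ 1 / 3) : gg u = 0 := by
  apply Subtype.ext
  show ((Set.projIcc (0 : ℝ) 1 zero_le_one (3 * (u : ℝ) - 1) : II) : ℝ) = 0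
  rw [Set.projIcc_of_le_left _ (by linarith)]

lemma gg_high {u : II} (h : 2 / 3 ≤ (u : ℝ)) : gg u = 1 := by
  apply Subtype.ext
  show ((Set.projIcc (0 : ℝ) 1 zero_le_one (3 * (u : ℝ) - 1) : II) : ℝ) = 1
  rw [Set.projIcc_of_right_le _ (by linarith)]

/-- `1 / max u (1/3)` -/
def xi0 : C(II, ℂ) :=
  ⟨fun u => ((1 / max (u : ℝ) (1 / 3) : ℝ) : ℂ), by
    refine Complex.continuous_ofReal.comp ?_
    exact continuous_const.div (by fun_prop) (fun u => (lt_max_of_lt_right (by norm_num)).ne')⟩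

/-- `1 / max (1 - u) (1/3)` -/
def xi1 : C(II, ℂ) :=
  ⟨fun u => ((1 / max (1 - (u : ℝ)) (1 / 3) : ℝ) : ℂ), by
    refine Complex.continuous_ofReal.comp ?_
    exact continuous_const.div (by fun_prop) (fun u => (lt_max_of_lt_right (by norm_num)).ne')⟩

lemma xi0_apply (u : II) : xi0 u = ((1 / max (u : ℝ) (1 / 3) : ℝ) : ℂ) := rfl

lemma xi1_apply (u : II) : xi1 u = ((1 / max (1 - (u : ℝ)) (1 / 3) : ℝ) : ℂ) := rfl

lemma conj_xi0 (u : II) : star (xi0 u) = xi0 u := Complex.conj_ofReal _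

lemma conj_xi1 (u : II) : star (xi1 u) = xi1 u := Complex.conj_ofReal _

lemma xi0_mul {V : Type*} [AddCommGroup V] [Module ℂ V] {u : II} {Y : V}
    (hY : (u : ℝ) ≤ 1 / 3 → Y = 0) : ((u : ℝ) : ℂ) • xi0 u • Y = Y := by
  rcases le_total (u : ℝ) (1 / 3) with h | h
  · simp [hY h]
  · rw [xi0_apply, max_eq_left h, smul_smul, ← Complex.ofReal_mul]
    have hu : (u : ℝ) ≠ 0 := by
      have : 0 < (u : ℝ) := by linarith
      exact this.ne'
    rw [mul_one_div_cancel hu]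
    simp

lemma xi1_mul {V : Type*} [AddCommGroup V] [Module ℂ V] {u : II} {Y : V}
    (hY : 2 / 3 ≤ (u : ℝ) → Y = 0) : (1 - ((u : ℝ) : ℂ)) • xi1 u • Y = Y := by
  rcases le_total (2 / 3) (u : ℝ) with h | h
  · simp [hY h]
  · have h1 : (1 : ℝ) / 3 ≤ 1 - (u : ℝ) := by linarith
    rw [xi1_apply, max_eq_left h1, smul_smul]
    have hu : 1 - (u : ℝ) ≠ 0 := by
      have : 0 < 1 - (u : ℝ) := by linarith
      exact this.ne'
    have h2 : (1 - ((u : ℝ) : ℂ)) * ((1 / (1 - (u : ℝ)) : ℝ) : ℂ) = 1 := by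
      have h3 : (1 - ((u : ℝ) : ℂ)) = ((1 - (u : ℝ) : ℝ) : ℂ) := by push_cast; ring
      rw [h3, ← Complex.ofReal_mul, mul_one_div_cancel hu]
      simp
    rw [h2, one_smul]

section RR

variable {ι : Type} [Fintype ι] [DecidableEq ι]

/-- The middle part of a function, in the decomposition
`f ∘ g = (1 - t) M₀ + t N₀ + t (1 - t) R`. -/
def RR (f : C(II, Matrix ι ι ℂ)) (M₀ N₀ : Matrix ι ι ℂ) : C(II, Matrix ι ι ℂ) :=
  el xi0 1 * (f.comp gg - el 1 M₀) + el xi1 1 * (f.comp gg - el 1 N₀)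

lemma RR_apply (f : C(II, Matrix ι ι ℂ)) (M₀ N₀ : Matrix ι ι ℂ) (u : II) :
    RR f M₀ N₀ u = xi0 u • (f (gg u) - M₀) + xi1 u • (f (gg u) - N₀) := by
  simp [RR]

lemma RR_key {f : C(II, Matrix ι ι ℂ)} {M₀ N₀ : Matrix ι ι ℂ} (h0 : f 0 = M₀) (h1 : f 1 = N₀)
    (u : II) : f (gg u) = (1 - ((u : ℝ) : ℂ)) • M₀ + ((u : ℝ) : ℂ) • N₀
      + (((u : ℝ) : ℂ) * (1 - ((u : ℝ) : ℂ))) • RR f M₀ N₀ u := by
  have e0 : ((u : ℝ) : ℂ) • xi0 u • (f (gg u) - M₀) = f (gg u) - M₀ :=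
    xi0_mul (fun h => by rw [gg_low h, h0, sub_self])
  have e1 : (1 - ((u : ℝ) : ℂ)) • xi1 u • (f (gg u) - N₀) = f (gg u) - N₀ :=
    xi1_mul (fun h => by rw [gg_high h, h1, sub_self])
  have e2 : (((u : ℝ) : ℂ) * (1 - ((u : ℝ) : ℂ))) • (xi0 u • (f (gg u) - M₀) + xi1 u • (f (gg u) - N₀))
      = (1 - ((u : ℝ) : ℂ)) • (f (gg u) - M₀) + ((u : ℝ) : ℂ) • (f (gg u) - N₀) := by
    conv_rhs => rw [← e0, ← e1]
    module
  rw [RR_apply, e2]
  module

/-- The middle part of a product. -/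
theorem RR_mul {f f' : C(II, Matrix ι ι ℂ)} {M₀ N₀ M₀' N₀' : Matrix ι ι ℂ}
    (h0 : f 0 = M₀) (h1 : f 1 = N₀) (h0' : f' 0 = M₀') (h1' : f' 1 = N₀') :
    RR (f * f') (M₀ * M₀') (N₀ * N₀') =
      el 1 (M₀ * N₀' + N₀ * M₀' - M₀ * M₀' - N₀ * N₀')
      + el (1 - tc) M₀ * RR f' M₀' N₀' + el tc N₀ * RR f' M₀' N₀'
      + RR f M₀ N₀ * el (1 - tc) M₀' + RR f M₀ N₀ * el tc N₀'
      + el (tc * (1 - tc)) 1 * RR f M₀ N₀ * RR f' M₀' N₀' := by
  ext1 u
  set t : ℂ := ((u : ℝ) : ℂ) with ht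
  have hR := RR_key h0 h1 u
  have hR' := RR_key h0' h1' u
  have hlow : (u : ℝ) ≤ 1 / 3 → f (gg u) * f' (gg u) - M₀ * M₀' = 0 := fun h => by
    rw [gg_low h, h0, h0', sub_self]
  have hhigh : 2 / 3 ≤ (u : ℝ) → f (gg u) * f' (gg u) - N₀ * N₀' = 0 := fun h => by
    rw [gg_high h, h1, h1', sub_self]
  have hL : RR (f * f') (M₀ * M₀') (N₀ * N₀') u =
      xi0 u • (f (gg u) * f' (gg u) - M₀ * M₀') + xi1 u • (f (gg u) * f' (gg u) - N₀ * N₀') := by
    rw [RR_apply]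
    rfl
  have hRHS : ((el 1 (M₀ * N₀' + N₀ * M₀' - M₀ * M₀' - N₀ * N₀')
      + el (1 - tc) M₀ * RR f' M₀' N₀' + el tc N₀ * RR f' M₀' N₀'
      + RR f M₀ N₀ * el (1 - tc) M₀' + RR f M₀ N₀ * el tc N₀'
      + el (tc * (1 - tc)) 1 * RR f M₀ N₀ * RR f' M₀' N₀' : C(II, Matrix ι ι ℂ)) : C(II, Matrix ι ι ℂ)) u =
      (M₀ * N₀' + N₀ * M₀' - M₀ * M₀' - N₀ * N₀')
      + (1 - t) • (M₀ * RR f' M₀' N₀' u) + t • (N₀ * RR f' M₀' N₀' u)
      + (1 - t) • (RR f M₀ N₀ u * M₀') + t • (RR f M₀ N₀ u * N₀')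
      + (t * (1 - t)) • (RR f M₀ N₀ u * RR f' M₀' N₀' u) := by
    simp only [ContinuousMap.add_apply, ContinuousMap.mul_apply, ContinuousMap.sub_apply,
      ContinuousMap.one_apply, el_apply, smul_mul_assoc, mul_smul_comm, tc_apply, one_smul, one_mul]
    rfl
  rw [hL, hRHS]
  by_cases hu0 : t = 0
  · have hu : (u : ℝ) = 0 := Complex.ofReal_eq_zero.1 hu0
    have hg : gg u = 0 := gg_low (by rw [hu]; norm_num)
    have hx1 : xi1 u = 1 := by
      rw [xi1_apply, hu]; norm_num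
    have hX : f (gg u) = M₀ := by rw [hg, h0]
    have hX' : f' (gg u) = M₀' := by rw [hg, h0']
    have hRu : RR f M₀ N₀ u = M₀ - N₀ := by
      rw [RR_apply, hX, sub_self, smul_zero, zero_add, hx1, one_smul]
    have hRu' : RR f' M₀' N₀' u = M₀' - N₀' := by
      rw [RR_apply, hX', sub_self, smul_zero, zero_add, hx1, one_smul]
    rw [hX, hX', hRu, hRu', hu0, hx1]
    simp only [sub_self, smul_zero, zero_add, sub_zero, one_smul, zero_smul, add_zero, mul_zero,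
      zero_mul]
    noncomm_ring
  by_cases hu1 : t = 1
  · have hu : (u : ℝ) = 1 := Complex.ofReal_eq_one.1 hu1
    have hg : gg u = 1 := gg_high (by rw [hu]; norm_num)
    have hx0 : xi0 u = 1 := by
      rw [xi0_apply, hu]; norm_num
    have hX : f (gg u) = N₀ := by rw [hg, h1]
    have hX' : f' (gg u) = N₀' := by rw [hg, h1']
    have hRu : RR f M₀ N₀ u = N₀ - M₀ := by
      rw [RR_apply, hX, sub_self, smul_zero, add_zero, hx0, one_smul]
    have hRu' : RR f' M₀' N₀' u = N₀' - M₀' := by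
      rw [RR_apply, hX', sub_self, smul_zero, add_zero, hx0, one_smul]
    rw [hX, hX', hRu, hRu', hu1, hx0]
    simp only [sub_self, smul_zero, zero_add, sub_zero, one_smul, zero_smul, add_zero, mul_zero,
      zero_mul]
    noncomm_ring
  have hne : t * (1 - t) ≠ 0 := mul_ne_zero hu0 (sub_ne_zero.2 (Ne.symm hu1))
  apply smul_right_injective _ hne
  simp only
  have e0 : t • xi0 u • (f (gg u) * f' (gg u) - M₀ * M₀') = f (gg u) * f' (gg u) - M₀ * M₀' :=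
    xi0_mul hlow
  have e1 : (1 - t) • xi1 u • (f (gg u) * f' (gg u) - N₀ * N₀') = f (gg u) * f' (gg u) - N₀ * N₀' :=
    xi1_mul hhigh
  have e2 : (t * (1 - t)) • (xi0 u • (f (gg u) * f' (gg u) - M₀ * M₀')
      + xi1 u • (f (gg u) * f' (gg u) - N₀ * N₀'))
      = (1 - t) • (f (gg u) * f' (gg u) - M₀ * M₀') + t • (f (gg u) * f' (gg u) - N₀ * N₀') := by
    conv_rhs => rw [← e0, ← e1]
    module
  rw [e2, hR, hR']
  generalize RR f M₀ N₀ u = R
  generalize RR f' M₀' N₀' u = R'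
  simp only [add_mul, mul_add, smul_mul_assoc, mul_smul_comm, smul_add, smul_sub, mul_sub]
  module

lemma RR_star (f : C(II, Matrix ι ι ℂ)) (M₀ N₀ : Matrix ι ι ℂ) :
    RR (star f) (star M₀) (star N₀) = star (RR f M₀ N₀) := by
  ext1 u
  rw [ContinuousMap.star_apply, RR_apply, RR_apply, star_add, star_smul, star_smul, conj_xi0,
    conj_xi1, star_sub, star_sub]
  rfl

lemma RR_add (f f' : C(II, Matrix ι ι ℂ)) (M₀ N₀ M₀' N₀' : Matrix ι ι ℂ) :
    RR (f + f') (M₀ + M₀') (N₀ + N₀') = RR f M₀ N₀ + RR f' M₀' N₀' := by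
  ext1 u
  simp only [ContinuousMap.add_apply, RR_apply]
  module

lemma RR_const (X : Matrix ι ι ℂ) : RR (el 1 X) X X = 0 := by
  ext1 u
  rw [RR_apply]
  simp

end RR

end

end Vale.Agent.Lib.P101
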