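import Vale.Agent.Lib.P101.Glue2

/-! The gluing theorem, assembled. -/

namespace Vale.Agent.Lib.P101

set_option linter.unusedSectionVars false

noncomputable section

variable {ι : Type} [Fintype ι] [DecidableEq ι]
variable {P Q : Type*} [Ring P] [StarRing P] [Algebra ℂ P] [Ring Q] [StarRing Q] [Algebra ℂ Q]
variable {D : Type*} [Ring D] [StarRing D] [Algebra ℂ D] [StarModule ℂ D]

/-- The boundary-condition algebra. -/
def Ebd (M : P →⋆ₐ[ℂ] Matrix ι ι ℂ) (N : Q →⋆ₐ[ℂ] Matrix ι ι ℂ) :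
    StarSubalgebra ℂ C(II, Matrix ι ι ℂ) where
  carrier := {f | f 0 ∈ Set.range M ∧ f 1 ∈ Set.range N}
  mul_mem' := by
    rintro f g ⟨⟨a, ha⟩, ⟨b, hb⟩⟩ ⟨⟨a', ha'⟩, ⟨b', hb'⟩⟩
    exact ⟨⟨a * a', by rw [map_mul, ha, ha']; rfl⟩, ⟨b * b', by rw [map_mul, hb, hb']; rfl⟩⟩
  add_mem' := by
    rintro f g ⟨⟨a, ha⟩, ⟨b, hb⟩⟩ ⟨⟨a', ha'⟩, ⟨b', hb'⟩⟩
    exact ⟨⟨a + a', by rw [map_add, ha, ha']; rfl⟩, ⟨b + b', by rw [map_add, hb, hb']; rfl⟩⟩
  algebraMap_mem' := by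
    intro r
    exact ⟨⟨algebraMap ℂ P r, M.commutes r⟩, ⟨algebraMap ℂ Q r, N.commutes r⟩⟩
  star_mem' := by
    rintro f ⟨⟨a, ha⟩, ⟨b, hb⟩⟩
    exact ⟨⟨star a, by rw [map_star, ha]; rfl⟩, ⟨star b, by rw [map_star, hb]; rfl⟩⟩

/-- The relations for the gluing theorem. -/
structure GlueData (M : P →⋆ₐ[ℂ] Matrix ι ι ℂ) (N : Q →⋆ₐ[ℂ] Matrix ι ι ℂ) (D : Type*) [Ring D]
    [StarRing D] [Algebra ℂ D] where
  γ : C(II, ℂ) →⋆ₐ[ℂ] D
  A : P →ₗ[ℂ] D
  B : Q →ₗ[ℂ] D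
  Ψ₀ : Matrix ι ι ℂ →ₗ[ℂ] D
  A_star : ∀ m, A (star m) = star (A m)
  B_star : ∀ n, B (star n) = star (B n)
  Ψ_star : ∀ X, Ψ₀ (star X) = star (Ψ₀ X)
  γA : ∀ F m, γ F * A m = A m * γ F
  γB : ∀ F n, γ F * B n = B n * γ F
  γΨ : ∀ F X, γ F * Ψ₀ X = Ψ₀ X * γ F
  g1 : ∀ m m', A m * A m' = γ (1 - tc) * A (m * m')
  g2 : ∀ n n', B n * B n' = γ tc * B (n * n')
  g3 : ∀ m n, A m * B n = Ψ₀ (M m * N n)
  g4 : ∀ m X, A m * Ψ₀ X = γ (1 - tc) * Ψ₀ (M m * X)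
  g5 : ∀ n X, B n * Ψ₀ X = γ tc * Ψ₀ (N n * X)
  g6 : ∀ X X', Ψ₀ X * Ψ₀ X' = γ (tc * (1 - tc)) * Ψ₀ (X * X')
  g7 : ∀ m, γ tc * A m = Ψ₀ (M m)
  g8 : ∀ n, γ (1 - tc) * B n = Ψ₀ (N n)
  g9 : A 1 + B 1 = 1

namespace GlueData

variable {M : P →⋆ₐ[ℂ] Matrix ι ι ℂ} {N : Q →⋆ₐ[ℂ] Matrix ι ι ℂ} (G : GlueData M N D)

lemma g3' (m : P) (n : Q) : B G n * A G m = G.Ψ₀ (N n * M m) := by
  have := congrArg star (G.g3 (star m) (star n))
  rw [star_mul, ← G.A_star, ← G.B_star, star_star, star_star, ← G.Ψ_star, star_mul, map_star,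
    map_star, star_star, star_star] at this
  exact this

lemma star_tc : star tc = tc := by
  ext u
  simp

lemma g4' (m : P) (X : Matrix ι ι ℂ) : G.Ψ₀ X * G.A m = G.γ (1 - tc) * G.Ψ₀ (X * M m) := by
  calc G.Ψ₀ X * G.A m = star (G.A (star m) * G.Ψ₀ (star X)) := by
        rw [star_mul, ← G.A_star, ← G.Ψ_star, star_star, star_star]
    _ = star (G.γ (1 - tc) * G.Ψ₀ (M (star m) * star X)) := by rw [G.g4]
    _ = star (G.Ψ₀ (M (star m) * star X)) * star (G.γ (1 - tc)) := star_mul _ _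
    _ = G.Ψ₀ (X * M m) * G.γ (1 - tc) := by
        rw [← G.Ψ_star, star_mul, star_star, ← map_star M, star_star, ← map_star G.γ, star_sub,
          star_one, star_tc]
    _ = _ := (G.γΨ _ _).symm

lemma g5' (n : Q) (X : Matrix ι ι ℂ) : G.Ψ₀ X * G.B n = G.γ tc * G.Ψ₀ (X * N n) := by
  calc G.Ψ₀ X * G.B n = star (G.B (star n) * G.Ψ₀ (star X)) := by
        rw [star_mul, ← G.B_star, ← G.Ψ_star, star_star, star_star]
    _ = star (G.γ tc * G.Ψ₀ (N (star n) * star X)) := by rw [G.g5]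
    _ = star (G.Ψ₀ (N (star n) * star X)) * star (G.γ tc) := star_mul _ _
    _ = G.Ψ₀ (X * N n) * G.γ tc := by
        rw [← G.Ψ_star, star_mul, star_star, ← map_star N, star_star, ← map_star G.γ, star_tc]
    _ = _ := (G.γΨ _ _).symm

/-- The map on functions with chosen boundary values. -/
def Th (f : C(II, Matrix ι ι ℂ)) (m : P) (n : Q) : D :=
  G.A m + G.B n + Psi G.γ G.Ψ₀ (RR f (M m) (N n))

lemma Th_mul {f f' : C(II, Matrix ι ι ℂ)} {m m' : P} {n n' : Q} (h0 : f 0 = M m) (h1 : f 1 = N n)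
    (h0' : f' 0 = M m') (h1' : f' 1 = N n') :
    G.Th (f * f') (m * m') (n * n') = G.Th f m n * G.Th f' m' n' := by
  have hR := RR_mul h0 h1 h0' h1'
  simp only [Th, map_mul M, map_mul N]
  rw [hR]
  set R := RR f (M m) (N n) with hRdef
  set R' := RR f' (M m') (N n') with hR'def
  simp only [Psi_add]
  have e1 : Psi G.γ G.Ψ₀ (el (1 - tc) (M m) * R') = G.A m * Psi G.γ G.Ψ₀ R' :=
    Psi_left G.γ G.Ψ₀ (fun F => G.γA F m) (G.g4 m) R'
  have e2 : Psi G.γ G.Ψ₀ (el tc (N n) * R') = G.B n * Psi G.γ G.Ψ₀ R' :=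
    Psi_left G.γ G.Ψ₀ (fun F => G.γB F n) (G.g5 n) R'
  have e3 : Psi G.γ G.Ψ₀ (R * el (1 - tc) (M m')) = Psi G.γ G.Ψ₀ R * G.A m' :=
    Psi_right G.γ G.Ψ₀ (fun X => G.g4' m' X) R
  have e4 : Psi G.γ G.Ψ₀ (R * el tc (N n')) = Psi G.γ G.Ψ₀ R * G.B n' :=
    Psi_right G.γ G.Ψ₀ (fun X => G.g5' n' X) R
  have e5 : Psi G.γ G.Ψ₀ (el (tc * (1 - tc)) 1 * R * R') = Psi G.γ G.Ψ₀ R * Psi G.γ G.Ψ₀ R' :=
    Psi_mul G.γ G.Ψ₀ G.γΨ G.g6 R R'
  have hγ1 : G.γ (1 - tc) = 1 - G.γ tc := by rw [map_sub, map_one]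
  have e6 : Psi G.γ G.Ψ₀ (el 1 (M m * N n' + N n * M m' - M m * M m' - N n * N n'))
      = G.A m * G.B n' + G.B n * G.A m' - G.Ψ₀ (M m * M m') - G.Ψ₀ (N n * N n') := by
    rw [Psi_el, map_one, one_mul, map_sub, map_sub, map_add, G.g3, G.g3']
  have e7 : G.A m * G.A m' = G.A (m * m') - G.Ψ₀ (M m * M m') := by
    rw [G.g1, hγ1, sub_mul, one_mul, G.g7, map_mul M]
  have e8 : G.B n * G.B n' = G.B (n * n') - G.Ψ₀ (N n * N n') := by
    have h2 : G.γ tc = 1 - G.γ (1 - tc) := by rw [hγ1]; abel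
    rw [G.g2, h2, sub_mul, one_mul, G.g8, map_mul N]
  rw [e1, e2, e3, e4, e5, e6]
  simp only [add_mul, mul_add]
  rw [e7, e8]
  abel

lemma Th_add (f f' : C(II, Matrix ι ι ℂ)) (m m' : P) (n n' : Q) :
    G.Th (f + f') (m + m') (n + n') = G.Th f m n + G.Th f' m' n' := by
  simp only [Th, map_add]
  rw [RR_add, Psi_add]
  abel

lemma Th_star (f : C(II, Matrix ι ι ℂ)) (m : P) (n : Q) :
    G.Th (star f) (star m) (star n) = star (G.Th f m n) := by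
  simp only [Th, map_star]
  rw [RR_star, Psi_star G.γ G.Ψ₀ G.γΨ G.Ψ_star, G.A_star, G.B_star, star_add, star_add]

lemma Th_algebraMap (r : ℂ) :
    G.Th (algebraMap ℂ C(II, Matrix ι ι ℂ) r) (algebraMap ℂ P r) (algebraMap ℂ Q r)
      = algebraMap ℂ D r := by
  have h1 : M (algebraMap ℂ P r) = algebraMap ℂ _ r := M.commutes r
  have h2 : N (algebraMap ℂ Q r) = algebraMap ℂ _ r := N.commutes r
  have h3 : (algebraMap ℂ C(II, Matrix ι ι ℂ) r) = el 1 (algebraMap ℂ _ r) := by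
    ext1 u
    simp [Algebra.algebraMap_eq_smul_one]
  have hA : G.A (algebraMap ℂ P r) = r • G.A 1 := by
    rw [Algebra.algebraMap_eq_smul_one, map_smul]
  have hB : G.B (algebraMap ℂ Q r) = r • G.B 1 := by
    rw [Algebra.algebraMap_eq_smul_one, map_smul]
  simp only [Th]
  rw [h1, h2, h3, RR_const, Psi_zero, add_zero, hA, hB, ← smul_add, G.g9,
    Algebra.algebraMap_eq_smul_one]

end GlueData

/-- The gluing theorem. -/
theorem exists_glue {M : P →⋆ₐ[ℂ] Matrix ι ι ℂ} {N : Q →⋆ₐ[ℂ] Matrix ι ι ℂ} (G : GlueData M N D)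
    (hM : Function.Injective M) (hN : Function.Injective N) :
    Nonempty (Ebd M N →⋆ₐ[ℂ] D) := by
  classical
  have hm : ∀ f : Ebd M N, ∃ m, M m = (f : C(II, Matrix ι ι ℂ)) 0 := fun f => f.2.1
  have hn : ∀ f : Ebd M N, ∃ n, N n = (f : C(II, Matrix ι ι ℂ)) 1 := fun f => f.2.2
  choose mm hmm using hm
  choose nn hnn using hn
  have mul_m : ∀ f f', mm (f * f') = mm f * mm f' := fun f f' => hM (by
    rw [hmm, map_mul, hmm, hmm]; rfl)
  have mul_n : ∀ f f', nn (f * f') = nn f * nn f' := fun f f' => hN (by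
    rw [hnn, map_mul, hnn, hnn]; rfl)
  have add_m : ∀ f f', mm (f + f') = mm f + mm f' := fun f f' => hM (by
    rw [hmm, map_add, hmm, hmm]; rfl)
  have add_n : ∀ f f', nn (f + f') = nn f + nn f' := fun f f' => hN (by
    rw [hnn, map_add, hnn, hnn]; rfl)
  have star_m : ∀ f, mm (star f) = star (mm f) := fun f => hM (by
    rw [hmm, map_star, hmm]; rfl)
  have star_n : ∀ f, nn (star f) = star (nn f) := fun f => hN (by
    rw [hnn, map_star, hnn]; rfl)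
  have alg_m : ∀ r, mm (algebraMap ℂ _ r) = algebraMap ℂ P r := fun r => hM (by
    rw [hmm]; exact (M.commutes r).symm)
  have alg_n : ∀ r, nn (algebraMap ℂ _ r) = algebraMap ℂ Q r := fun r => hN (by
    rw [hnn]; exact (N.commutes r).symm)
  let Θ : Ebd M N → D := fun f => G.Th (f : C(II, Matrix ι ι ℂ)) (mm f) (nn f)
  have Θ_add : ∀ f f', Θ (f + f') = Θ f + Θ f' := fun f f' => by
    show G.Th _ (mm (f + f')) (nn (f + f')) = _
    rw [add_m, add_n]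
    exact G.Th_add _ _ _ _ _ _
  have Θ_mul : ∀ f f', Θ (f * f') = Θ f * Θ f' := fun f f' => by
    show G.Th _ (mm (f * f')) (nn (f * f')) = _
    rw [mul_m, mul_n]
    exact G.Th_mul (hmm f).symm (hnn f).symm (hmm f').symm (hnn f').symm
  have Θ_alg : ∀ r, Θ (algebraMap ℂ _ r) = algebraMap ℂ D r := fun r => by
    show G.Th _ (mm (algebraMap ℂ _ r)) (nn (algebraMap ℂ _ r)) = _
    rw [alg_m, alg_n]
    exact G.Th_algebraMap r
  have Θ_star : ∀ f, Θ (star f) = star (Θ f) := fun f => by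
    show G.Th _ (mm (star f)) (nn (star f)) = _
    rw [star_m, star_n]
    exact G.Th_star _ _ _
  refine ⟨{ toFun := Θ
            map_one' := ?_
            map_mul' := Θ_mul
            map_zero' := ?_
            map_add' := Θ_add
            commutes' := Θ_alg
            map_star' := Θ_star }⟩
  · have := Θ_alg 1
    rwa [map_one, map_one] at this
  · have := Θ_alg 0
    rwa [map_zero, map_zero] at this

end

end Vale.Agent.Lib.P101
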