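import Vale.Agent.Lib.P101.Cols3
import Vale.Agent.Lib.P101.Copy2

/-! The unital homomorphism from the dimension-drop algebra into `F_ω(A)`. -/

namespace Vale.Agent.Lib.P101

open Filter

section Chain

variable {F : Type*} [CStarAlgebra F]

/-- The abstract theorem: copying and no characters give a unital homomorphism from `Z_{2,3}`. -/
theorem hom_of_copy (hcopy : CopyProp F) (hinv : CopyInv F) (hchar : IsEmpty (F →⋆ₐ[ℂ] ℂ)) :
    Nonempty (Z23 →⋆ₐ[ℂ] F) := by
  obtain ⟨z, hz, h1⟩ := exists_full_square_zero hcopy hchar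
  obtain ⟨M, x, s, s₁, v, hI⟩ := start hz h1
  obtain ⟨x', s', s₁', v', hI'⟩ := inv_chain hinv M hI
  exact exists_hom_of_colRel (colRel_of_inv hI')

end Chain

section Ultra

variable {A : Type*} [CStarAlgebra A] {ω : Ultrafilter ℕ}

/-- The main theorem: no characters on `F_ω(A)` gives a unital homomorphism from `Z_{2,3}`. -/
theorem FOmega_hom [TopologicalSpace.SeparableSpace A]
    (hω : (ω : Filter ℕ) ≤ cofinite) (hchar : IsEmpty (FOmega A ω →⋆ₐ[ℂ] ℂ)) :
    Nonempty (Z23 →⋆ₐ[ℂ] FOmega A ω) :=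
  hom_of_copy (F := FOmega A ω) (copyProp_FOmegaSub hω) (copyInv_FOmegaSub hω) hchar

end Ultra

end Vale.Agent.Lib.P101
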