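import Vale.Agent.Lib.P101.ZFinal

/-! Basic structure of the dimension drop algebras: partitions of unity and fibres. -/

namespace Vale.Agent.Lib.P101.J

set_option linter.unusedSectionVars false
set_option linter.unusedSimpArgs false

open scoped Kronecker Matrix.Norms.L2Operator unitInterval

noncomputable section

section Partition

/-- The staircase functions. -/
def gs (M : ℕ) (i : ℕ) : C(I, ℝ) where
  toFun s := max 0 (min 1 ((M : ℝ) * (s : ℝ) - i))
  continuous_toFun := by fun_prop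

lemma gs_apply (M i : ℕ) (s : I) : gs M i s = max 0 (min 1 ((M : ℝ) * (s : ℝ) - i)) := rfl

lemma gs_nonneg (M i : ℕ) (s : I) : 0 ≤ gs M i s := le_max_left _ _

lemma gs_le_one (M i : ℕ) (s : I) : gs M i s ≤ 1 :=
  max_le zero_le_one (min_le_left _ _)

lemma gs_eq_zero {M i : ℕ} {s : I} (h : (M : ℝ) * (s : ℝ) ≤ i) : gs M i s = 0 := by
  rw [gs_apply]
  refine max_eq_left ?_
  exact (min_le_right _ _).trans (by linarith)

lemma gs_eq_one {M i : ℕ} {s : I} (h : (i : ℝ) + 1 ≤ (M : ℝ) * (s : ℝ)) : gs M i s = 1 := by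
  rw [gs_apply, min_eq_left (by linarith), max_eq_right zero_le_one]

lemma gs_anti (M : ℕ) {i j : ℕ} (h : i ≤ j) (s : I) : gs M j s ≤ gs M i s := by
  rw [gs_apply, gs_apply]
  have : (i : ℝ) ≤ j := by exact_mod_cast h
  refine max_le_max le_rfl (min_le_min le_rfl (by linarith))

lemma gs_lip (M i : ℕ) (s s' : I) : |gs M i s - gs M i s'| ≤ M * |(s : ℝ) - s'| := by
  rw [gs_apply, gs_apply]
  have h1 := abs_max_sub_max_le_max (0 : ℝ) (min 1 ((M : ℝ) * (s : ℝ) - i)) 0
    (min 1 ((M : ℝ) * (s' : ℝ) - i))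
  have h2 := abs_min_sub_min_le_max (1 : ℝ) ((M : ℝ) * (s : ℝ) - i) 1 ((M : ℝ) * (s' : ℝ) - i)
  simp only [sub_self, abs_zero] at h1 h2
  have h3 : |(M : ℝ) * (s : ℝ) - i - ((M : ℝ) * (s' : ℝ) - i)| = M * |(s : ℝ) - s'| := by
    rw [show (M : ℝ) * (s : ℝ) - i - ((M : ℝ) * (s' : ℝ) - i) = M * ((s : ℝ) - s') by ring,
      abs_mul, Nat.abs_cast]
  have hnn : 0 ≤ (M : ℝ) * |(s : ℝ) - s'| := by positivity
  exact h1.trans (max_le hnn (h2.trans (max_le hnn h3.le)))

/-- The partition functions. -/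
def hh (K : ℕ) (i : ℕ) : C(I, ℝ) :=
  if i = 0 then 1 - gs (K + 2) 1 else if i = K then gs (K + 2) K else
    gs (K + 2) i - gs (K + 2) (i + 1)

/-- The wider functions. -/
def hw (K : ℕ) (i : ℕ) : C(I, ℝ) :=
  if i = 0 then 1 - gs (K + 2) 2 else if i = K then gs (K + 2) (K - 1) else
    gs (K + 2) (i - 1) - gs (K + 2) (i + 2)

/-- The centres. -/
def hc (K : ℕ) (i : ℕ) : ℝ :=
  if i = 0 then 0 else if i = K then 1 else ((i : ℝ) + 1) / (K + 2)

lemma hh_nonneg {K i : ℕ} (s : I) : 0 ≤ hh K i s := by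
  unfold hh
  split_ifs with h1 h2
  · have := gs_le_one (K + 2) 1 s
    simp only [ContinuousMap.sub_apply, ContinuousMap.one_apply]
    linarith
  · exact gs_nonneg _ _ _
  · have := gs_anti (K + 2) (Nat.le_succ i) s
    simp only [ContinuousMap.sub_apply]
    linarith

lemma hw_nonneg {K i : ℕ} (s : I) : 0 ≤ hw K i s := by
  unfold hw
  split_ifs with h1 h2
  · have := gs_le_one (K + 2) 2 s
    simp only [ContinuousMap.sub_apply, ContinuousMap.one_apply]
    linarith
  · exact gs_nonneg _ _ _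
  · have := gs_anti (K + 2) (show i - 1 ≤ i + 2 by omega) s
    simp only [ContinuousMap.sub_apply]
    linarith

lemma hw_le_one {K i : ℕ} (s : I) : hw K i s ≤ 1 := by
  unfold hw
  split_ifs with h1 h2
  · have := gs_nonneg (K + 2) 2 s
    simp only [ContinuousMap.sub_apply, ContinuousMap.one_apply]
    linarith
  · exact gs_le_one _ _ _
  · have h3 := gs_le_one (K + 2) (i - 1) s
    have h4 := gs_nonneg (K + 2) (i + 2) s
    simp only [ContinuousMap.sub_apply]
    linarith

lemma hh_sum (K : ℕ) (hK : 2 ≤ K) (s : I) : ∑ i ∈ Finset.range (K + 1), hh K i s = 1 := by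
  have key : ∀ n, n < K → 0 < n + 1 → ∑ i ∈ Finset.range (n + 1), hh K i s
      = 1 - gs (K + 2) (n + 1) s := by
    intro n
    induction n with
    | zero =>
      intro _ _
      simp [hh]
    | succ n ih =>
      intro h1 _
      rw [Finset.sum_range_succ, ih (by omega) (by omega)]
      have h2 : n + 1 ≠ 0 := by omega
      have h3 : n + 1 ≠ K := by omega
      simp only [hh, h2, h3, if_false, ContinuousMap.sub_apply]
      ring
  obtain ⟨n, rfl⟩ : ∃ n, K = n + 1 := ⟨K - 1, by omega⟩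
  rw [Finset.sum_range_succ, key n (by omega) (by omega)]
  have h2 : n + 1 ≠ 0 := by omega
  simp only [hh, h2, if_false, if_true]
  ring

lemma hw_of_hh {K i : ℕ} (hK : 2 ≤ K) (hi : i ≤ K) {s : I} (h : hh K i s ≠ 0) : hw K i s = 1 := by
  have hsK : (0 : ℝ) ≤ (s : ℝ) := s.2.1
  unfold hh at h
  unfold hw
  by_cases h1 : i = 0
  · simp only [h1, if_true, ContinuousMap.sub_apply, ContinuousMap.one_apply] at h ⊢
    have h3 : ((K + 2 : ℕ) : ℝ) * (s : ℝ) ≤ ((2 : ℕ) : ℝ) := by
      by_contra hc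
      have hc := not_le.1 hc
      apply h
      rw [gs_eq_one (by push_cast at hc ⊢; linarith)]
      ring
    rw [gs_eq_zero h3]
    ring
  · by_cases h2 : i = K
    · simp only [h1, h2, if_false, if_true] at h ⊢
      have hK0 : K ≠ 0 := by omega
      simp only [hK0, if_false, if_true] at h ⊢
      have h3 : ((K : ℕ) : ℝ) ≤ ((K + 2 : ℕ) : ℝ) * (s : ℝ) := by
        by_contra hc
        have hc := not_le.1 hc
        exact h (gs_eq_zero hc.le)
      refine gs_eq_one ?_
      have h5 : ((K - 1 : ℕ) : ℝ) = (K : ℝ) - 1 := by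
        rw [Nat.cast_sub (by omega)]
        simp
      rw [h5]
      linarith
    · simp only [h1, h2, if_false, ContinuousMap.sub_apply] at h ⊢
      have h3 : ((i : ℕ) : ℝ) ≤ ((K + 2 : ℕ) : ℝ) * (s : ℝ) := by
        by_contra hc
        have hc := not_le.1 hc
        apply h
        rw [gs_eq_zero hc.le, gs_eq_zero (by push_cast at hc ⊢; linarith)]
        ring
      have h4 : ((K + 2 : ℕ) : ℝ) * (s : ℝ) ≤ ((i + 2 : ℕ) : ℝ) := by
        by_contra hc
        have hc := not_le.1 hc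
        apply h
        rw [gs_eq_one (by push_cast at hc ⊢; linarith), gs_eq_one (by push_cast at hc ⊢; linarith)]
        ring
      rw [gs_eq_one, gs_eq_zero h4]
      · ring
      · have h5 : ((i - 1 : ℕ) : ℝ) = (i : ℝ) - 1 := by
          rw [Nat.cast_sub (by omega)]
          simp
        rw [h5]
        linarith

lemma abs_sub_hc_of_hw {K i : ℕ} (hK : 2 ≤ K) (hi : i ≤ K) {s : I} (h : hw K i s ≠ 0) :
    |(s : ℝ) - hc K i| ≤ 3 / (K + 2) := by
  have hs0 : (0 : ℝ) ≤ (s : ℝ) := s.2.1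
  have hs1 : (s : ℝ) ≤ 1 := s.2.2
  have hKp : (0 : ℝ) < (K : ℝ) + 2 := by positivity
  have hKc : ((K + 2 : ℕ) : ℝ) = (K : ℝ) + 2 := by push_cast; ring
  unfold hw at h
  unfold hc
  by_cases h1 : i = 0
  · simp only [h1, if_true, ContinuousMap.sub_apply, ContinuousMap.one_apply, sub_zero] at h ⊢
    have h3 : ((K + 2 : ℕ) : ℝ) * (s : ℝ) < ((2 : ℕ) : ℝ) + 1 := by
      by_contra hc
      have hc := not_lt.1 hc
      apply h
      rw [gs_eq_one hc]
      ring
    rw [abs_of_nonneg hs0, le_div_iff₀ hKp]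
    rw [hKc] at h3
    push_cast at h3
    linarith
  · by_cases h2 : i = K
    · have hK0 : K ≠ 0 := by omega
      simp only [h1, h2, hK0, if_false, if_true] at h ⊢
      have h3 : ((K - 1 : ℕ) : ℝ) < ((K + 2 : ℕ) : ℝ) * (s : ℝ) := by
        by_contra hc
        exact h (gs_eq_zero (not_lt.1 hc))
      have h5 : ((K - 1 : ℕ) : ℝ) = (K : ℝ) - 1 := by
        rw [Nat.cast_sub (by omega)]
        simp
      rw [h5, hKc] at h3
      rw [abs_of_nonpos (by linarith), le_div_iff₀ hKp]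
      nlinarith
    · simp only [h1, h2, if_false, ContinuousMap.sub_apply] at h ⊢
      have h5 : ((i - 1 : ℕ) : ℝ) = (i : ℝ) - 1 := by
        rw [Nat.cast_sub (by omega)]
        simp
      have h3 : ((i - 1 : ℕ) : ℝ) < ((K + 2 : ℕ) : ℝ) * (s : ℝ) := by
        by_contra hc
        have hc := not_lt.1 hc
        apply h
        rw [gs_eq_zero hc, gs_eq_zero]
        · ring
        · refine hc.trans ?_
          exact_mod_cast (show i - 1 ≤ i + 2 by omega)
      have h4 : ((K + 2 : ℕ) : ℝ) * (s : ℝ) < ((i + 2 : ℕ) : ℝ) + 1 := by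
        by_contra hc
        have hc := not_lt.1 hc
        apply h
        rw [gs_eq_one hc, gs_eq_one]
        · ring
        · refine le_trans ?_ hc
          have : ((i - 1 : ℕ) : ℝ) ≤ ((i + 2 : ℕ) : ℝ) := by
            exact_mod_cast (show i - 1 ≤ i + 2 by omega)
          linarith
      rw [h5, hKc] at h3
      rw [hKc] at h4
      push_cast at h4
      rw [abs_le]
      constructor
      · rw [neg_le_iff_add_nonneg, ← sub_nonneg]
        have : (s : ℝ) - ((i : ℝ) + 1) / (K + 2) + 3 / (K + 2) - 0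
            = ((K + 2) * (s : ℝ) - (i + 1) + 3) / (K + 2) := by
          field_simp
          ring
        rw [this]
        apply div_nonneg _ hKp.le
        linarith
      · rw [← sub_nonneg]
        have : 3 / ((K : ℝ) + 2) - ((s : ℝ) - ((i : ℝ) + 1) / (K + 2))
            = (3 + (i + 1) - (K + 2) * (s : ℝ)) / (K + 2) := by
          field_simp
          ring
        rw [this]
        apply div_nonneg _ hKp.le
        linarith

lemma hw_zero {K i : ℕ} (hK : 2 ≤ K) (h : hw K i 0 ≠ 0) : i = 0 := by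
  by_contra h1
  apply h
  unfold hw
  have h0 : ((K + 2 : ℕ) : ℝ) * ((0 : I) : ℝ) = 0 := by simp
  by_cases h2 : i = K
  · have hK0 : K ≠ 0 := by omega
    simp only [h2, hK0, if_false, if_true]
    exact gs_eq_zero (by rw [h0]; positivity)
  · simp only [h1, h2, if_false, ContinuousMap.sub_apply]
    rw [gs_eq_zero (by rw [h0]; positivity), gs_eq_zero (by rw [h0]; positivity)]
    ring

lemma hw_one {K i : ℕ} (hK : 2 ≤ K) (hi : i ≤ K) (h : hw K i 1 ≠ 0) : i = K := by
  by_contra h2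
  apply h
  unfold hw
  have h0 : ((K + 2 : ℕ) : ℝ) * ((1 : I) : ℝ) = (K : ℝ) + 2 := by simp
  by_cases h1 : i = 0
  · simp only [h1, if_true, ContinuousMap.sub_apply, ContinuousMap.one_apply]
    rw [gs_eq_one]
    · ring
    · rw [h0]
      have : (2 : ℝ) ≤ K := by exact_mod_cast hK
      push_cast
      linarith
  · simp only [h1, h2, if_false, ContinuousMap.sub_apply]
    have hi' : i + 1 ≤ K := by omega
    have hi2 : ((i : ℝ) + 1) ≤ K := by exact_mod_cast hi'
    rw [gs_eq_one, gs_eq_one]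
    · ring
    · rw [h0]
      push_cast
      linarith
    · rw [h0]
      have h5 : ((i - 1 : ℕ) : ℝ) = (i : ℝ) - 1 := by
        rw [Nat.cast_sub (by omega)]
        simp
      rw [h5]
      linarith

lemma hh_lip (K i : ℕ) (s s' : I) :
    |hh K i s - hh K i s'| ≤ 2 * ((K : ℝ) + 2) * |(s : ℝ) - s'| := by
  have hM : ((K + 2 : ℕ) : ℝ) = (K : ℝ) + 2 := by push_cast; ring
  have hnn : 0 ≤ ((K : ℝ) + 2) * |(s : ℝ) - s'| := by positivity
  unfold hh
  split_ifs with h1 h2
  · simp only [ContinuousMap.sub_apply, ContinuousMap.one_apply]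
    have := gs_lip (K + 2) 1 s s'
    rw [hM] at this
    rw [show (1 : ℝ) - gs (K + 2) 1 s - (1 - gs (K + 2) 1 s') = -(gs (K + 2) 1 s - gs (K + 2) 1 s') by
      ring, abs_neg]
    linarith
  · have := gs_lip (K + 2) K s s'
    rw [hM] at this
    linarith
  · simp only [ContinuousMap.sub_apply]
    have h3 := gs_lip (K + 2) i s s'
    have h4 := gs_lip (K + 2) (i + 1) s s'
    rw [hM] at h3 h4
    rw [show gs (K + 2) i s - gs (K + 2) (i + 1) s - (gs (K + 2) i s' - gs (K + 2) (i + 1) s')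
      = (gs (K + 2) i s - gs (K + 2) i s') - (gs (K + 2) (i + 1) s - gs (K + 2) (i + 1) s') by ring]
    refine (abs_sub _ _).trans ?_
    linarith

lemma hc_mem {K i : ℕ} (hi : i ≤ K) : hc K i ∈ I := by
  unfold hc
  split_ifs with h1 h2
  · exact unitInterval.zero_mem
  · exact unitInterval.one_mem
  · have h3 : ((i : ℝ) + 1) ≤ (K : ℝ) + 2 := by
      have : (i : ℝ) ≤ K := by exact_mod_cast hi
      linarith
    exact ⟨by positivity, (div_le_one (by positivity)).2 h3⟩

/-- The partition of unity with its wider companions. -/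
theorem exists_partition {η : ℝ} (hη : 0 < η) :
    ∃ (K : ℕ) (L : ℝ) (h h' : Fin (K + 1) → C(I, ℝ)) (c : Fin (K + 1) → I),
      (∀ i s, 0 ≤ h i s) ∧ (∀ s, ∑ i, h i s = 1) ∧ (∀ i s, 0 ≤ h' i s ∧ h' i s ≤ 1) ∧
      (∀ i s, h i s ≠ 0 → h' i s = 1) ∧ (∀ i s, h' i s ≠ 0 → |(s : ℝ) - c i| < η) ∧
      (∀ i, h' i 0 ≠ 0 → c i = 0) ∧ (∀ i, h' i 1 ≠ 0 → c i = 1) ∧
      (∀ i s s', |h i s - h i s'| ≤ L * |(s : ℝ) - s'|) := by
  obtain ⟨n, hn⟩ := exists_nat_gt (3 / η)
  set K := n + 2 with hK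
  have hK2 : 2 ≤ K := by omega
  have hKpos : (0 : ℝ) < (K : ℝ) + 2 := by positivity
  have h3 : 3 / ((K : ℝ) + 2) < η := by
    rw [div_lt_iff₀ hKpos]
    rw [div_lt_iff₀ hη] at hn
    have : (n : ℝ) ≤ K := by
      rw [hK]
      push_cast
      linarith
    nlinarith
  refine ⟨K, 2 * ((K : ℝ) + 2), fun i => hh K i, fun i => hw K i,
    fun i => ⟨hc K i, hc_mem (Nat.lt_succ_iff.1 i.2)⟩, fun i s => hh_nonneg s, fun s => ?_,
    fun i s => ⟨hw_nonneg s, hw_le_one s⟩, fun i s hs => hw_of_hh hK2 (Nat.lt_succ_iff.1 i.2) hs,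
    fun i s hs => (abs_sub_hc_of_hw hK2 (Nat.lt_succ_iff.1 i.2) hs).trans_lt h3, fun i hi => ?_,
    fun i hi => ?_, fun i s s' => hh_lip K i s s'⟩
  · rw [Fin.sum_univ_eq_sum_range (fun i => hh K i s) (K + 1)]
    exact hh_sum K hK2 s
  · have := hw_zero hK2 hi
    apply Subtype.ext
    show hc K i = 0
    rw [this]
    simp [hc]
  · have := hw_one hK2 (Nat.lt_succ_iff.1 i.2) hi
    apply Subtype.ext
    show hc K i = 1
    have hK0 : K ≠ 0 := by omega
    rw [this]
    simp [hc, hK0]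

end Partition

end

end Vale.Agent.Lib.P101.J
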