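import Vale.Agent.Lib.P101.JPath

/-! Connecting maps between dimension drop algebras, given by eigenvalue functions. -/

namespace Vale.Agent.Lib.P101.J

set_option linter.unusedSectionVars false
set_option linter.unusedSimpArgs false
set_option linter.unusedVariables false

open scoped Kronecker Matrix.Norms.L2Operator unitInterval ComplexOrder

noncomputable section

/-- Data for a connecting map between two dimension drop algebras. -/
structure Conn (p q p' q' : ℕ) (Λ D : ℝ) where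
  L : Type
  [fL : Fintype L]
  [dL : DecidableEq L]
  ξ : L → C(I, I)
  Θ : (L → MH p q) →⋆ₐ[ℂ] MH p' q'
  hΘ : Function.Injective Θ
  U : C(I, MH p' q')
  hU : ∀ s, Un (U s)
  hUL : ∀ s s' : I, ‖U s - U s'‖ ≤ Real.pi * |(s : ℝ) - s'|
  bd0 : ∀ f : DP p q, ∃ a : Matrix (Fin p') (Fin p') ℂ,
    U 0 * Θ (fun ℓ => f.1 (ξ ℓ 0)) * star (U 0) = a ⊗ₖ (1 : Matrix (Fin q') (Fin q') ℂ)
  bd1 : ∀ f : DP p q, ∃ b : Matrix (Fin q') (Fin q') ℂ,
    U 1 * Θ (fun ℓ => f.1 (ξ ℓ 1)) * star (U 1) = (1 : Matrix (Fin p') (Fin p') ℂ) ⊗ₖ b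
  hL : ∀ ℓ (s s' : I), |((ξ ℓ s : I) : ℝ) - ξ ℓ s'| ≤ Λ * |(s : ℝ) - s'|
  hD : ∀ s t : I, ∃ ℓ, |((ξ ℓ s : I) : ℝ) - t| ≤ D
  hC : ∀ t : I, ∃ ℓ s, ξ ℓ s = t

attribute [instance] Conn.fL Conn.dL

variable {p q p' q' : ℕ} {Λ D : ℝ} (C : Conn p q p' q' Λ D)

/-- The family of fibre values. -/
def Conn.G (f : DP p q) (s : I) : C.L → MH p q := fun ℓ => f.1 (C.ξ ℓ s)

lemma Conn.G_cont (f : DP p q) : Continuous (C.G f) :=
  continuous_pi fun ℓ => f.1.continuous.comp (C.ξ ℓ).continuous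

/-- The function of the connecting map. -/
def Conn.phiF (f : DP p q) : C(I, MH p' q') :=
  ⟨fun s => C.U s * C.Θ (C.G f s) * star (C.U s), by
    have h1 : Continuous fun s => C.Θ (C.G f s) :=
      (star_hom_continuous C.Θ).comp (C.G_cont f)
    exact (C.U.continuous.mul h1).mul (continuous_star.comp C.U.continuous)⟩

lemma Conn.phiF_apply (f : DP p q) (s : I) :
    C.phiF f s = C.U s * C.Θ (C.G f s) * star (C.U s) := rfl

/-- The connecting map. -/
def Conn.phi : DP p q →⋆ₐ[ℂ] DP p' q' where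
  toFun f := ⟨C.phiF f, ⟨C.bd0 f, C.bd1 f⟩⟩
  map_one' := by
    apply Subtype.ext
    ext1 s
    show C.U s * C.Θ (C.G 1 s) * star (C.U s) = 1
    have : C.G 1 s = 1 := rfl
    rw [this, map_one, mul_one]
    exact (C.hU s).2
  map_mul' f g := by
    apply Subtype.ext
    ext1 s
    show C.U s * C.Θ (C.G (f * g) s) * star (C.U s)
      = (C.U s * C.Θ (C.G f s) * star (C.U s)) * (C.U s * C.Θ (C.G g s) * star (C.U s))
    have : C.G (f * g) s = C.G f s * C.G g s := rfl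
    rw [this, map_mul]
    calc C.U s * (C.Θ (C.G f s) * C.Θ (C.G g s)) * star (C.U s)
        = C.U s * C.Θ (C.G f s) * 1 * C.Θ (C.G g s) * star (C.U s) := by noncomm_ring
      _ = C.U s * C.Θ (C.G f s) * (star (C.U s) * C.U s) * C.Θ (C.G g s) * star (C.U s) := by
          rw [(C.hU s).1]
      _ = _ := by noncomm_ring
  map_zero' := by
    apply Subtype.ext
    ext1 s
    show C.U s * C.Θ (C.G 0 s) * star (C.U s) = 0
    have : C.G 0 s = 0 := rfl
    rw [this, map_zero, mul_zero, zero_mul]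
  map_add' f g := by
    apply Subtype.ext
    ext1 s
    show C.U s * C.Θ (C.G (f + g) s) * star (C.U s)
      = C.U s * C.Θ (C.G f s) * star (C.U s) + C.U s * C.Θ (C.G g s) * star (C.U s)
    have : C.G (f + g) s = C.G f s + C.G g s := rfl
    rw [this, map_add, mul_add, add_mul]
  commutes' r := by
    apply Subtype.ext
    ext1 s
    show C.U s * C.Θ (C.G (algebraMap ℂ (DP p q) r) s) * star (C.U s) = algebraMap ℂ (MH p' q') r
    have : C.G (algebraMap ℂ (DP p q) r) s = algebraMap ℂ (C.L → MH p q) r := rfl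
    rw [this, AlgHomClass.commutes, ← Algebra.commutes, mul_assoc, (C.hU s).2, mul_one]
  map_star' f := by
    apply Subtype.ext
    ext1 s
    show C.U s * C.Θ (C.G (star f) s) * star (C.U s)
      = star (C.U s * C.Θ (C.G f s) * star (C.U s))
    have : C.G (star f) s = star (C.G f s) := rfl
    rw [this, map_star, star_mul, star_mul, star_star, mul_assoc]

lemma Conn.phi_apply (f : DP p q) (s : I) :
    (C.phi f).1 s = C.U s * C.Θ (C.G f s) * star (C.U s) := rfl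

lemma Conn.Th_phi (f : DP p q) (s : I) : Th C.U (C.phi f) s = C.Θ (C.G f s) := by
  unfold Th
  rw [C.phi_apply]
  calc star (C.U s) * (C.U s * C.Θ (C.G f s) * star (C.U s)) * C.U s
      = (star (C.U s) * C.U s) * C.Θ (C.G f s) * (star (C.U s) * C.U s) := by noncomm_ring
    _ = _ := by rw [(C.hU s).1, one_mul, mul_one]

lemma Conn.norm_Θ (G : C.L → MH p q) : ‖C.Θ G‖ = ‖G‖ :=
  NonUnitalStarAlgHom.norm_map C.Θ C.hΘ G

lemma Conn.norm_phi_apply (f : DP p q) (s : I) : ‖(C.phi f).1 s‖ = ‖C.G f s‖ := by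
  rw [← C.norm_Θ]
  apply le_antisymm
  · rw [C.phi_apply]
    exact norm_conj_le _ (C.hU s).norm_le (C.hU s).star.norm_le
  · rw [← C.Th_phi]
    exact norm_conj_le _ (C.hU s).star.norm_le (C.hU s).norm_le

lemma Conn.phi_injective : Function.Injective C.phi := by
  rw [injective_iff_map_eq_zero]
  intro f hf
  apply Subtype.ext
  ext1 t
  obtain ⟨ℓ, s, h⟩ := C.hC t
  have h1 : ‖C.G f s‖ = 0 := by
    rw [← C.norm_phi_apply, hf]
    exact norm_zero
  have h2 : C.G f s = 0 := norm_eq_zero.1 h1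
  have h3 := congrFun h2 ℓ
  show f.1 t = 0
  rw [← h]
  exact h3

lemma Conn.norm_phi (f : DP p q) : ‖C.phi f‖ = ‖f‖ :=
  NonUnitalStarAlgHom.norm_map C.phi C.phi_injective f

/-- Lipschitz functions in a dimension drop algebra. -/
def IsLip (f : DP p q) (K : ℝ) : Prop := ∀ s s' : I, ‖f.1 s - f.1 s'‖ ≤ K * |(s : ℝ) - s'|

/-- The oscillation of the conjugated function. -/
lemma Conn.Th_osc (hΛ : 0 ≤ Λ) {f : DP p q} {K : ℝ} (hK : 0 ≤ K) (hf : IsLip f K) (s s' : I) :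
    ‖Th C.U (C.phi f) s - Th C.U (C.phi f) s'‖ ≤ K * Λ * |(s : ℝ) - s'| := by
  rw [C.Th_phi, C.Th_phi, ← map_sub, C.norm_Θ]
  have h0 : 0 ≤ K * Λ * |(s : ℝ) - s'| := by positivity
  refine (pi_norm_le_iff_of_nonneg h0).2 fun ℓ => ?_
  show ‖f.1 (C.ξ ℓ s) - f.1 (C.ξ ℓ s')‖ ≤ _
  refine (hf _ _).trans ?_
  calc K * |((C.ξ ℓ s : I) : ℝ) - C.ξ ℓ s'| ≤ K * (Λ * |(s : ℝ) - s'|) :=
        mul_le_mul_of_nonneg_left (C.hL ℓ s s') hK
    _ = _ := by ring

/-- The Lipschitz constant of the image. -/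
lemma Conn.phi_lip (hΛ : 0 ≤ Λ) {f : DP p q} {K : ℝ} (hK : 0 ≤ K) (hf : IsLip f K) :
    IsLip (C.phi f) (2 * Real.pi * ‖f‖ + K * Λ) := by
  intro s s'
  rw [C.phi_apply, C.phi_apply]
  have hGn : ∀ s, ‖C.Θ (C.G f s)‖ ≤ ‖f‖ := fun s => by
    rw [C.norm_Θ]
    exact (pi_norm_le_iff_of_nonneg (norm_nonneg _)).2 fun ℓ => norm_apply_le f _
  set X := C.Θ (C.G f s)
  set X' := C.Θ (C.G f s')
  set u := C.U s
  set u' := C.U s'
  have hX : ‖X‖ ≤ ‖f‖ := hGn s
  have hX' : ‖X'‖ ≤ ‖f‖ := hGn s'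
  have hu : ‖u‖ ≤ 1 := (C.hU s).norm_le
  have hu' : ‖star u'‖ ≤ 1 := (C.hU s').star.norm_le
  have huu : ‖u - u'‖ ≤ Real.pi * |(s : ℝ) - s'| := C.hUL s s'
  have hsu : ‖star u - star u'‖ ≤ Real.pi * |(s : ℝ) - s'| := by
    rw [← star_sub, norm_star]
    exact huu
  have hXX : ‖X - X'‖ ≤ K * Λ * |(s : ℝ) - s'| := by
    have := C.Th_osc hΛ hK hf s s'
    rwa [C.Th_phi, C.Th_phi] at this
  have e : u * X * star u - u' * X' * star u'
      = (u - u') * X * star u + u' * (X - X') * star u + u' * X' * (star u - star u') := by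
    noncomm_ring
  rw [e]
  have hsu1 : ‖star u‖ ≤ 1 := (C.hU s).star.norm_le
  have hu'1 : ‖u'‖ ≤ 1 := (C.hU s').norm_le
  have h1 : ‖(u - u') * X * star u‖ ≤ Real.pi * |(s : ℝ) - s'| * ‖f‖ := by
    calc ‖(u - u') * X * star u‖ ≤ ‖u - u'‖ * ‖X‖ * ‖star u‖ :=
          (norm_mul_le _ _).trans (mul_le_mul_of_nonneg_right (norm_mul_le _ _) (norm_nonneg _))
      _ ≤ (Real.pi * |(s : ℝ) - s'|) * ‖f‖ * 1 := by
          refine mul_le_mul (mul_le_mul huu hX (norm_nonneg _) (by positivity)) hsu1 (norm_nonneg _)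
            (by positivity)
      _ = _ := mul_one _
  have h2 : ‖u' * (X - X') * star u‖ ≤ K * Λ * |(s : ℝ) - s'| :=
    (norm_conj_le _ hu'1 hsu1).trans hXX
  have h3 : ‖u' * X' * (star u - star u')‖ ≤ ‖f‖ * (Real.pi * |(s : ℝ) - s'|) := by
    calc ‖u' * X' * (star u - star u')‖ ≤ ‖u'‖ * ‖X'‖ * ‖star u - star u'‖ :=
          (norm_mul_le _ _).trans (mul_le_mul_of_nonneg_right (norm_mul_le _ _) (norm_nonneg _))
      _ ≤ (1 * ‖f‖) * (Real.pi * |(s : ℝ) - s'|) := by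
          refine mul_le_mul (mul_le_mul hu'1 hX' (norm_nonneg _) zero_le_one) hsu (norm_nonneg _)
            (by positivity)
      _ = _ := by rw [one_mul]
  calc _ ≤ ‖(u - u') * X * star u‖ + ‖u' * (X - X') * star u‖ + ‖u' * X' * (star u - star u')‖ :=
        norm_add₃_le
    _ ≤ _ := by
        have := add_le_add (add_le_add h1 h2) h3
        refine this.trans (le_of_eq ?_)
        ring

/-- The images are large everywhere. -/
lemma Conn.phi_lower {f : DP p q} {K : ℝ} (hK : 0 ≤ K) (hf : IsLip f K) (s t : I) :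
    ‖f.1 t‖ - K * D ≤ ‖(C.phi f).1 s‖ := by
  rw [C.norm_phi_apply]
  obtain ⟨ℓ, hℓ⟩ := C.hD s t
  have h1 : ‖C.G f s ℓ‖ ≤ ‖C.G f s‖ := norm_le_pi_norm _ ℓ
  have h2 : ‖f.1 t - f.1 (C.ξ ℓ s)‖ ≤ K * D := by
    refine (hf _ _).trans ?_
    rw [abs_sub_comm]
    exact mul_le_mul_of_nonneg_left hℓ hK
  have h3 : ‖f.1 t‖ ≤ ‖f.1 t - f.1 (C.ξ ℓ s)‖ + ‖f.1 (C.ξ ℓ s)‖ := by
    simpa using norm_add_le (f.1 t - f.1 (C.ξ ℓ s)) (f.1 (C.ξ ℓ s))
  have h4 : C.G f s ℓ = f.1 (C.ξ ℓ s) := rfl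
  rw [h4] at h1
  linarith

end

end Vale.Agent.Lib.P101.J
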