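import Vale.Agent.Lib.P101.JFlip0

/-! The half flip on the dimension drop algebras. -/

namespace Vale.Agent.Lib.P101.J

set_option linter.unusedSectionVars false
set_option linter.unusedSimpArgs false
set_option linter.unusedVariables false

open scoped Kronecker Matrix.Norms.L2Operator unitInterval ComplexOrder

noncomputable section

section Perm

variable {T : Type} [Fintype T] [DecidableEq T]

/-- The permutation matrix of an involution. -/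
def pm (τ : T → T) : Matrix T T ℂ := fun u v => (1 : Matrix T T ℂ) (τ u) v

lemma pm_mul_left (τ : T → T) (X : Matrix T T ℂ) (u v : T) : (pm τ * X) u v = X (τ u) v := by
  rw [Matrix.mul_apply]
  simp [pm, Matrix.one_apply]

lemma pm_mul_right (τ : T → T) (hτ : Function.Involutive τ) (X : Matrix T T ℂ) (u v : T) :
    (X * pm τ) u v = X u (τ v) := by
  rw [Matrix.mul_apply, Finset.sum_eq_single (τ v)]
  · have e : τ (τ v) = v := hτ v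
    show X u (τ v) * (1 : Matrix T T ℂ) (τ (τ v)) v = X u (τ v)
    rw [e, Matrix.one_apply_eq, mul_one]
  · intro w _ hw
    have : τ w ≠ v := fun h => hw (by rw [← h, hτ w])
    simp [pm, Matrix.one_apply, this]
  · simp

lemma pm_star (τ : T → T) (hτ : Function.Involutive τ) : star (pm τ) = pm τ := by
  ext u v
  rw [Matrix.star_apply]
  simp only [pm, Matrix.one_apply]
  by_cases h : τ v = u
  · have : τ u = v := by rw [← h, hτ v]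
    simp [h, this]
  · have : τ u ≠ v := fun h2 => h (by rw [← h2, hτ u])
    simp [h, this]

lemma pm_mul_self (τ : T → T) (hτ : Function.Involutive τ) : pm τ * pm τ = 1 := by
  ext u v
  rw [pm_mul_left]
  have e : τ (τ u) = u := hτ u
  show (1 : Matrix T T ℂ) (τ (τ u)) v = _
  rw [e]

end Perm

variable {p q : ℕ}

/-- Flip of the first tensor factors. -/
def sA (u : HH p q × HH p q) : HH p q × HH p q := ((u.2.1, u.1.2), (u.1.1, u.2.2))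
/-- Flip of the second tensor factors. -/
def sB (u : HH p q × HH p q) : HH p q × HH p q := ((u.1.1, u.2.2), (u.2.1, u.1.2))
/-- Flip of the two copies. -/
def sH (u : HH p q × HH p q) : HH p q × HH p q := (u.2, u.1)

lemma sA_inv : Function.Involutive (sA (p := p) (q := q)) := fun _ => rfl
lemma sB_inv : Function.Involutive (sB (p := p) (q := q)) := fun _ => rfl
lemma sH_inv : Function.Involutive (sH (p := p) (q := q)) := fun _ => rfl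

/-- Flip matrices. -/
abbrev FA : M2 p q := pm sA
abbrev FB : M2 p q := pm sB
abbrev FH : M2 p q := pm sH

lemma FA_mul_FB : (FA : M2 p q) * FB = FH := by
  ext u v
  rw [pm_mul_left]
  rfl

lemma FB_mul_FA : (FB : M2 p q) * FA = FH := by
  ext u v
  rw [pm_mul_left]
  rfl

lemma FH_mul_FB : (FH : M2 p q) * FB = FA := by
  rw [← FA_mul_FB, mul_assoc, pm_mul_self _ sB_inv, mul_one]

lemma FH_mul_FA : (FH : M2 p q) * FA = FB := by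
  rw [← FB_mul_FA, mul_assoc, pm_mul_self _ sA_inv, mul_one]

lemma kr_one_b (b : Matrix (Fin q) (Fin q) ℂ) (a a' : Fin p) (c c' : Fin q) :
    ((1 : Matrix (Fin p) (Fin p) ℂ) ⊗ₖ b) (a, c) (a', c') = (1 : Matrix (Fin p) (Fin p) ℂ) a a' * b c c' := rfl

lemma kr_a_one (x : Matrix (Fin p) (Fin p) ℂ) (a a' : Fin p) (c c' : Fin q) :
    (x ⊗ₖ (1 : Matrix (Fin q) (Fin q) ℂ)) (a, c) (a', c') = x a a' * (1 : Matrix (Fin q) (Fin q) ℂ) c c' := rfl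

lemma FB_krL_b (b : Matrix (Fin q) (Fin q) ℂ) :
    (FB : M2 p q) * krL ((1 : Matrix (Fin p) (Fin p) ℂ) ⊗ₖ b)
      = krR ((1 : Matrix (Fin p) (Fin p) ℂ) ⊗ₖ b) * FB := by
  ext ⟨⟨a₁, b₁⟩, ⟨a₂, b₂⟩⟩ ⟨⟨a₁', b₁'⟩, ⟨a₂', b₂'⟩⟩
  rw [pm_mul_left, pm_mul_right _ sB_inv]
  show krL _ ((a₁, b₂), (a₂, b₁)) ((a₁', b₁'), (a₂', b₂'))
    = krR _ ((a₁, b₁), (a₂, b₂)) ((a₁', b₂'), (a₂', b₁'))
  rw [krL_apply, krR_apply]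
  show ((1 : Matrix (Fin p) (Fin p) ℂ) ⊗ₖ b) (a₁, b₂) (a₁', b₁') * (1 : MH p q) (a₂, b₁) (a₂', b₂')
    = (1 : MH p q) (a₁, b₁) (a₁', b₂') * ((1 : Matrix (Fin p) (Fin p) ℂ) ⊗ₖ b) (a₂, b₂) (a₂', b₁')
  rw [kr_one_b, kr_one_b, one_prod, one_prod]
  ring

lemma FA_krL_a (x : Matrix (Fin p) (Fin p) ℂ) :
    (FA : M2 p q) * krL (x ⊗ₖ (1 : Matrix (Fin q) (Fin q) ℂ))
      = krR (x ⊗ₖ (1 : Matrix (Fin q) (Fin q) ℂ)) * FA := by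
  ext ⟨⟨a₁, b₁⟩, ⟨a₂, b₂⟩⟩ ⟨⟨a₁', b₁'⟩, ⟨a₂', b₂'⟩⟩
  rw [pm_mul_left, pm_mul_right _ sA_inv]
  show krL _ ((a₂, b₁), (a₁, b₂)) ((a₁', b₁'), (a₂', b₂'))
    = krR _ ((a₁, b₁), (a₂, b₂)) ((a₂', b₁'), (a₁', b₂'))
  rw [krL_apply, krR_apply]
  show (x ⊗ₖ (1 : Matrix (Fin q) (Fin q) ℂ)) (a₂, b₁) (a₁', b₁') * (1 : MH p q) (a₁, b₂) (a₂', b₂')
    = (1 : MH p q) (a₁, b₁) (a₂', b₁') * (x ⊗ₖ (1 : Matrix (Fin q) (Fin q) ℂ)) (a₂, b₂) (a₁', b₂')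
  rw [kr_a_one, kr_a_one, one_prod, one_prod]
  ring

lemma FA_krL_b (b : Matrix (Fin q) (Fin q) ℂ) :
    (FA : M2 p q) * krL ((1 : Matrix (Fin p) (Fin p) ℂ) ⊗ₖ b)
      = krL ((1 : Matrix (Fin p) (Fin p) ℂ) ⊗ₖ b) * FA := by
  ext ⟨⟨a₁, b₁⟩, ⟨a₂, b₂⟩⟩ ⟨⟨a₁', b₁'⟩, ⟨a₂', b₂'⟩⟩
  rw [pm_mul_left, pm_mul_right _ sA_inv]
  show krL _ ((a₂, b₁), (a₁, b₂)) ((a₁', b₁'), (a₂', b₂'))
    = krL _ ((a₁, b₁), (a₂, b₂)) ((a₂', b₁'), (a₁', b₂'))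
  rw [krL_apply, krL_apply]
  show ((1 : Matrix (Fin p) (Fin p) ℂ) ⊗ₖ b) (a₂, b₁) (a₁', b₁') * (1 : MH p q) (a₁, b₂) (a₂', b₂')
    = ((1 : Matrix (Fin p) (Fin p) ℂ) ⊗ₖ b) (a₁, b₁) (a₂', b₁') * (1 : MH p q) (a₂, b₂) (a₁', b₂')
  rw [kr_one_b, kr_one_b, one_prod, one_prod]
  ring

lemma FB_krL_a (x : Matrix (Fin p) (Fin p) ℂ) :
    (FB : M2 p q) * krL (x ⊗ₖ (1 : Matrix (Fin q) (Fin q) ℂ))
      = krL (x ⊗ₖ (1 : Matrix (Fin q) (Fin q) ℂ)) * FB := by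
  ext ⟨⟨a₁, b₁⟩, ⟨a₂, b₂⟩⟩ ⟨⟨a₁', b₁'⟩, ⟨a₂', b₂'⟩⟩
  rw [pm_mul_left, pm_mul_right _ sB_inv]
  show krL _ ((a₁, b₂), (a₂, b₁)) ((a₁', b₁'), (a₂', b₂'))
    = krL _ ((a₁, b₁), (a₂, b₂)) ((a₁', b₂'), (a₂', b₁'))
  rw [krL_apply, krL_apply]
  show (x ⊗ₖ (1 : Matrix (Fin q) (Fin q) ℂ)) (a₁, b₂) (a₁', b₁') * (1 : MH p q) (a₂, b₁) (a₂', b₂')
    = (x ⊗ₖ (1 : Matrix (Fin q) (Fin q) ℂ)) (a₁, b₁) (a₁', b₂') * (1 : MH p q) (a₂, b₂) (a₂', b₁')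
  rw [kr_a_one, kr_a_one, one_prod, one_prod]
  ring

lemma FA_krR_b (b : Matrix (Fin q) (Fin q) ℂ) :
    (FA : M2 p q) * krR ((1 : Matrix (Fin p) (Fin p) ℂ) ⊗ₖ b)
      = krR ((1 : Matrix (Fin p) (Fin p) ℂ) ⊗ₖ b) * FA := by
  ext ⟨⟨a₁, b₁⟩, ⟨a₂, b₂⟩⟩ ⟨⟨a₁', b₁'⟩, ⟨a₂', b₂'⟩⟩
  rw [pm_mul_left, pm_mul_right _ sA_inv]
  show krR _ ((a₂, b₁), (a₁, b₂)) ((a₁', b₁'), (a₂', b₂'))
    = krR _ ((a₁, b₁), (a₂, b₂)) ((a₂', b₁'), (a₁', b₂'))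
  rw [krR_apply, krR_apply]
  show (1 : MH p q) (a₂, b₁) (a₁', b₁') * ((1 : Matrix (Fin p) (Fin p) ℂ) ⊗ₖ b) (a₁, b₂) (a₂', b₂')
    = (1 : MH p q) (a₁, b₁) (a₂', b₁') * ((1 : Matrix (Fin p) (Fin p) ℂ) ⊗ₖ b) (a₂, b₂) (a₁', b₂')
  rw [kr_one_b, kr_one_b, one_prod, one_prod]
  ring

lemma FB_krR_a (x : Matrix (Fin p) (Fin p) ℂ) :
    (FB : M2 p q) * krR (x ⊗ₖ (1 : Matrix (Fin q) (Fin q) ℂ))
      = krR (x ⊗ₖ (1 : Matrix (Fin q) (Fin q) ℂ)) * FB := by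
  ext ⟨⟨a₁, b₁⟩, ⟨a₂, b₂⟩⟩ ⟨⟨a₁', b₁'⟩, ⟨a₂', b₂'⟩⟩
  rw [pm_mul_left, pm_mul_right _ sB_inv]
  show krR _ ((a₁, b₂), (a₂, b₁)) ((a₁', b₁'), (a₂', b₂'))
    = krR _ ((a₁, b₁), (a₂, b₂)) ((a₁', b₂'), (a₂', b₁'))
  rw [krR_apply, krR_apply]
  show (1 : MH p q) (a₁, b₂) (a₁', b₁') * (x ⊗ₖ (1 : Matrix (Fin q) (Fin q) ℂ)) (a₂, b₁) (a₂', b₂')
    = (1 : MH p q) (a₁, b₁) (a₁', b₂') * (x ⊗ₖ (1 : Matrix (Fin q) (Fin q) ℂ)) (a₂, b₂) (a₂', b₁')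
  rw [kr_a_one, kr_a_one, one_prod, one_prod]
  ring

lemma FH_krL (x : MH p q) : (FH : M2 p q) * krL x = krR x * FH := by
  ext ⟨h₁, h₂⟩ ⟨h₁', h₂'⟩
  rw [pm_mul_left, pm_mul_right _ sH_inv]
  show krL _ (h₂, h₁) (h₁', h₂') = krR _ (h₁, h₂) (h₂', h₁')
  rw [krL_apply, krR_apply]
  show x h₂ h₁' * (1 : MH p q) h₁ h₂' = (1 : MH p q) h₁ h₂' * x h₂ h₁'
  ring

lemma FH_krR (x : MH p q) : (FH : M2 p q) * krR x = krL x * FH := by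
  ext ⟨h₁, h₂⟩ ⟨h₁', h₂'⟩
  rw [pm_mul_left, pm_mul_right _ sH_inv]
  show krR _ (h₂, h₁) (h₁', h₂') = krL _ (h₁, h₂) (h₂', h₁')
  rw [krR_apply, krL_apply]
  show (1 : MH p q) h₂ h₁' * x h₁ h₂' = x h₁ h₂' * (1 : MH p q) h₂ h₁'
  ring

end

end Vale.Agent.Lib.P101.J
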