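import Vale.Agent.Lib.P101.JTens4

/-! Abstract algebra for the half flip. -/

namespace Vale.Agent.Lib.P101.J

set_option linter.unusedSectionVars false
set_option linter.unusedSimpArgs false
set_option linter.unusedVariables false

open scoped Kronecker Matrix.Norms.L2Operator unitInterval ComplexOrder

noncomputable section

section Abs

variable {M : Type*} [CStarAlgebra M]

/-- Unitary elements. -/
def Un (x : M) : Prop := star x * x = 1 ∧ x * star x = 1

lemma Un.mul {x y : M} (hx : Un x) (hy : Un y) : Un (x * y) := by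
  constructor
  · rw [star_mul]
    calc star y * star x * (x * y) = star y * (star x * x) * y := by noncomm_ring
      _ = 1 := by rw [hx.1, mul_one, hy.1]
  · rw [star_mul]
    calc x * y * (star y * star x) = x * (y * star y) * star x := by noncomm_ring
      _ = 1 := by rw [hy.2, mul_one, hx.2]

lemma Un.star {x : M} (hx : Un x) : Un (star x) := by
  constructor
  · rw [star_star]
    exact hx.2
  · rw [star_star]
    exact hx.1

lemma Un.one : Un (1 : M) := by
  constructor <;> simp

lemma Un.norm_le {x : M} (hx : Un x) : ‖x‖ ≤ 1 := by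
  have h1 := CStarRing.norm_star_mul_self (x := x)
  rw [hx.1] at h1
  have h2 : ‖(1 : M)‖ ≤ 1 := norm_one_le'
  rw [h1] at h2
  nlinarith [norm_nonneg x]

/-- Multiplication by a unitary does not increase the norm. -/
lemma norm_conj_le {x y : M} (a : M) (hx : ‖x‖ ≤ 1) (hy : ‖y‖ ≤ 1) : ‖x * a * y‖ ≤ ‖a‖ := by
  calc ‖x * a * y‖ ≤ ‖x‖ * ‖a‖ * ‖y‖ := by
        refine (norm_mul_le _ _).trans ?_
        exact mul_le_mul_of_nonneg_right (norm_mul_le _ _) (norm_nonneg _)
    _ ≤ 1 * ‖a‖ * 1 := by
        have := norm_nonneg a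
        have := norm_nonneg y
        have h2 : ‖x‖ * ‖a‖ ≤ 1 * ‖a‖ := mul_le_mul_of_nonneg_right hx (norm_nonneg a)
        exact mul_le_mul h2 hy (norm_nonneg _) (by positivity)
    _ = ‖a‖ := by ring

/-- The root of unity used to rotate a symmetry. -/
def zz (x : ℝ) : ℂ := Complex.exp (((Real.pi * x : ℝ) : ℂ) * Complex.I)

lemma zz_zero : zz 0 = 1 := by simp [zz]

lemma zz_one : zz 1 = -1 := by
  simp [zz, Complex.exp_pi_mul_I]

lemma zz_norm (x : ℝ) : ‖zz x‖ = 1 := Complex.norm_exp_ofReal_mul_I _

lemma zz_cont : Continuous zz := by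
  unfold zz
  fun_prop

lemma zz_conj_mul (x : ℝ) : star (zz x) * zz x = 1 := by
  have h := zz_norm x
  have h2 := Complex.normSq_eq_norm_sq (zz x)
  rw [h] at h2
  rw [Complex.star_def, ← Complex.normSq_eq_conj_mul_self, h2]
  simp

/-- The path of unitaries from `1` to a symmetry `S`. -/
def EU (S : M) (x : ℝ) : M := ((1 + zz x) / 2 : ℂ) • (1 : M) + ((1 - zz x) / 2 : ℂ) • S

lemma EU_zero (S : M) : EU S 0 = 1 := by
  simp [EU, zz_zero]

lemma EU_one (S : M) : EU S 1 = S := by
  simp [EU, zz_one]

lemma EU_cont (S : M) : Continuous (EU S) := by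
  unfold EU
  have := zz_cont
  fun_prop

lemma EU_mul_aux (a b c d : ℂ) {S : M} (h2 : S * S = 1) :
    (a • (1 : M) + b • S) * (c • (1 : M) + d • S) = (a * c + b * d) • (1 : M) + (a * d + b * c) • S := by
  simp only [add_mul, mul_add, smul_mul_assoc, mul_smul_comm, one_mul, mul_one, h2, smul_smul,
    add_smul, smul_add]
  rw [mul_comm c a, mul_comm c b, mul_comm d a, mul_comm d b]
  abel

lemma EU_un {S : M} (h1 : star S = S) (h2 : S * S = 1) (x : ℝ) : Un (EU S x) := by
  have hz := zz_conj_mul x
  have hz' : zz x * star (zz x) = 1 := by rw [mul_comm]; exact hz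
  have hst : star (EU S x) = ((1 + star (zz x)) / 2 : ℂ) • (1 : M) + ((1 - star (zz x)) / 2 : ℂ) • S := by
    simp only [EU, star_add, star_smul, star_one, h1, star_div₀, star_sub]
    simp
  constructor
  · rw [hst]
    unfold EU
    rw [EU_mul_aux _ _ _ _ h2]
    have e1 : (1 + star (zz x)) / 2 * ((1 + zz x) / 2) + (1 - star (zz x)) / 2 * ((1 - zz x) / 2) = 1 := by
      have : (1 + star (zz x)) / 2 * ((1 + zz x) / 2) + (1 - star (zz x)) / 2 * ((1 - zz x) / 2)
          = (1 + star (zz x) * zz x) / 2 := by ring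
      rw [this, hz]
      norm_num
    have e2 : (1 + star (zz x)) / 2 * ((1 - zz x) / 2) + (1 - star (zz x)) / 2 * ((1 + zz x) / 2) = 0 := by
      have : (1 + star (zz x)) / 2 * ((1 - zz x) / 2) + (1 - star (zz x)) / 2 * ((1 + zz x) / 2)
          = (1 - star (zz x) * zz x) / 2 := by ring
      rw [this, hz]
      norm_num
    rw [e1, e2, one_smul, zero_smul, add_zero]
  · rw [hst]
    unfold EU
    rw [EU_mul_aux _ _ _ _ h2]
    have e1 : (1 + zz x) / 2 * ((1 + star (zz x)) / 2) + (1 - zz x) / 2 * ((1 - star (zz x)) / 2) = 1 := by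
      have : (1 + zz x) / 2 * ((1 + star (zz x)) / 2) + (1 - zz x) / 2 * ((1 - star (zz x)) / 2)
          = (1 + zz x * star (zz x)) / 2 := by ring
      rw [this, hz']
      norm_num
    have e2 : (1 + zz x) / 2 * ((1 - star (zz x)) / 2) + (1 - zz x) / 2 * ((1 + star (zz x)) / 2) = 0 := by
      have : (1 + zz x) / 2 * ((1 - star (zz x)) / 2) + (1 - zz x) / 2 * ((1 + star (zz x)) / 2)
          = (1 - zz x * star (zz x)) / 2 := by ring
      rw [this, hz']
      norm_num
    rw [e1, e2, one_smul, zero_smul, add_zero]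

lemma EU_commute {S T : M} (h : Commute T S) (x : ℝ) : Commute T (EU S x) := by
  unfold EU
  exact ((Commute.one_right T).smul_right _).add_right (h.smul_right _)

lemma EU_norm_comm (S T : M) (x : ℝ) : ‖EU S x * T - T * EU S x‖ ≤ ‖S * T - T * S‖ := by
  have e : EU S x * T - T * EU S x = ((1 - zz x) / 2 : ℂ) • (S * T - T * S) := by
    simp only [EU, add_mul, mul_add, smul_mul_assoc, mul_smul_comm, one_mul, mul_one, smul_sub]
    abel
  rw [e, norm_smul]
  have h1 : ‖(1 - zz x) / 2‖ ≤ 1 := by
    rw [norm_div]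
    have := norm_sub_le (1 : ℂ) (zz x)
    rw [zz_norm, norm_one] at this
    simp only [Complex.norm_ofNat]
    linarith
  calc _ ≤ 1 * ‖S * T - T * S‖ := mul_le_mul_of_nonneg_right h1 (norm_nonneg _)
    _ = _ := one_mul _

lemma norm_comm_mul (P Q T : M) (hP : ‖P‖ ≤ 1) (hQ : ‖Q‖ ≤ 1) :
    ‖P * Q * T - T * (P * Q)‖ ≤ ‖P * T - T * P‖ + ‖Q * T - T * Q‖ := by
  have e : P * Q * T - T * (P * Q) = P * (Q * T - T * Q) + (P * T - T * P) * Q := by noncomm_ring
  rw [e]
  refine (norm_add_le _ _).trans ?_
  have h1 : ‖P * (Q * T - T * Q)‖ ≤ ‖Q * T - T * Q‖ := by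
    refine (norm_mul_le _ _).trans ?_
    calc _ ≤ 1 * ‖Q * T - T * Q‖ := mul_le_mul_of_nonneg_right hP (norm_nonneg _)
      _ = _ := one_mul _
  have h2 : ‖(P * T - T * P) * Q‖ ≤ ‖P * T - T * P‖ := by
    refine (norm_mul_le _ _).trans ?_
    calc _ ≤ ‖P * T - T * P‖ * 1 := mul_le_mul_of_nonneg_left hQ (norm_nonneg _)
      _ = _ := mul_one _
  linarith

/-- Boundary computation for the first coordinate. -/
lemma bd_s {vt FH P u F b1 b2 : M} (hu : Un u) (h1 : F * b1 = b2 * F) (h2 : FH * b2 = b1 * FH)
    (h3 : Commute b2 P) (h4 : Commute b2 (star u)) (h5 : Commute vt b1) :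
    Commute (vt * FH * (P * (star u * F * u)) * star u) b1 := by
  have e : vt * FH * (P * (star u * F * u)) * star u = vt * FH * P * star u * F := by
    calc vt * FH * (P * (star u * F * u)) * star u
        = vt * FH * P * star u * F * (u * star u) := by noncomm_ring
      _ = _ := by rw [hu.2, mul_one]
  rw [e]
  show vt * FH * P * star u * F * b1 = b1 * (vt * FH * P * star u * F)
  calc vt * FH * P * star u * F * b1 = vt * FH * P * star u * (F * b1) := by noncomm_ring
    _ = vt * FH * P * (star u * b2) * F := by rw [h1]; noncomm_ring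
    _ = vt * FH * (P * b2) * star u * F := by rw [← h4.eq]; noncomm_ring
    _ = vt * (FH * b2) * P * star u * F := by rw [← h3.eq]; noncomm_ring
    _ = (vt * b1) * FH * P * star u * F := by rw [h2]; noncomm_ring
    _ = _ := by rw [h5.eq]; noncomm_ring

/-- Boundary computation for the second coordinate. -/
lemma bd_t {v FH P u F FF us b : M} (h0 : v * FH * star u = FH) (h1 : FH * F = FF)
    (h2 : Commute b FF) (h3 : Commute b u) (h4 : Commute b P) (h5 : Commute b (star us)) :
    Commute (v * FH * ((star u * F * u) * P) * star us) b := by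
  have e : v * FH * ((star u * F * u) * P) * star us = FF * u * P * star us := by
    calc v * FH * ((star u * F * u) * P) * star us
        = (v * FH * star u) * F * u * P * star us := by noncomm_ring
      _ = _ := by rw [h0, h1]
  rw [e]
  exact (((h2.mul_right h3).mul_right h4).mul_right h5).symm

/-- The abstract estimate. -/
lemma abs_est {vt FH C us gs gt : M} (hvt : Un vt) (hus : Un us) (hC : Un C) (hF1 : star FH = FH)
    (hF2 : FH * FH = 1) :
    ‖(vt * FH * C * star us) * gs * star (vt * FH * C * star us) - gt‖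
      ≤ ‖C * (star us * gs * us) - (star us * gs * us) * C‖
        + ‖FH * (star us * gs * us) * FH - star vt * gt * vt‖ := by
  set T := star us * gs * us with hT
  set T' := star vt * gt * vt with hT'
  have e1 : (vt * FH * C * star us) * gs * star (vt * FH * C * star us)
      = vt * (FH * (C * T * star C) * FH) * star vt := by
    simp only [star_mul, star_star, hF1, hT]
    noncomm_ring
  have e2 : gt = vt * T' * star vt := by
    rw [hT']
    calc gt = (vt * star vt) * gt * (vt * star vt) := by rw [hvt.2, one_mul, mul_one]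
      _ = _ := by noncomm_ring
  have e3 : C * T * star C - T = (C * T - T * C) * star C := by
    rw [sub_mul, mul_assoc T C, hC.2, mul_one]
  have e4 : FH * T * FH = FH * T * FH := rfl
  have hstarv : ‖star vt‖ ≤ 1 := hvt.star.norm_le
  have hFn : ‖FH‖ ≤ 1 := Un.norm_le (x := FH) ⟨by rw [hF1, hF2], by rw [hF1, hF2]⟩
  have e5 : vt * (FH * (C * T * star C) * FH) * star vt - gt
      = vt * (FH * (C * T * star C - T) * FH) * star vt + vt * (FH * T * FH - T') * star vt := by
    rw [e2]
    noncomm_ring
  rw [e1, e5]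
  refine (norm_add_le _ _).trans (add_le_add ?_ ?_)
  · refine (norm_conj_le _ hvt.norm_le hstarv).trans ?_
    refine (norm_conj_le _ hFn hFn).trans ?_
    rw [e3]
    refine (norm_mul_le _ _).trans ?_
    calc _ ≤ ‖C * T - T * C‖ * 1 := mul_le_mul_of_nonneg_left hC.star.norm_le (norm_nonneg _)
      _ = _ := mul_one _
  · exact norm_conj_le _ hvt.norm_le hstarv

end Abs

/-- The clipping function. -/
def clip (r : ℝ) : ℝ := max 0 (min r 1)

lemma clip_cont : Continuous clip := by
  unfold clip
  fun_prop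

lemma clip_of_le {r : ℝ} (h : r ≤ 0) : clip r = 0 := by
  unfold clip
  rw [min_eq_left (by linarith)]
  exact max_eq_left h

lemma clip_of_ge {r : ℝ} (h : 1 ≤ r) : clip r = 1 := by
  unfold clip
  rw [min_eq_right h]
  exact max_eq_right zero_le_one

end

end Vale.Agent.Lib.P101.J
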