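import Vale.Agent.Lib.P101.JFlip

/-! The half flip on the dimension drop algebras: the explicit unitary. -/

namespace Vale.Agent.Lib.P101.J

set_option linter.unusedSectionVars false
set_option linter.unusedSimpArgs false
set_option linter.unusedVariables false

open scoped Kronecker Matrix.Norms.L2Operator unitInterval ComplexOrder

noncomputable section

variable {p q : ℕ} (U : C(I, MH p q))

/-- The unitary on the first copy. -/
def uu (s : I) : M2 p q := krL (U s)
/-- The unitary on the second copy. -/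
def vv (t : I) : M2 p q := krR (U t)
/-- The conjugated flip of the first factors. -/
def AA : M2 p q := star (uu U 1) * FA * uu U 1
/-- The conjugated flip of the second factors. -/
def BB : M2 p q := star (uu U 0) * FB * uu U 0

/-- First parameter of the rotation. -/
def xx (z : I × I) : ℝ := clip (3 * max (z.1 : ℝ) z.2 - min (z.1 : ℝ) z.2 - 1)
/-- Second parameter of the rotation. -/
def yy (z : I × I) : ℝ := clip (1 - 3 * min (z.1 : ℝ) z.2 + max (z.1 : ℝ) z.2)

lemma xx_cont : Continuous xx := by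
  unfold xx
  exact clip_cont.comp (by fun_prop)

lemma yy_cont : Continuous yy := by
  unfold yy
  exact clip_cont.comp (by fun_prop)

lemma xx_or_yy {z : I × I} (h : (z.1 : ℝ) = z.2) : xx z = 0 ∨ yy z = 0 := by
  unfold xx yy
  rw [← h, max_self, min_self]
  by_cases h2 : 3 * (z.1 : ℝ) - z.1 - 1 ≤ 0
  · exact Or.inl (clip_of_le h2)
  · exact Or.inr (clip_of_le (by linarith))

/-- The central path of the half flip. -/
def CC (z : I × I) : M2 p q :=
  if (z.1 : ℝ) ≤ z.2 then EU (AA U) (xx z) * EU (BB U) (yy z) else EU (BB U) (yy z) * EU (AA U) (xx z)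

lemma CC_cont : Continuous (CC U) := by
  refine Continuous.if_le ?_ ?_ (continuous_subtype_val.comp continuous_fst)
    (continuous_subtype_val.comp continuous_snd) ?_
  · exact ((EU_cont _).comp xx_cont).mul ((EU_cont _).comp yy_cont)
  · exact ((EU_cont _).comp yy_cont).mul ((EU_cont _).comp xx_cont)
  · intro z hz
    rcases xx_or_yy hz with h | h
    · rw [h, EU_zero, one_mul, mul_one]
    · rw [h, EU_zero, one_mul, mul_one]

/-- The half flip as a function on the square. -/
def WF (z : I × I) : M2 p q := vv U z.2 * FH * CC U z * star (uu U z.1)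

lemma uu_cont : Continuous (uu U) :=
  (star_hom_continuous (krL (J := HH p q) (L := HH p q))).comp U.continuous

lemma vv_cont : Continuous (vv U) :=
  (star_hom_continuous (krR (J := HH p q) (L := HH p q))).comp U.continuous

lemma WF_cont : Continuous (WF U) := by
  unfold WF
  have h1 := vv_cont U
  have h2 := uu_cont U
  have h3 := CC_cont U
  exact ((((h1.comp continuous_snd).mul continuous_const).mul h3).mul
    (continuous_star.comp (h2.comp continuous_fst)))

/-- The half flip. -/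
def W0 : WW p q := mkW (WF U) (WF_cont U)

lemma ev_W0 (z : I × I) : ev (W0 U) z = WF U z := rfl

variable {U} (hU : ∀ s, Un (U s))

lemma un_krL {x : MH p q} (h : Un x) : Un (krL (L := HH p q) x : M2 p q) := by
  constructor
  · rw [← map_star, ← map_mul, h.1, map_one]
  · rw [← map_star, ← map_mul, h.2, map_one]

lemma un_krR {x : MH p q} (h : Un x) : Un (krR (J := HH p q) x : M2 p q) := by
  constructor
  · rw [← map_star, ← map_mul, h.1, map_one]
  · rw [← map_star, ← map_mul, h.2, map_one]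

include hU in
lemma uu_un (s : I) : Un (uu U s) := un_krL (hU s)
include hU in
lemma vv_un (s : I) : Un (vv U s) := un_krR (hU s)

lemma sym_star {M : Type*} [CStarAlgebra M] {u F : M} (hF : star F = F) :
    star (star u * F * u) = star u * F * u := by
  rw [star_mul, star_mul, star_star, hF, mul_assoc]

lemma sym_sq {M : Type*} [CStarAlgebra M] {u F : M} (hu : Un u) (hF : F * F = 1) :
    (star u * F * u) * (star u * F * u) = 1 := by
  calc (star u * F * u) * (star u * F * u) = star u * F * (u * star u) * F * u := by noncomm_ring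
    _ = star u * (F * F) * u := by rw [hu.2, mul_one]; noncomm_ring
    _ = 1 := by rw [hF, mul_one, hu.1]

include hU in
lemma AA_star : star (AA U) = AA U := sym_star (pm_star _ sA_inv)
include hU in
lemma AA_sq : AA U * AA U = 1 := sym_sq (uu_un hU 1) (pm_mul_self _ sA_inv)
include hU in
lemma BB_star : star (BB U) = BB U := sym_star (pm_star _ sB_inv)
include hU in
lemma BB_sq : BB U * BB U = 1 := sym_sq (uu_un hU 0) (pm_mul_self _ sB_inv)

include hU in
lemma EA_un (x : ℝ) : Un (EU (AA U) x) := EU_un (AA_star hU) (AA_sq hU) x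
include hU in
lemma EB_un (x : ℝ) : Un (EU (BB U) x) := EU_un (BB_star hU) (BB_sq hU) x

include hU in
lemma CC_un (z : I × I) : Un (CC U z) := by
  unfold CC
  split_ifs
  · exact (EA_un hU _).mul (EB_un hU _)
  · exact (EB_un hU _).mul (EA_un hU _)

lemma FH_un : Un (FH : M2 p q) :=
  ⟨by rw [pm_star _ sH_inv, pm_mul_self _ sH_inv], by rw [pm_star _ sH_inv, pm_mul_self _ sH_inv]⟩

include hU in
lemma WF_un (z : I × I) : Un (WF U z) :=
  (((vv_un hU _).mul FH_un).mul (CC_un hU z)).mul (uu_un hU _).star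

lemma W0_star_mul (h : ∀ z, Un (WF U z)) : star (W0 U) * W0 U = 1 :=
  WW_ext fun z => (h z).1

lemma W0_mul_star (h : ∀ z, Un (WF U z)) : W0 U * star (W0 U) = 1 :=
  WW_ext fun z => (h z).2

/-- Values of the central path at the boundary. -/
lemma CC_s0 (t : I) : CC U (0, t) = EU (AA U) (xx (0, t)) * BB U := by
  have h0 : ((0 : I) : ℝ) ≤ t := unitInterval.nonneg t
  have hy : yy (0, t) = 1 := by
    unfold yy
    refine clip_of_ge ?_
    show 1 ≤ 1 - 3 * min ((0 : I) : ℝ) t + max ((0 : I) : ℝ) t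
    rw [min_eq_left h0, max_eq_right h0]
    have := unitInterval.nonneg t
    simp only [Set.Icc.coe_zero]
    linarith
  unfold CC
  rw [if_pos h0, hy, EU_one]

lemma CC_s1 (t : I) : CC U (1, t) = EU (BB U) (yy (1, t)) * AA U := by
  have h1 : (t : ℝ) ≤ ((1 : I) : ℝ) := unitInterval.le_one t
  have hx : xx (1, t) = 1 := by
    unfold xx
    refine clip_of_ge ?_
    show 1 ≤ 3 * max ((1 : I) : ℝ) t - min ((1 : I) : ℝ) t - 1
    rw [max_eq_left h1, min_eq_right h1]
    simp only [Set.Icc.coe_one] at h1 ⊢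
    linarith
  unfold CC
  by_cases h2 : ((1 : I) : ℝ) ≤ t
  · rw [if_pos h2]
    have hyy : yy (1, t) = 0 := by
      unfold yy
      refine clip_of_le ?_
      show 1 - 3 * min ((1 : I) : ℝ) t + max ((1 : I) : ℝ) t ≤ 0
      have ht : (t : ℝ) = 1 := le_antisymm (by simpa using h1) (by simpa using h2)
      simp only [ht, Set.Icc.coe_one, min_self, max_self]
      norm_num
    rw [hx, hyy, EU_one, EU_zero, mul_one, one_mul]
  · rw [if_neg h2, hx, EU_one]

lemma CC_t0 (s : I) : CC U (s, 0) = BB U * EU (AA U) (xx (s, 0)) := by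
  have h0 : ((0 : I) : ℝ) ≤ s := unitInterval.nonneg s
  have hy : yy (s, 0) = 1 := by
    unfold yy
    refine clip_of_ge ?_
    show 1 ≤ 1 - 3 * min (s : ℝ) ((0 : I) : ℝ) + max (s : ℝ) ((0 : I) : ℝ)
    rw [min_eq_right h0, max_eq_left h0]
    simp only [Set.Icc.coe_zero] at h0 ⊢
    linarith
  unfold CC
  by_cases h2 : (s : ℝ) ≤ ((0 : I) : ℝ)
  · rw [if_pos h2]
    have hxx : xx (s, 0) = 0 := by
      unfold xx
      refine clip_of_le ?_
      show 3 * max (s : ℝ) ((0 : I) : ℝ) - min (s : ℝ) ((0 : I) : ℝ) - 1 ≤ 0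
      have ht : (s : ℝ) = 0 := le_antisymm (by simpa using h2) (by simpa using h0)
      simp only [ht, Set.Icc.coe_zero, min_self, max_self]
      norm_num
    rw [hy, hxx, EU_one, EU_zero, mul_one, one_mul]
  · rw [if_neg h2, hy, EU_one]

lemma CC_t1 (s : I) : CC U (s, 1) = AA U * EU (BB U) (yy (s, 1)) := by
  have h1 : (s : ℝ) ≤ ((1 : I) : ℝ) := unitInterval.le_one s
  have hx : xx (s, 1) = 1 := by
    unfold xx
    refine clip_of_ge ?_
    show 1 ≤ 3 * max (s : ℝ) ((1 : I) : ℝ) - min (s : ℝ) ((1 : I) : ℝ) - 1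
    rw [max_eq_right h1, min_eq_left h1]
    simp only [Set.Icc.coe_one] at h1 ⊢
    linarith
  unfold CC
  rw [if_pos h1, hx, EU_one]

lemma comm_krR_krL (x y : MH p q) : Commute (krR (J := HH p q) x : M2 p q) (krL (L := HH p q) y) :=
  (krL_krR_comm y x).symm

lemma comm_krR_AA (b : Matrix (Fin q) (Fin q) ℂ) :
    Commute (krR ((1 : Matrix (Fin p) (Fin p) ℂ) ⊗ₖ b) : M2 p q) (AA U) := by
  unfold AA uu
  rw [← map_star]
  exact ((comm_krR_krL _ _).mul_right (FA_krR_b b).symm).mul_right (comm_krR_krL _ _)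

lemma comm_krR_BB (a : Matrix (Fin p) (Fin p) ℂ) :
    Commute (krR (a ⊗ₖ (1 : Matrix (Fin q) (Fin q) ℂ)) : M2 p q) (BB U) := by
  unfold BB uu
  rw [← map_star]
  exact ((comm_krR_krL _ _).mul_right (FB_krR_a a).symm).mul_right (comm_krR_krL _ _)

include hU in
lemma bd1 (t : I) (b : Matrix (Fin q) (Fin q) ℂ) :
    ev (W0 U) (0, t) * krL ((1 : Matrix (Fin p) (Fin p) ℂ) ⊗ₖ b)
      = krL ((1 : Matrix (Fin p) (Fin p) ℂ) ⊗ₖ b) * ev (W0 U) (0, t) := by
  rw [ev_W0]
  unfold WF
  simp only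
  rw [CC_s0]
  refine bd_s (uu_un hU 0) (FB_krL_b b) (FH_krR _) (EU_commute (comm_krR_AA b) _) ?_
    (krL_krR_comm _ _).symm
  unfold uu
  rw [← map_star]
  exact comm_krR_krL _ _

include hU in
lemma bd2 (t : I) (a : Matrix (Fin p) (Fin p) ℂ) :
    ev (W0 U) (1, t) * krL (a ⊗ₖ (1 : Matrix (Fin q) (Fin q) ℂ))
      = krL (a ⊗ₖ (1 : Matrix (Fin q) (Fin q) ℂ)) * ev (W0 U) (1, t) := by
  rw [ev_W0]
  unfold WF
  simp only
  rw [CC_s1]
  refine bd_s (uu_un hU 1) (FA_krL_a a) (FH_krR _) (EU_commute (comm_krR_BB a) _) ?_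
    (krL_krR_comm _ _).symm
  unfold uu
  rw [← map_star]
  exact comm_krR_krL _ _

include hU in
lemma vFu (s : I) : vv U s * FH * star (uu U s) = FH := by
  unfold vv uu
  rw [← map_star, mul_assoc, FH_krL, ← mul_assoc, ← map_mul, (hU s).2, map_one, one_mul]

include hU in
lemma bd3 (s : I) (b : Matrix (Fin q) (Fin q) ℂ) :
    ev (W0 U) (s, 0) * krR ((1 : Matrix (Fin p) (Fin p) ℂ) ⊗ₖ b)
      = krR ((1 : Matrix (Fin p) (Fin p) ℂ) ⊗ₖ b) * ev (W0 U) (s, 0) := by
  rw [ev_W0]
  unfold WF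
  simp only
  rw [CC_t0]
  refine (bd_t (u := uu U 0) (F := FB) (vFu hU 0) FH_mul_FB (FA_krR_b b).symm (comm_krR_krL _ _)
    (EU_commute (comm_krR_AA b) _) ?_).symm.symm.eq
  unfold uu
  rw [← map_star]
  exact comm_krR_krL _ _

include hU in
lemma bd4 (s : I) (a : Matrix (Fin p) (Fin p) ℂ) :
    ev (W0 U) (s, 1) * krR (a ⊗ₖ (1 : Matrix (Fin q) (Fin q) ℂ))
      = krR (a ⊗ₖ (1 : Matrix (Fin q) (Fin q) ℂ)) * ev (W0 U) (s, 1) := by
  rw [ev_W0]
  unfold WF
  simp only
  rw [CC_t1]
  refine (bd_t (u := uu U 1) (F := FA) (vFu hU 1) FH_mul_FA (FB_krR_a a).symm (comm_krR_krL _ _)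
    (EU_commute (comm_krR_BB a) _) ?_).symm.symm.eq
  unfold uu
  rw [← map_star]
  exact comm_krR_krL _ _

end

end Vale.Agent.Lib.P101.J
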