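import Vale.Agent.Lib.P101.JFlip2

/-! The half flip on the dimension drop algebras: the estimate. -/

namespace Vale.Agent.Lib.P101.J

set_option linter.unusedSectionVars false
set_option linter.unusedSimpArgs false
set_option linter.unusedVariables false

open scoped Kronecker Matrix.Norms.L2Operator unitInterval ComplexOrder

noncomputable section

variable {p q : ℕ}

lemma sym_comm {M : Type*} [CStarAlgebra M] {u F g : M} (hu : Un u) (h : F * g = g * F) :
    (star u * F * u) * (star u * g * u) = (star u * g * u) * (star u * F * u) := by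
  calc (star u * F * u) * (star u * g * u) = star u * F * (u * star u) * g * u := by noncomm_ring
    _ = star u * (F * g) * u := by rw [hu.2, mul_one]; noncomm_ring
    _ = star u * (g * F) * u := by rw [h]
    _ = star u * g * (u * star u) * F * u := by rw [hu.2, mul_one]; noncomm_ring
    _ = _ := by noncomm_ring

lemma sym_norm {M : Type*} [CStarAlgebra M] {S T T₁ : M} (hS : ‖S‖ ≤ 1) (h : S * T₁ = T₁ * S) :
    ‖S * T - T * S‖ ≤ 2 * ‖T - T₁‖ := by
  have e : S * T - T * S = S * (T - T₁) - (T - T₁) * S := by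
    rw [mul_sub, sub_mul, h]
    abel
  rw [e]
  refine (norm_sub_le _ _).trans ?_
  have h1 : ‖S * (T - T₁)‖ ≤ ‖T - T₁‖ := by
    refine (norm_mul_le _ _).trans ?_
    calc _ ≤ 1 * ‖T - T₁‖ := mul_le_mul_of_nonneg_right hS (norm_nonneg _)
      _ = _ := one_mul _
  have h2 : ‖(T - T₁) * S‖ ≤ ‖T - T₁‖ := by
    refine (norm_mul_le _ _).trans ?_
    calc _ ≤ ‖T - T₁‖ * 1 := mul_le_mul_of_nonneg_left hS (norm_nonneg _)
      _ = _ := mul_one _
  linarith

/-- The conjugated function. -/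
def Th (U : C(I, MH p q)) (g : DP p q) (s : I) : MH p q := star (U s) * g.1 s * U s

lemma krL_Th (U : C(I, MH p q)) (g : DP p q) (s : I) :
    (krL (Th U g s) : M2 p q) = star (uu U s) * krL (g.1 s) * uu U s := by
  unfold Th uu
  rw [map_mul, map_mul, map_star]

lemma krR_Th (U : C(I, MH p q)) (g : DP p q) (s : I) :
    (krR (Th U g s) : M2 p q) = star (vv U s) * krR (g.1 s) * vv U s := by
  unfold Th vv
  rw [map_mul, map_mul, map_star]

lemma krL_norm_le (x : MH p q) : ‖(krL x : M2 p q)‖ ≤ ‖x‖ :=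
  NonUnitalStarAlgHom.norm_apply_le (krL (J := HH p q) (L := HH p q)) x

lemma krR_norm_le (x : MH p q) : ‖(krR x : M2 p q)‖ ≤ ‖x‖ :=
  NonUnitalStarAlgHom.norm_apply_le (krR (J := HH p q) (L := HH p q)) x

variable {U : C(I, MH p q)} (hU : ∀ s, Un (U s))

include hU in
lemma AA_comm (g : DP p q) : AA U * krL (Th U g 1) = krL (Th U g 1) * AA U := by
  rw [krL_Th]
  unfold AA
  refine sym_comm (uu_un hU 1) ?_
  obtain ⟨b, hb⟩ := g.2.2
  have : g.1 1 = (1 : Matrix (Fin p) (Fin p) ℂ) ⊗ₖ b := hb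
  rw [this]
  exact FA_krL_b b

include hU in
lemma BB_comm (g : DP p q) : BB U * krL (Th U g 0) = krL (Th U g 0) * BB U := by
  rw [krL_Th]
  unfold BB
  refine sym_comm (uu_un hU 0) ?_
  obtain ⟨a, ha⟩ := g.2.1
  have : g.1 0 = a ⊗ₖ (1 : Matrix (Fin q) (Fin q) ℂ) := ha
  rw [this]
  exact FB_krL_a a

include hU in
lemma comm_est (g : DP p q) {ε : ℝ} (hε : ∀ s s', ‖Th U g s - Th U g s'‖ ≤ ε) (z : I × I) :
    ‖CC U z * krL (Th U g z.1) - krL (Th U g z.1) * CC U z‖ ≤ 4 * ε := by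
  set T : M2 p q := krL (Th U g z.1) with hT
  have hA : ‖AA U * T - T * AA U‖ ≤ 2 * ε := by
    have h1 := sym_norm (T := T) (Un.norm_le (x := AA U)
      ⟨by rw [AA_star hU, AA_sq hU], by rw [AA_star hU, AA_sq hU]⟩) (AA_comm hU g)
    refine h1.trans ?_
    rw [hT, ← map_sub]
    have := (krL_norm_le (p := p) (q := q) (Th U g z.1 - Th U g 1)).trans (hε _ _)
    linarith
  have hB : ‖BB U * T - T * BB U‖ ≤ 2 * ε := by
    have h1 := sym_norm (T := T) (Un.norm_le (x := BB U)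
      ⟨by rw [BB_star hU, BB_sq hU], by rw [BB_star hU, BB_sq hU]⟩) (BB_comm hU g)
    refine h1.trans ?_
    rw [hT, ← map_sub]
    have := (krL_norm_le (p := p) (q := q) (Th U g z.1 - Th U g 0)).trans (hε _ _)
    linarith
  have hEA := (EU_norm_comm (AA U) T (xx z)).trans hA
  have hEB := (EU_norm_comm (BB U) T (yy z)).trans hB
  unfold CC
  split_ifs
  · have := norm_comm_mul (EU (AA U) (xx z)) (EU (BB U) (yy z)) T (EA_un hU _).norm_le
      (EB_un hU _).norm_le
    linarith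
  · have := norm_comm_mul (EU (BB U) (yy z)) (EU (AA U) (xx z)) T (EB_un hU _).norm_le
      (EA_un hU _).norm_le
    linarith

include hU in
lemma point_est (g : DP p q) {ε : ℝ} (hε : ∀ s s', ‖Th U g s - Th U g s'‖ ≤ ε) (z : I × I) :
    ‖WF U z * krL (g.1 z.1) * star (WF U z) - krR (g.1 z.2)‖ ≤ 5 * ε := by
  unfold WF
  refine (abs_est (vv_un hU z.2) (uu_un hU z.1) (CC_un hU z) (pm_star _ sH_inv)
    (pm_mul_self _ sH_inv)).trans ?_
  rw [← krL_Th, ← krR_Th, FH_krL, mul_assoc, pm_mul_self _ sH_inv, mul_one, ← map_sub]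
  have h1 := comm_est hU g hε z
  have h2 := (krR_norm_le (p := p) (q := q) (Th U g z.1 - Th U g z.2)).trans (hε _ _)
  linarith

/-- The half flip for a commuting pair of copies of a dimension drop algebra. -/
theorem half_flip [NeZero p] [NeZero q] {Y : Type} [CStarAlgebra Y] (c d : DP p q →⋆ₐ[ℂ] Y)
    (hcd : ∀ x y, c x * d y = d y * c x) (U : C(I, MH p q)) (hU : ∀ s, Un (U s)) :
    ∃ w : Y, star w * w = 1 ∧ w * star w = 1 ∧ ∀ (g : DP p q) (ε : ℝ),
      (∀ s s', ‖Th U g s - Th U g s'‖ ≤ ε) → ‖w * c g * star w - d g‖ ≤ 5 * ε := by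
  obtain ⟨w, h1, h2, h3⟩ := flip_of_unitary c d hcd (W0 U)
    (mem_closure_T (W0 U) (bd1 hU) (bd2 hU) (bd3 hU) (bd4 hU))
    (W0_star_mul (WF_un hU)) (W0_mul_star (WF_un hU))
  refine ⟨w, h1, h2, fun g ε hε => (h3 g).trans ?_⟩
  have hε0 : 0 ≤ ε := (norm_nonneg _).trans (hε 0 0)
  refine norm_WW_le (by linarith) fun z => ?_
  exact point_est hU g hε z

end

end Vale.Agent.Lib.P101.J
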