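import Vale.Agent.Lib.P101.JTrace2

/-! Elements nonvanishing everywhere generate a dimension drop algebra as an ideal. -/

namespace Vale.Agent.Lib.P101.J

set_option linter.unusedSectionVars false
set_option linter.unusedSimpArgs false
set_option linter.unusedVariables false

open scoped Kronecker Matrix.Norms.L2Operator unitInterval ComplexOrder

noncomputable section

section Entries

variable {n : Type} [Fintype n] [DecidableEq n]

lemma EE_norm_le (i j : n) : ‖(EE i j : Matrix n n ℂ)‖ ≤ 1 := by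
  have hE : ‖(EE j j : Matrix n n ℂ)‖ ≤ 1 := by
    have h1 : star (EE j j : Matrix n n ℂ) * EE j j = EE j j := by
      have : star (EE j j : Matrix n n ℂ) = EE j j := by
        ext a b
        simp [EE, Matrix.star_apply, Matrix.single_apply]
        grind
      rw [this]
      simp [EE]
    have h2 := CStarRing.norm_star_mul_self (x := (EE j j : Matrix n n ℂ))
    rw [h1] at h2
    by_contra hcon
    push Not at hcon
    nlinarith
  have h1 : star (EE i j : Matrix n n ℂ) * EE i j = EE j j := by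
    have : star (EE i j : Matrix n n ℂ) = EE j i := by
      ext a b
      simp [EE, Matrix.star_apply, Matrix.single_apply]
      grind
    rw [this]
    simp [EE]
  have h2 := CStarRing.norm_star_mul_self (x := (EE i j : Matrix n n ℂ))
  rw [h1] at h2
  by_contra hcon
  push Not at hcon
  nlinarith

lemma exists_large_entry [Nonempty n] (a : Matrix n n ℂ) :
    ∃ i j, ‖a‖ ≤ (Fintype.card n : ℝ) ^ 2 * ‖a i j‖ := by
  obtain ⟨⟨i₀, j₀⟩, hm⟩ := Finite.exists_max (fun x : n × n => ‖a x.1 x.2‖)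
  refine ⟨i₀, j₀, ?_⟩
  conv_lhs => rw [Matrix.matrix_eq_sum_single a]
  refine (norm_sum_le _ _).trans ?_
  calc _ ≤ ∑ i : n, ((Fintype.card n : ℝ) * ‖a i₀ j₀‖) := Finset.sum_le_sum fun i _ => by
        refine (norm_sum_le _ _).trans ?_
        calc _ ≤ ∑ j : n, ‖a i₀ j₀‖ := Finset.sum_le_sum fun j _ => by
              have h1 : (Matrix.single i j (a i j) : Matrix n n ℂ) = a i j • EE i j := by
                simp [EE]
              rw [h1, norm_smul]
              calc _ ≤ ‖a i j‖ * 1 := mul_le_mul_of_nonneg_left (EE_norm_le i j) (norm_nonneg _)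
                _ = ‖a i j‖ := mul_one _
                _ ≤ _ := hm (i, j)
          _ = _ := by simp
    _ = _ := by
        simp
        ring

lemma sum_units (a : Matrix n n ℂ) (i₀ j₀ : n) :
    ∑ i, (EE i i₀ : Matrix n n ℂ) * a * EE j₀ i = a i₀ j₀ • 1 := by
  have h1 : ∀ i, (EE i i₀ : Matrix n n ℂ) * a * EE j₀ i = a i₀ j₀ • EE i i := by
    intro i
    ext x y
    simp only [EE]
    rw [Matrix.single_mul_mul_single]
    simp [Matrix.single_apply]
  simp only [h1]
  rw [← Finset.smul_sum]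
  congr 1
  ext x y
  rw [Matrix.sum_apply]
  simp only [EE, Matrix.single_apply, Matrix.one_apply]
  by_cases h : x = y
  · subst h
    simp
  · simp [h]

end Entries

variable {p q : ℕ}

lemma Fb.j_injective (F : Fb p q) : Function.Injective F.j :=
  (rx_injective _).comp krL_injective

lemma Fb.j_norm (F : Fb p q) (a : Matrix F.n F.n ℂ) : ‖F.j a‖ = ‖a‖ :=
  NonUnitalStarAlgHom.norm_map F.j F.j_injective a

lemma Fb.card_le [NeZero p] [NeZero q] (F : Fb p q) : Fintype.card F.n ≤ Fintype.card (HH p q) := by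
  rw [Fintype.card_congr F.κ, Fintype.card_prod]
  exact Nat.le_mul_of_pos_right _ Fintype.card_pos

/-- A local inverse. -/
lemma local_elem {F : Fb p q} {s₀ : I} (hF : F.Good s₀) {w : C(I, ℝ)} (hw : ∀ s, 0 ≤ w s)
    (h0 : w 0 ≠ 0 → s₀ = 0) (h1 : w 1 ≠ 0 → s₀ = 1) (S : TwoSidedIdeal (DP p q)) (h : DP p q)
    (hS : h ∈ S) (a : Matrix F.n F.n ℂ) (ha : h.1 s₀ = F.j a) (i₀ j₀ : F.n) (hz : a i₀ j₀ ≠ 0)
    {η : ℝ} (hclose : ∀ s, w s ≠ 0 → ‖h.1 s - h.1 s₀‖ ≤ η) :
    ∃ y ∈ S, ∀ s, ‖y.1 s - ((w s : ℝ) : ℂ) • 1‖ ≤ w s * (‖a i₀ j₀‖⁻¹ * (Fintype.card F.n * η)) := by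
  have h0' : (sq w) 0 ≠ 0 → s₀ = 0 := fun hs => h0 (sq_ne hs)
  have h1' : (sq w) 1 ≠ 0 → s₀ = 1 := fun hs => h1 (sq_ne hs)
  let A : F.n → DP p q := fun i => bl F hF (sq w) h0' h1' (EE i i₀)
  let B : F.n → DP p q := fun i => bl F hF (sq w) h0' h1' (EE j₀ i)
  set z₀ := a i₀ j₀ with hz₀
  refine ⟨z₀⁻¹ • ∑ i, A i * h * B i, ?_, fun s => ?_⟩
  · have h2 : ∑ i, A i * h * B i ∈ S := by
      refine sum_mem fun i _ => ?_
      exact S.mul_mem_right _ _ (S.mul_mem_left _ _ hS)
    have e : z₀⁻¹ • ∑ i, A i * h * B i = (z₀⁻¹ • (1 : DP p q)) * ∑ i, A i * h * B i := by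
      rw [smul_mul_assoc, one_mul]
    rw [e]
    exact S.mul_mem_left _ _ h2
  · have e1 : ∀ i, (A i * h * B i).1 s
        = ((w s : ℝ) : ℂ) • (F.j (EE i i₀) * h.1 s * F.j (EE j₀ i)) := by
      intro i
      show (A i).1 s * h.1 s * (B i).1 s = _
      have hA : (A i).1 s = ((sq w s : ℝ) : ℂ) • F.j (EE i i₀) := rfl
      have hB : (B i).1 s = ((sq w s : ℝ) : ℂ) • F.j (EE j₀ i) := rfl
      rw [hA, hB]
      simp only [smul_mul_assoc, mul_smul_comm, smul_smul]
      congr 1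
      rw [sq_apply, ← Complex.ofReal_mul, Real.mul_self_sqrt (hw s)]
    have e2 : ∑ i, F.j (EE i i₀) * h.1 s₀ * F.j (EE j₀ i) = z₀ • (1 : MH p q) := by
      rw [ha]
      simp only [← map_mul]
      rw [← map_sum, sum_units, map_smul, map_one]
    have hz1 : ‖z₀‖ ≠ 0 := norm_ne_zero_iff.2 hz
    have e3 : (z₀⁻¹ • ∑ i, A i * h * B i).1 s - ((w s : ℝ) : ℂ) • 1
        = (((w s : ℝ) : ℂ) * z₀⁻¹) • ∑ i, F.j (EE i i₀) * (h.1 s - h.1 s₀) * F.j (EE j₀ i) := by
      have e4 : (z₀⁻¹ • ∑ i, A i * h * B i).1 s = z₀⁻¹ • ∑ i, (A i * h * B i).1 s := by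
        rw [smul_apply', sum_apply']
      rw [e4]
      simp only [e1, mul_sub, sub_mul]
      rw [Finset.sum_sub_distrib, e2, smul_sub, ← Finset.smul_sum, smul_smul, smul_smul,
        mul_comm z₀⁻¹, mul_assoc, inv_mul_cancel₀ hz, mul_one]
    rw [e3, norm_smul, norm_mul, Complex.norm_real, Real.norm_eq_abs, abs_of_nonneg (hw s), norm_inv,
      mul_assoc]
    by_cases hs : w s = 0
    · simp [hs]
    · refine mul_le_mul_of_nonneg_left ?_ (hw s)
      refine mul_le_mul_of_nonneg_left ?_ (inv_nonneg.2 (norm_nonneg _))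
      refine (norm_sum_le _ _).trans ?_
      have hj : ∀ x y, ‖F.j (EE x y)‖ ≤ 1 := fun x y => by
        rw [F.j_norm]
        exact EE_norm_le x y
      calc _ ≤ ∑ i : F.n, η := Finset.sum_le_sum fun i _ =>
            (norm_conj_le _ (hj _ _) (hj _ _)).trans (hclose s hs)
        _ = _ := by simp

/-- Elements nonvanishing everywhere generate the dimension drop algebra. -/
theorem ideal_unit [NeZero p] [NeZero q] (S : TwoSidedIdeal (DP p q)) (h : DP p q) (hS : h ∈ S)
    {c : ℝ} (hc : 0 < c) (hh : ∀ s, c ≤ ‖h.1 s‖) : ∃ y ∈ S, ‖y - 1‖ < 1 := by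
  set N : ℝ := (Fintype.card (HH p q) : ℝ) with hN
  have hN1 : 1 ≤ N := by
    have : 0 < Fintype.card (HH p q) := Fintype.card_pos
    rw [hN]
    exact_mod_cast this
  have hN0 : 0 < N := by linarith
  set η : ℝ := c / (2 * N ^ 3) with hη
  have hη0 : 0 < η := by positivity
  obtain ⟨ρ, hρ, hcl⟩ := exists_delta h.1 hη0
  obtain ⟨K, L, w, w', cc, h2, h3, h4, h5, h6, h7, h8, -⟩ := exists_partition hρ
  choose F hF using fun i => exists_good (p := p) (q := q) (cc i)
  choose a ha using fun i => (hF i).1 _ (fibr_of_dp h (cc i))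
  have hnon : ∀ i, Nonempty (F i).n := fun i => ⟨((F i).κ (Classical.arbitrary _)).1⟩
  have hent : ∀ i, ∃ x y, ‖a i‖ ≤ (Fintype.card (F i).n : ℝ) ^ 2 * ‖a i x y‖ := fun i =>
    exists_large_entry (a i)
  choose x y hxy using hent
  have b0 : ∀ i, w i 0 ≠ 0 → cc i = 0 := fun i hh => h7 i (by rw [h5 i 0 hh]; exact one_ne_zero)
  have b1 : ∀ i, w i 1 ≠ 0 → cc i = 1 := fun i hh => h8 i (by rw [h5 i 1 hh]; exact one_ne_zero)
  have hcard : ∀ i, (Fintype.card (F i).n : ℝ) ≤ N := fun i => by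
    rw [hN]
    exact_mod_cast (F i).card_le
  have hlow : ∀ i, c ≤ N ^ 2 * ‖a i (x i) (y i)‖ := fun i => by
    have h9 := hh (cc i)
    rw [ha, (F i).j_norm] at h9
    refine h9.trans ((hxy i).trans ?_)
    refine mul_le_mul_of_nonneg_right ?_ (norm_nonneg _)
    exact pow_le_pow_left₀ (by positivity) (hcard i) 2
  have hz : ∀ i, a i (x i) (y i) ≠ 0 := fun i => by
    intro h9
    have := hlow i
    rw [h9, norm_zero, mul_zero] at this
    linarith
  have hloc := fun i => local_elem (hF i) (h2 i) (b0 i) (b1 i) S h hS (a i) (ha i) (x i) (y i) (hz i)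
    (η := η) (fun s hs => (hcl _ _ (h6 i s (by rw [h5 i s hs]; exact one_ne_zero))).le)
  choose Y hYS hY using hloc
  have hconst : ∀ i, ‖a i (x i) (y i)‖⁻¹ * ((Fintype.card (F i).n : ℝ) * η) ≤ 1 / 2 := by
    intro i
    have hzpos : 0 < ‖a i (x i) (y i)‖ := norm_pos_iff.2 (hz i)
    have h10 : ‖a i (x i) (y i)‖⁻¹ ≤ N ^ 2 / c := by
      rw [inv_le_comm₀ hzpos (by positivity), inv_div, div_le_iff₀ (by positivity)]
      linarith [hlow i]
    calc _ ≤ (N ^ 2 / c) * (N * η) :=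
          mul_le_mul h10 (mul_le_mul_of_nonneg_right (hcard i) hη0.le) (by positivity) (by positivity)
      _ = 1 / 2 := by
          rw [hη]
          field_simp
  refine ⟨∑ i, Y i, sum_mem fun i _ => hYS i, ?_⟩
  refine lt_of_le_of_lt (norm_dp_le (C := 1 / 2) (by norm_num) fun s => ?_) (by norm_num)
  have e1 : (∑ i, Y i - 1).1 s = ∑ i, ((Y i).1 s - ((w i s : ℝ) : ℂ) • (1 : MH p q)) := by
    rw [sub_apply', sum_apply', one_apply', Finset.sum_sub_distrib, ← Finset.sum_smul]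
    congr 1
    have : ∑ i, ((w i s : ℝ) : ℂ) = 1 := by
      rw [← Complex.ofReal_sum, h3]
      simp
    rw [this, one_smul]
  rw [e1]
  refine (norm_sum_le _ _).trans ?_
  calc _ ≤ ∑ i, w i s * (1 / 2) := Finset.sum_le_sum fun i _ =>
        (hY i s).trans (mul_le_mul_of_nonneg_left (hconst i) (h2 i s))
    _ = 1 / 2 := by rw [← Finset.sum_mul, h3, one_mul]

end

end Vale.Agent.Lib.P101.J
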