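import Vale.Agent.Lib.P101.JPat3

/-! Inductive limits of sequences of unital C*-algebras with injective connecting maps. -/

namespace Vale.Agent.Lib.P101.J

set_option linter.unusedSectionVars false
set_option linter.unusedSimpArgs false
set_option linter.unusedVariables false

open scoped ENNReal Topology ComplexOrder
open Filter

noncomputable section

variable {D : ℕ → Type} [∀ n, CStarAlgebra (D n)] [∀ n, Nontrivial (D n)]

instance lpC : CStarAlgebra (lp D ∞) where
  toCompleteSpace := inferInstance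

lemma lp_norm_le (x : lp D ∞) (n : ℕ) : ‖x n‖ ≤ ‖x‖ :=
  lp.norm_apply_le_norm ENNReal.top_ne_zero x n

variable (D) in
/-- The sequences tending to zero. -/
def c0 : TwoSidedIdeal (lp D ∞) :=
  TwoSidedIdeal.mk' {x | Tendsto (fun n => ‖x n‖) atTop (𝓝 0)}
    (by
      show Tendsto (fun n => ‖(0 : lp D ∞) n‖) atTop (𝓝 0)
      have : ∀ n, ‖(0 : lp D ∞) n‖ = 0 := fun n => norm_zero
      simp only [this]
      exact tendsto_const_nhds)
    (fun {x y} hx hy => by
      refine squeeze_zero (fun _ => norm_nonneg _) (fun n => norm_add_le (x n) (y n)) ?_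
      simpa using Tendsto.add hx hy)
    (fun {x} hx => by
      show Tendsto (fun n => ‖(-x) n‖) atTop (𝓝 0)
      have : ∀ n, ‖(-x) n‖ = ‖x n‖ := fun n => norm_neg _
      simp only [this]
      exact hx)
    (fun {x y} hy => by
      refine squeeze_zero (fun _ => norm_nonneg _)
        (fun n => (norm_mul_le (x n) (y n)).trans
          (mul_le_mul_of_nonneg_right (lp_norm_le x n) (norm_nonneg _))) ?_
      simpa using Tendsto.const_mul ‖x‖ hy)
    (fun {x y} hx => by
      refine squeeze_zero (fun _ => norm_nonneg _)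
        (fun n => (norm_mul_le (x n) (y n)).trans
          (mul_le_mul_of_nonneg_left (lp_norm_le y n) (norm_nonneg _))) ?_
      simpa using Tendsto.mul_const ‖y‖ hx)

lemma mem_c0 {x : lp D ∞} : x ∈ c0 D ↔ Tendsto (fun n => ‖x n‖) atTop (𝓝 0) := by
  rw [c0, TwoSidedIdeal.mem_mk']
  rfl

/-- A sequence vanishing from some point on lies in the ideal. -/
lemma mem_c0_of_eventually {x : lp D ∞} {k : ℕ} (h : ∀ n, k ≤ n → x n = 0) : x ∈ c0 D := by
  rw [mem_c0]
  refine tendsto_const_nhds.congr' ?_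
  filter_upwards [eventually_ge_atTop k] with n hn
  rw [h n hn, norm_zero]

instance c0_closed : IsClosed ((c0 D).asIdeal : Set (lp D ∞)) := by
  rw [TwoSidedIdeal.coe_asIdeal, ← closure_subset_iff_isClosed]
  intro x hx
  rw [SetLike.mem_coe, mem_c0, Metric.tendsto_nhds]
  intro ε hε
  rw [Metric.mem_closure_iff] at hx
  obtain ⟨y, hy, hxy⟩ := hx (ε / 2) (half_pos hε)
  have hy' := Metric.tendsto_nhds.1 (mem_c0.1 hy) (ε / 2) (half_pos hε)
  filter_upwards [hy'] with n hn
  rw [Real.dist_eq, sub_zero, abs_of_nonneg (norm_nonneg _)] at hn ⊢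
  have h1 : ‖x n - y n‖ ≤ ‖x - y‖ := lp_norm_le (x - y) n
  have h2 : ‖x - y‖ < ε / 2 := by rwa [dist_eq_norm] at hxy
  have h3 : ‖x n‖ ≤ ‖x n - y n‖ + ‖y n‖ := by
    simpa using norm_add_le (x n - y n) (y n)
  linarith

variable (D) in
/-- The quotient by the null sequences. -/
abbrev QQQ : Type := (lp D ∞) ⧸ (c0 D).asIdeal

/-- The quotient map. -/
def qL : lp D ∞ →⋆ₐ[ℂ] QQQ D := quotMk (c0 D).asIdeal

lemma qL_eq_zero {x : lp D ∞} : qL x = 0 ↔ x ∈ c0 D := by
  unfold qL
  rw [quotMk_eq_zero]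
  exact TwoSidedIdeal.mem_asIdeal

lemma qL_eq {x y : lp D ∞} (h : x - y ∈ c0 D) : qL x = qL y := by
  rw [← sub_eq_zero, ← map_sub, qL_eq_zero]
  exact h

lemma qL_surjective : Function.Surjective (qL (D := D)) := quotMk_surjective _

variable (φ : ∀ n, D n →⋆ₐ[ℂ] D (n + 1))

/-- The connecting maps over several steps. -/
def chain {k n : ℕ} (h : k ≤ n) : D k →⋆ₐ[ℂ] D n :=
  Nat.leRec (motive := fun n _ => D k →⋆ₐ[ℂ] D n) (StarAlgHom.id ℂ (D k))
    (fun n _ ih => (φ n).comp ih) h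

lemma chain_self (k : ℕ) : chain φ (le_refl k) = StarAlgHom.id ℂ (D k) := by
  unfold chain
  exact Nat.leRec_self _ _

lemma chain_succ {k n : ℕ} (h : k ≤ n) :
    chain φ (h.trans (Nat.le_succ n)) = (φ n).comp (chain φ h) := by
  unfold chain
  exact Nat.leRec_succ _ _ h

lemma chain_apply_succ {k n : ℕ} (h : k ≤ n) (f : D k) :
    chain φ (h.trans (Nat.le_succ n)) f = φ n (chain φ h f) := by
  rw [chain_succ]
  rfl

lemma chain_first {k n : ℕ} (h : k + 1 ≤ n) (f : D k) :
    chain φ h (φ k f) = chain φ ((Nat.le_succ k).trans h) f := by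
  induction n, h using Nat.le_induction with
  | base =>
    have e := chain_apply_succ φ (le_refl k) f
    rw [chain_self] at e
    rw [chain_self]
    exact e.symm
  | succ n hn ih =>
    have e1 := chain_apply_succ φ hn (φ k f)
    have e2 := chain_apply_succ φ ((Nat.le_succ k).trans hn) f
    rw [ih] at e1
    exact e1.trans e2.symm

lemma chain_norm_le {k n : ℕ} (h : k ≤ n) (f : D k) : ‖chain φ h f‖ ≤ ‖f‖ :=
  NonUnitalStarAlgHom.norm_apply_le (chain φ h) f

/-- The sequence associated with an element of a stage. -/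
def seqE (k : ℕ) (f : D k) : lp D ∞ :=
  ⟨fun n => if h : k ≤ n then chain φ h f else 0, by
    refine memℓp_infty ⟨‖f‖, ?_⟩
    rintro _ ⟨n, rfl⟩
    show ‖if h : k ≤ n then chain φ h f else 0‖ ≤ ‖f‖
    split_ifs with h
    · exact chain_norm_le φ h f
    · rw [norm_zero]
      exact norm_nonneg _⟩

lemma seqE_of_le {k n : ℕ} (h : k ≤ n) (f : D k) : seqE φ k f n = chain φ h f := by
  show (if h : k ≤ n then chain φ h f else 0) = _
  rw [dif_pos h]

lemma seqE_of_lt {k n : ℕ} (h : ¬ k ≤ n) (f : D k) : seqE φ k f n = 0 := by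
  show (if h : k ≤ n then chain φ h f else 0) = _
  rw [dif_neg h]

lemma seqE_mul (k : ℕ) (f g : D k) : seqE φ k (f * g) = seqE φ k f * seqE φ k g := by
  apply lp.ext
  funext n
  show seqE φ k (f * g) n = seqE φ k f n * seqE φ k g n
  by_cases h : k ≤ n
  · rw [seqE_of_le φ h, seqE_of_le φ h, seqE_of_le φ h, map_mul]
  · rw [seqE_of_lt φ h, seqE_of_lt φ h, seqE_of_lt φ h, zero_mul]

lemma seqE_add (k : ℕ) (f g : D k) : seqE φ k (f + g) = seqE φ k f + seqE φ k g := by
  apply lp.ext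
  funext n
  show seqE φ k (f + g) n = seqE φ k f n + seqE φ k g n
  by_cases h : k ≤ n
  · rw [seqE_of_le φ h, seqE_of_le φ h, seqE_of_le φ h, map_add]
  · rw [seqE_of_lt φ h, seqE_of_lt φ h, seqE_of_lt φ h, zero_add]

lemma seqE_smul (k : ℕ) (r : ℂ) (f : D k) : seqE φ k (r • f) = r • seqE φ k f := by
  apply lp.ext
  funext n
  show seqE φ k (r • f) n = r • seqE φ k f n
  by_cases h : k ≤ n
  · rw [seqE_of_le φ h, seqE_of_le φ h, map_smul]
  · rw [seqE_of_lt φ h, seqE_of_lt φ h, smul_zero]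

lemma seqE_star (k : ℕ) (f : D k) : seqE φ k (star f) = star (seqE φ k f) := by
  apply lp.ext
  funext n
  show seqE φ k (star f) n = star (seqE φ k f n)
  by_cases h : k ≤ n
  · rw [seqE_of_le φ h, seqE_of_le φ h, map_star]
  · rw [seqE_of_lt φ h, seqE_of_lt φ h, star_zero]

lemma seqE_zero (k : ℕ) : seqE φ k (0 : D k) = 0 := by
  apply lp.ext
  funext n
  show seqE φ k 0 n = 0
  by_cases h : k ≤ n
  · rw [seqE_of_le φ h, map_zero]
  · rw [seqE_of_lt φ h]

lemma seqE_one_sub (k : ℕ) : seqE φ k (1 : D k) - 1 ∈ c0 D := by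
  refine mem_c0_of_eventually (k := k) fun n hn => ?_
  show seqE φ k 1 n - 1 = 0
  rw [seqE_of_le φ hn, map_one, sub_self]

lemma seqE_first (k : ℕ) (f : D k) : seqE φ (k + 1) (φ k f) - seqE φ k f ∈ c0 D := by
  refine mem_c0_of_eventually (k := k + 1) fun n hn => ?_
  show seqE φ (k + 1) (φ k f) n - seqE φ k f n = 0
  rw [seqE_of_le φ hn, seqE_of_le φ ((Nat.le_succ k).trans hn), chain_first, sub_self]

/-- The maps from the stages to the quotient. -/
def iQ (k : ℕ) : D k →⋆ₐ[ℂ] QQQ D where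
  toFun f := qL (seqE φ k f)
  map_one' := by
    rw [qL_eq (seqE_one_sub φ k), map_one]
  map_mul' f g := by
    rw [seqE_mul, map_mul]
  map_zero' := by
    rw [seqE_zero, map_zero]
  map_add' f g := by
    rw [seqE_add, map_add]
  commutes' r := by
    rw [Algebra.algebraMap_eq_smul_one, seqE_smul, map_smul, qL_eq (seqE_one_sub φ k), map_one,
      Algebra.algebraMap_eq_smul_one]
  map_star' f := by
    rw [seqE_star, map_star]

lemma iQ_apply (k : ℕ) (f : D k) : iQ φ k f = qL (seqE φ k f) := rfl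

lemma iQ_succ (k : ℕ) (f : D k) : iQ φ (k + 1) (φ k f) = iQ φ k f :=
  qL_eq (seqE_first φ k f)

lemma iQ_chain {k n : ℕ} (h : k ≤ n) (f : D k) : iQ φ n (chain φ h f) = iQ φ k f := by
  induction n, h using Nat.le_induction with
  | base =>
    rw [chain_self]
    rfl
  | succ n hn ih =>
    rw [chain_apply_succ φ hn, iQ_succ, ih]

section Inj

variable (hφ : ∀ n, Function.Injective (φ n))

include hφ in
lemma chain_injective {k n : ℕ} (h : k ≤ n) : Function.Injective (chain φ h) := by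
  induction n, h using Nat.le_induction with
  | base =>
    rw [chain_self]
    exact fun x y hxy => hxy
  | succ n hn ih =>
    rw [chain_succ φ hn]
    exact (hφ n).comp ih

include hφ in
lemma iQ_injective (k : ℕ) : Function.Injective (iQ φ k) := by
  rw [injective_iff_map_eq_zero]
  intro f hf
  rw [iQ_apply, qL_eq_zero, mem_c0] at hf
  have h1 : Tendsto (fun n => ‖seqE φ k f n‖) atTop (𝓝 ‖f‖) := by
    refine tendsto_const_nhds.congr' ?_
    filter_upwards [eventually_ge_atTop k] with n hn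
    rw [seqE_of_le φ hn]
    exact (NonUnitalStarAlgHom.norm_map (chain φ hn) (chain_injective φ hφ hn) f).symm
  have h2 := tendsto_nhds_unique h1 hf
  exact norm_eq_zero.1 h2

end Inj

/-- The union of the images of the stages. -/
def uQ : StarSubalgebra ℂ (QQQ D) where
  carrier := ⋃ k, Set.range (iQ φ k)
  mul_mem' := by
    rintro x y hx hy
    obtain ⟨k, f, rfl⟩ := Set.mem_iUnion.1 hx
    obtain ⟨l, g, rfl⟩ := Set.mem_iUnion.1 hy
    refine Set.mem_iUnion.2 ⟨max k l, chain φ (le_max_left k l) f * chain φ (le_max_right k l) g, ?_⟩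
    rw [map_mul, iQ_chain, iQ_chain]
  add_mem' := by
    rintro x y hx hy
    obtain ⟨k, f, rfl⟩ := Set.mem_iUnion.1 hx
    obtain ⟨l, g, rfl⟩ := Set.mem_iUnion.1 hy
    refine Set.mem_iUnion.2 ⟨max k l, chain φ (le_max_left k l) f + chain φ (le_max_right k l) g, ?_⟩
    rw [map_add, iQ_chain, iQ_chain]
  algebraMap_mem' r := Set.mem_iUnion.2 ⟨0, algebraMap ℂ (D 0) r, AlgHomClass.commutes _ r⟩
  star_mem' := by
    rintro x hx
    obtain ⟨k, f, rfl⟩ := Set.mem_iUnion.1 hx
    exact Set.mem_iUnion.2 ⟨k, star f, map_star _ f⟩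

/-- The limit algebra. -/
abbrev zQ : StarSubalgebra ℂ (QQQ D) := (uQ φ).topologicalClosure

instance zQ_closed : IsClosed (zQ φ : Set (QQQ D)) := (uQ φ).isClosed_topologicalClosure

/-- The inductive limit as a type. -/
def ZL : Type := zQ φ

instance instZL : CStarAlgebra (ZL φ) := StarSubalgebra.cstarAlgebra (zQ φ)

/-- The maps from the stages to the inductive limit. -/
def iZ (k : ℕ) : D k →⋆ₐ[ℂ] ZL φ :=
  (iQ φ k).codRestrict (zQ φ) (fun f => (uQ φ).le_topologicalClosure
    (Set.mem_iUnion.2 ⟨k, f, rfl⟩))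

lemma iZ_val (k : ℕ) (f : D k) : (iZ φ k f : ZL φ).1 = iQ φ k f := rfl

lemma iZ_succ (k : ℕ) (f : D k) : iZ φ (k + 1) (φ k f) = iZ φ k f :=
  Subtype.ext (iQ_succ φ k f)

lemma iZ_chain {k n : ℕ} (h : k ≤ n) (f : D k) : iZ φ n (chain φ h f) = iZ φ k f :=
  Subtype.ext (iQ_chain φ h f)

lemma iZ_injective (hφ : ∀ n, Function.Injective (φ n)) (k : ℕ) : Function.Injective (iZ φ k) := by
  intro f g hfg
  exact iQ_injective φ hφ k (congrArg Subtype.val hfg)

lemma iZ_dense : Dense (⋃ k, Set.range (iZ φ k)) := by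
  rw [Metric.dense_iff]
  intro z r hr
  have hz : z.1 ∈ closure ((uQ φ : StarSubalgebra ℂ (QQQ D)) : Set (QQQ D)) := z.2
  rw [Metric.mem_closure_iff] at hz
  obtain ⟨u, hu, hzu⟩ := hz r hr
  obtain ⟨k, f, rfl⟩ := Set.mem_iUnion.1 hu
  refine ⟨iZ φ k f, ?_, Set.mem_iUnion.2 ⟨k, f, rfl⟩⟩
  rw [Metric.mem_ball, dist_comm]
  exact hzu

end

end Vale.Agent.Lib.P101.J
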