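import Vale.Agent.Lib.P101.JLimit

/-! Tracial states on inductive limits. -/

namespace Vale.Agent.Lib.P101.J

set_option linter.unusedSectionVars false
set_option linter.unusedSimpArgs false
set_option linter.unusedVariables false

open scoped ENNReal Topology ComplexOrder
open Filter

noncomputable section

variable {D : ℕ → Type} [∀ n, CStarAlgebra (D n)] [∀ n, Nontrivial (D n)]

variable (τ₀ : ∀ n, D n →ₗ[ℂ] ℂ) (hb : ∀ n x, ‖τ₀ n x‖ ≤ ‖x‖)

/-- The ultrafilter used for the limit. -/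
abbrev omg : Ultrafilter ℕ := hyperfilter ℕ

include hb in
lemma exists_tendsto (x : lp D ∞) :
    ∃ L : ℂ, Tendsto (fun n => τ₀ n (x n)) (omg : Filter ℕ) (𝓝 L) := by
  have hc : IsCompact (Metric.closedBall (0 : ℂ) ‖x‖) := isCompact_closedBall 0 ‖x‖
  obtain ⟨L, -, hL⟩ := hc.ultrafilter_le_nhds (omg.map fun n => τ₀ n (x n)) (by
    rw [Ultrafilter.coe_map]
    refine le_principal_iff.2 ?_
    rw [mem_map]
    refine Filter.Eventually.of_forall fun n => ?_
    show τ₀ n (x n) ∈ Metric.closedBall (0 : ℂ) ‖x‖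
    rw [mem_closedBall_zero_iff]
    exact (hb n _).trans (lp_norm_le x n))
  exact ⟨L, hL⟩

/-- The limit functional. -/
def TL (x : lp D ∞) : ℂ := limUnder (omg : Filter ℕ) (fun n => τ₀ n (x n))

include hb in
lemma TL_tendsto (x : lp D ∞) :
    Tendsto (fun n => τ₀ n (x n)) (omg : Filter ℕ) (𝓝 (TL τ₀ x)) :=
  tendsto_nhds_limUnder (exists_tendsto τ₀ hb x)

include hb in
lemma TL_add (x y : lp D ∞) : TL τ₀ (x + y) = TL τ₀ x + TL τ₀ y := by
  refine tendsto_nhds_unique (TL_tendsto τ₀ hb (x + y)) ?_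
  refine ((TL_tendsto τ₀ hb x).add (TL_tendsto τ₀ hb y)).congr fun n => ?_
  exact (map_add (τ₀ n) (x n) (y n)).symm

include hb in
lemma TL_smul (r : ℂ) (x : lp D ∞) : TL τ₀ (r • x) = r • TL τ₀ x := by
  refine tendsto_nhds_unique (TL_tendsto τ₀ hb (r • x)) ?_
  refine ((TL_tendsto τ₀ hb x).const_smul r).congr fun n => ?_
  exact (map_smul (τ₀ n) r (x n)).symm

include hb in
lemma TL_c0 {x : lp D ∞} (hx : x ∈ c0 D) : TL τ₀ x = 0 := by
  refine tendsto_nhds_unique (TL_tendsto τ₀ hb x) ?_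
  have h1 : Tendsto (fun n => τ₀ n (x n)) atTop (𝓝 0) := by
    rw [tendsto_zero_iff_norm_tendsto_zero]
    exact squeeze_zero (fun _ => norm_nonneg _) (fun n => hb n _) (mem_c0.1 hx)
  exact h1.mono_left (Nat.hyperfilter_le_atTop)

include hb in
lemma TL_congr {x y : lp D ∞} (h : qL x = qL y) : TL τ₀ x = TL τ₀ y := by
  have h1 : x - y ∈ c0 D := by
    rw [← qL_eq_zero, map_sub, h, sub_self]
  have h2 := TL_c0 τ₀ hb h1
  have e : x = (x - y) + y := by abel
  rw [e, TL_add τ₀ hb, h2, zero_add]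

/-- The functional on the quotient. -/
def TQ (q : QQQ D) : ℂ := TL τ₀ (Function.surjInv qL_surjective q)

include hb in
lemma TQ_mk (x : lp D ∞) : TQ τ₀ (qL x) = TL τ₀ x :=
  TL_congr τ₀ hb (Function.surjInv_eq qL_surjective _)

variable (φ : ∀ n, D n →⋆ₐ[ℂ] D (n + 1))

/-- The functional on the inductive limit. -/
def TZ : ZL φ →ₗ[ℂ] ℂ where
  toFun z := TQ τ₀ z.1
  map_add' z z' := by
    obtain ⟨x, hx⟩ := qL_surjective z.1
    obtain ⟨y, hy⟩ := qL_surjective z'.1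
    have e : (z + z').1 = qL (x + y) := by
      rw [map_add, hx, hy]
      rfl
    rw [e, hx.symm, hy.symm, TQ_mk τ₀ hb, TQ_mk τ₀ hb, TQ_mk τ₀ hb, TL_add τ₀ hb]
  map_smul' r z := by
    obtain ⟨x, hx⟩ := qL_surjective z.1
    have e : (r • z).1 = qL (r • x) := by
      rw [map_smul, hx]
      rfl
    rw [e, hx.symm, TQ_mk τ₀ hb, TQ_mk τ₀ hb, TL_smul τ₀ hb]
    rfl

include hb in
/-- The existence of a tracial state on the inductive limit. -/
theorem exists_trace (hp : ∀ n x, 0 ≤ τ₀ n (star x * x)) (h1 : ∀ n, τ₀ n 1 = 1)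
    (ht : ∀ n x y, τ₀ n (x * y) = τ₀ n (y * x)) :
    ∃ τ : ZL φ →ₗ[ℂ] ℂ, (∀ x, 0 ≤ τ (star x * x)) ∧ τ 1 = 1 ∧ ∀ x y, τ (x * y) = τ (y * x) := by
  refine ⟨TZ τ₀ hb φ, fun z => ?_, ?_, fun z z' => ?_⟩
  · obtain ⟨x, hx⟩ := qL_surjective z.1
    have e : (star z * z).1 = qL (star x * x) := by
      rw [map_mul, map_star, hx]
      rfl
    show TQ τ₀ (star z * z).1 ≥ 0
    rw [e, TQ_mk τ₀ hb]
    exact ge_of_tendsto' (TL_tendsto τ₀ hb (star x * x)) fun n => hp n (x n)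
  · show TQ τ₀ (1 : ZL φ).1 = 1
    have e : (1 : ZL φ).1 = qL 1 := by
      rw [map_one]
      rfl
    rw [e, TQ_mk τ₀ hb]
    refine tendsto_nhds_unique (TL_tendsto τ₀ hb 1) ?_
    refine tendsto_const_nhds.congr fun n => ?_
    exact (h1 n).symm
  · obtain ⟨x, hx⟩ := qL_surjective z.1
    obtain ⟨y, hy⟩ := qL_surjective z'.1
    have e : (z * z').1 = qL (x * y) := by
      rw [map_mul, hx, hy]
      rfl
    have e' : (z' * z).1 = qL (y * x) := by
      rw [map_mul, hx, hy]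
      rfl
    show TQ τ₀ (z * z').1 = TQ τ₀ (z' * z).1
    rw [e, e', TQ_mk τ₀ hb, TQ_mk τ₀ hb]
    refine tendsto_nhds_unique (TL_tendsto τ₀ hb (x * y)) ?_
    refine (TL_tendsto τ₀ hb (y * x)).congr fun n => ?_
    exact ht n (y n) (x n)

end

end Vale.Agent.Lib.P101.J
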