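import Vale.Agent.Lib.P101.JDP

/-! The norm estimate for pairs of commuting order zero maps on matrix algebras. -/

namespace Vale.Agent.Lib.P101.J

set_option linter.unusedSectionVars false
set_option linter.unusedSimpArgs false

open scoped Kronecker Matrix.Norms.L2Operator unitInterval ComplexOrder

attribute [local instance] CStarAlgebra.spectralOrder CStarAlgebra.spectralOrderedRing

noncomputable section

variable {n m : Type} [Fintype n] [DecidableEq n] [Fintype m] [DecidableEq m]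
variable {Y : Type*} [CStarAlgebra Y]

/-- Matrix units. -/
abbrev EE (i j : n) : Matrix n n ℂ := Matrix.single i j 1

/-- The elementary products. -/
def GG (π₁ : Matrix n n ℂ →ₗ[ℂ] Y) (π₂ : Matrix m m ℂ →ₗ[ℂ] Y) (x y : n × m) : Y :=
  π₁ (EE x.1 y.1) * π₂ (EE x.2 y.2)

/-- The linear map on the tensor product determined by two linear maps. -/
def Phi (π₁ : Matrix n n ℂ →ₗ[ℂ] Y) (π₂ : Matrix m m ℂ →ₗ[ℂ] Y) (Z : Matrix (n × m) (n × m) ℂ) : Y :=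
  ∑ x, ∑ y, Z x y • GG π₁ π₂ x y

/-- Pairs of commuting order zero maps. -/
structure OZ (π₁ : Matrix n n ℂ →ₗ[ℂ] Y) (π₂ : Matrix m m ℂ →ₗ[ℂ] Y) (ε₁ ε₂ : Y) : Prop where
  m₁ : ∀ a a', π₁ a * π₁ a' = ε₁ * π₁ (a * a')
  m₂ : ∀ b b', π₂ b * π₂ b' = ε₂ * π₂ (b * b')
  s₁ : ∀ a, star (π₁ a) = π₁ (star a)
  s₂ : ∀ b, star (π₂ b) = π₂ (star b)
  c : ∀ a b, π₁ a * π₂ b = π₂ b * π₁ a
  o₁ : π₁ 1 = ε₁
  o₂ : π₂ 1 = ε₂
  n₁ : ‖ε₁‖ ≤ 1
  n₂ : ‖ε₂‖ ≤ 1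

variable {π₁ : Matrix n n ℂ →ₗ[ℂ] Y} {π₂ : Matrix m m ℂ →ₗ[ℂ] Y} {ε₁ ε₂ : Y}

lemma Phi_add (Z Z' : Matrix (n × m) (n × m) ℂ) : Phi π₁ π₂ (Z + Z') = Phi π₁ π₂ Z + Phi π₁ π₂ Z' := by
  simp only [Phi, Matrix.add_apply, add_smul, Finset.sum_add_distrib]

lemma Phi_smul (r : ℂ) (Z : Matrix (n × m) (n × m) ℂ) : Phi π₁ π₂ (r • Z) = r • Phi π₁ π₂ Z := by
  simp only [Phi, Matrix.smul_apply, smul_eq_mul, mul_smul, Finset.smul_sum]

lemma Phi_zero : Phi π₁ π₂ (0 : Matrix (n × m) (n × m) ℂ) = 0 := by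
  simp [Phi]

lemma linear_eq_sum {E : Type*} [AddCommGroup E] [Module ℂ E] (π : Matrix n n ℂ →ₗ[ℂ] E)
    (a : Matrix n n ℂ) : π a = ∑ i, ∑ j, a i j • π (EE i j) := by
  conv_lhs => rw [Matrix.matrix_eq_sum_single a]
  rw [map_sum]
  refine Finset.sum_congr rfl fun i _ => ?_
  rw [map_sum]
  refine Finset.sum_congr rfl fun j _ => ?_
  rw [← map_smul]
  congr 1
  ext u v
  simp [Matrix.single_apply]

lemma Phi_kron (a : Matrix n n ℂ) (b : Matrix m m ℂ) :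
    Phi π₁ π₂ (a ⊗ₖ b) = π₁ a * π₂ b := by
  rw [linear_eq_sum π₁ a, linear_eq_sum π₂ b, Phi]
  simp only [Fintype.sum_prod_type, Matrix.kroneckerMap_apply, GG]
  rw [Finset.sum_mul]
  refine Finset.sum_congr rfl fun i _ => ?_
  rw [Finset.sum_comm, Finset.sum_mul]
  refine Finset.sum_congr rfl fun i' _ => ?_
  rw [Finset.mul_sum]
  refine Finset.sum_congr rfl fun k _ => ?_
  rw [Finset.mul_sum]
  refine Finset.sum_congr rfl fun k' _ => ?_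
  rw [smul_mul_assoc, mul_smul_comm, smul_smul]

lemma OZ.eps_comm₁ (h : OZ π₁ π₂ ε₁ ε₂) (b : Matrix m m ℂ) : ε₁ * π₂ b = π₂ b * ε₁ := by
  rw [← h.o₁, h.c]

lemma OZ.eps_comm₂ (h : OZ π₁ π₂ ε₁ ε₂) (a : Matrix n n ℂ) : ε₂ * π₁ a = π₁ a * ε₂ := by
  rw [← h.o₂, h.c]

lemma OZ.GG_mul (h : OZ π₁ π₂ ε₁ ε₂) (x y u v : n × m) :
    GG π₁ π₂ x y * GG π₁ π₂ u v = if y = u then (ε₁ * ε₂) * GG π₁ π₂ x v else 0 := by
  have e1 : GG π₁ π₂ x y * GG π₁ π₂ u v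
      = (π₁ (EE x.1 y.1) * π₁ (EE u.1 v.1)) * (π₂ (EE x.2 y.2) * π₂ (EE u.2 v.2)) := by
    simp only [GG]
    calc π₁ (EE x.1 y.1) * π₂ (EE x.2 y.2) * (π₁ (EE u.1 v.1) * π₂ (EE u.2 v.2))
        = π₁ (EE x.1 y.1) * (π₂ (EE x.2 y.2) * π₁ (EE u.1 v.1)) * π₂ (EE u.2 v.2) := by noncomm_ring
      _ = π₁ (EE x.1 y.1) * (π₁ (EE u.1 v.1) * π₂ (EE x.2 y.2)) * π₂ (EE u.2 v.2) := by rw [h.c]
      _ = _ := by noncomm_ring
  rw [e1, h.m₁, h.m₂]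
  have e2 : ∀ {T : Type} [Fintype T] [DecidableEq T] (i j k l : T),
      EE i j * EE k l = if j = k then EE i l else 0 := by
    intro T _ _ i j k l
    split_ifs with h1
    · subst h1
      simp [EE]
    · simp [EE, Matrix.single_mul_single_of_ne, h1]
  rw [e2, e2]
  by_cases h1 : y = u
  · subst h1
    simp only [if_true, GG]
    calc ε₁ * π₁ (EE x.1 v.1) * (ε₂ * π₂ (EE x.2 v.2))
        = ε₁ * (π₁ (EE x.1 v.1) * ε₂) * π₂ (EE x.2 v.2) := by noncomm_ring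
      _ = ε₁ * (ε₂ * π₁ (EE x.1 v.1)) * π₂ (EE x.2 v.2) := by rw [h.eps_comm₂]
      _ = _ := by noncomm_ring
  · rw [if_neg h1]
    by_cases h2 : y.1 = u.1
    · have h3 : y.2 ≠ u.2 := fun e => h1 (Prod.ext h2 e)
      simp [h3]
    · simp [h2]

lemma OZ.Phi_mul (h : OZ π₁ π₂ ε₁ ε₂) (Z Z' : Matrix (n × m) (n × m) ℂ) :
    Phi π₁ π₂ Z * Phi π₁ π₂ Z' = (ε₁ * ε₂) * Phi π₁ π₂ (Z * Z') := by
  have e1 : ∀ x y, (Z x y • GG π₁ π₂ x y) * ∑ u, ∑ v, Z' u v • GG π₁ π₂ u v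
      = ∑ v, (Z x y * Z' y v) • ((ε₁ * ε₂) * GG π₁ π₂ x v) := by
    intro x y
    rw [Finset.mul_sum, Finset.sum_eq_single y]
    · rw [Finset.mul_sum]
      refine Finset.sum_congr rfl fun v _ => ?_
      rw [smul_mul_assoc, mul_smul_comm, smul_smul, h.GG_mul, if_pos rfl]
    · intro u _ hu
      rw [Finset.mul_sum]
      refine Finset.sum_eq_zero fun v _ => ?_
      rw [smul_mul_assoc, mul_smul_comm, h.GG_mul, if_neg (Ne.symm hu)]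
      simp
    · simp
  simp only [Phi]
  rw [Finset.sum_mul, Finset.mul_sum]
  refine Finset.sum_congr rfl fun x _ => ?_
  rw [Finset.sum_mul, Finset.mul_sum]
  simp only [e1, Matrix.mul_apply, Finset.sum_smul, Finset.mul_sum]
  rw [Finset.sum_comm]
  refine Finset.sum_congr rfl fun v _ => ?_
  refine Finset.sum_congr rfl fun y _ => ?_
  rw [mul_smul_comm]

lemma OZ.Phi_star (h : OZ π₁ π₂ ε₁ ε₂) (Z : Matrix (n × m) (n × m) ℂ) :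
    Phi π₁ π₂ (star Z) = star (Phi π₁ π₂ Z) := by
  simp only [Phi, star_sum, star_smul]
  rw [Finset.sum_comm]
  refine Finset.sum_congr rfl fun y _ => ?_
  refine Finset.sum_congr rfl fun x _ => ?_
  have e1 : star (GG π₁ π₂ y x) = GG π₁ π₂ x y := by
    simp only [GG, star_mul, h.s₁, h.s₂]
    rw [← h.c]
    congr 2 <;> simp [EE, Matrix.star_eq_conjTranspose]
  rw [e1, Matrix.star_apply]

lemma OZ.Phi_one (h : OZ π₁ π₂ ε₁ ε₂) : Phi π₁ π₂ (1 : Matrix (n × m) (n × m) ℂ) = ε₁ * ε₂ := by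
  have := Phi_kron (π₁ := π₁) (π₂ := π₂) (1 : Matrix n n ℂ) (1 : Matrix m m ℂ)
  rw [Matrix.one_kronecker_one, h.o₁, h.o₂] at this
  exact this

/-- The norm estimate for pairs of commuting order zero maps. -/
theorem OZ.Phi_norm_le (h : OZ π₁ π₂ ε₁ ε₂) (Z : Matrix (n × m) (n × m) ℂ) :
    ‖Phi π₁ π₂ Z‖ ≤ ‖Z‖ := by
  set T : Matrix (n × m) (n × m) ℂ := ((‖Z‖ ^ 2 : ℝ) : ℂ) • 1 - star Z * Z with hT
  have hT0 : 0 ≤ T := by
    have h1 := CStarAlgebra.star_mul_le_algebraMap_norm_sq (a := Z)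
    rw [hT, sub_nonneg]
    convert h1 using 1
    rw [Algebra.algebraMap_eq_smul_one]
    ext u v
    simp
  obtain ⟨W, hW⟩ := CStarAlgebra.nonneg_iff_eq_star_mul_self.1 hT0
  set E := ε₁ * ε₂ with hE
  set Φ := Phi π₁ π₂ with hΦ
  have e1 : star (Φ Z) * Φ Z = E * Φ (star Z * Z) := by
    rw [← h.Phi_star, h.Phi_mul]
  have e2 : star (Φ W) * Φ W = E * Φ (star W * W) := by
    rw [← h.Phi_star, h.Phi_mul]
  have e3 : star Z * Z + star W * W = ((‖Z‖ ^ 2 : ℝ) : ℂ) • 1 := by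
    rw [← hW, hT]
    abel
  have e4 : star (Φ Z) * Φ Z + star (Φ W) * Φ W = ((‖Z‖ ^ 2 : ℝ) : ℂ) • (E * E) := by
    rw [e1, e2, ← mul_add, ← Phi_add, e3, Phi_smul, h.Phi_one, mul_smul_comm]
  have hle : star (Φ Z) * Φ Z ≤ ((‖Z‖ ^ 2 : ℝ) : ℂ) • (E * E) := by
    rw [← e4]
    exact le_add_of_nonneg_right (star_mul_self_nonneg _)
  have h5 := CStarAlgebra.norm_le_norm_of_nonneg_of_le (star_mul_self_nonneg (Φ Z)) hle
  rw [CStarRing.norm_star_mul_self, norm_smul] at h5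
  have h6 : ‖E‖ ≤ 1 := by
    rw [hE]
    refine (norm_mul_le _ _).trans ?_
    calc ‖ε₁‖ * ‖ε₂‖ ≤ 1 * 1 := by
          gcongr
          · exact h.n₁
          · exact h.n₂
      _ = 1 := by ring
  have h7 : ‖E * E‖ ≤ 1 := by
    refine (norm_mul_le _ _).trans ?_
    calc ‖E‖ * ‖E‖ ≤ 1 * 1 := by gcongr
      _ = 1 := by ring
  have h8 : ‖((‖Z‖ ^ 2 : ℝ) : ℂ)‖ = ‖Z‖ ^ 2 := by
    rw [Complex.norm_real, Real.norm_eq_abs, abs_of_nonneg (by positivity)]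
  rw [h8] at h5
  have h9 : ‖Φ Z‖ * ‖Φ Z‖ ≤ ‖Z‖ * ‖Z‖ := by
    calc ‖Φ Z‖ * ‖Φ Z‖ ≤ ‖Z‖ ^ 2 * ‖E * E‖ := h5
      _ ≤ ‖Z‖ ^ 2 * 1 := by gcongr
      _ = ‖Z‖ * ‖Z‖ := by ring
  exact abs_le_of_sq_le_sq' (by nlinarith) (norm_nonneg _) |>.2

end

end Vale.Agent.Lib.P101.J
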