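import Vale.Agent.Lib.P101.JConn

/-! The combinatorics of the connecting maps: matching the two grids. -/

namespace Vale.Agent.Lib.P101.J

set_option linter.unusedSectionVars false
set_option linter.unusedSimpArgs false
set_option linter.unusedVariables false

open scoped Kronecker Matrix.Norms.L2Operator unitInterval ComplexOrder

noncomputable section

/-- The first index set. -/
abbrev PP (a q : ℕ) : Type := Option (Fin a × Fin q)
/-- The second index set. -/
abbrev QQ (b p : ℕ) : Type := Option (Fin b × Fin p)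

/-- The values at the left end point. -/
def yR {a q : ℕ} : PP a q → ℝ
  | none => 0
  | some (i, _) => (i : ℝ) / a

/-- The values at the right end point. -/
def wR {b p : ℕ} : QQ b p → ℝ
  | none => 1
  | some (j, _) => (j : ℝ) / b

/-- The rank on the first index set. -/
def rP (a q : ℕ) : PP a q ≃ Fin (a * q + 1) :=
  (Equiv.optionCongr finProdFinEquiv).trans (finSuccEquiv (a * q)).symm

/-- The rank on the second index set. -/
def rQ (b p : ℕ) : QQ b p ≃ Fin (b * p + 1) :=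
  (Equiv.optionCongr finProdFinEquiv).trans (finSuccEquivLast (n := b * p)).symm

lemma rP_none (a q : ℕ) : ((rP a q none : Fin (a * q + 1)) : ℕ) = 0 := by
  simp [rP]

lemma rP_some (a q : ℕ) (i : Fin a) (β : Fin q) :
    ((rP a q (some (i, β)) : Fin (a * q + 1)) : ℕ) = β + q * i + 1 := by
  simp [rP, finProdFinEquiv]

lemma rQ_none (b p : ℕ) : ((rQ b p none : Fin (b * p + 1)) : ℕ) = b * p := by
  simp [rQ]

lemma rQ_some (b p : ℕ) (j : Fin b) (α : Fin p) :
    ((rQ b p (some (j, α)) : Fin (b * p + 1)) : ℕ) = α + p * j := by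
  simp [rQ, finProdFinEquiv]

lemma yR_est {a q : ℕ} (ha : 0 < a) (hq : 0 < q) (u : PP a q) :
    |yR u - ((rP a q u : Fin (a * q + 1)) : ℕ) / ((a * q + 1 : ℕ) : ℝ)| ≤ 2 / a := by
  have ha' : (0 : ℝ) < a := by exact_mod_cast ha
  have hq' : (0 : ℝ) < q := by exact_mod_cast hq
  have hP : (0 : ℝ) < ((a * q + 1 : ℕ) : ℝ) := by positivity
  have hq1 : (1 : ℝ) ≤ q := by exact_mod_cast hq
  rcases u with _ | ⟨i, β⟩
  · rw [rP_none]
    simp [yR]
    positivity
  · rw [rP_some]
    show |(i : ℝ) / a - _| ≤ _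
    have hi : (i : ℝ) + 1 ≤ a := by exact_mod_cast i.2
    have hβ : (β : ℝ) + 1 ≤ q := by exact_mod_cast β.2
    have hi0 : (0 : ℝ) ≤ i := by positivity
    have hβ0 : (0 : ℝ) ≤ β := by positivity
    push_cast
    have e : (i : ℝ) / a - ((β : ℝ) + q * i + 1) / (a * q + 1)
        = ((i : ℝ) - a * β - a) / (a * (a * q + 1)) := by
      field_simp
      ring
    rw [e, abs_le]
    have hD : (0 : ℝ) < a * (a * q + 1) := by positivity
    constructor
    · rw [le_div_iff₀ hD]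
      have : -(2 / (a : ℝ)) * (a * (a * q + 1)) = -2 * (a * q + 1) := by
        field_simp
      rw [this]
      nlinarith
    · rw [div_le_div_iff₀ hD ha']
      have h1 : (i : ℝ) - a * β - a ≤ 0 := by nlinarith [mul_nonneg ha'.le hβ0]
      calc ((i : ℝ) - a * β - a) * a ≤ 0 := mul_nonpos_of_nonpos_of_nonneg h1 ha'.le
        _ ≤ _ := by positivity

lemma wR_est {b p : ℕ} (hb : 0 < b) (hp : 0 < p) (v : QQ b p) :
    |wR v - ((rQ b p v : Fin (b * p + 1)) : ℕ) / ((b * p + 1 : ℕ) : ℝ)| ≤ 2 / b := by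
  have hb' : (0 : ℝ) < b := by exact_mod_cast hb
  have hp' : (0 : ℝ) < p := by exact_mod_cast hp
  have hQ : (0 : ℝ) < ((b * p + 1 : ℕ) : ℝ) := by positivity
  have hp1 : (1 : ℝ) ≤ p := by exact_mod_cast hp
  rcases v with _ | ⟨j, α⟩
  · rw [rQ_none]
    show |(1 : ℝ) - _| ≤ _
    push_cast
    have e : (1 : ℝ) - (b * p) / (b * p + 1) = 1 / (b * p + 1) := by
      field_simp
      ring
    rw [e, abs_of_pos (by positivity), div_le_div_iff₀ (by positivity) hb']
    nlinarith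
  · rw [rQ_some]
    show |(j : ℝ) / b - _| ≤ _
    have hj : (j : ℝ) + 1 ≤ b := by exact_mod_cast j.2
    have hα : (α : ℝ) + 1 ≤ p := by exact_mod_cast α.2
    have hj0 : (0 : ℝ) ≤ j := by positivity
    have hα0 : (0 : ℝ) ≤ α := by positivity
    push_cast
    have e : (j : ℝ) / b - ((α : ℝ) + p * j) / (b * p + 1)
        = ((j : ℝ) - b * α) / (b * (b * p + 1)) := by
      field_simp
      ring
    rw [e, abs_le]
    have hD : (0 : ℝ) < b * (b * p + 1) := by positivity
    constructor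
    · rw [le_div_iff₀ hD]
      have : -(2 / (b : ℝ)) * (b * (b * p + 1)) = -2 * (b * p + 1) := by
        field_simp
      rw [this]
      nlinarith
    · rw [div_le_div_iff₀ hD hb']
      have h1 : (j : ℝ) - b * α ≤ b := by nlinarith [mul_nonneg hb'.le hα0]
      have h2 : (b : ℝ) ≤ b * p + 1 := by nlinarith
      calc ((j : ℝ) - b * α) * b ≤ b * b := mul_le_mul_of_nonneg_right h1 hb'.le
        _ ≤ 2 * (b * (b * p + 1)) := by nlinarith

/-- The matching of the products of two grids. -/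
lemma exists_g (P Q : ℕ) : ∃ g : Fin P × Fin Q ≃ Fin P × Fin Q,
    ∀ x, (x.2 : ℕ) + Q * x.1 = ((g x).1 : ℕ) + P * (g x).2 := by
  refine ⟨finProdFinEquiv.trans ((finCongr (mul_comm P Q)).trans
    ((finProdFinEquiv (m := Q) (n := P)).symm.trans (Equiv.prodComm _ _))), fun x => ?_⟩
  have h1 : ((finProdFinEquiv x : Fin (P * Q)) : ℕ) = (x.2 : ℕ) + Q * x.1 := rfl
  set y := (finProdFinEquiv (m := Q) (n := P)).symm (finCongr (mul_comm P Q) (finProdFinEquiv x))
    with hy
  have h2 : ((finProdFinEquiv y : Fin (Q * P)) : ℕ) = (y.2 : ℕ) + P * y.1 := rfl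
  have h3 : finProdFinEquiv y = finCongr (mul_comm P Q) (finProdFinEquiv x) :=
    Equiv.apply_symm_apply _ _
  show (x.2 : ℕ) + Q * x.1 = (y.2 : ℕ) + P * y.1
  rw [← h2, h3, ← h1]
  rfl

/-- The index set of the blocks. -/
abbrev Lb (p q a b : ℕ) : Type := PP a q × QQ b p

/-- The matching of the two grids. -/
lemma exists_pi {p q a b : ℕ} (hp : 0 < p) (hq : 0 < q) (ha : 0 < a) (hb : 0 < b) :
    ∃ π' : Lb p q a b ≃ Lb p q a b, ∀ ℓ, |yR ℓ.1 - wR (π' ℓ).2| ≤ 3 / a + 3 / b := by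
  obtain ⟨g, hg⟩ := exists_g (a * q + 1) (b * p + 1)
  let e : Lb p q a b ≃ Fin (a * q + 1) × Fin (b * p + 1) := (rP a q).prodCongr (rQ b p)
  refine ⟨e.trans (g.trans e.symm), ?_⟩
  rintro ⟨u, v⟩
  set ℓ' := (e.trans (g.trans e.symm)) (u, v) with hℓ'
  have h1 : e ℓ' = g (e (u, v)) := by
    rw [hℓ']
    simp
  have h2 := hg (e (u, v))
  rw [← h1] at h2
  have h3 : ((rQ b p v : Fin (b * p + 1)) : ℕ) + (b * p + 1) * ((rP a q u : Fin (a * q + 1)) : ℕ)
      = ((rP a q ℓ'.1 : Fin (a * q + 1)) : ℕ) + (a * q + 1) * ((rQ b p ℓ'.2 : Fin (b * p + 1)) : ℕ) := h2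
  have h4 := yR_est ha hq u
  have h5 := wR_est hb hp ℓ'.2
  have ha' : (0 : ℝ) < a := by exact_mod_cast ha
  have hb' : (0 : ℝ) < b := by exact_mod_cast hb
  have hq1 : (1 : ℝ) ≤ q := by exact_mod_cast hq
  have hp1 : (1 : ℝ) ≤ p := by exact_mod_cast hp
  set ru : ℝ := (((rP a q u : Fin (a * q + 1)) : ℕ) : ℝ) with hru
  set rv : ℝ := (((rQ b p v : Fin (b * p + 1)) : ℕ) : ℝ) with hrv
  set ru' : ℝ := (((rP a q ℓ'.1 : Fin (a * q + 1)) : ℕ) : ℝ) with hru'
  set rv' : ℝ := (((rQ b p ℓ'.2 : Fin (b * p + 1)) : ℕ) : ℝ) with hrv'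
  set P : ℝ := ((a * q + 1 : ℕ) : ℝ) with hP
  set Q : ℝ := ((b * p + 1 : ℕ) : ℝ) with hQ
  have h3' : rv + Q * ru = ru' + P * rv' := by
    have := congrArg (Nat.cast : ℕ → ℝ) h3
    push_cast at this
    rw [hru, hrv, hru', hrv', hP, hQ]
    push_cast
    exact this
  have hPpos : 0 < P := by
    rw [hP]
    positivity
  have hQpos : 0 < Q := by
    rw [hQ]
    positivity
  have hru'P : ru' ≤ P := by
    rw [hru', hP]
    exact_mod_cast (Fin.is_lt _).le
  have hrvQ : rv ≤ Q := by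
    rw [hrv, hQ]
    exact_mod_cast (Fin.is_lt _).le
  have hru'0 : 0 ≤ ru' := by
    rw [hru']
    positivity
  have hrv0 : 0 ≤ rv := by
    rw [hrv]
    positivity
  have hPa : (a : ℝ) ≤ P := by
    rw [hP]
    push_cast
    nlinarith
  have hQb : (b : ℝ) ≤ Q := by
    rw [hQ]
    push_cast
    nlinarith
  have h6 : |ru / P - rv' / Q| ≤ 1 / a + 1 / b := by
    have e1 : ru / P - rv' / Q = (ru' - rv) / (P * Q) := by
      field_simp
      linarith
    have h7 : |ru' - rv| ≤ P + Q := by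
      rw [abs_le]
      constructor <;> linarith
    rw [e1, abs_div, abs_of_pos (mul_pos hPpos hQpos)]
    have h8 : |ru' - rv| / (P * Q) ≤ (P + Q) / (P * Q) :=
      div_le_div_of_nonneg_right h7 (mul_pos hPpos hQpos).le
    have h9 : (P + Q) / (P * Q) = 1 / Q + 1 / P := by
      field_simp
    have h10 : 1 / Q ≤ 1 / b := one_div_le_one_div_of_le hb' hQb
    have h11 : 1 / P ≤ 1 / a := one_div_le_one_div_of_le ha' hPa
    linarith
  have e2 : yR u - wR ℓ'.2 = (yR u - ru / P) + (ru / P - rv' / Q) - (wR ℓ'.2 - rv' / Q) := by ring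
  show |yR u - wR ℓ'.2| ≤ _
  rw [e2]
  refine (abs_sub _ _).trans ?_
  refine (add_le_add (abs_add_le _ _) le_rfl).trans ?_
  have e3 : 3 / (a : ℝ) + 3 / b = 2 / a + (1 / a + 1 / b) + 2 / b := by
    field_simp
    ring
  rw [e3]
  exact add_le_add (add_le_add h4 h6) h5

end

end Vale.Agent.Lib.P101.J
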