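import Vale.Agent.Lib.P101.JPat1

/-! The frames of the connecting maps and their fibres at the end points. -/

namespace Vale.Agent.Lib.P101.J

set_option linter.unusedSectionVars false
set_option linter.unusedSimpArgs false
set_option linter.unusedVariables false

open scoped Kronecker Matrix.Norms.L2Operator unitInterval ComplexOrder

noncomputable section

section Block

variable {H o : Type} [Fintype H] [DecidableEq H] [Fintype o] [DecidableEq o]

/-- Block diagonal matrices, as a homomorphism. -/
def bdHom : (o → Matrix H H ℂ) →⋆ₐ[ℂ] Matrix (H × o) (H × o) ℂ where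
  toFun G := Matrix.blockDiagonal G
  map_one' := Matrix.blockDiagonal_one
  map_mul' G G' := Matrix.blockDiagonal_mul G G'
  map_zero' := Matrix.blockDiagonal_zero
  map_add' G G' := Matrix.blockDiagonal_add G G'
  commutes' r := by
    ext ⟨u, k⟩ ⟨v, k'⟩
    rw [Matrix.blockDiagonal_apply]
    by_cases h : k = k'
    · subst h
      by_cases h2 : u = v
      · subst h2
        simp [Matrix.algebraMap_matrix_apply]
      · simp [Matrix.algebraMap_matrix_apply, h2]
    · have h3 : (u, k) ≠ (v, k') := fun hh => h (congrArg Prod.snd hh)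
      simp [Matrix.algebraMap_matrix_apply, h, h3]
  map_star' G := (Matrix.blockDiagonal_conjTranspose G).symm

lemma bdHom_apply (G : o → Matrix H H ℂ) (u v : H) (k k' : o) :
    bdHom G (u, k) (v, k') = if k = k' then G k u v else 0 :=
  Matrix.blockDiagonal_apply _ _ _

lemma bdHom_injective : Function.Injective (bdHom (H := H) (o := o)) :=
  Matrix.blockDiagonal_injective

end Block

variable {p q a b : ℕ}

/-- The first index set of the larger algebra. -/
abbrev Ap (p q a : ℕ) : Type := Fin p × PP a q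
/-- The second index set of the larger algebra. -/
abbrev Bp (p q b : ℕ) : Type := Fin q × QQ b p

/-- The frame at the left end point. -/
def psi0 : Ap p q a × Bp p q b ≃ HH p q × Lb p q a b where
  toFun
    | ((α, some (i, β₁)), (β₂, v)) => ((α, β₁), (some (i, β₂), v))
    | ((α, none), (β₁, v)) => ((α, β₁), (none, v))
  invFun
    | ((α, β₁), (some (i, β₂), v)) => ((α, some (i, β₁)), (β₂, v))
    | ((α, β₁), (none, v)) => ((α, none), (β₁, v))
  left_inv := by
    rintro ⟨⟨α, _ | ⟨i, β⟩⟩, ⟨β', v⟩⟩ <;> rfl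
  right_inv := by
    rintro ⟨⟨α, β⟩, ⟨_ | ⟨i, β'⟩, v⟩⟩ <;> rfl

/-- The frame at the right end point. -/
def psi1 : Ap p q a × Bp p q b ≃ HH p q × Lb p q a b where
  toFun
    | ((α₂, u), (β₁, some (j, α₁))) => ((α₁, β₁), (u, some (j, α₂)))
    | ((α₁, u), (β₁, none)) => ((α₁, β₁), (u, none))
  invFun
    | ((α₁, β₁), (u, some (j, α₂))) => ((α₂, u), (β₁, some (j, α₁)))
    | ((α₁, β₁), (u, none)) => ((α₁, u), (β₁, none))
  left_inv := by
    rintro ⟨⟨α, u⟩, ⟨β, _ | ⟨j, α'⟩⟩⟩ <;> rfl
  right_inv := by
    rintro ⟨⟨α, β⟩, ⟨u, _ | ⟨j, α'⟩⟩⟩ <;> rfl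

/-- The matrix on the first index set at the left end point. -/
def cM (c₀ : Matrix (Fin p) (Fin p) ℂ) (g : Fin a → MH p q) : Matrix (Ap p q a) (Ap p q a) ℂ
  | (α, some (i, β)), (α', some (i', β')) => if i = i' then g i (α, β) (α', β') else 0
  | (α, none), (α', none) => c₀ α α'
  | (_, some _), (_, none) => 0
  | (_, none), (_, some _) => 0

/-- The matrix on the second index set at the right end point. -/
def dM (d₁ : Matrix (Fin q) (Fin q) ℂ) (g : Fin b → MH p q) : Matrix (Bp p q b) (Bp p q b) ℂ
  | (β, some (j, α)), (β', some (j', α')) => if j = j' then g j (α, β) (α', β') else 0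
  | (β, none), (β', none) => d₁ β β'
  | (_, some _), (_, none) => 0
  | (_, none), (_, some _) => 0

/-- The fibre at the left end point. -/
lemma fibre0 (c₀ : Matrix (Fin p) (Fin p) ℂ) (g : Fin a → MH p q) (G : Lb p q a b → MH p q)
    (h0 : ∀ v, G (none, v) = c₀ ⊗ₖ (1 : Matrix (Fin q) (Fin q) ℂ))
    (h1 : ∀ i β v, G (some (i, β), v) = g i) (x x' : Ap p q a) (t t' : Bp p q b) :
    bdHom G (psi0 (x, t)) (psi0 (x', t')) = cM c₀ g x x' * (1 : Matrix (Bp p q b) (Bp p q b) ℂ) t t' := by
  obtain ⟨α, u⟩ := x
  obtain ⟨α', u'⟩ := x'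
  obtain ⟨β₂, v⟩ := t
  obtain ⟨β₂', v'⟩ := t'
  rcases u with _ | ⟨i, β₁⟩ <;> rcases u' with _ | ⟨i', β₁'⟩
  · show bdHom G ((α, β₂), (none, v)) ((α', β₂'), (none, v')) = c₀ α α' * _
    rw [bdHom_apply, one_prod]
    by_cases hv : v = v'
    · subst hv
      rw [h0]
      simp only [if_true, Matrix.one_apply_eq, mul_one]
      rfl
    · have : ((none, v) : Lb p q a b) ≠ (none, v') := fun hh => hv (congrArg Prod.snd hh)
      simp [this, Matrix.one_apply, hv]
  · show bdHom G ((α, β₂), (none, v)) ((α', β₁'), (some (i', β₂'), v')) = 0 * _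
    rw [bdHom_apply]
    simp
  · show bdHom G ((α, β₁), (some (i, β₂), v)) ((α', β₂'), (none, v')) = 0 * _
    rw [bdHom_apply]
    simp
  · show bdHom G ((α, β₁), (some (i, β₂), v)) ((α', β₁'), (some (i', β₂'), v'))
      = (if i = i' then g i (α, β₁) (α', β₁') else 0) * _
    rw [bdHom_apply, one_prod]
    by_cases hi : i = i'
    · subst hi
      by_cases h2 : β₂ = β₂'
      · subst h2
        by_cases hv : v = v'
        · subst hv
          rw [h1]
          simp
        · have : ((some (i, β₂), v) : Lb p q a b) ≠ (some (i, β₂), v') :=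
            fun hh => hv (congrArg Prod.snd hh)
          simp [this, Matrix.one_apply, hv]
      · have : ((some (i, β₂), v) : Lb p q a b) ≠ (some (i, β₂'), v') := by
          intro hh
          have := congrArg Prod.fst hh
          simp at this
          exact h2 this
        simp [this, Matrix.one_apply, h2]
    · have : ((some (i, β₂), v) : Lb p q a b) ≠ (some (i', β₂'), v') := by
        intro hh
        have := congrArg Prod.fst hh
        simp at this
        exact hi this.1
      simp [this, hi]

/-- The fibre at the right end point. -/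
lemma fibre1 (d₁ : Matrix (Fin q) (Fin q) ℂ) (g : Fin b → MH p q) (G : Lb p q a b → MH p q)
    (h0 : ∀ u, G (u, none) = (1 : Matrix (Fin p) (Fin p) ℂ) ⊗ₖ d₁)
    (h1 : ∀ u j α, G (u, some (j, α)) = g j) (x x' : Ap p q a) (t t' : Bp p q b) :
    bdHom G (psi1 (x, t)) (psi1 (x', t')) = (1 : Matrix (Ap p q a) (Ap p q a) ℂ) x x' * dM d₁ g t t' := by
  obtain ⟨α₂, u⟩ := x
  obtain ⟨α₂', u'⟩ := x'
  obtain ⟨β₁, v⟩ := t
  obtain ⟨β₁', v'⟩ := t'
  rcases v with _ | ⟨j, α₁⟩ <;> rcases v' with _ | ⟨j', α₁'⟩
  · show bdHom G ((α₂, β₁), (u, none)) ((α₂', β₁'), (u', none)) = _ * d₁ β₁ β₁'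
    rw [bdHom_apply, one_prod]
    by_cases hu : u = u'
    · subst hu
      rw [h0]
      simp only [if_true, Matrix.one_apply_eq, mul_one]
      rfl
    · have : ((u, none) : Lb p q a b) ≠ (u', none) := fun hh => hu (congrArg Prod.fst hh)
      simp [this, Matrix.one_apply, hu]
  · show bdHom G ((α₂, β₁), (u, none)) ((α₁', β₁'), (u', some (j', α₂'))) = _ * 0
    rw [bdHom_apply]
    simp
  · show bdHom G ((α₁, β₁), (u, some (j, α₂))) ((α₂', β₁'), (u', none)) = _ * 0
    rw [bdHom_apply]
    simp
  · show bdHom G ((α₁, β₁), (u, some (j, α₂))) ((α₁', β₁'), (u', some (j', α₂')))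
      = _ * (if j = j' then g j (α₁, β₁) (α₁', β₁') else 0)
    rw [bdHom_apply, one_prod]
    by_cases hj : j = j'
    · subst hj
      by_cases h2 : α₂ = α₂'
      · subst h2
        by_cases hu : u = u'
        · subst hu
          rw [h1]
          simp
        · have : ((u, some (j, α₂)) : Lb p q a b) ≠ (u', some (j, α₂)) :=
            fun hh => hu (congrArg Prod.fst hh)
          simp [this, Matrix.one_apply, hu]
      · have : ((u, some (j, α₂)) : Lb p q a b) ≠ (u', some (j, α₂')) := by
          intro hh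
          have := congrArg Prod.snd hh
          simp at this
          exact h2 this
        simp [this, Matrix.one_apply, h2]
    · have : ((u, some (j, α₂)) : Lb p q a b) ≠ (u', some (j', α₂')) := by
        intro hh
        have := congrArg Prod.snd hh
        simp at this
        exact hj this.1
      simp [this, hj]

end

end Vale.Agent.Lib.P101.J
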