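import Vale.Agent.Lib.P101.JPat2

/-! The connecting maps between dimension drop algebras. -/

namespace Vale.Agent.Lib.P101.J

set_option linter.unusedSectionVars false
set_option linter.unusedSimpArgs false
set_option linter.unusedVariables false

open scoped Kronecker Matrix.Norms.L2Operator unitInterval ComplexOrder

noncomputable section

/-- Projection to the unit interval. -/
def toI (r : ℝ) : I := Set.projIcc 0 1 zero_le_one r

lemma toI_cont : Continuous toI := by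
  unfold toI
  exact continuous_projIcc

lemma toI_coe {r : ℝ} (h0 : 0 ≤ r) (h1 : r ≤ 1) : ((toI r : I) : ℝ) = r := by
  unfold toI
  rw [Set.projIcc_of_mem zero_le_one ⟨h0, h1⟩]

lemma toI_abs (r r' : ℝ) : |((toI r : I) : ℝ) - toI r'| ≤ |r - r'| :=
  Set.abs_projIcc_sub_projIcc zero_le_one

lemma le_toI {r t : ℝ} (h1 : t ≤ 1) (h2 : t ≤ r) : t ≤ ((toI r : I) : ℝ) := by
  unfold toI
  rw [Set.coe_projIcc]
  exact le_max_of_le_right (le_min h1 h2)

lemma toI_le {r t : ℝ} (h1 : 0 ≤ t) (h2 : r ≤ t) : ((toI r : I) : ℝ) ≤ t := by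
  unfold toI
  rw [Set.coe_projIcc]
  exact max_le h1 ((min_le_right _ _).trans h2)

lemma toI_zero : toI 0 = 0 := by
  apply Subtype.ext
  rw [toI_coe le_rfl zero_le_one]
  rfl

lemma toI_one : toI 1 = 1 := by
  apply Subtype.ext
  rw [toI_coe zero_le_one le_rfl]
  rfl

/-- The eigenvalue function, before clipping. -/
def zeta (y w R s : ℝ) : ℝ := (1 - s) * y + s * w + R * (s * (1 - s))

/-- The eigenvalue function. -/
def xiF (y w R : ℝ) : C(I, I) :=
  ⟨fun s => toI (zeta y w R s), toI_cont.comp (by unfold zeta; fun_prop)⟩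

lemma xiF_apply (y w R : ℝ) (s : I) : xiF y w R s = toI (zeta y w R s) := rfl

lemma xiF_zero (y w R : ℝ) : xiF y w R 0 = toI y := by
  rw [xiF_apply]
  congr 1
  simp [zeta]

lemma xiF_one (y w R : ℝ) : xiF y w R 1 = toI w := by
  rw [xiF_apply]
  congr 1
  simp [zeta]

lemma xiF_lip {y w R δ : ℝ} (hR : 0 ≤ R) (h : |y - w| ≤ δ) (s s' : I) :
    |((xiF y w R s : I) : ℝ) - xiF y w R s'| ≤ (δ + R) * |(s : ℝ) - s'| := by
  rw [xiF_apply, xiF_apply]
  refine (toI_abs _ _).trans ?_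
  have e : zeta y w R s - zeta y w R s' = ((s : ℝ) - s') * ((w - y) + R * (1 - s - s')) := by
    unfold zeta
    ring
  rw [e, abs_mul, mul_comm]
  refine mul_le_mul_of_nonneg_right ?_ (abs_nonneg _)
  refine (abs_add_le _ _).trans (add_le_add (by rwa [abs_sub_comm]) ?_)
  rw [abs_mul, abs_of_nonneg hR]
  have h1 : |1 - (s : ℝ) - s'| ≤ 1 := by
    rw [abs_le]
    have := s.2.1
    have := s.2.2
    have := s'.2.1
    have := s'.2.2
    constructor <;> linarith
  nlinarith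

lemma exists_index {a : ℕ} (ha : 0 < a) (t : I) :
    ∃ i : Fin a, (i : ℝ) / a ≤ t ∧ (t : ℝ) ≤ ((i : ℝ) + 1) / a := by
  have ha' : (0 : ℝ) < a := by exact_mod_cast ha
  have ht0 := t.2.1
  have ht1 := t.2.2
  by_cases h : ⌊(t : ℝ) * a⌋₊ < a
  · refine ⟨⟨_, h⟩, ?_, ?_⟩
    · rw [div_le_iff₀ ha']
      exact Nat.floor_le (by positivity)
    · rw [le_div_iff₀ ha']
      exact (Nat.lt_floor_add_one _).le
  · refine ⟨⟨a - 1, by omega⟩, ?_, ?_⟩
    · have h2 : (a : ℝ) ≤ ⌊(t : ℝ) * a⌋₊ := by exact_mod_cast not_lt.1 h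
      have h3 := Nat.floor_le (a := (t : ℝ) * a) (by positivity)
      have h4 : (1 : ℝ) ≤ t := by
        have : (a : ℝ) ≤ t * a := h2.trans h3
        nlinarith
      rw [div_le_iff₀ ha']
      show (((a - 1 : ℕ) : ℝ)) ≤ _
      have : ((a - 1 : ℕ) : ℝ) ≤ a := by exact_mod_cast Nat.sub_le a 1
      nlinarith
    · rw [le_div_iff₀ ha']
      show (t : ℝ) * a ≤ ((a - 1 : ℕ) : ℝ) + 1
      have : ((a - 1 : ℕ) : ℝ) + 1 = a := by
        have : a - 1 + 1 = a := by omega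
        exact_mod_cast this
      rw [this]
      nlinarith

section PermMat

variable {T : Type} [Fintype T] [DecidableEq T]

lemma pm_star_right (τ : T → T) (X : Matrix T T ℂ) (u v : T) :
    (X * star (pm τ)) u v = X u (τ v) := by
  rw [Matrix.mul_apply, Finset.sum_eq_single (τ v)]
  · rw [Matrix.star_apply]
    simp [pm]
  · intro w _ hw
    rw [Matrix.star_apply]
    have : τ v ≠ w := fun h => hw h.symm
    simp [pm, Matrix.one_apply, this]
  · simp

lemma pm_un (e : T ≃ T) : Un (pm e) := by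
  have h : pm e * star (pm e) = 1 := by
    ext u v
    rw [pm_star_right]
    show (1 : Matrix T T ℂ) (e u) (e v) = _
    simp [Matrix.one_apply]
  exact ⟨mul_eq_one_comm.1 h, h⟩

lemma pm_conj (τ : T → T) (X : Matrix T T ℂ) (u v : T) :
    (pm τ * X * star (pm τ)) u v = X (τ u) (τ v) := by
  rw [pm_star_right, pm_mul_left]

end PermMat

variable {p q a b : ℕ}

/-- Reindexing of block diagonal matrices. -/
lemma bdHom_reindex {H o : Type} [Fintype H] [DecidableEq H] [Fintype o] [DecidableEq o]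
    (π' : o ≃ o) (G : o → Matrix H H ℂ) (x y : H) (k k' : o) :
    bdHom G (x, π'.symm k) (y, π'.symm k') = bdHom (fun ℓ => G (π'.symm ℓ)) (x, k) (y, k') := by
  rw [bdHom_apply, bdHom_apply]
  simp only [EmbeddingLike.apply_eq_iff_eq]

theorem exists_conn (hp : 0 < p) (hq : 0 < q) (ha : 0 < a) (hb : 0 < b) :
    Nonempty (Conn p q (p * (a * q + 1)) (q * (b * p + 1)) (9 * (3 / a + 3 / b))
      (10 * (3 / a + 3 / b))) := by
  obtain ⟨π', hπ⟩ := exists_pi (p := p) (q := q) (a := a) (b := b) hp hq ha hb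
  have ha' : (0 : ℝ) < a := by exact_mod_cast ha
  have hb' : (0 : ℝ) < b := by exact_mod_cast hb
  set δ : ℝ := 3 / a + 3 / b with hδ
  have hδ0 : 0 < δ := by positivity
  have haδ : 1 / (a : ℝ) ≤ δ := by
    have h1 : 1 / (a : ℝ) ≤ 3 / a := div_le_div_of_nonneg_right (by norm_num) ha'.le
    have h2 : 0 < 3 / (b : ℝ) := by positivity
    linarith
  let eA : Ap p q a ≃ Fin (p * (a * q + 1)) := Fintype.equivFinOfCardEq (by
    simp [Fintype.card_prod, Fintype.card_option])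
  let eB : Bp p q b ≃ Fin (q * (b * p + 1)) := Fintype.equivFinOfCardEq (by
    simp [Fintype.card_prod, Fintype.card_option])
  let f0 : HH (p * (a * q + 1)) (q * (b * p + 1)) ≃ HH p q × Lb p q a b :=
    (eA.prodCongr eB).symm.trans psi0
  let f1 : HH (p * (a * q + 1)) (q * (b * p + 1)) ≃ HH p q × Lb p q a b :=
    (eA.prodCongr eB).symm.trans (psi1.trans ((Equiv.refl _).prodCongr π').symm)
  let ρ : Equiv.Perm (HH (p * (a * q + 1)) (q * (b * p + 1))) := f1.trans f0.symm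
  obtain ⟨U, hU, hU0, hU1, hUL⟩ := exists_path (pm ρ) (pm_un ρ)
  let ξ : Lb p q a b → C(I, I) := fun ℓ => xiF (yR ℓ.1) (wR (π' ℓ).2) (8 * δ)
  have hξL : ∀ ℓ (s s' : I), |((ξ ℓ s : I) : ℝ) - ξ ℓ s'| ≤ 9 * δ * |(s : ℝ) - s'| := by
    intro ℓ s s'
    have := xiF_lip (y := yR ℓ.1) (w := wR (π' ℓ).2) (R := 8 * δ) (δ := δ) (by positivity) (hπ ℓ) s s'
    refine this.trans (le_of_eq ?_)
    ring
  have hy : ∀ (i : Fin a), 0 ≤ (i : ℝ) / a ∧ (i : ℝ) / a ≤ 1 := fun i => by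
    refine ⟨by positivity, ?_⟩
    rw [div_le_one ha']
    exact_mod_cast i.2.le
  have hq0 : Nonempty (Fin q) := ⟨⟨0, hq⟩⟩
  obtain ⟨β₀⟩ := hq0
  refine ⟨{ L := Lb p q a b
            ξ := ξ
            Θ := (rx f0).comp bdHom
            hΘ := (rx_injective f0).comp bdHom_injective
            U := U
            hU := hU
            hUL := hUL
            bd0 := ?_
            bd1 := ?_
            hL := hξL
            hD := ?_
            hC := ?_ }⟩
  · intro f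
    rw [hU0, one_mul, star_one, mul_one]
    obtain ⟨c₀, hc₀⟩ := f.2.1
    have hc₀' : f.1 0 = c₀ ⊗ₖ (1 : Matrix (Fin q) (Fin q) ℂ) := hc₀
    refine ⟨(cM c₀ (fun i : Fin a => f.1 (toI ((i : ℝ) / a)))).submatrix eA.symm eA.symm, ?_⟩
    ext ⟨x, t⟩ ⟨x', t'⟩
    have h := fibre0 c₀ (fun i : Fin a => f.1 (toI ((i : ℝ) / a)))
      (fun ℓ => f.1 (ξ ℓ 0)) (fun v => by
        show f.1 (xiF (yR none) _ _ 0) = _
        rw [xiF_zero]
        show f.1 (toI 0) = _
        rw [toI_zero, hc₀'])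
      (fun i β v => by
        show f.1 (xiF (yR (some (i, β))) _ _ 0) = _
        rw [xiF_zero]
        rfl)
      (eA.symm x) (eA.symm x') (eB.symm t) (eB.symm t')
    refine h.trans ?_
    show _ * _ = _ * (1 : Matrix (Fin (q * (b * p + 1))) (Fin (q * (b * p + 1))) ℂ) t t'
    congr 1
    simp [Matrix.one_apply]
  · intro f
    rw [hU1]
    obtain ⟨d₁, hd₁⟩ := f.2.2
    have hd₁' : f.1 1 = (1 : Matrix (Fin p) (Fin p) ℂ) ⊗ₖ d₁ := hd₁
    refine ⟨(dM d₁ (fun j : Fin b => f.1 (toI ((j : ℝ) / b)))).submatrix eB.symm eB.symm, ?_⟩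
    ext ⟨x, t⟩ ⟨x', t'⟩
    rw [pm_conj]
    have h := fibre1 (p := p) (q := q) (a := a) (b := b) d₁ (fun j : Fin b => f.1 (toI ((j : ℝ) / b)))
      (fun ℓ => f.1 (ξ (π'.symm ℓ) 1)) (fun u => by
        show f.1 (xiF _ (wR (π' (π'.symm (u, none))).2) _ 1) = _
        rw [xiF_one, Equiv.apply_symm_apply]
        show f.1 (toI 1) = _
        rw [toI_one, hd₁'])
      (fun u j α => by
        show f.1 (xiF _ (wR (π' (π'.symm (u, some (j, α)))).2) _ 1) = _
        rw [xiF_one, Equiv.apply_symm_apply]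
        rfl)
      (eA.symm x) (eA.symm x') (eB.symm t) (eB.symm t')
    have e1 : ((rx f0).comp bdHom (fun ℓ => f.1 (ξ ℓ 1))) (ρ (x, t)) (ρ (x', t'))
        = bdHom (fun ℓ => f.1 (ξ ℓ 1)) (f1 (x, t)) (f1 (x', t')) := by
      show bdHom (fun ℓ => f.1 (ξ ℓ 1)) (f0 (ρ (x, t))) (f0 (ρ (x', t'))) = _
      have h2 : ∀ z, f0 (ρ z) = f1 z := fun z => by
        show f0 (f0.symm (f1 z)) = f1 z
        exact Equiv.apply_symm_apply _ _
      rw [h2, h2]
    rw [e1]
    have h3 : ∀ z, f1 z = ((psi1 ((eA.prodCongr eB).symm z)).1,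
        π'.symm (psi1 ((eA.prodCongr eB).symm z)).2) := fun z => rfl
    rw [h3, h3, bdHom_reindex]
    refine h.trans ?_
    show _ * _ = (1 : Matrix (Fin (p * (a * q + 1))) (Fin (p * (a * q + 1))) ℂ) x x' * _
    congr 1
    simp [Matrix.one_apply]
  · intro s t
    obtain ⟨i, hi1, hi2⟩ := exists_index ha t
    refine ⟨(some (i, β₀), none), ?_⟩
    set ℓ : Lb p q a b := (some (i, β₀), none) with hℓ
    have h1 := hξL ℓ s 0
    have h2 : ((ξ ℓ 0 : I) : ℝ) = (i : ℝ) / a := by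
      show ((xiF (yR (some (i, β₀))) _ _ 0 : I) : ℝ) = _
      rw [xiF_zero]
      exact toI_coe (hy i).1 (hy i).2
    rw [h2] at h1
    have h3 : |(s : ℝ) - (0 : I)| ≤ 1 := by
      have := s.2.1
      have := s.2.2
      simp only [Set.Icc.coe_zero, sub_zero]
      rw [abs_le]
      constructor <;> linarith
    have h4 : |(i : ℝ) / a - t| ≤ δ := by
      rw [abs_le]
      have e : ((i : ℝ) + 1) / a = (i : ℝ) / a + 1 / a := by ring
      rw [e] at hi2
      constructor <;> linarith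
    have h5 : 9 * δ * |(s : ℝ) - (0 : I)| ≤ 9 * δ * 1 :=
      mul_le_mul_of_nonneg_left h3 (by positivity)
    have e : ((ξ ℓ s : I) : ℝ) - t = (((ξ ℓ s : I) : ℝ) - (i : ℝ) / a) + ((i : ℝ) / a - t) := by ring
    rw [e]
    refine (abs_add_le _ _).trans ?_
    linarith
  · intro t
    obtain ⟨i, hi1, hi2⟩ := exists_index ha t
    set ℓ : Lb p q a b := (some (i, β₀), none) with hℓ
    have h2 : ((ξ ℓ 0 : I) : ℝ) = (i : ℝ) / a := by
      show ((xiF (yR (some (i, β₀))) _ _ 0 : I) : ℝ) = _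
      rw [xiF_zero]
      exact toI_coe (hy i).1 (hy i).2
    let hf : I := ⟨1 / 2, by norm_num, by norm_num⟩
    have h3 : (t : ℝ) ≤ ((ξ ℓ hf : I) : ℝ) := by
      show (t : ℝ) ≤ ((xiF (yR (some (i, β₀))) (wR (π' ℓ).2) (8 * δ) hf : I) : ℝ)
      rw [xiF_apply]
      refine le_toI t.2.2 ?_
      have h4 := abs_le.1 (hπ ℓ)
      have h5 : yR ℓ.1 = (i : ℝ) / a := rfl
      rw [h5] at h4
      have e : ((i : ℝ) + 1) / a = (i : ℝ) / a + 1 / a := by ring
      rw [e] at hi2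
      show _ ≤ (1 - (1 / 2 : ℝ)) * ((i : ℝ) / a) + (1 / 2) * wR (π' ℓ).2 + 8 * δ * ((1 / 2) * (1 - 1 / 2))
      linarith [h4.1, h4.2]
    have h4 : Continuous fun s : I => ((ξ ℓ s : I) : ℝ) :=
      continuous_subtype_val.comp (ξ ℓ).continuous
    obtain ⟨s, hs⟩ := mem_range_of_exists_le_of_exists_ge h4 ⟨0, by rw [h2]; exact hi1⟩ ⟨hf, h3⟩
    exact ⟨ℓ, s, Subtype.ext hs⟩

end

end Vale.Agent.Lib.P101.J
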