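import Vale.Agent.Lib.P101.JFlip3

/-! Paths of unitary matrices. -/

namespace Vale.Agent.Lib.P101.J

set_option linter.unusedSectionVars false
set_option linter.unusedSimpArgs false
set_option linter.unusedVariables false

open scoped Kronecker Matrix.Norms.L2Operator unitInterval ComplexOrder

noncomputable section

variable {T : Type} [Fintype T] [DecidableEq T]

/-- The functions defining the path. -/
def pth (s : ℝ) (z : ℂ) : ℂ := Complex.exp (Complex.I * ((s * Complex.arg z : ℝ) : ℂ))

lemma pth_norm (s : ℝ) (z : ℂ) : ‖pth s z‖ = 1 := by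
  unfold pth
  rw [mul_comm]
  exact Complex.norm_exp_ofReal_mul_I _

lemma pth_sub (s s' : ℝ) (z : ℂ) : ‖pth s z - pth s' z‖ ≤ Real.pi * |s - s'| := by
  unfold pth
  have e : Complex.exp (Complex.I * ((s * Complex.arg z : ℝ) : ℂ)) - Complex.exp (Complex.I * ((s' * Complex.arg z : ℝ) : ℂ))
      = Complex.exp (Complex.I * ((s' * Complex.arg z : ℝ) : ℂ)) *
        (Complex.exp (Complex.I * (((s - s') * Complex.arg z : ℝ) : ℂ)) - 1) := by
    rw [mul_sub, ← Complex.exp_add, mul_one]
    congr 2
    push_cast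
    ring
  rw [e, norm_mul]
  have h1 : ‖Complex.exp (Complex.I * ((s' * Complex.arg z : ℝ) : ℂ))‖ = 1 := by
    rw [mul_comm]
    exact Complex.norm_exp_ofReal_mul_I _
  rw [h1, one_mul]
  refine (Real.norm_exp_I_mul_ofReal_sub_one_le).trans ?_
  rw [Real.norm_eq_abs, abs_mul, mul_comm]
  exact mul_le_mul_of_nonneg_right (Complex.abs_arg_le_pi z) (abs_nonneg _)

/-- A unitary matrix is joined to the identity by a Lipschitz path of unitaries. -/
theorem exists_path (P : Matrix T T ℂ) (hP : Un P) :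
    ∃ U : C(I, Matrix T T ℂ), (∀ s, Un (U s)) ∧ U 0 = 1 ∧ U 1 = P ∧
      ∀ s s' : I, ‖U s - U s'‖ ≤ Real.pi * |(s : ℝ) - s'| := by
  have hN : IsStarNormal P := ⟨by
    show star P * P = P * star P
    rw [hP.1, hP.2]⟩
  have hfin : ∀ g : ℂ → ℂ, ContinuousOn g (spectrum ℂ P) := fun g =>
    (Matrix.finite_spectrum P).continuousOn _
  have hsub : ∀ s s' : ℝ, cfc (pth s) P - cfc (pth s') P = cfc (fun z => pth s z - pth s' z) P :=
    fun s s' => (cfc_sub _ _ P (hfin _) (hfin _)).symm
  have hLip : ∀ s s' : ℝ, ‖cfc (pth s) P - cfc (pth s') P‖ ≤ Real.pi * |s - s'| := fun s s' => by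
    rw [hsub]
    exact norm_cfc_le (by positivity) (fun z _ => pth_sub s s' z)
  have hcont : Continuous (fun s : I => cfc (pth s) P) := by
    refine (LipschitzWith.of_dist_le_mul (K := Real.toNNReal Real.pi) fun s s' => ?_).continuous
    rw [dist_eq_norm, Subtype.dist_eq, Real.dist_eq, Real.coe_toNNReal _ Real.pi_pos.le]
    exact hLip s s'
  refine ⟨⟨fun s => cfc (pth s) P, hcont⟩, fun s => ?_, ?_, ?_, fun s s' => hLip s s'⟩
  · show Un (cfc (pth s) P)
    have e1 : ∀ z, star (pth s z) * pth s z = 1 := fun z => by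
      rw [Complex.star_def, ← Complex.normSq_eq_conj_mul_self, Complex.normSq_eq_norm_sq, pth_norm]
      simp
    constructor
    · rw [← cfc_star, ← cfc_mul _ _ P (hfin _) (hfin _)]
      simp only [e1]
      exact cfc_const_one ℂ P
    · rw [← cfc_star, ← cfc_mul _ _ P (hfin _) (hfin _)]
      have e2 : ∀ z, pth s z * star (pth s z) = 1 := fun z => by rw [mul_comm]; exact e1 z
      simp only [e2]
      exact cfc_const_one ℂ P
  · show cfc (pth ((0 : I) : ℝ)) P = 1
    have : pth ((0 : I) : ℝ) = fun _ => 1 := by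
      ext z
      simp [pth]
    rw [this]
    exact cfc_const_one ℂ P
  · show cfc (pth ((1 : I) : ℝ)) P = P
    have hsp : spectrum ℂ P ⊆ Metric.sphere 0 1 :=
      spectrum.subset_circle_of_unitary (𝕜 := ℂ) (Unitary.mem_iff.2 ⟨hP.1, hP.2⟩)
    have : cfc (pth ((1 : I) : ℝ)) P = cfc (id : ℂ → ℂ) P := by
      refine cfc_congr fun z hz => ?_
      have h1 : ‖z‖ = 1 := by simpa using hsp hz
      have h2 := Complex.norm_mul_exp_arg_mul_I z
      rw [h1] at h2
      have h3 : Complex.exp (((Complex.arg z : ℝ) : ℂ) * Complex.I) = z := by simpa using h2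
      simp only [pth, id, Set.Icc.coe_one, one_mul]
      rw [mul_comm]
      exact h3
    rw [this]
    exact cfc_id ℂ P

end

end Vale.Agent.Lib.P101.J
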