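import Vale.Agent.Lib.P101.JSeq

/-! The properties of the limit algebra: half flip and uniqueness of the trace. -/

namespace Vale.Agent.Lib.P101.J

set_option linter.unusedSectionVars false
set_option linter.unusedSimpArgs false
set_option linter.unusedVariables false

open scoped Kronecker Matrix.Norms.L2Operator unitInterval ComplexOrder
open Filter Topology

noncomputable section

lemma abs_sub_le_one (s s' : I) : |(s : ℝ) - s'| ≤ 1 := by
  rw [abs_le]
  have := s.2.1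
  have := s.2.2
  have := s'.2.1
  have := s'.2.2
  constructor <;> linarith

lemma th_osc' {n : ℕ} {g : DD n} {K : ℝ} (hK : 0 ≤ K) (hg : IsLip g K) (s s' : I) :
    ‖Th (con n).U (fi n g) s - Th (con n).U (fi n g) s'‖ ≤ K * Lk n := by
  refine ((con n).Th_osc (Lk_pos n).le hK hg s s').trans ?_
  have h0 : 0 ≤ K * Lk n := mul_nonneg hK (Lk_pos n).le
  calc K * Lk n * |(s : ℝ) - s'| ≤ K * Lk n * 1 :=
        mul_le_mul_of_nonneg_left (abs_sub_le_one s s') h0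
    _ = _ := mul_one _

/-- The half flip of the limit algebra. -/
theorem ZZ_flip (Y : Type) [CStarAlgebra Y] (c d : ZZ →⋆ₐ[ℂ] Y)
    (hcd : ∀ z z', c z * d z' = d z' * c z) (G : Finset ZZ) (ε : ℝ) (hε : 0 < ε) :
    ∃ w : Y, star w * w = 1 ∧ w * star w = 1 ∧ ∀ z ∈ G, ‖w * c z * star w - d z‖ < ε := by
  have hε4 : 0 < ε / 4 := by positivity
  choose K N hK hN using fun z : ZZ => approx_lip z hε4
  set K₀ : ℝ := ∑ z ∈ G, K z + 1 with hK₀
  have hK₀0 : 0 < K₀ := by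
    have : 0 ≤ ∑ z ∈ G, K z := Finset.sum_nonneg fun z _ => hK z
    rw [hK₀]
    linarith
  have hzK : ∀ z ∈ G, K z ≤ K₀ := fun z hz => by
    have := Finset.single_le_sum (fun z _ => hK z) hz
    rw [hK₀]
    linarith
  obtain ⟨n, hn, -, hL⟩ := exists_small (G.sup N) (ε := ε / (20 * K₀)) (by positivity)
  obtain ⟨w, h1, h2, h3⟩ := half_flip (c.comp (jZ (n + 1))) (d.comp (jZ (n + 1)))
    (fun x y => hcd _ _) (con n).U (con n).hU
  refine ⟨w, h1, h2, fun z hz => ?_⟩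
  obtain ⟨g, hg, hgz⟩ := hN z n ((Finset.le_sup hz).trans hn)
  have h5 := h3 (fi n g) (K z * Lk n) (fun s s' => th_osc' (hK z) hg s s')
  have e1 : (c.comp (jZ (n + 1))) (fi n g) = c (jZ n g) := by
    show c (jZ (n + 1) (fi n g)) = _
    rw [jZ_succ]
  have e2 : (d.comp (jZ (n + 1))) (fi n g) = d (jZ n g) := by
    show d (jZ (n + 1) (fi n g)) = _
    rw [jZ_succ]
  rw [e1, e2] at h5
  set x := jZ n g with hx
  have hun : Un w := ⟨h1, h2⟩
  have e : w * c z * star w - d z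
      = w * c (z - x) * star w + (w * c x * star w - d x) + d (x - z) := by
    simp only [map_sub]
    noncomm_ring
  rw [e]
  have h6 : ‖w * c (z - x) * star w‖ ≤ ‖z - x‖ :=
    (norm_conj_le _ hun.norm_le hun.star.norm_le).trans (NonUnitalStarAlgHom.norm_apply_le c _)
  have h7 : ‖d (x - z)‖ ≤ ‖x - z‖ := NonUnitalStarAlgHom.norm_apply_le d _
  have h8 : ‖z - x‖ < ε / 4 := by
    rw [norm_sub_rev]
    exact hgz
  have h9 : ‖x - z‖ < ε / 4 := hgz
  have h10 : 5 * (K z * Lk n) ≤ ε / 4 := by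
    have h11 : K z * Lk n ≤ K₀ * (ε / (20 * K₀)) :=
      mul_le_mul (hzK z hz) hL.le (Lk_pos n).le hK₀0.le
    have h12 : K₀ * (ε / (20 * K₀)) = ε / 20 := by
      field_simp
    rw [h12] at h11
    linarith
  calc _ ≤ ‖w * c (z - x) * star w‖ + ‖w * c x * star w - d x‖ + ‖d (x - z)‖ := norm_add₃_le
    _ < ε := by linarith

/-- The normalized trace at the midpoint. -/
def tauS (n : ℕ) : DD n →ₗ[ℂ] ℂ where
  toFun f := trN (f.1 ⟨1 / 2, by norm_num, by norm_num⟩)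
  map_add' f g := by
    rw [add_apply', map_add]
  map_smul' r f := by
    rw [smul_apply', map_smul]
    rfl

theorem ZZ_trace_exists :
    ∃ τ : ZZ →ₗ[ℂ] ℂ, (∀ x, 0 ≤ τ (star x * x)) ∧ τ 1 = 1 ∧ ∀ x y, τ (x * y) = τ (y * x) := by
  refine exists_trace tauS (fun n x => ?_) fi (fun n x => ?_) (fun n => ?_) (fun n x y => ?_)
  · exact (trN_norm_le _).trans (norm_apply_le x _)
  · exact trN_nonneg _
  · exact trN_one
  · exact trN_mul_comm _ _

/-- The traces of the images are almost constant. -/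
lemma trace_diff {τ : ZZ →ₗ[ℂ] ℂ} (hp : ∀ x, 0 ≤ τ (star x * x)) (h1 : τ 1 = 1)
    (ht : ∀ x y, τ (x * y) = τ (y * x)) {n : ℕ} {g : DD n} {K : ℝ} (hK : 0 ≤ K) (hg : IsLip g K) :
    ‖τ (jZ n g) - trN ((fi n g).1 0)‖ ≤ K * Lk n := by
  let τ₁ : DD (n + 1) →ₗ[ℂ] ℂ := τ ∘ₗ (jZ (n + 1)).toAlgHom.toLinearMap
  have h2 : τ₁ (fi n g) = τ (jZ n g) := by
    show τ (jZ (n + 1) (fi n g)) = _
    rw [jZ_succ]
  rw [← h2]
  refine trace_est τ₁ (fun x => ?_) ?_ (fun x y => ?_) (fi n g) _ (fun s => ?_)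
  · show 0 ≤ τ (jZ (n + 1) (star x * x))
    rw [map_mul (jZ (n + 1)), map_star (jZ (n + 1))]
    exact hp _
  · show τ (jZ (n + 1) 1) = 1
    rw [map_one, h1]
  · show τ (jZ (n + 1) (x * y)) = τ (jZ (n + 1) (y * x))
    rw [map_mul (jZ (n + 1)), map_mul (jZ (n + 1)), ht]
  · have e1 : ∀ s, trN ((fi n g).1 s) = trN (Th (con n).U (fi n g) s) := fun s => by
      unfold Th
      rw [trN_conj ((con n).hU s)]
    rw [e1, e1, ← map_sub]
    exact (trN_norm_le _).trans (th_osc' hK hg s 0)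

theorem ZZ_trace_unique {τ τ' : ZZ →ₗ[ℂ] ℂ} (hp : ∀ x, 0 ≤ τ (star x * x)) (h1 : τ 1 = 1)
    (ht : ∀ x y, τ (x * y) = τ (y * x)) (hp' : ∀ x, 0 ≤ τ' (star x * x)) (h1' : τ' 1 = 1)
    (ht' : ∀ x y, τ' (x * y) = τ' (y * x)) : τ = τ' := by
  ext z
  rw [← sub_eq_zero, ← norm_eq_zero]
  refine le_antisymm (le_of_forall_pos_le_add fun ε hε => ?_) (norm_nonneg _)
  rw [zero_add]
  have hε1 : 0 < ε / 16 := by positivity
  obtain ⟨K, N, hK, hN⟩ := approx_lip z hε1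
  obtain ⟨n, hn, -, hL⟩ := exists_small N (ε := ε / (4 * (K + 1))) (by positivity)
  obtain ⟨g, hg, hgz⟩ := hN n hn
  have h2 := trace_diff hp h1 ht hK hg
  have h3 := trace_diff hp' h1' ht' hK hg
  have h4 := state_bound τ hp h1 (z - jZ n g)
  have h5 := state_bound τ' hp' h1' (z - jZ n g)
  have h6 : ‖z - jZ n g‖ < ε / 16 := by
    rw [norm_sub_rev]
    exact hgz
  have h7 : K * Lk n ≤ ε / 4 := by
    have h8 : K * Lk n ≤ (K + 1) * (ε / (4 * (K + 1))) :=
      mul_le_mul (by linarith) hL.le (Lk_pos n).le (by linarith)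
    have h9 : (K + 1) * (ε / (4 * (K + 1))) = ε / 4 := by
      have : K + 1 ≠ 0 := by positivity
      field_simp
    rwa [h9] at h8
  have e : τ z - τ' z = τ (z - jZ n g) + (τ (jZ n g) - trN ((fi n g).1 0))
      - (τ' (jZ n g) - trN ((fi n g).1 0)) - τ' (z - jZ n g) := by
    simp only [map_sub]
    ring
  rw [e]
  calc _ ≤ ‖τ (z - jZ n g) + (τ (jZ n g) - trN ((fi n g).1 0)) - (τ' (jZ n g) - trN ((fi n g).1 0))‖
        + ‖τ' (z - jZ n g)‖ := norm_sub_le _ _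
    _ ≤ ‖τ (z - jZ n g) + (τ (jZ n g) - trN ((fi n g).1 0))‖ + ‖τ' (jZ n g) - trN ((fi n g).1 0)‖
        + ‖τ' (z - jZ n g)‖ := by
        gcongr
        exact norm_sub_le _ _
    _ ≤ ‖τ (z - jZ n g)‖ + ‖τ (jZ n g) - trN ((fi n g).1 0)‖ + ‖τ' (jZ n g) - trN ((fi n g).1 0)‖
        + ‖τ' (z - jZ n g)‖ := by
        gcongr
        exact norm_add_le _ _
    _ ≤ ε := by linarith

end

end Vale.Agent.Lib.P101.J
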