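import Vale.Agent.Lib.P101.JIdeal

/-! The sequence of prime dimension drop algebras. -/

namespace Vale.Agent.Lib.P101.J

set_option linter.unusedSectionVars false
set_option linter.unusedSimpArgs false
set_option linter.unusedVariables false

open scoped Kronecker Matrix.Norms.L2Operator unitInterval ComplexOrder
open Filter Topology

noncomputable section

/-- Coprime parameters. -/
structure Par where
  p : ℕ
  q : ℕ
  hp : 2 ≤ p
  hq : 2 ≤ q
  hc : Nat.Coprime p q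

/-- The first parameter of a step. -/
def bk (k : ℕ) : ℕ := 120 * (k + 1)
/-- The second parameter of a step. -/
def ak (x : Par) (k : ℕ) : ℕ := (bk k * x.p + 1) * bk k

/-- The next parameters. -/
def nextPar (x : Par) (k : ℕ) : Par where
  p := x.p * (ak x k * x.q + 1)
  q := x.q * (bk k * x.p + 1)
  hp := by
    have := x.hp
    nlinarith [Nat.zero_le (ak x k * x.q)]
  hq := by
    have := x.hq
    nlinarith [Nat.zero_le (bk k * x.p)]
  hc := by
    have h1 : Nat.Coprime x.p (bk k * x.p + 1) := by simp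
    have h2 : Nat.Coprime (ak x k * x.q + 1) x.q := by simp
    have h3 : Nat.Coprime (ak x k * x.q + 1) (bk k * x.p + 1) := by
      unfold ak
      have e : (bk k * x.p + 1) * bk k * x.q + 1 = (bk k * x.p + 1) * (bk k * x.q) + 1 := by ring
      rw [e]
      simp
    exact Nat.Coprime.mul_left (Nat.Coprime.mul_right x.hc h1) (Nat.Coprime.mul_right h2 h3)

/-- The Lipschitz constants of the steps. -/
def Lk (k : ℕ) : ℝ := 1 / (2 * ((k : ℝ) + 1))
/-- The density constants of the steps. -/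
def Dk (k : ℕ) : ℝ := 1 / ((k : ℝ) + 1)

lemma Lk_pos (k : ℕ) : 0 < Lk k := by
  unfold Lk
  positivity

lemma Lk_le (k : ℕ) : Lk k ≤ 1 / 2 := by
  unfold Lk
  have : (0 : ℝ) ≤ k := by positivity
  rw [div_le_div_iff₀ (by positivity) (by norm_num)]
  linarith

lemma Dk_pos (k : ℕ) : 0 < Dk k := by
  unfold Dk
  positivity

lemma exists_small (k₀ : ℕ) {ε : ℝ} (hε : 0 < ε) : ∃ n, k₀ ≤ n ∧ Dk n < ε ∧ Lk n < ε := by
  obtain ⟨m, hm⟩ := exists_nat_gt (1 / ε)
  refine ⟨max k₀ m, le_max_left _ _, ?_, ?_⟩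
  · unfold Dk
    have h1 : (m : ℝ) ≤ (max k₀ m : ℕ) := by exact_mod_cast le_max_right _ _
    rw [div_lt_iff₀ (by positivity)]
    rw [div_lt_iff₀ hε] at hm
    nlinarith
  · unfold Lk
    have h1 : (m : ℝ) ≤ (max k₀ m : ℕ) := by exact_mod_cast le_max_right _ _
    rw [div_lt_iff₀ (by positivity)]
    rw [div_lt_iff₀ hε] at hm
    have h2 : (0 : ℝ) ≤ (max k₀ m : ℕ) := by positivity
    nlinarith

/-- A connecting map can be weakened. -/
def Conn.mono {p q p' q' : ℕ} {Λ D Λ' D' : ℝ} (C : Conn p q p' q' Λ D) (h1 : Λ ≤ Λ') (h2 : D ≤ D') :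
    Conn p q p' q' Λ' D' :=
  { C with
    hL := fun ℓ s s' => (C.hL ℓ s s').trans (mul_le_mul_of_nonneg_right h1 (abs_nonneg _))
    hD := fun s t => by
      obtain ⟨ℓ, hℓ⟩ := C.hD s t
      exact ⟨ℓ, hℓ.trans h2⟩ }

lemma delta_bound (x : Par) (k : ℕ) :
    3 / ((ak x k : ℕ) : ℝ) + 3 / ((bk k : ℕ) : ℝ) ≤ 1 / (20 * ((k : ℝ) + 1)) := by
  have hp := x.hp
  have hb : ((bk k : ℕ) : ℝ) = 120 * ((k : ℝ) + 1) := by
    unfold bk
    push_cast
    ring
  have hk : (0 : ℝ) < (k : ℝ) + 1 := by positivity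
  have hab : ((bk k : ℕ) : ℝ) ≤ ((ak x k : ℕ) : ℝ) := by
    have h1 : bk k ≤ ak x k := by
      unfold ak
      exact Nat.le_mul_of_pos_left _ (Nat.succ_pos _)
    exact_mod_cast h1
  have hb0 : (0 : ℝ) < ((bk k : ℕ) : ℝ) := by
    rw [hb]
    positivity
  have h2 : 3 / ((ak x k : ℕ) : ℝ) ≤ 3 / ((bk k : ℕ) : ℝ) :=
    div_le_div_of_nonneg_left (by norm_num) hb0 hab
  have h3 : 3 / ((bk k : ℕ) : ℝ) = 1 / (40 * ((k : ℝ) + 1)) := by
    rw [hb]
    field_simp
    norm_num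
  have h4 : 1 / (20 * ((k : ℝ) + 1)) = 1 / (40 * ((k : ℝ) + 1)) + 1 / (40 * ((k : ℝ) + 1)) := by
    field_simp
    norm_num
  rw [h4]
  linarith

/-- The connecting map of a step. -/
def connOf (x : Par) (k : ℕ) : Conn x.p x.q (nextPar x k).p (nextPar x k).q (Lk k) (Dk k) := by
  have ha : 0 < ak x k := by
    unfold ak bk
    positivity
  have hb : 0 < bk k := by
    unfold bk
    positivity
  have hp : 0 < x.p := by
    have := x.hp
    omega
  have hq : 0 < x.q := by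
    have := x.hq
    omega
  have h := Classical.choice (exists_conn (p := x.p) (q := x.q) (a := ak x k) (b := bk k) hp hq ha hb)
  have hd := delta_bound x k
  have hk : (0 : ℝ) < (k : ℝ) + 1 := by positivity
  refine h.mono ?_ ?_
  · unfold Lk
    calc 9 * (3 / ((ak x k : ℕ) : ℝ) + 3 / ((bk k : ℕ) : ℝ)) ≤ 9 * (1 / (20 * ((k : ℝ) + 1))) := by
          linarith
      _ ≤ 1 / (2 * ((k : ℝ) + 1)) := by
          rw [mul_one_div, div_le_div_iff₀ (by positivity) (by positivity)]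
          nlinarith
  · unfold Dk
    calc 10 * (3 / ((ak x k : ℕ) : ℝ) + 3 / ((bk k : ℕ) : ℝ)) ≤ 10 * (1 / (20 * ((k : ℝ) + 1))) := by
          linarith
      _ ≤ 1 / ((k : ℝ) + 1) := by
          rw [mul_one_div, div_le_div_iff₀ (by positivity) (by positivity)]
          nlinarith

/-- The parameters of the sequence. -/
def par : ℕ → Par
  | 0 => ⟨2, 3, le_rfl, by norm_num, by norm_num⟩
  | k + 1 => nextPar (par k) k

/-- The stages. -/
abbrev DD (k : ℕ) : Type := DP (par k).p (par k).q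

instance neP (k : ℕ) : NeZero (par k).p := ⟨by
  have := (par k).hp
  omega⟩

instance neQ (k : ℕ) : NeZero (par k).q := ⟨by
  have := (par k).hq
  omega⟩

instance dpNontrivial {p q : ℕ} [NeZero p] [NeZero q] : Nontrivial (DP p q) := by
  refine ⟨⟨0, 1, fun h => ?_⟩⟩
  have h1 := congrArg (fun f : DP p q => f.1 0) h
  have h2 : (0 : MH p q) = 1 := h1
  exact zero_ne_one h2

/-- The connecting data. -/
def con (k : ℕ) : Conn (par k).p (par k).q (par (k + 1)).p (par (k + 1)).q (Lk k) (Dk k) :=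
  connOf (par k) k

/-- The connecting maps. -/
def fi (k : ℕ) : DD k →⋆ₐ[ℂ] DD (k + 1) := (con k).phi

lemma fi_injective (k : ℕ) : Function.Injective (fi k) := (con k).phi_injective

lemma IsLip.mono {p q : ℕ} {f : DP p q} {K K' : ℝ} (h : IsLip f K) (hK : K ≤ K') : IsLip f K' :=
  fun s s' => (h s s').trans (mul_le_mul_of_nonneg_right hK (abs_nonneg _))

/-- The Lipschitz constants stay bounded along the sequence. -/
lemma chain_lip {k n : ℕ} (h : k ≤ n) (f : DD k) {K : ℝ} (hK : 0 ≤ K) (hf : IsLip f K) :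
    IsLip (chain fi h f) (max K (4 * Real.pi * ‖f‖)) := by
  induction n, h using Nat.le_induction with
  | base =>
    rw [chain_self]
    exact hf.mono (le_max_left _ _)
  | succ n hn ih =>
    rw [chain_apply_succ fi hn]
    set g := chain fi hn f with hg
    set M := max K (4 * Real.pi * ‖f‖) with hM
    have hM0 : 0 ≤ M := hK.trans (le_max_left _ _)
    have h1 := (con n).phi_lip (Lk_pos n).le hM0 ih
    refine IsLip.mono h1 ?_
    have h2 : ‖g‖ ≤ ‖f‖ := chain_norm_le fi hn f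
    have h3 : 4 * Real.pi * ‖f‖ ≤ M := le_max_right _ _
    have h4 : M * Lk n ≤ M * (1 / 2) := mul_le_mul_of_nonneg_left (Lk_le n) hM0
    have h5 : 2 * Real.pi * ‖g‖ ≤ 2 * Real.pi * ‖f‖ :=
      mul_le_mul_of_nonneg_left h2 (by positivity)
    nlinarith

/-- Lipschitz elements are dense in a dimension drop algebra. -/
lemma exists_lip {p q : ℕ} (f : DP p q) {ε : ℝ} (hε : 0 < ε) :
    ∃ (g : DP p q) (K : ℝ), 0 ≤ K ∧ IsLip g K ∧ ‖f - g‖ ≤ ε := by
  obtain ⟨ρ, hρ, hcl⟩ := exists_delta f.1 hε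
  obtain ⟨K, L, w, w', cc, h2, h3, h4, h5, h6, h7, h8, h9⟩ := exists_partition hρ
  have b0 : ∀ i, w i 0 ≠ 0 → cc i = 0 := fun i hh => h7 i (by rw [h5 i 0 hh]; exact one_ne_zero)
  have b1 : ∀ i, w i 1 ≠ 0 → cc i = 1 := fun i hh => h8 i (by rw [h5 i 1 hh]; exact one_ne_zero)
  let g₀ : Fin (K + 1) → DP p q := fun i => bump (w i) (f.1 (cc i))
    (fun hh => by
      rw [b0 i hh]
      exact f.2.1)
    (fun hh => by
      rw [b1 i hh]
      exact f.2.2)
  refine ⟨∑ i, g₀ i, (K + 1) * (|L| * ‖f‖), by positivity, fun s s' => ?_, ?_⟩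
  · rw [sum_apply', sum_apply', ← Finset.sum_sub_distrib]
    refine (norm_sum_le _ _).trans ?_
    have hb : ∀ i ∈ (Finset.univ : Finset (Fin (K + 1))), ‖(g₀ i).1 s - (g₀ i).1 s'‖
        ≤ (|L| * ‖f‖) * |(s : ℝ) - s'| := fun i _ => by
      show ‖((w i s : ℝ) : ℂ) • f.1 (cc i) - ((w i s' : ℝ) : ℂ) • f.1 (cc i)‖ ≤ _
      rw [← sub_smul, norm_smul, ← Complex.ofReal_sub, Complex.norm_real, Real.norm_eq_abs]
      calc |w i s - w i s'| * ‖f.1 (cc i)‖ ≤ (|L| * |(s : ℝ) - s'|) * ‖f‖ := by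
            refine mul_le_mul ?_ (norm_apply_le f _) (norm_nonneg _) (by positivity)
            exact (h9 i s s').trans (mul_le_mul_of_nonneg_right (le_abs_self L) (abs_nonneg _))
        _ = _ := by ring
    refine (Finset.sum_le_sum hb).trans (le_of_eq ?_)
    simp
    ring
  · refine norm_dp_le hε.le fun s => ?_
    rw [sub_apply', sum_apply']
    refine part_est (fun i => w i s) (fun i => h2 i s) (h3 s) _ _ (fun i hi => ?_) hε.le
    exact (hcl _ _ (h6 i s (by rw [h5 i s hi]; exact one_ne_zero))).le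

/-- The limit algebra. -/
abbrev ZZ : Type := ZL fi

/-- The maps from the stages to the limit algebra. -/
abbrev jZ (k : ℕ) : DD k →⋆ₐ[ℂ] ZZ := iZ fi k

lemma jZ_succ (k : ℕ) (f : DD k) : jZ (k + 1) (fi k f) = jZ k f := iZ_succ fi k f

lemma jZ_chain {k n : ℕ} (h : k ≤ n) (f : DD k) : jZ n (chain fi h f) = jZ k f := iZ_chain fi h f

lemma jZ_injective (k : ℕ) : Function.Injective (jZ k) := iZ_injective fi fi_injective k

lemma jZ_dense : Dense (⋃ k, Set.range (jZ k)) := iZ_dense fi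

lemma jZ_norm_le (k : ℕ) (f : DD k) : ‖jZ k f‖ ≤ ‖f‖ := NonUnitalStarAlgHom.norm_apply_le (jZ k) f

/-- Approximation by uniformly Lipschitz elements. -/
lemma approx_lip (z : ZZ) {ε : ℝ} (hε : 0 < ε) :
    ∃ (K : ℝ) (N : ℕ), 0 ≤ K ∧ ∀ n, N ≤ n → ∃ g : DD n, IsLip g K ∧ ‖jZ n g - z‖ < ε := by
  obtain ⟨x, hx1, hx2⟩ := Metric.dense_iff.1 jZ_dense z (ε / 2) (half_pos hε)
  obtain ⟨k, f, rfl⟩ := Set.mem_iUnion.1 hx2
  obtain ⟨g₀, K, hK, hg₀, hfg⟩ := exists_lip f (half_pos hε)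
  refine ⟨max K (4 * Real.pi * ‖g₀‖), k, hK.trans (le_max_left _ _), fun n hn => ?_⟩
  refine ⟨chain fi hn g₀, chain_lip hn g₀ hK hg₀, ?_⟩
  rw [jZ_chain]
  have h1 : ‖jZ k g₀ - jZ k f‖ ≤ ε / 2 := by
    rw [← map_sub, ← norm_neg, ← map_neg, neg_sub]
    exact (jZ_norm_le k _).trans hfg
  have h2 : ‖jZ k f - z‖ < ε / 2 := by
    rw [Metric.mem_ball, dist_eq_norm] at hx1
    exact hx1
  have e : jZ k g₀ - z = (jZ k g₀ - jZ k f) + (jZ k f - z) := by abel
  rw [e]
  refine (norm_add_le _ _).trans_lt ?_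
  linarith

end

end Vale.Agent.Lib.P101.J
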