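import Vale.Agent.Lib.P101.JProps

/-! The limit algebra is simple and has the properties of the Jiang-Su algebra. -/

namespace Vale.Agent.Lib.P101.J

set_option linter.unusedSectionVars false
set_option linter.unusedSimpArgs false
set_option linter.unusedVariables false

open scoped Kronecker Matrix.Norms.L2Operator unitInterval ComplexOrder
open Filter Topology

noncomputable section

/-- A nonzero element of a stage has later images which are nonzero everywhere. -/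
lemma exists_stage_lower {k : ℕ} {f : DD k} (hf : f ≠ 0) :
    ∃ (n : ℕ) (h : DD n) (c : ℝ), 0 < c ∧ jZ n h = jZ k f ∧ ∀ s, c ≤ ‖h.1 s‖ := by
  obtain ⟨c, hc0⟩ : ∃ c : ℝ, c = ‖f‖ := ⟨_, rfl⟩
  have hc : 0 < c := by
    rw [hc0]
    exact norm_pos_iff.2 hf
  have hc4 : 0 < c / 4 := by linarith
  obtain ⟨g₀, K, hK, hg₀, hfg⟩ := exists_lip f hc4
  obtain ⟨M, hM⟩ : ∃ M : ℝ, M = max K (4 * Real.pi * ‖g₀‖) := ⟨_, rfl⟩
  have hM0 : 0 ≤ M := by
    rw [hM]
    exact hK.trans (le_max_left _ _)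
  have hMp : 0 < M + 1 := by linarith
  obtain ⟨n, hn, hD, -⟩ := exists_small k (ε := c / (4 * (M + 1))) (div_pos hc (by linarith))
  obtain ⟨g, hg⟩ : ∃ g : DD n, g = chain fi hn g₀ := ⟨_, rfl⟩
  have hgL : IsLip g M := by
    rw [hg, hM]
    exact chain_lip hn g₀ hK hg₀
  have hgn : ‖g‖ = ‖g₀‖ := by
    rw [hg]
    exact NonUnitalStarAlgHom.norm_map (chain fi hn) (chain_injective fi fi_injective hn) g₀
  have hg₀n : 3 * c / 4 ≤ ‖g₀‖ := by
    have h1 : ‖f‖ ≤ ‖f - g₀‖ + ‖g₀‖ := by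
      simpa using norm_add_le (f - g₀) g₀
    rw [← hc0] at h1
    linarith
  obtain ⟨t, ht⟩ : ∃ t, ‖g‖ ≤ ‖g.1 t‖ := by
    obtain ⟨t, -, ht⟩ := isCompact_univ.exists_isMaxOn Set.univ_nonempty
      (g.1.continuous.norm.continuousOn)
    exact ⟨t, norm_dp_le (norm_nonneg _) fun s => ht (Set.mem_univ s)⟩
  have hMD : M * Dk n ≤ c / 4 := by
    have h8 : M * Dk n ≤ (M + 1) * (c / (4 * (M + 1))) :=
      mul_le_mul (by linarith) hD.le (Dk_pos n).le hMp.le
    have h9 : (M + 1) * (c / (4 * (M + 1))) = c / 4 := by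
      have : M + 1 ≠ 0 := hMp.ne'
      field_simp
    rwa [h9] at h8
  have hlow : ∀ s, ‖g.1 t‖ - M * Dk n ≤ ‖(fi n g).1 s‖ := fun s =>
    (con n).phi_lower hM0 hgL s t
  refine ⟨n + 1, chain fi (hn.trans (Nat.le_succ n)) f, c / 4, hc4, jZ_chain _ f, fun s => ?_⟩
  obtain ⟨h, hh⟩ : ∃ h : DD (n + 1), h = chain fi (hn.trans (Nat.le_succ n)) f := ⟨_, rfl⟩
  rw [← hh]
  have e : h - fi n g = chain fi (hn.trans (Nat.le_succ n)) (f - g₀) := by
    rw [map_sub, chain_apply_succ fi hn g₀, hh, hg]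
  have hd : ‖h - fi n g‖ ≤ c / 4 := by
    rw [e]
    exact (chain_norm_le fi _ _).trans hfg
  have h1 := hlow s
  have h2 : ‖(h - fi n g).1 s‖ ≤ c / 4 := (norm_apply_le _ s).trans hd
  have h3 : (h - fi n g).1 s = h.1 s - (fi n g).1 s := rfl
  rw [h3] at h2
  have h4 : ‖(fi n g).1 s‖ ≤ ‖h.1 s‖ + ‖h.1 s - (fi n g).1 s‖ := by
    have := norm_sub_le (h.1 s) (h.1 s - (fi n g).1 s)
    simpa using this
  rw [hgn] at ht
  linarith

/-- An ideal containing a nonzero element of a stage is everything. -/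
lemma simple_top (J₀ : TwoSidedIdeal ZZ) {k : ℕ} {f : DD k} (hf : f ≠ 0) (hJ : jZ k f ∈ J₀) :
    J₀ = ⊤ := by
  obtain ⟨n, h, c, hc, hjh, hhl⟩ := exists_stage_lower hf
  let S : TwoSidedIdeal (DD n) := TwoSidedIdeal.mk' {x | jZ n x ∈ J₀}
    (by
      show jZ n 0 ∈ J₀
      rw [map_zero]
      exact zero_mem J₀)
    (fun {x y} hx hy => by
      show jZ n (x + y) ∈ J₀
      rw [map_add]
      exact add_mem hx hy)
    (fun {x} hx => by
      show jZ n (-x) ∈ J₀
      rw [map_neg]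
      exact neg_mem hx)
    (fun {x y} hy => by
      show jZ n (x * y) ∈ J₀
      rw [map_mul]
      exact J₀.mul_mem_left _ _ hy)
    (fun {x y} hx => by
      show jZ n (x * y) ∈ J₀
      rw [map_mul]
      exact J₀.mul_mem_right _ _ hx)
  have hSm : ∀ x, x ∈ S ↔ jZ n x ∈ J₀ := fun x => by
    show x ∈ TwoSidedIdeal.mk' _ _ _ _ _ _ ↔ _
    rw [TwoSidedIdeal.mem_mk']
    rfl
  have hS : h ∈ S := by
    rw [hSm, hjh]
    exact hJ
  obtain ⟨y, hy, hy1⟩ := ideal_unit S h hS hc hhl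
  have hu : IsUnit y := by
    have h1 := isUnit_one_sub_of_norm_lt_one (x := 1 - y) (by rwa [norm_sub_rev])
    simpa using h1
  obtain ⟨u, rfl⟩ := hu
  have h5 : jZ n (u : DD n) ∈ J₀ := (hSm _).1 hy
  have h6 : (1 : ZZ) ∈ J₀ := by
    have e1 : (1 : ZZ) = jZ n (u : DD n) * jZ n ((u⁻¹ : (DD n)ˣ) : DD n) := by
      rw [← map_mul, Units.mul_inv, map_one]
    rw [e1]
    exact J₀.mul_mem_right _ _ h5
  exact J₀.one_mem_iff.1 h6

/-- An ideal meeting all the stages trivially is zero. -/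
lemma simple_bot (J₀ : TwoSidedIdeal ZZ) (hcl : IsClosed (J₀ : Set ZZ))
    (h : ∀ k (f : DD k), jZ k f ∈ J₀ → f = 0) : J₀ = ⊥ := by
  have hcl' : IsClosed ((J₀.asIdeal : Ideal ZZ) : Set ZZ) := by
    rw [TwoSidedIdeal.coe_asIdeal]
    exact hcl
  let q := quotMk J₀.asIdeal
  have hmem : ∀ x, q x = 0 → x ∈ J₀ := fun x hx => TwoSidedIdeal.mem_asIdeal.1 (quotMk_eq_zero _ |>.1 hx)
  have hq : ∀ k (f : DD k), ‖q (jZ k f)‖ = ‖jZ k f‖ := by
    intro k f
    have h1 : Function.Injective (q.comp (jZ k)) := by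
      rw [injective_iff_map_eq_zero]
      intro g hg
      exact h k g (hmem _ hg)
    have h2 := NonUnitalStarAlgHom.norm_map (q.comp (jZ k)) h1 f
    have h3 := NonUnitalStarAlgHom.norm_map (jZ k) (jZ_injective k) f
    rw [h3]
    exact h2
  have hclosed : IsClosed {x : ZZ | ‖q x‖ = ‖x‖} :=
    isClosed_eq (continuous_norm.comp (star_hom_continuous q)) continuous_norm
  have hall : ∀ x : ZZ, ‖q x‖ = ‖x‖ := by
    intro x
    have h1 : closure (⋃ k, Set.range (jZ k)) ⊆ {x : ZZ | ‖q x‖ = ‖x‖} := by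
      refine closure_minimal ?_ hclosed
      intro y hy
      obtain ⟨k, f, rfl⟩ := Set.mem_iUnion.1 hy
      exact hq k f
    exact h1 (jZ_dense x)
  refine le_antisymm (fun x hx => ?_) bot_le
  have h2 : q x = 0 := (quotMk_eq_zero _).2 (TwoSidedIdeal.mem_asIdeal.2 hx)
  have h3 := hall x
  rw [h2, norm_zero] at h3
  rw [TwoSidedIdeal.mem_bot]
  exact norm_eq_zero.1 h3.symm

theorem ZZ_simple (J₀ : TwoSidedIdeal ZZ) (hcl : IsClosed (J₀ : Set ZZ)) : J₀ = ⊥ ∨ J₀ = ⊤ := by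
  by_cases h : ∀ k (f : DD k), jZ k f ∈ J₀ → f = 0
  · exact Or.inl (simple_bot J₀ hcl h)
  · push Not at h
    obtain ⟨k, f, h1, h2⟩ := h
    exact Or.inr (simple_top J₀ h2 h1)

theorem ZZ_separable : TopologicalSpace.SeparableSpace ZZ := by
  have h1 : TopologicalSpace.IsSeparable (⋃ k, Set.range (jZ k)) :=
    TopologicalSpace.IsSeparable.iUnion fun k =>
      TopologicalSpace.isSeparable_range (star_hom_continuous (jZ k))
  have h2 := h1.closure
  rw [jZ_dense.closure_eq] at h2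
  exact TopologicalSpace.isSeparable_univ_iff.1 h2

/-- The limit algebra has the properties of the Jiang-Su algebra. -/
theorem ZZ_isJiangSu : IsJiangSu ZZ where
  separable := ZZ_separable
  nontrivial := (jZ_injective 0).nontrivial
  limit := ⟨fun k => (par k).p, fun k => (par k).q, fun k => jZ k,
    fun k => ⟨(par k).hc, (par k).hp, (par k).hq⟩, jZ_injective,
    fun k l hkl => by
      rintro _ ⟨f, rfl⟩
      exact ⟨chain fi hkl f, jZ_chain hkl f⟩,
    jZ_dense⟩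
  simple := ZZ_simple
  trace := by
    obtain ⟨τ, h1, h2, h3⟩ := ZZ_trace_exists
    exact ⟨τ, ⟨h1, h2, h3⟩, fun τ' ⟨h4, h5, h6⟩ => ZZ_trace_unique h4 h5 h6 h1 h2 h3⟩
  flip := ZZ_flip

end

end Vale.Agent.Lib.P101.J
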