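import Vale.Agent.Lib.P101.JOZ

/-! The tensor product of two dimension drop algebras, as functions on the square. -/

namespace Vale.Agent.Lib.P101.J

set_option linter.unusedSectionVars false
set_option linter.unusedSimpArgs false

open scoped Kronecker Matrix.Norms.L2Operator unitInterval ComplexOrder

attribute [local instance] CStarAlgebra.spectralOrder CStarAlgebra.spectralOrderedRing

noncomputable section

section LocalGlobal

variable {Y : Type*} [CStarAlgebra Y] {κ : Type*} [Fintype κ]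

lemma real_one_mono {a b : ℝ} (h : a ≤ b) : ((a : ℝ) : ℂ) • (1 : Y) ≤ ((b : ℝ) : ℂ) • (1 : Y) := by
  set c : Y := ((Real.sqrt (b - a) : ℝ) : ℂ) • (1 : Y) with hc
  have e : ((b : ℝ) : ℂ) • (1 : Y) = ((a : ℝ) : ℂ) • (1 : Y) + star c * c := by
    rw [hc, star_smul, star_one, smul_mul_smul_comm, mul_one]
    have h2 : star ((Real.sqrt (b - a) : ℝ) : ℂ) * ((Real.sqrt (b - a) : ℝ) : ℂ)
        = (((Real.sqrt (b - a)) * (Real.sqrt (b - a)) : ℝ) : ℂ) := by
      simp
    rw [h2, Real.mul_self_sqrt (by linarith), ← add_smul]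
    congr 1
    push_cast
    ring
  rw [e]
  exact le_add_of_nonneg_right (star_mul_self_nonneg c)

/-- From local norm estimates to a global one. -/
theorem norm_le_of_local (x : Y) (r t : κ → Y) (hr : ∀ k, star (r k) = r k)
    (hc : ∀ k, r k * x = x * r k) (htr : ∀ k, t k * r k = r k) (hs : ∑ k, r k * r k = 1)
    {Λ : ℝ} (hΛ : 0 ≤ Λ) (hb : ∀ k, ‖x * t k‖ ≤ Λ) : ‖x‖ ≤ Λ := by
  have hc' : ∀ k, r k * star x = star x * r k := by
    intro k
    have := congrArg star (hc k)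
    simp only [star_mul, hr] at this
    exact this.symm
  have e1 : star x * x = ∑ k, r k * (star x * x) * r k := by
    calc star x * x = star x * x * ∑ k, r k * r k := by rw [hs, mul_one]
      _ = ∑ k, star x * x * (r k * r k) := Finset.mul_sum _ _ _
      _ = _ := by
        refine Finset.sum_congr rfl fun k _ => ?_
        calc star x * x * (r k * r k) = star x * (x * r k) * r k := by noncomm_ring
          _ = star x * (r k * x) * r k := by rw [hc]
          _ = (star x * r k) * x * r k := by noncomm_ring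
          _ = (r k * star x) * x * r k := by rw [hc']
          _ = _ := by noncomm_ring
  have e2 : ∀ k, r k * (star x * x) * r k ≤ ((Λ ^ 2 : ℝ) : ℂ) • (r k * r k) := by
    intro k
    have h1 : x * r k = (x * t k) * r k := by rw [mul_assoc, htr]
    have h2 : r k * (star x * x) * r k = star (x * r k) * (x * r k) := by
      rw [star_mul, hr]
      calc r k * (star x * x) * r k = (r k * star x) * (x * r k) := by noncomm_ring
        _ = _ := rfl
    rw [h2, h1, star_mul, hr]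
    have h3 : star (x * t k) * (x * t k) ≤ ((‖x * t k‖ ^ 2 : ℝ) : ℂ) • (1 : Y) := by
      have h30 : star (x * t k) * (x * t k) ≤ algebraMap ℝ Y (‖x * t k‖ ^ 2) :=
        CStarAlgebra.star_mul_le_algebraMap_norm_sq
      rwa [Algebra.algebraMap_eq_smul_one, ← Complex.coe_smul] at h30
    have h4 : ((‖x * t k‖ ^ 2 : ℝ) : ℂ) • (1 : Y) ≤ ((Λ ^ 2 : ℝ) : ℂ) • (1 : Y) :=
      real_one_mono (pow_le_pow_left₀ (norm_nonneg _) (hb k) 2)
    have h5 := star_left_conjugate_le_conjugate (h3.trans h4) (r k)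
    rw [hr] at h5
    calc r k * star (x * t k) * ((x * t k) * r k)
        = r k * (star (x * t k) * (x * t k)) * r k := by noncomm_ring
      _ ≤ r k * (((Λ ^ 2 : ℝ) : ℂ) • (1 : Y)) * r k := h5
      _ = _ := by
        rw [mul_smul_comm, smul_mul_assoc, mul_one]
  have e3 : star x * x ≤ ((Λ ^ 2 : ℝ) : ℂ) • (1 : Y) := by
    rw [e1, ← hs, Finset.smul_sum]
    exact Finset.sum_le_sum fun k _ => e2 k
  have e4 := CStarAlgebra.norm_le_norm_of_nonneg_of_le (star_mul_self_nonneg x) e3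
  rw [CStarRing.norm_star_mul_self, norm_smul, Complex.norm_real, Real.norm_eq_abs,
    abs_of_nonneg (by positivity)] at e4
  have e5 : ‖(1 : Y)‖ ≤ 1 := norm_one_le'
  have e6 : ‖x‖ * ‖x‖ ≤ Λ * Λ := by nlinarith [sq_nonneg Λ]
  exact abs_le_of_sq_le_sq' (by nlinarith) hΛ |>.2

end LocalGlobal

section Graph

universe u

variable {A Z X Y : Type u} [CStarAlgebra A] [CStarAlgebra Z] [CStarAlgebra X] [CStarAlgebra Y]

/-- A homomorphism on the generated algebra from a norm bound. -/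
theorem hom_of_bound (ιX : A →⋆ₐ[ℂ] X) (ψX : Z →⋆ₐ[ℂ] X) (hc : ∀ a z, ιX a * ψX z = ψX z * ιX a)
    (hdense : Dense (prodSub ιX ψX hc : Set X)) (α' : A →⋆ₐ[ℂ] Y) (β : Z →⋆ₐ[ℂ] Y)
    (hαβ : ∀ a z, α' a * β z = β z * α' a)
    (hbound : ∀ p ∈ prodSub (ιX.prod α') (ψX.prod β) (fun a z => Prod.ext (hc a z) (hαβ a z)),
      ‖p.2‖ ≤ ‖p.1‖) :
    ∃ γ : X →⋆ₐ[ℂ] Y, (∀ a, γ (ιX a) = α' a) ∧ ∀ z, γ (ψX z) = β z := by
  have hc' : ∀ a z, (ιX.prod α') a * (ψX.prod β) z = (ψX.prod β) z * (ιX.prod α') a :=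
    fun a z => Prod.ext (hc a z) (hαβ a z)
  let E₀ := prodSub (ιX.prod α') (ψX.prod β) hc'
  have hdE : Dense (Prod.fst '' (E₀ : Set (X × Y))) := by
    refine hdense.mono ?_
    intro x hx
    refine Submodule.span_induction (p := fun x _ => x ∈ Prod.fst '' (E₀ : Set (X × Y))) ?_ ?_ ?_ ?_ hx
    · rintro _ ⟨a, z, rfl⟩
      exact ⟨(ιX a * ψX z, α' a * β z), gen_mem_prodSub (f := ιX.prod α') (g := ψX.prod β) a z, rfl⟩
    · exact ⟨0, zero_mem _, rfl⟩
    · rintro x y _ _ ⟨p, hp, rfl⟩ ⟨q, hq, rfl⟩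
      exact ⟨p + q, add_mem hp hq, rfl⟩
    · rintro r x _ ⟨p, hp, rfl⟩
      exact ⟨r • p, SMulMemClass.smul_mem r hp, rfl⟩
  obtain ⟨γ, hγ⟩ := hom_of_graph E₀ hbound hdE
  refine ⟨γ, fun a => ?_, fun z => ?_⟩
  · have h1 := hγ _ (gen_mem_prodSub (f := ιX.prod α') (g := ψX.prod β) (hc := hc') a 1)
    simpa using h1
  · have h1 := hγ _ (gen_mem_prodSub (f := ιX.prod α') (g := ψX.prod β) (hc := hc') 1 z)
    simpa using h1

end Graph

section Fib

variable {p q : ℕ}

/-- A description of a fibre of a dimension drop algebra as a matrix algebra. -/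
structure Fb (p q : ℕ) where
  n : Type
  r : Type
  [fn : Fintype n]
  [dn : DecidableEq n]
  [fr : Fintype r]
  [dr : DecidableEq r]
  [ne : Nonempty r]
  κ : HH p q ≃ n × r

attribute [instance] Fb.fn Fb.dn Fb.fr Fb.dr Fb.ne

/-- The embedding of the fibre. -/
def Fb.j (F : Fb p q) : Matrix F.n F.n ℂ →⋆ₐ[ℂ] MH p q := (rx F.κ).comp krL

lemma Fb.j_apply (F : Fb p q) (a : Matrix F.n F.n ℂ) (u v : HH p q) :
    F.j a u v = a (F.κ u).1 (F.κ v).1 * (1 : Matrix F.r F.r ℂ) (F.κ u).2 (F.κ v).2 := rfl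

/-- The description is the correct one at a point. -/
def Fb.Good (F : Fb p q) (s₀ : I) : Prop :=
  (∀ X : MH p q, Fibr s₀ X → ∃ a, X = F.j a) ∧ ∀ a, Fibr s₀ (F.j a)

lemma zero_ne_one_I : (0 : I) ≠ 1 := by
  intro h
  have := congrArg Subtype.val h
  simp at this

theorem exists_good [NeZero p] [NeZero q] (s₀ : I) : ∃ F : Fb p q, F.Good s₀ := by
  by_cases h0 : s₀ = 0
  · subst h0
    let F : Fb p q := { n := Fin p, r := Fin q, κ := Equiv.refl _ }
    have hj : ∀ a : Matrix (Fin p) (Fin p) ℂ, F.j a = a ⊗ₖ (1 : Matrix (Fin q) (Fin q) ℂ) :=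
      fun a => rfl
    refine ⟨F, fun X hX => ?_, fun a => ⟨fun _ => ⟨a, hj a⟩, fun h => absurd h zero_ne_one_I⟩⟩
    obtain ⟨a, ha⟩ := hX.1 rfl
    exact ⟨a, ha⟩
  · by_cases h1 : s₀ = 1
    · subst h1
      let F : Fb p q := { n := Fin q, r := Fin p, κ := Equiv.prodComm _ _ }
      have hj : ∀ a : Matrix (Fin q) (Fin q) ℂ, F.j a = (1 : Matrix (Fin p) (Fin p) ℂ) ⊗ₖ a := by
        intro a
        ext u v
        rw [Fb.j_apply]
        show a u.2 v.2 * (1 : Matrix (Fin p) (Fin p) ℂ) u.1 v.1 = _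
        rw [mul_comm]
        rfl
      refine ⟨F, fun X hX => ?_, fun a => ⟨fun h => absurd h.symm zero_ne_one_I, fun _ => ⟨a, hj a⟩⟩⟩
      obtain ⟨a, ha⟩ := hX.2 rfl
      exact ⟨a, ha.trans (hj a).symm⟩
    · let F : Fb p q := { n := HH p q, r := Unit, κ := (Equiv.prodPUnit _).symm }
      have hj : ∀ a : MH p q, F.j a = a := by
        intro a
        ext u v
        rw [Fb.j_apply]
        simp [F]
      refine ⟨F, fun X _ => ⟨X, (hj X).symm⟩, fun a => ⟨fun h => absurd h h0, fun h => absurd h h1⟩⟩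

lemma fibr_one (s : I) : Fibr s (1 : MH p q) := by
  refine ⟨fun _ => ⟨1, ?_⟩, fun _ => ⟨1, ?_⟩⟩ <;> simp

/-- Central elements. -/
def cen (h : C(I, ℝ)) : DP p q :=
  bump h 1 (fun _ => ⟨1, by simp⟩) (fun _ => ⟨1, by simp⟩)

@[simp] lemma cen_apply (h : C(I, ℝ)) (s : I) : (cen h : DP p q).1 s = ((h s : ℝ) : ℂ) • 1 := rfl

lemma cen_comm (h : C(I, ℝ)) (f : DP p q) : cen h * f = f * cen h := by
  apply Subtype.ext
  ext1 s
  show (cen h : DP p q).1 s * f.1 s = f.1 s * (cen h : DP p q).1 s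
  rw [cen_apply, smul_mul_assoc, mul_smul_comm, one_mul, mul_one]

lemma cen_star (h : C(I, ℝ)) : star (cen h : DP p q) = cen h := by
  apply Subtype.ext
  ext1 s
  show star ((cen h : DP p q).1 s) = (cen h : DP p q).1 s
  rw [cen_apply, star_smul, star_one, Complex.star_def, Complex.conj_ofReal]

lemma cen_norm_le (h : C(I, ℝ)) (h0 : ∀ s, |h s| ≤ 1) : ‖(cen h : DP p q)‖ ≤ 1 := by
  refine norm_dp_le zero_le_one fun s => ?_
  rw [cen_apply, norm_smul, Complex.norm_real, Real.norm_eq_abs]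
  have h1 : ‖(1 : MH p q)‖ ≤ 1 := norm_one_le'
  calc |h s| * ‖(1 : MH p q)‖ ≤ 1 * 1 := by
        gcongr
        exact h0 s
    _ = 1 := by ring

lemma cen_mul (h h' : C(I, ℝ)) : (cen h : DP p q) * cen h' = cen (h * h') := by
  apply Subtype.ext
  ext1 s
  show (cen h : DP p q).1 s * (cen h' : DP p q).1 s = (cen (h * h') : DP p q).1 s
  simp only [cen_apply, ContinuousMap.mul_apply, smul_mul_assoc, mul_smul_comm, mul_one, smul_smul,
    Complex.ofReal_mul]
  rw [mul_comm]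

lemma cen_sum {ι : Type*} (T : Finset ι) (h : ι → C(I, ℝ)) :
    ∑ i ∈ T, (cen (h i) : DP p q) = cen (∑ i ∈ T, h i) := by
  apply Subtype.ext
  ext1 s
  show (∑ i ∈ T, (cen (h i) : DP p q)).1 s = (cen (∑ i ∈ T, h i) : DP p q).1 s
  rw [sum_apply']
  simp only [cen_apply, ContinuousMap.sum_apply, Complex.ofReal_sum, Finset.sum_smul]

lemma cen_one : (cen 1 : DP p q) = 1 := by
  apply Subtype.ext
  ext1 s
  show (cen 1 : DP p q).1 s = 1
  simp

/-- The linear map from the fibre matrices. -/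
def bl (F : Fb p q) {s₀ : I} (hF : F.Good s₀) (h : C(I, ℝ)) (h0 : h 0 ≠ 0 → s₀ = 0)
    (h1 : h 1 ≠ 0 → s₀ = 1) : Matrix F.n F.n ℂ →ₗ[ℂ] DP p q where
  toFun a := bump h (F.j a) (fun hh => (hF.2 a).1 (h0 hh)) (fun hh => (hF.2 a).2 (h1 hh))
  map_add' a b := by
    apply Subtype.ext
    ext1 s
    simp only [bump_apply, map_add, smul_add]
    rfl
  map_smul' r a := by
    apply Subtype.ext
    ext1 s
    simp only [bump_apply, map_smul, RingHom.id_apply]
    rw [smul_comm]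
    rfl

variable {F : Fb p q} {s₀ : I} {hF : F.Good s₀} {h : C(I, ℝ)} {h0 : h 0 ≠ 0 → s₀ = 0}
  {h1 : h 1 ≠ 0 → s₀ = 1}

@[simp] lemma bl_apply (a : Matrix F.n F.n ℂ) (s : I) :
    (bl F hF h h0 h1 a).1 s = ((h s : ℝ) : ℂ) • F.j a := rfl

lemma bl_one : bl F hF h h0 h1 1 = cen h := by
  apply Subtype.ext
  ext1 s
  simp only [bl_apply, map_one]
  rfl

lemma bl_mul (a a' : Matrix F.n F.n ℂ) :
    bl F hF h h0 h1 a * bl F hF h h0 h1 a' = cen h * bl F hF h h0 h1 (a * a') := by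
  apply Subtype.ext
  ext1 s
  show (bl F hF h h0 h1 a).1 s * (bl F hF h h0 h1 a').1 s
    = (cen h : DP p q).1 s * (bl F hF h h0 h1 (a * a')).1 s
  simp only [bl_apply, cen_apply, map_mul, smul_mul_assoc, mul_smul_comm, one_mul]

lemma bl_star (a : Matrix F.n F.n ℂ) :
    star (bl F hF h h0 h1 a) = bl F hF h h0 h1 (star a) := by
  apply Subtype.ext
  ext1 s
  show star ((bl F hF h h0 h1 a).1 s) = (bl F hF h h0 h1 (star a)).1 s
  simp only [bl_apply, star_smul, map_star, Complex.star_def, Complex.conj_ofReal]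

end Fib

end

end Vale.Agent.Lib.P101.J
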