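import Vale.Agent.Lib.P101.JTens

/-! The tensor product of two dimension drop algebras: the homomorphism to a commuting pair. -/

namespace Vale.Agent.Lib.P101.J

set_option linter.unusedSectionVars false
set_option linter.unusedSimpArgs false
set_option linter.unusedVariables false

open scoped Kronecker Matrix.Norms.L2Operator unitInterval ComplexOrder

noncomputable section

variable {p q : ℕ}

/-- The matrices on the tensor product. -/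
abbrev M2 (p q : ℕ) : Type := Matrix (HH p q × HH p q) (HH p q × HH p q) ℂ

lemma krL_mul_krR {J L : Type} [Fintype J] [DecidableEq J] [Fintype L] [DecidableEq L]
    (X : Matrix J J ℂ) (Y : Matrix L L ℂ) :
    krL (L := L) X * krR (J := J) Y = X ⊗ₖ Y := by
  show (X ⊗ₖ (1 : Matrix L L ℂ)) * ((1 : Matrix J J ℂ) ⊗ₖ Y) = _
  rw [← Matrix.mul_kronecker_mul, mul_one, one_mul]

lemma krR_mul_krL {J L : Type} [Fintype J] [DecidableEq J] [Fintype L] [DecidableEq L]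
    (X : Matrix J J ℂ) (Y : Matrix L L ℂ) :
    krR (J := J) Y * krL (L := L) X = X ⊗ₖ Y := by
  show ((1 : Matrix J J ℂ) ⊗ₖ Y) * (X ⊗ₖ (1 : Matrix L L ℂ)) = _
  rw [← Matrix.mul_kronecker_mul, mul_one, one_mul]

lemma krL_krR_comm {J L : Type} [Fintype J] [DecidableEq J] [Fintype L] [DecidableEq L]
    (X : Matrix J J ℂ) (Y : Matrix L L ℂ) :
    krL (L := L) X * krR (J := J) Y = krR (J := J) Y * krL (L := L) X := by
  rw [krL_mul_krR, krR_mul_krL]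

/-- The equivalence used for the embedding of the tensor product of fibres. -/
def eJ (F₁ F₂ : Fb p q) : HH p q × HH p q ≃ (F₁.n × F₂.n) × (F₁.r × F₂.r) :=
  (Equiv.prodCongr F₁.κ F₂.κ).trans (Equiv.prodProdProdComm _ _ _ _)

/-- The embedding of the tensor product of fibres. -/
def JJ (F₁ F₂ : Fb p q) : Matrix (F₁.n × F₂.n) (F₁.n × F₂.n) ℂ →⋆ₐ[ℂ] M2 p q :=
  (rx (eJ F₁ F₂)).comp krL

lemma JJ_injective (F₁ F₂ : Fb p q) : Function.Injective (JJ F₁ F₂) :=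
  (rx_injective _).comp krL_injective

lemma JJ_norm (F₁ F₂ : Fb p q) (Z : Matrix (F₁.n × F₂.n) (F₁.n × F₂.n) ℂ) :
    ‖JJ F₁ F₂ Z‖ = ‖Z‖ :=
  NonUnitalStarAlgHom.norm_map (JJ F₁ F₂) (JJ_injective F₁ F₂) Z

lemma JJ_kron (F₁ F₂ : Fb p q) (a : Matrix F₁.n F₁.n ℂ) (b : Matrix F₂.n F₂.n ℂ) :
    JJ F₁ F₂ (a ⊗ₖ b) = krL (F₁.j a) * krR (F₂.j b) := by
  rw [krL_mul_krR]
  ext u v
  show a (F₁.κ u.1).1 (F₁.κ v.1).1 * b (F₂.κ u.2).1 (F₂.κ v.2).1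
      * (1 : Matrix (F₁.r × F₂.r) (F₁.r × F₂.r) ℂ) ((F₁.κ u.1).2, (F₂.κ u.2).2)
        ((F₁.κ v.1).2, (F₂.κ v.2).2)
    = (a (F₁.κ u.1).1 (F₁.κ v.1).1 * (1 : Matrix F₁.r F₁.r ℂ) (F₁.κ u.1).2 (F₁.κ v.1).2)
      * (b (F₂.κ u.2).1 (F₂.κ v.2).1 * (1 : Matrix F₂.r F₂.r ℂ) (F₂.κ u.2).2 (F₂.κ v.2).2)
  by_cases h1 : (F₁.κ u.1).2 = (F₁.κ v.1).2
  · by_cases h2 : (F₂.κ u.2).2 = (F₂.κ v.2).2
    · simp [h1, h2, Matrix.one_apply]
    · simp [h1, h2, Matrix.one_apply]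
  · simp [h1, Matrix.one_apply]

/-- The functions on the square. -/
def WW (p q : ℕ) : Type := C(I × I, M2 p q)

instance instWW : CStarAlgebra (WW p q) := inferInstanceAs (CStarAlgebra C(I × I, M2 p q))

/-- Evaluation of functions on the square. -/
def ev (u : WW p q) (z : I × I) : M2 p q := ContinuousMap.toFun u z

lemma ev_mul (u v : WW p q) (z) : ev (u * v) z = ev u z * ev v z := rfl
lemma ev_add (u v : WW p q) (z) : ev (u + v) z = ev u z + ev v z := rfl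
lemma ev_sub (u v : WW p q) (z) : ev (u - v) z = ev u z - ev v z := rfl
lemma ev_star (u : WW p q) (z) : ev (star u) z = star (ev u z) := rfl
lemma ev_one (z) : ev (1 : WW p q) z = 1 := rfl
lemma ev_zero (z) : ev (0 : WW p q) z = 0 := rfl
lemma ev_smul (r : ℂ) (u : WW p q) (z) : ev (r • u) z = r • ev u z := rfl
lemma ev_norm (u : WW p q) (z) : ‖ev u z‖ ≤ ‖u‖ := ContinuousMap.norm_coe_le_norm (E := M2 p q) u z

lemma ev_continuous (u : WW p q) : Continuous (ev u) := ContinuousMap.continuous (Y := M2 p q) u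

lemma WW_ext {u v : WW p q} (h : ∀ z, ev u z = ev v z) : u = v := ContinuousMap.ext h

/-- Constructing functions on the square. -/
def mkW (F : I × I → M2 p q) (hF : Continuous F) : WW p q := (⟨F, hF⟩ : C(I × I, M2 p q))

@[simp] lemma ev_mkW (F : I × I → M2 p q) (hF : Continuous F) (z) : ev (mkW F hF) z = F z := rfl

lemma norm_WW_le {u : WW p q} {C : ℝ} (hC : 0 ≤ C) (h : ∀ z, ‖ev u z‖ ≤ C) : ‖u‖ ≤ C :=
  (ContinuousMap.norm_le (E := M2 p q) u hC).2 h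

/-- The first embedding in the functions on the square. -/
def LL : DP p q →⋆ₐ[ℂ] WW p q where
  toFun f := mkW (fun z => krL (f.1 z.1))
    ((star_hom_continuous (krL (J := HH p q) (L := HH p q))).comp
      (f.1.continuous.comp continuous_fst))
  map_one' := WW_ext fun z => map_one krL
  map_mul' f g := WW_ext fun z => map_mul krL _ _
  map_zero' := WW_ext fun z => map_zero krL
  map_add' f g := WW_ext fun z => map_add krL _ _
  commutes' r := WW_ext fun z => AlgHomClass.commutes krL r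
  map_star' f := WW_ext fun z => map_star krL _

/-- The second embedding in the functions on the square. -/
def RR : DP p q →⋆ₐ[ℂ] WW p q where
  toFun f := mkW (fun z => krR (f.1 z.2))
    ((star_hom_continuous (krR (J := HH p q) (L := HH p q))).comp
      (f.1.continuous.comp continuous_snd))
  map_one' := WW_ext fun z => map_one krR
  map_mul' f g := WW_ext fun z => map_mul krR _ _
  map_zero' := WW_ext fun z => map_zero krR
  map_add' f g := WW_ext fun z => map_add krR _ _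
  commutes' r := WW_ext fun z => AlgHomClass.commutes krR r
  map_star' f := WW_ext fun z => map_star krR _

@[simp] lemma LL_apply (f : DP p q) (z : I × I) : ev (LL f) z = krL (f.1 z.1) := rfl
@[simp] lemma RR_apply (f : DP p q) (z : I × I) : ev (RR f) z = krR (f.1 z.2) := rfl

lemma hLR (f g : DP p q) : LL f * RR g = RR g * LL f :=
  WW_ext fun z => krL_krR_comm _ _

section Pair

variable {Y : Type} [CStarAlgebra Y]

/-- The linear map from the fibre matrices to the target. -/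
def pi (c : DP p q →⋆ₐ[ℂ] Y) (F : Fb p q) {s₀ : I} (hF : F.Good s₀) (h : C(I, ℝ))
    (h0 : h 0 ≠ 0 → s₀ = 0) (h1 : h 1 ≠ 0 → s₀ = 1) : Matrix F.n F.n ℂ →ₗ[ℂ] Y :=
  c.toAlgHom.toLinearMap ∘ₗ bl F hF h h0 h1

@[simp] lemma pi_apply (c : DP p q →⋆ₐ[ℂ] Y) (F : Fb p q) {s₀ : I} (hF : F.Good s₀) (h : C(I, ℝ))
    (h0 : h 0 ≠ 0 → s₀ = 0) (h1 : h 1 ≠ 0 → s₀ = 1) (a : Matrix F.n F.n ℂ) :
    pi c F hF h h0 h1 a = c (bl F hF h h0 h1 a) := rfl

variable (c d : DP p q →⋆ₐ[ℂ] Y) (hcd : ∀ x y, c x * d y = d y * c x)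

include hcd in
/-- The order zero property. -/
lemma oz_pi {F₁ F₂ : Fb p q} {s₀ t₀ : I} (hF₁ : F₁.Good s₀) (hF₂ : F₂.Good t₀) {h₁ h₂ : C(I, ℝ)}
    (h10 : h₁ 0 ≠ 0 → s₀ = 0) (h11 : h₁ 1 ≠ 0 → s₀ = 1) (h20 : h₂ 0 ≠ 0 → t₀ = 0)
    (h21 : h₂ 1 ≠ 0 → t₀ = 1) (hn₁ : ∀ s, |h₁ s| ≤ 1) (hn₂ : ∀ s, |h₂ s| ≤ 1) :
    OZ (pi c F₁ hF₁ h₁ h10 h11) (pi d F₂ hF₂ h₂ h20 h21) (c (cen h₁)) (d (cen h₂)) where
  m₁ a a' := by
    simp only [pi_apply]
    rw [← map_mul, bl_mul, map_mul]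
  m₂ a a' := by
    simp only [pi_apply]
    rw [← map_mul, bl_mul, map_mul]
  s₁ a := by
    simp only [pi_apply]
    rw [← map_star, bl_star]
  s₂ a := by
    simp only [pi_apply]
    rw [← map_star, bl_star]
  c a b := hcd _ _
  o₁ := by
    simp only [pi_apply]
    rw [bl_one]
  o₂ := by
    simp only [pi_apply]
    rw [bl_one]
  n₁ := (NonUnitalStarAlgHom.norm_apply_le c _).trans (cen_norm_le _ hn₁)
  n₂ := (NonUnitalStarAlgHom.norm_apply_le d _).trans (cen_norm_le _ hn₂)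

/-- The local approximation for elementary tensors. -/
lemma bump_diff (f : DP p q) {F : Fb p q} {s₀ : I} (hF : F.Good s₀) {h : C(I, ℝ)}
    (h0 : h 0 ≠ 0 → s₀ = 0) (h1 : h 1 ≠ 0 → s₀ = 1) (hn : ∀ s, |h s| ≤ 1) {a : Matrix F.n F.n ℂ}
    (ha : f.1 s₀ = F.j a) {η ρ : ℝ} (hη : 0 ≤ η) (hρ : ∀ s s' : I, |(s : ℝ) - s'| < ρ → ‖f.1 s - f.1 s'‖ < η)
    (hs : ∀ s, h s ≠ 0 → |(s : ℝ) - s₀| < ρ) : ‖f * cen h - bl F hF h h0 h1 a‖ ≤ η := by
  refine norm_dp_le hη fun s => ?_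
  show ‖f.1 s * (cen h : DP p q).1 s - ((h s : ℝ) : ℂ) • F.j a‖ ≤ η
  rw [cen_apply, mul_smul_comm, mul_one, ← smul_sub, ← ha, norm_smul, Complex.norm_real,
    Real.norm_eq_abs]
  by_cases h2 : h s = 0
  · simp [h2, hη]
  · calc |h s| * ‖f.1 s - f.1 s₀‖ ≤ 1 * η := by
          gcongr
          · exact hn s
          · exact (hρ _ _ (hs s h2)).le
      _ = η := one_mul _

lemma bl_norm_le {F : Fb p q} {s₀ : I} (hF : F.Good s₀) {h : C(I, ℝ)}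
    (h0 : h 0 ≠ 0 → s₀ = 0) (h1 : h 1 ≠ 0 → s₀ = 1) (hn : ∀ s, |h s| ≤ 1) (a : Matrix F.n F.n ℂ) :
    ‖bl F hF h h0 h1 a‖ ≤ ‖F.j a‖ := by
  refine norm_dp_le (norm_nonneg _) fun s => ?_
  rw [bl_apply, norm_smul, Complex.norm_real, Real.norm_eq_abs]
  calc |h s| * ‖F.j a‖ ≤ 1 * ‖F.j a‖ := by
        gcongr
        exact hn s
    _ = _ := one_mul _

/-- The local approximation property. -/
def LocalP (P₁ : WW p q) (P₂ : Y) : Prop :=
  ∀ η > 0, ∃ ρ > 0, ∀ (s₀ t₀ : I) (F₁ F₂ : Fb p q) (hF₁ : F₁.Good s₀) (hF₂ : F₂.Good t₀)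
    (h₁ h₂ : C(I, ℝ)) (h10 : h₁ 0 ≠ 0 → s₀ = 0) (h11 : h₁ 1 ≠ 0 → s₀ = 1)
    (h20 : h₂ 0 ≠ 0 → t₀ = 0) (h21 : h₂ 1 ≠ 0 → t₀ = 1), (∀ s, |h₁ s| ≤ 1) → (∀ s, |h₂ s| ≤ 1) →
    (∀ s, h₁ s ≠ 0 → |(s : ℝ) - s₀| < ρ) → (∀ t, h₂ t ≠ 0 → |(t : ℝ) - t₀| < ρ) →
    ∃ Z, JJ F₁ F₂ Z = ev P₁ (s₀, t₀) ∧
      ‖P₂ * (c (cen h₁) * d (cen h₂)) -
        Phi (pi c F₁ hF₁ h₁ h10 h11) (pi d F₂ hF₂ h₂ h20 h21) Z‖ ≤ η

include hcd in
lemma localP_gen (f g : DP p q) :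
    LocalP c d (LL f * RR g) (c f * d g) := by
  intro η hη
  set A : ℝ := ‖f‖ + ‖g‖ + 1 with hA
  have hA0 : 0 < A := by positivity
  obtain ⟨ρ₁, hρ₁, h1⟩ := exists_delta f.1 (div_pos hη hA0)
  obtain ⟨ρ₂, hρ₂, h2⟩ := exists_delta g.1 (div_pos hη hA0)
  refine ⟨min ρ₁ ρ₂, lt_min hρ₁ hρ₂, ?_⟩
  intro s₀ t₀ F₁ F₂ hF₁ hF₂ h₁ h₂ h10 h11 h20 h21 hn₁ hn₂ hs₁ hs₂
  obtain ⟨a, ha⟩ := hF₁.1 _ (fibr_of_dp f s₀)
  obtain ⟨b, hb⟩ := hF₂.1 _ (fibr_of_dp g t₀)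
  refine ⟨a ⊗ₖ b, ?_, ?_⟩
  · rw [JJ_kron, ← ha, ← hb]
    rfl
  · rw [Phi_kron]
    simp only [pi_apply]
    show ‖c f * d g * (c (cen h₁) * d (cen h₂)) - c (bl F₁ hF₁ h₁ h10 h11 a) * d (bl F₂ hF₂ h₂ h20 h21 b)‖ ≤ η
    have e : c f * d g * (c (cen h₁) * d (cen h₂)) - c (bl F₁ hF₁ h₁ h10 h11 a) * d (bl F₂ hF₂ h₂ h20 h21 b)
        = c (f * cen h₁ - bl F₁ hF₁ h₁ h10 h11 a) * d (g * cen h₂)
          + c (bl F₁ hF₁ h₁ h10 h11 a) * d (g * cen h₂ - bl F₂ hF₂ h₂ h20 h21 b) := by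
      simp only [map_mul, map_sub]
      calc c f * d g * (c (cen h₁) * d (cen h₂)) - c (bl F₁ hF₁ h₁ h10 h11 a) * d (bl F₂ hF₂ h₂ h20 h21 b)
          = c f * (d g * c (cen h₁)) * d (cen h₂) - c (bl F₁ hF₁ h₁ h10 h11 a) * d (bl F₂ hF₂ h₂ h20 h21 b) := by
            noncomm_ring
        _ = c f * (c (cen h₁) * d g) * d (cen h₂) - c (bl F₁ hF₁ h₁ h10 h11 a) * d (bl F₂ hF₂ h₂ h20 h21 b) := by
            rw [hcd (cen h₁) g]
        _ = _ := by noncomm_ring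
    rw [e]
    have h3 := bump_diff f hF₁ h10 h11 hn₁ ha (div_pos hη hA0).le
      (fun s s' hss => h1 s s' (hss.trans_le (min_le_left _ _)))
      (fun s hs => (hs₁ s hs).trans_le (le_refl _))
    have h4 := bump_diff g hF₂ h20 h21 hn₂ hb (div_pos hη hA0).le
      (fun s s' hss => h2 s s' (hss.trans_le (min_le_right _ _)))
      (fun s hs => (hs₂ s hs).trans_le (le_refl _))
    have h5 : ‖g * cen h₂‖ ≤ ‖g‖ := by
      refine (norm_mul_le _ _).trans ?_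
      have := cen_norm_le (p := p) (q := q) h₂ hn₂
      nlinarith [norm_nonneg g, norm_nonneg (cen h₂ : DP p q)]
    have h6 : ‖bl F₁ hF₁ h₁ h10 h11 a‖ ≤ ‖f‖ := by
      refine (bl_norm_le hF₁ h10 h11 hn₁ a).trans ?_
      rw [← ha]
      exact norm_apply_le f s₀
    have n1 := NonUnitalStarAlgHom.norm_apply_le c (f * cen h₁ - bl F₁ hF₁ h₁ h10 h11 a)
    have n2 := NonUnitalStarAlgHom.norm_apply_le d (g * cen h₂)
    have n3 := NonUnitalStarAlgHom.norm_apply_le c (bl F₁ hF₁ h₁ h10 h11 a)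
    have n4 := NonUnitalStarAlgHom.norm_apply_le d (g * cen h₂ - bl F₂ hF₂ h₂ h20 h21 b)
    calc ‖c (f * cen h₁ - bl F₁ hF₁ h₁ h10 h11 a) * d (g * cen h₂)
          + c (bl F₁ hF₁ h₁ h10 h11 a) * d (g * cen h₂ - bl F₂ hF₂ h₂ h20 h21 b)‖
        ≤ ‖c (f * cen h₁ - bl F₁ hF₁ h₁ h10 h11 a)‖ * ‖d (g * cen h₂)‖
          + ‖c (bl F₁ hF₁ h₁ h10 h11 a)‖ * ‖d (g * cen h₂ - bl F₂ hF₂ h₂ h20 h21 b)‖ :=
          (norm_add_le _ _).trans (add_le_add (norm_mul_le _ _) (norm_mul_le _ _))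
      _ ≤ (η / A) * ‖g‖ + ‖f‖ * (η / A) :=
          add_le_add (mul_le_mul (n1.trans h3) (n2.trans h5) (norm_nonneg _) (div_pos hη hA0).le)
            (mul_le_mul (n3.trans h6) (n4.trans h4) (norm_nonneg _) (norm_nonneg _))
      _ ≤ η := by
          have : (η / A) * ‖g‖ + ‖f‖ * (η / A) = (η / A) * (‖f‖ + ‖g‖) := by ring
          rw [this, div_mul_eq_mul_div, div_le_iff₀ hA0]
          have : 0 ≤ η := hη.le
          nlinarith [norm_nonneg f, norm_nonneg g]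

end Pair

end

end Vale.Agent.Lib.P101.J
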