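import Vale.Agent.Lib.P101.JTens2

/-! The tensor product of two dimension drop algebras: the homomorphism to a commuting pair. -/

namespace Vale.Agent.Lib.P101.J

set_option linter.unusedSectionVars false
set_option linter.unusedSimpArgs false
set_option linter.unusedVariables false

open scoped Kronecker Matrix.Norms.L2Operator unitInterval ComplexOrder

noncomputable section

variable {p q : ℕ}

section Abstract

variable {D W Y : Type} [CStarAlgebra D] [CStarAlgebra W] [CStarAlgebra Y]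

/-- Transfer of unitaries from the generated algebra to a commuting pair. -/
theorem transfer (f g : D →⋆ₐ[ℂ] W) (hfg : ∀ a z, f a * g z = g z * f a) (c d : D →⋆ₐ[ℂ] Y)
    (hcd : ∀ a z, c a * d z = d z * c a) (Loc : W → Y → Prop) (h0 : Loc 0 0)
    (hadd : ∀ x x' y y', Loc x y → Loc x' y' → Loc (x + x') (y + y'))
    (hsmul : ∀ (r : ℂ) x y, Loc x y → Loc (r • x) (r • y))
    (hgen : ∀ a z, Loc (f a * g z) (c a * d z)) (hb : ∀ x y, Loc x y → ‖y‖ ≤ ‖x‖)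
    (u : W) (hu : u ∈ closure (prodSub f g hfg : Set W)) (hu1 : star u * u = 1)
    (hu2 : u * star u = 1) :
    ∃ w : Y, star w * w = 1 ∧ w * star w = 1 ∧ ∀ z, ‖w * c z * star w - d z‖ ≤ ‖u * f z * star u - g z‖ := by
  obtain ⟨Θ, hΘ1, hΘ2⟩ := hom_of_bound (fX f g hfg) (gX f g hfg) (hX f g hfg) (dense_X f g hfg) c d hcd (by
    intro x hx
    have key : Loc (x.1 : W) x.2 := by
      refine Submodule.span_induction (p := fun x _ => Loc (x.1 : W) x.2) ?_ h0 ?_ ?_ hx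
      · rintro _ ⟨a, z, rfl⟩
        exact hgen a z
      · intro x y _ _ h1 h2
        exact hadd _ _ _ _ h1 h2
      · intro r x _ h1
        exact hsmul r _ _ h1
    exact hb _ _ key)
  let uT : XS f g hfg := ⟨u, hu⟩
  have h1 : star uT * uT = 1 := Subtype.ext hu1
  have h2 : uT * star uT = 1 := Subtype.ext hu2
  refine ⟨Θ uT, ?_, ?_, fun z => ?_⟩
  · rw [← map_star, ← map_mul, h1, map_one]
  · rw [← map_star, ← map_mul, h2, map_one]
  · rw [← hΘ1, ← hΘ2, ← map_star, ← map_mul, ← map_mul, ← map_sub]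
    exact (NonUnitalStarAlgHom.norm_apply_le Θ _).trans (le_refl _)

end Abstract

section Pair

variable {Y : Type} [CStarAlgebra Y] {c d : DP p q →⋆ₐ[ℂ] Y}

lemma LocalP.add {P₁ P₁' : WW p q} {P₂ P₂' : Y} (h : LocalP c d P₁ P₂)
    (h' : LocalP c d P₁' P₂') : LocalP c d (P₁ + P₁') (P₂ + P₂') := by
  intro η hη
  obtain ⟨ρ, hρ, H⟩ := h (η / 2) (half_pos hη)
  obtain ⟨ρ', hρ', H'⟩ := h' (η / 2) (half_pos hη)
  refine ⟨min ρ ρ', lt_min hρ hρ', ?_⟩
  intro s₀ t₀ F₁ F₂ hF₁ hF₂ h₁ h₂ h10 h11 h20 h21 hn₁ hn₂ hs₁ hs₂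
  obtain ⟨Z, hZ, hz⟩ := H s₀ t₀ F₁ F₂ hF₁ hF₂ h₁ h₂ h10 h11 h20 h21 hn₁ hn₂
    (fun s hs => (hs₁ s hs).trans_le (min_le_left _ _))
    (fun s hs => (hs₂ s hs).trans_le (min_le_left _ _))
  obtain ⟨Z', hZ', hz'⟩ := H' s₀ t₀ F₁ F₂ hF₁ hF₂ h₁ h₂ h10 h11 h20 h21 hn₁ hn₂
    (fun s hs => (hs₁ s hs).trans_le (min_le_right _ _))
    (fun s hs => (hs₂ s hs).trans_le (min_le_right _ _))
  refine ⟨Z + Z', ?_, ?_⟩
  · rw [map_add, hZ, hZ']
    rfl
  · rw [Phi_add, add_mul]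
    have e : ∀ a b c e : Y, a + b - (c + e) = (a - c) + (b - e) := fun a b c e => by abel
    rw [e]
    calc _ ≤ _ := norm_add_le _ _
      _ ≤ η / 2 + η / 2 := add_le_add hz hz'
      _ = η := by ring

lemma LocalP.smul {P₁ : WW p q} {P₂ : Y} (h : LocalP c d P₁ P₂) (r : ℂ) :
    LocalP c d (r • P₁) (r • P₂) := by
  intro η hη
  have hr : 0 < ‖r‖ + 1 := by positivity
  obtain ⟨ρ, hρ, H⟩ := h (η / (‖r‖ + 1)) (div_pos hη hr)
  refine ⟨ρ, hρ, ?_⟩
  intro s₀ t₀ F₁ F₂ hF₁ hF₂ h₁ h₂ h10 h11 h20 h21 hn₁ hn₂ hs₁ hs₂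
  obtain ⟨Z, hZ, hz⟩ := H s₀ t₀ F₁ F₂ hF₁ hF₂ h₁ h₂ h10 h11 h20 h21 hn₁ hn₂ hs₁ hs₂
  refine ⟨r • Z, ?_, ?_⟩
  · rw [map_smul, hZ]
    rfl
  · rw [Phi_smul, smul_mul_assoc, ← smul_sub, norm_smul]
    calc ‖r‖ * _ ≤ (‖r‖ + 1) * (η / (‖r‖ + 1)) :=
          mul_le_mul (by linarith) hz (norm_nonneg _) hr.le
      _ = η := by field_simp

lemma LocalP.zero : LocalP c d (0 : WW p q) (0 : Y) := by
  intro η hη
  refine ⟨1, one_pos, ?_⟩
  intro s₀ t₀ F₁ F₂ hF₁ hF₂ h₁ h₂ h10 h11 h20 h21 hn₁ hn₂ hs₁ hs₂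
  refine ⟨0, map_zero _, ?_⟩
  rw [Phi_zero, zero_mul, sub_zero, norm_zero]
  exact hη.le

/-- The square root of a function. -/
def sq (h : C(I, ℝ)) : C(I, ℝ) := ⟨fun s => Real.sqrt (h s), Real.continuous_sqrt.comp h.continuous⟩

@[simp] lemma sq_apply (h : C(I, ℝ)) (s : I) : sq h s = Real.sqrt (h s) := rfl

lemma sq_mul_self (h : C(I, ℝ)) (h0 : ∀ s, 0 ≤ h s) : sq h * sq h = h := by
  ext s
  simp [Real.mul_self_sqrt (h0 s)]

variable (c d)

lemma cd_mul (hcd : ∀ x y, c x * d y = d y * c x) (a a' b b' : DP p q) :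
    (c a * d b) * (c a' * d b') = c (a * a') * d (b * b') := by
  rw [map_mul, map_mul]
  calc c a * d b * (c a' * d b') = c a * (d b * c a') * d b' := by noncomm_ring
    _ = c a * (c a' * d b) * d b' := by rw [hcd a' b]
    _ = _ := by noncomm_ring

theorem tens_bound [NeZero p] [NeZero q] (hcd : ∀ x y, c x * d y = d y * c x)
    {P₁ : WW p q} {P₂ : Y} (hL : LocalP c d P₁ P₂)
    (hcom : ∀ h h' : C(I, ℝ), (c (cen h) * d (cen h')) * P₂ = P₂ * (c (cen h) * d (cen h'))) :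
    ‖P₂‖ ≤ ‖P₁‖ := by
  refine le_of_forall_pos_le_add fun η hη => ?_
  obtain ⟨ρ, hρ, H⟩ := hL η hη
  obtain ⟨K, L, h, h', cc, h2, h3, h4, h5, h6, h7, h8, -⟩ := exists_partition hρ
  choose F hF using fun i => exists_good (p := p) (q := q) (cc i)
  have hh' : ∀ i s, |h' i s| ≤ 1 := fun i s => by
    rw [abs_of_nonneg (h4 i s).1]
    exact (h4 i s).2
  have hsq : ∀ i, (cen (sq (h i)) : DP p q) * cen (sq (h i)) = cen (h i) := fun i => by
    rw [cen_mul, sq_mul_self _ (h2 i)]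
  have hsum : ∑ i, (cen (h i) : DP p q) = 1 := by
    rw [cen_sum, ← cen_one]
    congr 1
    ext s
    rw [ContinuousMap.coe_sum, Finset.sum_apply]
    simpa using h3 s
  have htr : ∀ i, (cen (h' i) : DP p q) * cen (sq (h i)) = cen (sq (h i)) := fun i => by
    rw [cen_mul]
    congr 1
    ext s
    show h' i s * Real.sqrt (h i s) = Real.sqrt (h i s)
    by_cases h0 : h i s = 0
    · simp [h0]
    · rw [h5 i s h0, one_mul]
  refine norm_le_of_local P₂ (fun k : Fin (K + 1) × Fin (K + 1) =>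
    c (cen (sq (h k.1))) * d (cen (sq (h k.2)))) (fun k => c (cen (h' k.1)) * d (cen (h' k.2)))
    ?_ ?_ ?_ ?_ (add_nonneg (norm_nonneg _) hη.le) ?_
  · intro k
    rw [star_mul, ← map_star, ← map_star, cen_star, cen_star, hcd]
  · intro k
    exact hcom _ _
  · intro k
    show (c _ * d _) * (c _ * d _) = c _ * d _
    rw [cd_mul c d hcd, htr, htr]
  · have e : ∀ k : Fin (K + 1) × Fin (K + 1),
        (c (cen (sq (h k.1))) * d (cen (sq (h k.2)))) * (c (cen (sq (h k.1))) * d (cen (sq (h k.2))))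
          = c (cen (h k.1)) * d (cen (h k.2)) := fun k => by
      rw [cd_mul c d hcd, hsq, hsq]
    simp only [e]
    rw [Fintype.sum_prod_type]
    show ∑ x, ∑ y, c (cen (h x)) * d (cen (h y)) = 1
    rw [← Finset.sum_mul_sum, ← map_sum, ← map_sum, hsum, map_one, map_one, one_mul]
  · intro k
    obtain ⟨Z, hZ, hz⟩ := H (cc k.1) (cc k.2) (F k.1) (F k.2) (hF k.1) (hF k.2) (h' k.1) (h' k.2)
      (h7 k.1) (h8 k.1) (h7 k.2) (h8 k.2) (hh' k.1) (hh' k.2) (h6 k.1) (h6 k.2)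
    have h9 := (oz_pi c d hcd (hF k.1) (hF k.2) (h7 k.1) (h8 k.1) (h7 k.2) (h8 k.2) (hh' k.1)
      (hh' k.2)).Phi_norm_le Z
    have h10 : ‖Z‖ ≤ ‖P₁‖ := by
      rw [← JJ_norm, hZ]
      exact ev_norm _ _
    have h11 := norm_sub_norm_le (P₂ * (c (cen (h' k.1)) * d (cen (h' k.2))))
      (Phi (pi c (F k.1) (hF k.1) (h' k.1) (h7 k.1) (h8 k.1))
        (pi d (F k.2) (hF k.2) (h' k.2) (h7 k.2) (h8 k.2)) Z)
    show ‖P₂ * (c (cen (h' k.1)) * d (cen (h' k.2)))‖ ≤ ‖P₁‖ + η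
    linarith

/-- The commutation of the central elements with the generated algebra. -/
lemma cen_comm_gen (hcd : ∀ x y, c x * d y = d y * c x) (h h' : C(I, ℝ)) (f g : DP p q) :
    (c (cen h) * d (cen h')) * (c f * d g) = (c f * d g) * (c (cen h) * d (cen h')) := by
  rw [cd_mul c d hcd, cd_mul c d hcd, cen_comm, cen_comm]

/-- The transfer of the half-flip. -/
theorem flip_of_unitary [NeZero p] [NeZero q] (hcd : ∀ x y, c x * d y = d y * c x) (u : WW p q)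
    (hu : u ∈ closure (prodSub (LL (p := p) (q := q)) RR hLR : Set (WW p q)))
    (hu1 : star u * u = 1) (hu2 : u * star u = 1) :
    ∃ w : Y, star w * w = 1 ∧ w * star w = 1 ∧
      ∀ z, ‖w * c z * star w - d z‖ ≤ ‖u * LL z * star u - RR z‖ := by
  refine transfer (LL (p := p) (q := q)) RR hLR c d hcd
    (fun P₁ P₂ => LocalP c d P₁ P₂ ∧
      ∀ h h' : C(I, ℝ), (c (cen h) * d (cen h')) * P₂ = P₂ * (c (cen h) * d (cen h')))
    ⟨LocalP.zero, fun h h' => by simp⟩ ?_ ?_ ?_ ?_ u hu hu1 hu2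
  · rintro x x' y y' ⟨h1, h2⟩ ⟨h3, h4⟩
    exact ⟨h1.add h3, fun h h' => by rw [mul_add, add_mul, h2, h4]⟩
  · rintro r x y ⟨h1, h2⟩
    exact ⟨h1.smul r, fun h h' => by rw [mul_smul_comm, smul_mul_assoc, h2]⟩
  · intro a z
    exact ⟨localP_gen c d hcd a z, fun h h' => cen_comm_gen c d hcd h h' a z⟩
  · rintro x y ⟨h1, h2⟩
    exact tens_bound c d hcd h1 h2

end Pair

end

end Vale.Agent.Lib.P101.J
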