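import Vale.Agent.Lib.P101.JTens3

/-! Membership in the tensor product of two dimension drop algebras. -/

namespace Vale.Agent.Lib.P101.J

set_option linter.unusedSectionVars false
set_option linter.unusedSimpArgs false
set_option linter.unusedVariables false

open scoped Kronecker Matrix.Norms.L2Operator unitInterval ComplexOrder

noncomputable section

variable {p q : ℕ}

section Units

variable {n r : Type} [Fintype n] [DecidableEq n] [Fintype r] [DecidableEq r]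

lemma comm_units [Nonempty r] (Y : Matrix (n × r) (n × r) ℂ)
    (h : ∀ x y : r, Y * ((1 : Matrix n n ℂ) ⊗ₖ (EE x y)) = ((1 : Matrix n n ℂ) ⊗ₖ (EE x y)) * Y) :
    ∃ Z : Matrix n n ℂ, Y = krL Z := by
  obtain ⟨r₀⟩ := ‹Nonempty r›
  refine ⟨fun a a' => Y (a, r₀) (a', r₀), ?_⟩
  ext ⟨a, u⟩ ⟨a', v⟩
  have h1 := congrFun (congrFun (h v r₀) (a, u)) (a', r₀)
  rw [Matrix.mul_apply, Matrix.mul_apply] at h1
  rw [Finset.sum_eq_single (a', v), Finset.sum_eq_single (a, r₀)] at h1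
  · have e1 : ((1 : Matrix n n ℂ) ⊗ₖ (EE v r₀)) (a', v) (a', r₀) = 1 := by
      simp [EE, Matrix.single_apply]
    have e2 : ((1 : Matrix n n ℂ) ⊗ₖ (EE v r₀)) (a, u) (a, r₀) = if u = v then 1 else 0 := by
      simp [EE, Matrix.single_apply, eq_comm]
    rw [e1, e2, mul_one] at h1
    rw [h1]
    show _ = Y (a, r₀) (a', r₀) * (1 : Matrix r r ℂ) u v
    rw [Matrix.one_apply]
    by_cases huv : u = v <;> simp [huv]
  · rintro ⟨b, w⟩ _ hb
    have : ((1 : Matrix n n ℂ) ⊗ₖ (EE v r₀)) (a, u) (b, w) = 0 := by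
      simp only [Matrix.kroneckerMap_apply, EE, Matrix.single_apply, Matrix.one_apply]
      by_cases hab : a = b
      · subst hab
        have hw : w ≠ r₀ := fun hw => hb (by rw [hw])
        simp [hw, Ne.symm hw]
      · simp [hab]
    rw [this, zero_mul]
  · simp
  · rintro ⟨b, w⟩ _ hb
    have : ((1 : Matrix n n ℂ) ⊗ₖ (EE v r₀)) (b, w) (a', r₀) = 0 := by
      simp only [Matrix.kroneckerMap_apply, EE, Matrix.single_apply, Matrix.one_apply]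
      by_cases hab : b = a'
      · subst hab
        have hw : w ≠ v := fun hw => hb (by rw [hw])
        simp [hw, Ne.symm hw]
      · simp [hab]
    rw [this, mul_zero]
  · simp

end Units

/-- The commutant of a fibre. -/
def Fb.k (F : Fb p q) : Matrix F.r F.r ℂ →⋆ₐ[ℂ] MH p q := (rx F.κ).comp krR

lemma Fb.k_apply (F : Fb p q) (a : Matrix F.r F.r ℂ) (u v : HH p q) :
    F.k a u v = (1 : Matrix F.n F.n ℂ) (F.κ u).1 (F.κ v).1 * a (F.κ u).2 (F.κ v).2 := rfl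

/-- The commutant of the fibre at a point. -/
def Comm (s₀ : I) (x : MH p q) : Prop :=
  (s₀ = 0 → ∃ b : Matrix (Fin q) (Fin q) ℂ, x = (1 : Matrix (Fin p) (Fin p) ℂ) ⊗ₖ b) ∧
  (s₀ = 1 → ∃ a : Matrix (Fin p) (Fin p) ℂ, x = a ⊗ₖ (1 : Matrix (Fin q) (Fin q) ℂ)) ∧
  (s₀ ≠ 0 → s₀ ≠ 1 → ∃ r : ℂ, x = r • 1)

theorem exists_good' [NeZero p] [NeZero q] (s₀ : I) :
    ∃ F : Fb p q, F.Good s₀ ∧ ∀ b, Comm s₀ (F.k b) := by
  by_cases h0 : s₀ = 0
  · subst h0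
    let F : Fb p q := { n := Fin p, r := Fin q, κ := Equiv.refl _ }
    have hj : ∀ a : Matrix (Fin p) (Fin p) ℂ, F.j a = a ⊗ₖ (1 : Matrix (Fin q) (Fin q) ℂ) :=
      fun a => rfl
    have hk : ∀ b : Matrix (Fin q) (Fin q) ℂ, F.k b = (1 : Matrix (Fin p) (Fin p) ℂ) ⊗ₖ b :=
      fun a => rfl
    refine ⟨F, ⟨fun X hX => ?_, fun a => ⟨fun _ => ⟨a, hj a⟩, fun h => absurd h zero_ne_one_I⟩⟩,
      fun b => ⟨fun _ => ⟨b, hk b⟩, fun h => absurd h zero_ne_one_I, fun h => absurd rfl h⟩⟩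
    obtain ⟨a, ha⟩ := hX.1 rfl
    exact ⟨a, ha⟩
  · by_cases h1 : s₀ = 1
    · subst h1
      let F : Fb p q := { n := Fin q, r := Fin p, κ := Equiv.prodComm _ _ }
      have hj : ∀ a : Matrix (Fin q) (Fin q) ℂ, F.j a = (1 : Matrix (Fin p) (Fin p) ℂ) ⊗ₖ a := by
        intro a
        ext u v
        rw [Fb.j_apply]
        show a u.2 v.2 * (1 : Matrix (Fin p) (Fin p) ℂ) u.1 v.1 = _
        rw [mul_comm]
        rfl
      have hk : ∀ a : Matrix (Fin p) (Fin p) ℂ, F.k a = a ⊗ₖ (1 : Matrix (Fin q) (Fin q) ℂ) := by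
        intro a
        ext u v
        rw [Fb.k_apply]
        show (1 : Matrix (Fin q) (Fin q) ℂ) u.2 v.2 * a u.1 v.1 = _
        rw [mul_comm]
        rfl
      refine ⟨F, ⟨fun X hX => ?_, fun a => ⟨fun h => absurd h.symm zero_ne_one_I, fun _ => ⟨a, hj a⟩⟩⟩,
        fun b => ⟨fun h => absurd h.symm zero_ne_one_I, fun _ => ⟨b, hk b⟩, fun _ h => absurd rfl h⟩⟩
      obtain ⟨a, ha⟩ := hX.2 rfl
      exact ⟨a, ha.trans (hj a).symm⟩
    · let F : Fb p q := { n := HH p q, r := Unit, κ := (Equiv.prodPUnit _).symm }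
      have hj : ∀ a : MH p q, F.j a = a := by
        intro a
        ext u v
        rw [Fb.j_apply]
        simp [F]
      have hk : ∀ b : Matrix Unit Unit ℂ, F.k b = b () () • 1 := by
        intro b
        ext u v
        rw [Fb.k_apply]
        simp [F, Matrix.one_apply, mul_comm]
      refine ⟨F, ⟨fun X _ => ⟨X, (hj X).symm⟩, fun a => ⟨fun h => absurd h h0, fun h => absurd h h1⟩⟩,
        fun b => ⟨fun h => absurd h h0, fun h => absurd h h1, fun _ _ => ⟨b () (), hk b⟩⟩⟩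

lemma one_prod {A B : Type} [DecidableEq A] [DecidableEq B] (a a' : A) (b b' : B) :
    (1 : Matrix (A × B) (A × B) ℂ) (a, b) (a', b') = (1 : Matrix A A ℂ) a a' * (1 : Matrix B B ℂ) b b' := by
  by_cases h1 : a = a' <;> by_cases h2 : b = b' <;> simp [Matrix.one_apply, h1, h2]

lemma EE_prod {A B : Type} [DecidableEq A] [DecidableEq B] (x x' a a' : A) (y y' b b' : B) :
    (EE (x, y) (x', y') : Matrix (A × B) (A × B) ℂ) (a, b) (a', b')
      = (EE x x' : Matrix A A ℂ) a a' * (EE y y' : Matrix B B ℂ) b b' := by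
  simp only [EE, Matrix.single_apply, Prod.mk.injEq]
  by_cases h1 : x = a <;> by_cases h2 : y = b <;> by_cases h3 : x' = a' <;> by_cases h4 : y' = b' <;>
    simp [h1, h2, h3, h4]

lemma EE_kron {A B : Type} [Fintype A] [Fintype B] [DecidableEq A] [DecidableEq B] (x x' : A × B) :
    (EE x x' : Matrix (A × B) (A × B) ℂ) = (EE x.1 x'.1) ⊗ₖ (EE x.2 x'.2) := by
  obtain ⟨x, y⟩ := x
  obtain ⟨x', y'⟩ := x'
  ext ⟨a, b⟩ ⟨a', b'⟩
  rw [EE_prod]
  rfl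

/-- The relative commutant of the tensor product of fibres. -/
theorem exists_JJ (F₁ F₂ : Fb p q) (X : M2 p q) (h₁ : ∀ b, X * krL (F₁.k b) = krL (F₁.k b) * X)
    (h₂ : ∀ b, X * krR (F₂.k b) = krR (F₂.k b) * X) : ∃ Z, JJ F₁ F₂ Z = X := by
  let e := eJ F₁ F₂
  let Y : Matrix ((F₁.n × F₂.n) × (F₁.r × F₂.r)) ((F₁.n × F₂.n) × (F₁.r × F₂.r)) ℂ :=
    X.submatrix e.symm e.symm
  have hXY : rx e Y = X := by
    ext u v
    simp [Y]
  have hT : ∀ x y : F₁.r × F₂.r, rx e ((1 : Matrix (F₁.n × F₂.n) (F₁.n × F₂.n) ℂ) ⊗ₖ (EE x y))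
      = krL (F₁.k (EE x.1 y.1)) * krR (F₂.k (EE x.2 y.2)) := by
    rintro ⟨x₁, x₂⟩ ⟨y₁, y₂⟩
    rw [krL_mul_krR]
    ext ⟨u₁, u₂⟩ ⟨v₁, v₂⟩
    rw [rx_apply]
    show (1 : Matrix (F₁.n × F₂.n) (F₁.n × F₂.n) ℂ) ((F₁.κ u₁).1, (F₂.κ u₂).1) ((F₁.κ v₁).1, (F₂.κ v₂).1)
        * (EE (x₁, x₂) (y₁, y₂) : Matrix (F₁.r × F₂.r) (F₁.r × F₂.r) ℂ) ((F₁.κ u₁).2, (F₂.κ u₂).2)
          ((F₁.κ v₁).2, (F₂.κ v₂).2) = F₁.k (EE x₁ y₁) u₁ v₁ * F₂.k (EE x₂ y₂) u₂ v₂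
    rw [one_prod, EE_prod, Fb.k_apply, Fb.k_apply]
    ring
  have hinj : Function.Injective (rx e) := rx_injective e
  obtain ⟨Z, hZ⟩ := comm_units Y (fun x y => hinj (by
    rw [map_mul, map_mul, hT, hXY]
    calc X * (krL (F₁.k (EE x.1 y.1)) * krR (F₂.k (EE x.2 y.2)))
        = (X * krL (F₁.k (EE x.1 y.1))) * krR (F₂.k (EE x.2 y.2)) := by noncomm_ring
      _ = (krL (F₁.k (EE x.1 y.1)) * X) * krR (F₂.k (EE x.2 y.2)) := by rw [h₁]
      _ = krL (F₁.k (EE x.1 y.1)) * (X * krR (F₂.k (EE x.2 y.2))) := by noncomm_ring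
      _ = krL (F₁.k (EE x.1 y.1)) * (krR (F₂.k (EE x.2 y.2)) * X) := by rw [h₂]
      _ = _ := by noncomm_ring))
  refine ⟨Z, ?_⟩
  rw [← hXY, hZ]
  rfl

lemma ev_sum {ι : Type*} (T : Finset ι) (u : ι → WW p q) (z) :
    ev (∑ i ∈ T, u i) z = ∑ i ∈ T, ev (u i) z := by
  classical
  induction T using Finset.induction_on with
  | empty => rfl
  | insert a T ha ih =>
    rw [Finset.sum_insert ha, Finset.sum_insert ha, ev_add, ih]

lemma JJ_expand (F₁ F₂ : Fb p q) (Z : Matrix (F₁.n × F₂.n) (F₁.n × F₂.n) ℂ) :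
    JJ F₁ F₂ Z = ∑ x, ∑ y, Z x y • (krL (F₁.j (EE x.1 y.1)) * krR (F₂.j (EE x.2 y.2))) := by
  have h1 := linear_eq_sum (JJ F₁ F₂).toAlgHom.toLinearMap Z
  refine h1.trans (Finset.sum_congr rfl fun x _ => Finset.sum_congr rfl fun y _ => ?_)
  congr 1
  show JJ F₁ F₂ (EE x y) = _
  rw [EE_kron, JJ_kron]

/-- An element of the generated subalgebra from a point of the tensor product of fibres. -/
lemma elem_mem {F₁ F₂ : Fb p q} {s₀ t₀ : I} (hF₁ : F₁.Good s₀) (hF₂ : F₂.Good t₀) {h₁ h₂ : C(I, ℝ)}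
    (h10 : h₁ 0 ≠ 0 → s₀ = 0) (h11 : h₁ 1 ≠ 0 → s₀ = 1) (h20 : h₂ 0 ≠ 0 → t₀ = 0)
    (h21 : h₂ 1 ≠ 0 → t₀ = 1) (Z : Matrix (F₁.n × F₂.n) (F₁.n × F₂.n) ℂ) :
    ∃ E ∈ prodSub (LL (p := p) (q := q)) RR hLR, ∀ z,
      ev E z = ((h₁ z.1 * h₂ z.2 : ℝ) : ℂ) • JJ F₁ F₂ Z := by
  refine ⟨∑ x, ∑ y, Z x y • (LL (bl F₁ hF₁ h₁ h10 h11 (EE x.1 y.1)) *
    RR (bl F₂ hF₂ h₂ h20 h21 (EE x.2 y.2))), ?_, fun z => ?_⟩
  · refine sum_mem fun x _ => sum_mem fun y _ => SMulMemClass.smul_mem _ ?_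
    exact gen_mem_prodSub _ _
  · rw [ev_sum, JJ_expand, Finset.smul_sum]
    refine Finset.sum_congr rfl fun x _ => ?_
    rw [ev_sum, Finset.smul_sum]
    refine Finset.sum_congr rfl fun y _ => ?_
    rw [ev_smul, ev_mul, LL_apply, RR_apply, bl_apply, bl_apply, map_smul, map_smul, smul_comm,
      smul_mul_smul_comm]
    congr 1
    push_cast
    ring_nf

/-- Membership in the tensor product. -/
theorem mem_closure_T [NeZero p] [NeZero q] (W : WW p q)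
    (h1 : ∀ t b, ev W (0, t) * krL ((1 : Matrix (Fin p) (Fin p) ℂ) ⊗ₖ b)
      = krL ((1 : Matrix (Fin p) (Fin p) ℂ) ⊗ₖ b) * ev W (0, t))
    (h2 : ∀ t a, ev W (1, t) * krL (a ⊗ₖ (1 : Matrix (Fin q) (Fin q) ℂ))
      = krL (a ⊗ₖ (1 : Matrix (Fin q) (Fin q) ℂ)) * ev W (1, t))
    (h3 : ∀ s b, ev W (s, 0) * krR ((1 : Matrix (Fin p) (Fin p) ℂ) ⊗ₖ b)
      = krR ((1 : Matrix (Fin p) (Fin p) ℂ) ⊗ₖ b) * ev W (s, 0))
    (h4 : ∀ s a, ev W (s, 1) * krR (a ⊗ₖ (1 : Matrix (Fin q) (Fin q) ℂ))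
      = krR (a ⊗ₖ (1 : Matrix (Fin q) (Fin q) ℂ)) * ev W (s, 1)) :
    W ∈ closure (prodSub (LL (p := p) (q := q)) RR hLR : Set (WW p q)) := by
  have hL : ∀ (s₀ t₀ : I) (x : MH p q), Comm s₀ x → ev W (s₀, t₀) * krL x = krL x * ev W (s₀, t₀) := by
    intro s₀ t₀ x hx
    by_cases h0 : s₀ = 0
    · subst h0
      obtain ⟨b, rfl⟩ := hx.1 rfl
      exact h1 t₀ b
    · by_cases h5 : s₀ = 1
      · subst h5
        obtain ⟨a, rfl⟩ := hx.2.1 rfl
        exact h2 t₀ a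
      · obtain ⟨r, rfl⟩ := hx.2.2 h0 h5
        rw [map_smul, map_one, mul_smul_comm, smul_mul_assoc, mul_one, one_mul]
  have hR : ∀ (s₀ t₀ : I) (x : MH p q), Comm t₀ x → ev W (s₀, t₀) * krR x = krR x * ev W (s₀, t₀) := by
    intro s₀ t₀ x hx
    by_cases h0 : t₀ = 0
    · subst h0
      obtain ⟨b, rfl⟩ := hx.1 rfl
      exact h3 s₀ b
    · by_cases h5 : t₀ = 1
      · subst h5
        obtain ⟨a, rfl⟩ := hx.2.1 rfl
        exact h4 s₀ a
      · obtain ⟨r, rfl⟩ := hx.2.2 h0 h5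
        rw [map_smul, map_one, mul_smul_comm, smul_mul_assoc, mul_one, one_mul]
  rw [Metric.mem_closure_iff]
  intro η hη
  have huc := CompactSpace.uniformContinuous_of_continuous (ev_continuous W)
  obtain ⟨ρ, hρ, hW⟩ := Metric.uniformContinuous_iff.1 huc (η / 2) (half_pos hη)
  obtain ⟨K, L, h, h', cc, h5, h6, h7, h8, h9, h10, h11, -⟩ := exists_partition hρ
  choose F hF hFk using fun i => exists_good' (p := p) (q := q) (cc i)
  have hZ : ∀ i j, ∃ Z, JJ (F i) (F j) Z = ev W (cc i, cc j) := fun i j =>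
    exists_JJ (F i) (F j) _ (fun b => hL _ _ _ (hFk i b)) (fun b => hR _ _ _ (hFk j b))
  choose Z hZ using hZ
  have hE : ∀ i j, ∃ E ∈ prodSub (LL (p := p) (q := q)) RR hLR, ∀ z,
      ev E z = ((h i z.1 * h j z.2 : ℝ) : ℂ) • JJ (F i) (F j) (Z i j) := fun i j =>
    elem_mem (hF i) (hF j) (h₁ := h i) (h₂ := h j)
      (fun hh => h10 i (by rw [h8 i 0 hh]; exact one_ne_zero))
      (fun hh => h11 i (by rw [h8 i 1 hh]; exact one_ne_zero))
      (fun hh => h10 j (by rw [h8 j 0 hh]; exact one_ne_zero))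
      (fun hh => h11 j (by rw [h8 j 1 hh]; exact one_ne_zero)) (Z i j)
  choose E hEm hEv using hE
  refine ⟨∑ k : Fin (K + 1) × Fin (K + 1), E k.1 k.2, sum_mem fun k _ => hEm _ _, ?_⟩
  rw [dist_eq_norm]
  refine lt_of_le_of_lt (norm_WW_le (half_pos hη).le fun z => ?_) (half_lt_self hη)
  rw [ev_sub, ev_sum]
  have e : ∀ k : Fin (K + 1) × Fin (K + 1), ev (E k.1 k.2) z
      = ((h k.1 z.1 * h k.2 z.2 : ℝ) : ℂ) • ev W (cc k.1, cc k.2) := fun k => by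
    rw [hEv, hZ]
  simp only [e]
  refine part_est (fun k : Fin (K + 1) × Fin (K + 1) => h k.1 z.1 * h k.2 z.2)
    (fun k => mul_nonneg (h5 _ _) (h5 _ _)) ?_ _ _ (fun k hk => ?_) (half_pos hη).le
  · rw [Fintype.sum_prod_type]
    show ∑ x, ∑ y, h x z.1 * h y z.2 = 1
    rw [← Finset.sum_mul_sum, h6, h6, one_mul]
  · have hk1 : h k.1 z.1 ≠ 0 := left_ne_zero_of_mul hk
    have hk2 : h k.2 z.2 ≠ 0 := right_ne_zero_of_mul hk
    have a1 := h9 k.1 z.1 (by rw [h8 _ _ hk1]; exact one_ne_zero)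
    have a2 := h9 k.2 z.2 (by rw [h8 _ _ hk2]; exact one_ne_zero)
    have := hW (a := z) (b := (cc k.1, cc k.2)) (by
      rw [Prod.dist_eq, max_lt_iff]
      exact ⟨by rw [Subtype.dist_eq, Real.dist_eq]; exact a1,
        by rw [Subtype.dist_eq, Real.dist_eq]; exact a2⟩)
    rw [dist_eq_norm] at this
    exact this.le

end

end Vale.Agent.Lib.P101.J
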