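import Vale.Agent.Lib.P101.JLimit2

/-! Tracial states on dimension drop algebras. -/

namespace Vale.Agent.Lib.P101.J

set_option linter.unusedSectionVars false
set_option linter.unusedSimpArgs false
set_option linter.unusedVariables false

open scoped Kronecker Matrix.Norms.L2Operator unitInterval ComplexOrder

attribute [local instance] CStarAlgebra.spectralOrder CStarAlgebra.spectralOrderedRing

noncomputable section

section State

variable {A : Type*} [CStarAlgebra A]

/-- States are bounded. -/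
lemma state_bound (τ : A →ₗ[ℂ] ℂ) (hp : ∀ x, 0 ≤ τ (star x * x)) (h1 : τ 1 = 1) (x : A) :
    ‖τ x‖ ≤ 4 * ‖x‖ := by
  have hpos : ∀ y : A, 0 ≤ y → 0 ≤ τ y := by
    intro y hy
    obtain ⟨c, rfl⟩ := (CStarAlgebra.nonneg_iff_eq_star_mul_self).1 hy
    exact hp c
  have hle : ∀ y : A, 0 ≤ y → ‖τ y‖ ≤ ‖y‖ := by
    intro y hy
    have h2 : 0 ≤ τ y := hpos y hy
    have h3 : (0 : A) ≤ algebraMap ℝ A ‖y‖ - y :=
      sub_nonneg.2 (IsSelfAdjoint.le_algebraMap_norm_self (.of_nonneg hy))
    have h4 := hpos _ h3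
    have e : τ (algebraMap ℝ A ‖y‖ - y) = ((‖y‖ : ℝ) : ℂ) - τ y := by
      rw [map_sub, Algebra.algebraMap_eq_smul_one, ← Complex.coe_smul, map_smul, h1]
      simp
    rw [e] at h4
    have h5 : τ y ≤ ((‖y‖ : ℝ) : ℂ) := sub_nonneg.1 h4
    have h6 := (Complex.le_def.1 h2)
    have h7 := (Complex.le_def.1 h5)
    have e2 : τ y = ((τ y).re : ℂ) := by
      apply Complex.ext
      · simp
      · simpa using h6.2.symm
    rw [e2, Complex.norm_real, Real.norm_eq_abs, abs_of_nonneg (by simpa using h6.1)]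
    simpa using h7.1
  obtain ⟨y, hy_nonneg, hy_norm, hy⟩ := CStarAlgebra.exists_sum_four_nonneg x
  conv_lhs => rw [hy]
  rw [map_sum]
  refine (norm_sum_le _ _).trans ?_
  have h8 : ∀ i ∈ (Finset.univ : Finset (Fin 4)), ‖τ (Complex.I ^ (i : ℕ) • y i)‖ ≤ ‖x‖ := by
    intro i _
    rw [map_smul, norm_smul, norm_pow, Complex.norm_I, one_pow, one_mul]
    exact (hle _ (hy_nonneg i)).trans (hy_norm i)
  refine (Finset.sum_le_sum h8).trans ?_
  simp

end State

section Traces

variable {n : Type} [Fintype n] [DecidableEq n]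

/-- Matrix units and the trace property. -/
lemma trace_unique [Nonempty n] {E : Type*} [AddCommGroup E] [Module ℂ E]
    (T : Matrix n n ℂ →ₗ[ℂ] ℂ) (ht : ∀ a b, T (a * b) = T (b * a)) (a : Matrix n n ℂ) :
    T a = T 1 * (Matrix.trace a / Fintype.card n) := by
  obtain ⟨i₀⟩ := ‹Nonempty n›
  have hoff : ∀ i j, i ≠ j → T (EE i j) = 0 := by
    intro i j hij
    have h1 : (EE i j : Matrix n n ℂ) = EE i i * EE i j := by
      simp [EE]
    have h2 : (EE i j : Matrix n n ℂ) * EE i i = 0 := by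
      simp [EE, hij.symm]
    rw [h1, ht, h2, map_zero]
  have hdiag : ∀ i, T (EE i i) = T (EE i₀ i₀) := by
    intro i
    have h1 : (EE i i : Matrix n n ℂ) = EE i i₀ * EE i₀ i := by
      simp [EE]
    have h2 : (EE i₀ i₀ : Matrix n n ℂ) = EE i₀ i * EE i i₀ := by
      simp [EE]
    rw [h1, ht, ← h2]
  have hT : ∀ a : Matrix n n ℂ, T a = T (EE i₀ i₀) * Matrix.trace a := by
    intro a
    rw [linear_eq_sum T a, Matrix.trace, Finset.mul_sum]
    refine Finset.sum_congr rfl fun i _ => ?_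
    rw [Finset.sum_eq_single i]
    · rw [hdiag, smul_eq_mul, mul_comm]
      rfl
    · intro j _ hj
      rw [hoff i j hj.symm, smul_zero]
    · simp
  have hc : (Fintype.card n : ℂ) ≠ 0 := by
    exact_mod_cast Fintype.card_ne_zero
  have h1 : T 1 = T (EE i₀ i₀) * Fintype.card n := by
    rw [hT 1, Matrix.trace_one]
  rw [h1, hT a]
  field_simp

end Traces

variable {p q : ℕ}

/-- The normalized trace on the matrix algebra. -/
def trN : MH p q →ₗ[ℂ] ℂ :=
  ((Fintype.card (HH p q) : ℂ)⁻¹) • Matrix.traceLinearMap (HH p q) ℂ ℂ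

lemma trN_apply (X : MH p q) : trN X = (Fintype.card (HH p q) : ℂ)⁻¹ * Matrix.trace X := rfl

lemma trN_mul_comm (X Y : MH p q) : trN (X * Y) = trN (Y * X) := by
  rw [trN_apply, trN_apply, Matrix.trace_mul_comm]

lemma trN_conj {U : MH p q} (hU : Un U) (X : MH p q) : trN (star U * X * U) = trN X := by
  rw [trN_mul_comm, ← mul_assoc, hU.2, one_mul]

lemma trN_conj' {U : MH p q} (hU : Un U) (X : MH p q) : trN (U * X * star U) = trN X := by
  rw [trN_mul_comm, ← mul_assoc, hU.1, one_mul]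

lemma trN_one [NeZero p] [NeZero q] : trN (1 : MH p q) = 1 := by
  rw [trN_apply, Matrix.trace_one]
  refine inv_mul_cancel₀ ?_
  have : Nonempty (HH p q) := inferInstance
  exact_mod_cast Fintype.card_ne_zero

lemma trN_nonneg (X : MH p q) : 0 ≤ trN (star X * X) := by
  rw [trN_apply]
  have h1 : (0 : ℂ) ≤ (Fintype.card (HH p q) : ℂ)⁻¹ := by
    have e : (Fintype.card (HH p q) : ℂ)⁻¹ = (((Fintype.card (HH p q) : ℝ)⁻¹ : ℝ) : ℂ) := by
      push_cast
      rfl
    rw [e]
    exact Complex.zero_le_real.2 (by positivity)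
  refine mul_nonneg h1 ?_
  have h2 : (star X * X).PosSemidef := Matrix.posSemidef_conjTranspose_mul_self X
  exact h2.trace_nonneg

/-- The diagonal entries are bounded by the norm. -/
lemma entry_norm_le {n : Type} [Fintype n] [DecidableEq n] (X : Matrix n n ℂ) (i : n) :
    ‖X i i‖ ≤ ‖X‖ := by
  have hE : ‖(EE i i : Matrix n n ℂ)‖ ≤ 1 := by
    have h1 : star (EE i i : Matrix n n ℂ) * EE i i = EE i i := by
      have : star (EE i i : Matrix n n ℂ) = EE i i := by
        ext a b
        simp [EE, Matrix.star_apply, Matrix.single_apply]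
        grind
      rw [this]
      simp [EE]
    have h2 := CStarRing.norm_star_mul_self (x := (EE i i : Matrix n n ℂ))
    rw [h1] at h2
    by_contra hcon
    push Not at hcon
    nlinarith
  have hne : ‖(EE i i : Matrix n n ℂ)‖ ≠ 0 := by
    rw [norm_ne_zero_iff]
    intro h
    have := congrFun (congrFun h i) i
    simp [EE] at this
  have h1 : (EE i i : Matrix n n ℂ) * X * EE i i = X i i • EE i i := by
    ext a b
    simp only [EE, Matrix.smul_apply, smul_eq_mul]
    rw [Matrix.single_mul_mul_single]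
    simp [Matrix.single_apply]
  have h2 : ‖X i i‖ * ‖(EE i i : Matrix n n ℂ)‖ ≤ ‖X‖ * ‖(EE i i : Matrix n n ℂ)‖ := by
    rw [← norm_smul, ← h1]
    calc _ ≤ ‖(EE i i : Matrix n n ℂ) * X‖ * ‖(EE i i : Matrix n n ℂ)‖ := norm_mul_le _ _
      _ ≤ (1 * ‖X‖) * ‖(EE i i : Matrix n n ℂ)‖ := by
          refine mul_le_mul_of_nonneg_right ?_ (norm_nonneg _)
          exact (norm_mul_le _ _).trans (mul_le_mul_of_nonneg_right hE (norm_nonneg _))
      _ = _ := by rw [one_mul]
  exact le_of_mul_le_mul_right h2 (lt_of_le_of_ne (norm_nonneg _) (Ne.symm hne))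

lemma trN_norm_le (X : MH p q) : ‖trN X‖ ≤ ‖X‖ := by
  rw [trN_apply, norm_mul, norm_inv, Matrix.trace]
  have h1 : ‖∑ i, X.diag i‖ ≤ Fintype.card (HH p q) * ‖X‖ := by
    refine (norm_sum_le _ _).trans ?_
    calc _ ≤ ∑ i : HH p q, ‖X‖ := Finset.sum_le_sum fun i _ => entry_norm_le X i
      _ = _ := by simp
  by_cases hc : Fintype.card (HH p q) = 0
  · simp [hc]
  · have hc' : (0 : ℝ) < Fintype.card (HH p q) := by exact_mod_cast Nat.pos_of_ne_zero hc
    rw [Complex.norm_natCast, inv_mul_le_iff₀ hc']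
    exact h1

end

end Vale.Agent.Lib.P101.J
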