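import Vale.Agent.Lib.P101.JTrace

/-! Tracial states on dimension drop algebras: the estimate. -/

namespace Vale.Agent.Lib.P101.J

set_option linter.unusedSectionVars false
set_option linter.unusedSimpArgs false
set_option linter.unusedVariables false

open scoped Kronecker Matrix.Norms.L2Operator unitInterval ComplexOrder

noncomputable section

variable {p q : ℕ}

lemma sq_ne {h : C(I, ℝ)} {s : I} (hs : sq h s ≠ 0) : h s ≠ 0 := by
  intro h0
  apply hs
  rw [sq_apply, h0, Real.sqrt_zero]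

lemma bl_sq {F : Fb p q} {s₀ : I} (hF : F.Good s₀) {h : C(I, ℝ)} (hh : ∀ s, 0 ≤ h s)
    (h0 : h 0 ≠ 0 → s₀ = 0) (h1 : h 1 ≠ 0 → s₀ = 1) (a a' : Matrix F.n F.n ℂ) :
    bl F hF (sq h) (fun hs => h0 (sq_ne hs)) (fun hs => h1 (sq_ne hs)) a *
      bl F hF (sq h) (fun hs => h0 (sq_ne hs)) (fun hs => h1 (sq_ne hs)) a'
      = bl F hF h h0 h1 (a * a') := by
  apply Subtype.ext
  ext1 s
  show (bl F hF (sq h) _ _ a).1 s * (bl F hF (sq h) _ _ a').1 s = (bl F hF h h0 h1 (a * a')).1 s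
  simp only [bl_apply, map_mul, smul_mul_smul_comm, sq_apply]
  congr 1
  rw [← Complex.ofReal_mul, Real.mul_self_sqrt (hh s)]

lemma trN_j [NeZero p] [NeZero q] (F : Fb p q) (a : Matrix F.n F.n ℂ) :
    trN (F.j a) = Matrix.trace a / Fintype.card F.n := by
  have hn : Nonempty F.n := ⟨(F.κ (Classical.arbitrary _)).1⟩
  have h1 : Matrix.trace (F.j a) = Fintype.card F.r * Matrix.trace a := by
    rw [Matrix.trace, ← Equiv.sum_comp F.κ.symm, Fintype.sum_prod_type]
    have e : ∀ x y, Matrix.diag (F.j a) (F.κ.symm (x, y)) = a x x := by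
      intro x y
      show F.j a (F.κ.symm (x, y)) (F.κ.symm (x, y)) = a x x
      rw [Fb.j_apply, Equiv.apply_symm_apply]
      simp
    simp only [e]
    rw [Matrix.trace, Finset.mul_sum]
    refine Finset.sum_congr rfl fun x _ => ?_
    simp
  have h2 : (Fintype.card (HH p q) : ℂ) = Fintype.card F.n * Fintype.card F.r := by
    rw [Fintype.card_congr F.κ, Fintype.card_prod]
    push_cast
    rfl
  have h3 : (Fintype.card F.n : ℂ) ≠ 0 := by exact_mod_cast Fintype.card_ne_zero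
  have h4 : (Fintype.card F.r : ℂ) ≠ 0 := by exact_mod_cast Fintype.card_ne_zero
  rw [trN_apply, h1, h2]
  field_simp

section Tr

variable [NeZero p] [NeZero q] (τ : DP p q →ₗ[ℂ] ℂ) (hp : ∀ x, 0 ≤ τ (star x * x)) (h1 : τ 1 = 1)
  (ht : ∀ x y, τ (x * y) = τ (y * x))

include ht in
lemma tau_bl {F : Fb p q} {s₀ : I} (hF : F.Good s₀) {h : C(I, ℝ)} (hh : ∀ s, 0 ≤ h s)
    (h0 : h 0 ≠ 0 → s₀ = 0) (h1' : h 1 ≠ 0 → s₀ = 1) (a : Matrix F.n F.n ℂ) :
    τ (bl F hF h h0 h1' a) = τ (cen h) * trN (F.j a) := by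
  have hn : Nonempty F.n := ⟨(F.κ (Classical.arbitrary _)).1⟩
  let T : Matrix F.n F.n ℂ →ₗ[ℂ] ℂ := τ ∘ₗ bl F hF h h0 h1'
  have hT : ∀ a b, T (a * b) = T (b * a) := by
    intro a b
    show τ (bl F hF h h0 h1' (a * b)) = τ (bl F hF h h0 h1' (b * a))
    rw [← bl_sq hF hh h0 h1', ← bl_sq hF hh h0 h1', ht]
  have h3 := trace_unique (E := ℂ) T hT a
  have h4 : T 1 = τ (cen h) := by
    show τ (bl F hF h h0 h1' 1) = _
    rw [bl_one]
  rw [trN_j, ← h4]
  exact h3

include hp ht h1 in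
/-- Tracial states on a dimension drop algebra only see the normalized trace. -/
theorem trace_est (h : DP p q) (t₀ : ℂ) {ε : ℝ} (hε : ∀ s, ‖trN (h.1 s) - t₀‖ ≤ ε) :
    ‖τ h - t₀‖ ≤ ε := by
  have hε0 : 0 ≤ ε := (norm_nonneg _).trans (hε 0)
  refine le_of_forall_pos_le_add fun η hη => ?_
  have hb := state_bound τ hp h1
  obtain ⟨ρ, hρ, hh⟩ := exists_delta h.1 (div_pos hη (by norm_num : (0 : ℝ) < 4))
  obtain ⟨K, L, w, w', c, h2, h3, h4, h5, h6, h7, h8, -⟩ := exists_partition hρ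
  choose F hF using fun i => exists_good (p := p) (q := q) (c i)
  choose a ha using fun i => (hF i).1 _ (fibr_of_dp h (c i))
  have b0 : ∀ i, w i 0 ≠ 0 → c i = 0 := fun i hh => h7 i (by rw [h5 i 0 hh]; exact one_ne_zero)
  have b1 : ∀ i, w i 1 ≠ 0 → c i = 1 := fun i hh => h8 i (by rw [h5 i 1 hh]; exact one_ne_zero)
  set h' : DP p q := ∑ i, bl (F i) (hF i) (w i) (b0 i) (b1 i) (a i) with hh'
  have est : ‖h - h'‖ ≤ η / 4 := by
    refine norm_dp_le (by positivity) fun s => ?_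
    rw [sub_apply', hh', sum_apply']
    simp only [bl_apply]
    refine part_est (fun i => w i s) (fun i => h2 i s) (h3 s) _ _ (fun i hi => ?_) (by positivity)
    rw [← ha]
    exact (hh _ _ (h6 i s (by rw [h5 i s hi]; exact one_ne_zero))).le
  have e1 : τ h' = ∑ i, τ (cen (w i)) * trN (h.1 (c i)) := by
    rw [hh', map_sum]
    refine Finset.sum_congr rfl fun i _ => ?_
    rw [tau_bl τ ht (hF i) (h2 i), ha]
  have e2 : ∀ i, 0 ≤ τ (cen (w i)) := fun i => by
    have : (cen (w i) : DP p q) = star (cen (sq (w i))) * cen (sq (w i)) := by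
      rw [cen_star, cen_mul, sq_mul_self _ (h2 i)]
    rw [this]
    exact hp _
  have e3 : ∑ i, τ (cen (w i)) = 1 := by
    rw [← map_sum, cen_sum, ← h1, ← cen_one]
    congr 2
    ext s
    rw [ContinuousMap.coe_sum, Finset.sum_apply]
    simpa using h3 s
  have e4 : τ h' - t₀ = ∑ i, τ (cen (w i)) * (trN (h.1 (c i)) - t₀) := by
    rw [e1]
    simp only [mul_sub]
    rw [Finset.sum_sub_distrib, ← Finset.sum_mul, e3, one_mul]
  have e5 : ‖τ h' - t₀‖ ≤ ε := by
    rw [e4]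
    refine (norm_sum_le _ _).trans ?_
    have e6 : ∀ i, ‖τ (cen (w i))‖ = (τ (cen (w i))).re := fun i => by
      have h9 := Complex.le_def.1 (e2 i)
      have e7 : τ (cen (w i)) = (((τ (cen (w i))).re : ℝ) : ℂ) := by
        apply Complex.ext
        · simp
        · simpa using h9.2.symm
      conv_lhs => rw [e7]
      rw [Complex.norm_real, Real.norm_eq_abs, abs_of_nonneg (by simpa using h9.1)]
    have e8 : ∑ i, ‖τ (cen (w i))‖ = 1 := by
      simp only [e6]
      rw [← Complex.re_sum, e3]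
      rfl
    calc _ ≤ ∑ i, ‖τ (cen (w i))‖ * ε := Finset.sum_le_sum fun i _ => by
          rw [norm_mul]
          exact mul_le_mul_of_nonneg_left (hε _) (norm_nonneg _)
      _ = ε := by rw [← Finset.sum_mul, e8, one_mul]
  have e9 : τ h - t₀ = τ (h - h') + (τ h' - t₀) := by
    rw [map_sub]
    abel
  rw [e9]
  refine (norm_add_le _ _).trans ?_
  have e10 := hb (h - h')
  linarith

end Tr

end

end Vale.Agent.Lib.P101.J
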