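import Vale.Agent.Lib.P101.Gadget

/-! The key theorem: two colours in four commuting coordinates yield one full square-zero element. -/

namespace Vale.Agent.Lib.P101

open scoped ComplexOrder

attribute [local instance] CStarAlgebra.spectralOrder CStarAlgebra.spectralOrderedRing

variable {E : Type*} [CStarAlgebra E] (C : CoordSys E (Fin 4))

section Members

variable {ν : ℝ} {z : Bool → E} {I : Set (Fin 4)}

lemma aa_mem (hz : ∀ c, z c ∈ C.B I) (c : Bool) : aa z c ∈ C.B I :=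
  mul_mem (hz c) (C.star_mem_B (hz c))

lemma bb_mem (hz : ∀ c, z c ∈ C.B I) (c : Bool) : bb z c ∈ C.B I :=
  mul_mem (C.star_mem_B (hz c)) (hz c)

lemma KK_mem (hz : ∀ c, z c ∈ C.B I) (c : Bool) : KK z c ∈ C.B I :=
  mul_mem (aa_mem C hz c) (bb_mem C hz _)

lemma rsmul_mem {x : E} (hx : x ∈ C.B I) (r : ℝ) : r • x ∈ C.B I := by
  rw [← Complex.coe_smul]
  exact Subalgebra.smul_mem _ hx _

lemma rr_mem (hz : ∀ c, z c ∈ C.B I) (c : Bool) : rr ν z c ∈ C.B I :=
  C.resolv_mem_B (rsmul_mem C (C.star_mem_B (KK_mem C hz c)) _)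

lemma ss_mem (hz : ∀ c, z c ∈ C.B I) (c : Bool) : ss ν z c ∈ C.B I :=
  C.resolv_mem_B (rsmul_mem C (KK_mem C hz _) _)

lemma XX_mem (hz : ∀ c, z c ∈ C.B I) (c e : Bool) : XX ν z c e ∈ C.B I := by
  unfold XX
  split_ifs
  · exact mul_mem (mul_mem (aa_mem C hz c) (rr_mem C hz c)) (aa_mem C hz c)
  · exact aa_mem C hz c

lemma YY_mem (hz : ∀ c, z c ∈ C.B I) (c e : Bool) : YY ν z c e ∈ C.B I := by
  unfold YY
  split_ifs
  · exact mul_mem (mul_mem (bb_mem C hz c) (ss_mem C hz c)) (bb_mem C hz c)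
  · exact bb_mem C hz c

end Members

section Sets

/-- small index sets -/
abbrev I0 : Set (Fin 4) := {0}
/-- small index sets -/
abbrev I1 : Set (Fin 4) := {1}
/-- small index sets -/
abbrev I2 : Set (Fin 4) := {2}
/-- small index sets -/
abbrev I3 : Set (Fin 4) := {3}
/-- small index sets -/
abbrev I01 : Set (Fin 4) := {0, 1}
/-- small index sets -/
abbrev I012 : Set (Fin 4) := {0, 1, 2}

lemma disj01 : Disjoint I0 I1 := by
  rw [Set.disjoint_left]; intro x hx hy; simp only [Set.mem_singleton_iff] at hx hy; subst hx; simp at hy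

lemma disj02 : Disjoint I0 I2 := by
  rw [Set.disjoint_left]; intro x hx hy; simp only [Set.mem_singleton_iff] at hx hy; subst hx; simp at hy

lemma disj12 : Disjoint I1 I2 := by
  rw [Set.disjoint_left]; intro x hx hy; simp only [Set.mem_singleton_iff] at hx hy; subst hx; simp at hy

lemma disj01_2 : Disjoint I01 I2 := by
  rw [Set.disjoint_left]; intro x hx hy
  simp only [I01, Set.mem_insert_iff, Set.mem_singleton_iff] at hx hy
  rcases hx with rfl | rfl <;> simp at hy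

lemma disj012_3 : Disjoint I012 I3 := by
  rw [Set.disjoint_left]; intro x hx hy
  simp only [I012, Set.mem_insert_iff, Set.mem_singleton_iff] at hx hy
  rcases hx with rfl | rfl | rfl <;> simp at hy

lemma sub0_01 : I0 ⊆ I01 := by intro x hx; simp only [Set.mem_singleton_iff] at hx; simp [hx]
lemma sub1_01 : I1 ⊆ I01 := by intro x hx; simp only [Set.mem_singleton_iff] at hx; simp [hx]
lemma sub01_012 : I01 ⊆ I012 := by
  intro x hx; simp only [I01, Set.mem_insert_iff, Set.mem_singleton_iff] at hx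
  rcases hx with rfl | rfl <;> simp
lemma sub2_012 : I2 ⊆ I012 := by intro x hx; simp only [Set.mem_singleton_iff] at hx; simp [hx]

/-- Lower bound for products of three commuting positive elements. -/
lemma three_lower (M : MaxIdeal E) {x0 x1 x2 : E} (h0 : x0 ∈ C.B I0) (h1 : x1 ∈ C.B I1)
    (h2 : x2 ∈ C.B I2) (p0 : 0 ≤ x0) (p1 : 0 ≤ x1) (p2 : 0 ≤ x2) :
    ‖M.π x0‖ * ‖M.π x1‖ * ‖M.π x2‖ / 16 ≤ ‖M.π (x0 * x1 * x2)‖ := by
  have h01 : 0 ≤ x0 * x1 := Commute.mul_nonneg p0 p1 (C.commute_B disj01 h0 h1)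
  have hm : x0 * x1 ∈ C.B I01 := mul_mem (C.B_mono sub0_01 h0) (C.B_mono sub1_01 h1)
  have a1 := norm_mul_lower C M disj01 h0 h1 p0 p1
  have a2 := norm_mul_lower C M disj01_2 hm h2 h01 p2
  have : ‖M.π x0‖ * ‖M.π x1‖ * ‖M.π x2‖ / 16
      = (‖M.π x0‖ * ‖M.π x1‖ / 4) * ‖M.π x2‖ / 4 := by ring
  rw [this]
  have h3 : (‖M.π x0‖ * ‖M.π x1‖ / 4) * ‖M.π x2‖ / 4 ≤ ‖M.π (x0 * x1)‖ * ‖M.π x2‖ / 4 := by
    gcongr
  exact h3.trans a2

/-- Nonnegativity of triple products. -/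
lemma three_nonneg {x0 x1 x2 : E} (h0 : x0 ∈ C.B I0) (h1 : x1 ∈ C.B I1)
    (h2 : x2 ∈ C.B I2) (p0 : 0 ≤ x0) (p1 : 0 ≤ x1) (p2 : 0 ≤ x2) : 0 ≤ x0 * x1 * x2 := by
  have h01 : 0 ≤ x0 * x1 := Commute.mul_nonneg p0 p1 (C.commute_B disj01 h0 h1)
  have hm : x0 * x1 ∈ C.B I01 := mul_mem (C.B_mono sub0_01 h0) (C.B_mono sub1_01 h1)
  exact Commute.mul_nonneg h01 p2 (C.commute_B disj01_2 hm h2)

/-- Rearrangement of a product of two triple products. -/
lemma three_rearr {x0 x1 x2 y0 y1 y2 : E}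
    (h10 : x1 ∈ C.B I1) (h20 : x2 ∈ C.B I2) (k0 : y0 ∈ C.B I0) (k1 : y1 ∈ C.B I1) :
    (x0 * x1 * x2) * (y0 * y1 * y2) = (x0 * y0) * (x1 * y1) * (x2 * y2) := by
  have c1 : x1 * y0 = y0 * x1 := (C.comm_B disj01 k0 h10).symm
  have c2 : x2 * y0 = y0 * x2 := (C.comm_B disj02 k0 h20).symm
  have c3 : x2 * y1 = y1 * x2 := (C.comm_B disj12 k1 h20).symm
  calc (x0 * x1 * x2) * (y0 * y1 * y2) = x0 * x1 * (x2 * y0) * y1 * y2 := by noncomm_ring
    _ = x0 * (x1 * y0) * x2 * y1 * y2 := by rw [c2]; noncomm_ring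
    _ = x0 * y0 * x1 * (x2 * y1) * y2 := by rw [c1]; noncomm_ring
    _ = _ := by rw [c3]; noncomm_ring

end Sets

section Types

/-- The parity of a type. -/
def par (τ : Fin 3 → Bool) : Bool := xor (τ 0) (xor (τ 1) (τ 2))

lemma par_not (τ : Fin 3 → Bool) : par (fun i => !τ i) = !par τ := by
  simp only [par]
  cases τ 0 <;> cases τ 1 <;> cases τ 2 <;> rfl

lemma par_update (τ : Fin 3 → Bool) (i : Fin 3) :
    par (Function.update τ i (!τ i)) = !par τ := by
  fin_cases i <;> simp only [par] <;> simp [Function.update]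

variable (z : Fin 4 → Bool → E) (ν : ℝ)

/-- A term of `Q₁`. -/
noncomputable def termX (τ : Fin 3 → Bool) : E :=
  XX ν (z 0) (τ 0) (par τ) * XX ν (z 1) (τ 1) (par τ) * XX ν (z 2) (τ 2) (par τ)

/-- A term of `Q₂`. -/
noncomputable def termY (τ : Fin 3 → Bool) : E :=
  YY ν (z 0) (τ 0) (par τ) * YY ν (z 1) (τ 1) (par τ) * YY ν (z 2) (τ 2) (par τ)

/-- `Q₁` -/
noncomputable def Q1 : E := ∑ τ : Fin 3 → Bool, termX z ν τ

/-- `Q₂` -/
noncomputable def Q2 : E := ∑ τ : Fin 3 → Bool, termY z ν τ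

lemma Q2_eq : Q2 z ν = Q1 (fun i c => star (z i c)) ν := by
  simp only [Q1, Q2, termX, termY, XX_star]

end Types

section Main

variable {C} {z : Fin 4 → Bool → E} {ν : ℝ}
  (hzB : ∀ i c, z i c ∈ C.B {i}) (hsq : ∀ i c, z i c * z i c = 0) (hn : ∀ i c, ‖z i c‖ ≤ 1)

include hzB in
lemma termX_nonneg (τ : Fin 3 → Bool) : 0 ≤ termX z ν τ :=
  three_nonneg C (XX_mem C (hzB 0) _ _) (XX_mem C (hzB 1) _ _) (XX_mem C (hzB 2) _ _)
    (XX_nonneg _ _) (XX_nonneg _ _) (XX_nonneg _ _)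

include hzB in
lemma termY_nonneg (τ : Fin 3 → Bool) : 0 ≤ termY z ν τ :=
  three_nonneg C (YY_mem C (hzB 0) _ _) (YY_mem C (hzB 1) _ _) (YY_mem C (hzB 2) _ _)
    (YY_nonneg _ _) (YY_nonneg _ _) (YY_nonneg _ _)

include hzB in
lemma Q1_nonneg : 0 ≤ Q1 z ν := Finset.sum_nonneg fun τ _ => termX_nonneg hzB τ

include hzB in
lemma Q2_nonneg : 0 ≤ Q2 z ν := Finset.sum_nonneg fun τ _ => termY_nonneg hzB τ

include hzB in
lemma term_mul (τ σ : Fin 3 → Bool) : termX z ν τ * termY z ν σ =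
    (XX ν (z 0) (τ 0) (par τ) * YY ν (z 0) (σ 0) (par σ)) *
    (XX ν (z 1) (τ 1) (par τ) * YY ν (z 1) (σ 1) (par σ)) *
    (XX ν (z 2) (τ 2) (par τ) * YY ν (z 2) (σ 2) (par σ)) :=
  three_rearr C (XX_mem C (hzB 1) _ _) (XX_mem C (hzB 2) _ _)
    (YY_mem C (hzB 0) _ _) (YY_mem C (hzB 1) _ _)

include hzB hsq in
lemma term_mul_eq_zero {τ σ : Fin 3 → Bool} (h : σ ≠ fun i => !τ i) :
    termX z ν τ * termY z ν σ = 0 := by
  have : ∃ i, σ i = τ i := by
    by_contra hcon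
    push Not at hcon
    apply h
    funext i
    have := hcon i
    cases hs : σ i <;> cases ht : τ i <;> simp_all
  obtain ⟨i, hi⟩ := this
  rw [term_mul hzB]
  fin_cases i
  · simp only [Fin.zero_eta] at hi
    rw [hi, XX_mul_YY (hsq 0)]; simp
  · simp only [Fin.mk_one] at hi
    rw [hi, XX_mul_YY (hsq 1)]; simp
  · have hi' : σ 2 = τ 2 := hi
    rw [hi', XX_mul_YY (hsq 2)]; simp

include hzB hn in
lemma term_mul_small (hν : 0 < ν) (τ : Fin 3 → Bool) :
    ‖termX z ν τ * termY z ν (fun i => !τ i)‖ ≤ (ν / 2) * (ν / 2) * (ν / 2) := by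
  rw [term_mul hzB, par_not]
  calc _ ≤ ‖XX ν (z 0) (τ 0) (par τ) * YY ν (z 0) (!τ 0) (!par τ)‖ *
        ‖XX ν (z 1) (τ 1) (par τ) * YY ν (z 1) (!τ 1) (!par τ)‖ *
        ‖XX ν (z 2) (τ 2) (par τ) * YY ν (z 2) (!τ 2) (!par τ)‖ := by
        refine (norm_mul_le _ _).trans ?_
        gcongr
        exact norm_mul_le _ _
    _ ≤ _ := by
        gcongr <;> exact XX_mul_YY_small hν (hn _) _ _

include hzB hsq hn in
/-- `‖Q₁ Q₂‖ ≤ ν³`. -/
theorem norm_Q1_mul_Q2 (hν : 0 < ν) : ‖Q1 z ν * Q2 z ν‖ ≤ ν * ν * ν := by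
  rw [Q1, Q2, Finset.sum_mul_sum]
  have h1 : ∀ τ : Fin 3 → Bool,
      ‖∑ σ : Fin 3 → Bool, termX z ν τ * termY z ν σ‖ ≤ (ν / 2) * (ν / 2) * (ν / 2) := by
    intro τ
    rw [Finset.sum_eq_single (fun i => !τ i)]
    · exact term_mul_small hzB hn hν τ
    · intro σ _ hσ
      exact term_mul_eq_zero hzB hsq hσ
    · intro h
      exact absurd (Finset.mem_univ _) h
  calc _ ≤ ∑ τ : Fin 3 → Bool, ‖∑ σ : Fin 3 → Bool, termX z ν τ * termY z ν σ‖ := norm_sum_le _ _
    _ ≤ ∑ _τ : Fin 3 → Bool, (ν / 2) * (ν / 2) * (ν / 2) :=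
        Finset.sum_le_sum fun τ _ => h1 τ
    _ = _ := by
        simp [Finset.card_univ]
        ring

include hzB in
lemma norm_π_termX_le_Q1 (M : MaxIdeal E) (τ : Fin 3 → Bool) :
    ‖M.π (termX z ν τ)‖ ≤ ‖M.π (Q1 z ν)‖ := by
  refine CStarAlgebra.norm_le_norm_of_nonneg_of_le (π_nonneg M (termX_nonneg hzB τ)) ?_
  refine π_mono M ?_
  exact Finset.single_le_sum (f := fun τ => termX z ν τ)
    (fun σ _ => termX_nonneg hzB σ) (Finset.mem_univ τ)

include hzB in
/-- Exact types give a product lower bound. -/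
lemma termX_false_lower (M : MaxIdeal E) {τ : Fin 3 → Bool} (hτ : par τ = false) :
    (‖M.π (z 0 (τ 0))‖ * ‖M.π (z 0 (τ 0))‖) * (‖M.π (z 1 (τ 1))‖ * ‖M.π (z 1 (τ 1))‖) *
      (‖M.π (z 2 (τ 2))‖ * ‖M.π (z 2 (τ 2))‖) / 16 ≤ ‖M.π (termX z ν τ)‖ := by
  have := three_lower C M (XX_mem C (hzB 0) (τ 0) (par τ) (ν := ν))
    (XX_mem C (hzB 1) (τ 1) (par τ) (ν := ν)) (XX_mem C (hzB 2) (τ 2) (par τ) (ν := ν))
    (XX_nonneg _ _) (XX_nonneg _ _) (XX_nonneg _ _)
  simp only [hτ, XX, Bool.false_eq_true, if_false] at this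
  simp only [termX, hτ, XX, Bool.false_eq_true, if_false]
  rw [norm_π_aa, norm_π_aa, norm_π_aa] at this
  exact this

include hzB hn in
/-- The lower bound for `Q₁`. -/
theorem Q1_lower (M : MaxIdeal E) {D : ℝ} (hν : 0 < ν) (hD0 : 0 < D) (hνD : ν ≤ D ^ 4 / 8)
    (hD1 : D ≤ 1)
    (hact : ∀ i : Fin 4, ∃ c, D ≤ ‖M.π (z i c)‖ * ‖M.π (z i c)‖) :
    ν * D * D / 16 ≤ ‖M.π (Q1 z ν)‖ := by
  choose c hc using hact
  have hνD1 : ν ≤ D := by
    have h1 : D ^ 4 ≤ D := by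
      calc D ^ 4 = D * D ^ 3 := by ring
        _ ≤ D * 1 := by gcongr; exact pow_le_one₀ hD0.le hD1
        _ = D := by ring
    linarith
  let τ : Fin 3 → Bool := ![c 0, c 1, c 2]
  have hτ0 : τ 0 = c 0 := rfl
  have hτ1 : τ 1 = c 1 := rfl
  have hτ2 : τ 2 = c 2 := rfl
  have hD2 : ν * D * D / 16 ≤ D * D * D / 16 := by gcongr
  cases hp : par τ with
  | false =>
    have h1 := termX_false_lower (ν := ν) hzB M hp
    have h2 := norm_π_termX_le_Q1 (ν := ν) hzB M τ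
    have h3 : D * D * D / 16 ≤
      (‖M.π (z 0 (τ 0))‖ * ‖M.π (z 0 (τ 0))‖) * (‖M.π (z 1 (τ 1))‖ * ‖M.π (z 1 (τ 1))‖) *
      (‖M.π (z 2 (τ 2))‖ * ‖M.π (z 2 (τ 2))‖) / 16 := by
      rw [hτ0, hτ1, hτ2]
      gcongr
      · exact hc 0
      · exact hc 1
      · exact hc 2
    linarith
  | true =>
    by_cases hall : ‖M.π (KK (z 0) (τ 0))‖ ≤ ν ∧ ‖M.π (KK (z 1) (τ 1))‖ ≤ ν ∧
        ‖M.π (KK (z 2) (τ 2))‖ ≤ ν
    · obtain ⟨k0, k1, k2⟩ := hall
      have a0 := XX_true_lower (z := z 0) M hν k0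
      have a1 := XX_true_lower (z := z 1) M hν k1
      have a2 := XX_true_lower (z := z 2) M hν k2
      have h1 := three_lower C M (XX_mem C (hzB 0) (τ 0) true (ν := ν))
        (XX_mem C (hzB 1) (τ 1) true (ν := ν)) (XX_mem C (hzB 2) (τ 2) true (ν := ν))
        (XX_nonneg _ _) (XX_nonneg _ _) (XX_nonneg _ _)
      have h2 := norm_π_termX_le_Q1 (ν := ν) hzB M τ
      have hterm : termX z ν τ = XX ν (z 0) (τ 0) true * XX ν (z 1) (τ 1) true *
          XX ν (z 2) (τ 2) true := by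
        simp only [termX, hp]
      rw [hterm] at h2
      have b0 : D * D / 2 ≤ ‖M.π (XX ν (z 0) (τ 0) true)‖ := by
        refine le_trans ?_ a0
        have := hc 0
        rw [hτ0]
        gcongr
      have b1 : D * D / 2 ≤ ‖M.π (XX ν (z 1) (τ 1) true)‖ := by
        refine le_trans ?_ a1
        have := hc 1
        rw [hτ1]
        gcongr
      have b2 : D * D / 2 ≤ ‖M.π (XX ν (z 2) (τ 2) true)‖ := by
        refine le_trans ?_ a2
        have := hc 2
        rw [hτ2]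
        gcongr
      have h3 : (D * D / 2) * (D * D / 2) * (D * D / 2) / 16 ≤
          ‖M.π (XX ν (z 0) (τ 0) true)‖ * ‖M.π (XX ν (z 1) (τ 1) true)‖ *
            ‖M.π (XX ν (z 2) (τ 2) true)‖ / 16 := by
        gcongr
      have h4 : ν * D * D / 16 ≤ (D * D / 2) * (D * D / 2) * (D * D / 2) / 16 := by
        have h5 : ν * (D * D) ≤ (D ^ 4 / 8) * (D * D) := by gcongr
        have : (D * D / 2) * (D * D / 2) * (D * D / 2) / 16 = (D ^ 4 / 8) * (D * D) / 16 := by ring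
        rw [this]
        have : ν * D * D / 16 = ν * (D * D) / 16 := by ring
        rw [this]
        gcongr
      linarith
    · -- some `K` is large: flip that coordinate
      have hex : ∃ i : Fin 3, ν < ‖M.π (KK (z (Fin.castSucc i)) (τ i))‖ := by
        by_contra hcon
        push Not at hcon
        exact hall ⟨hcon 0, hcon 1, hcon 2⟩
      obtain ⟨i, hi⟩ := hex
      have hlarge := KK_large M (hn _) hi
      set τ' := Function.update τ i (!τ i) with hτ'
      have hp' : par τ' = false := by rw [hτ', par_update, hp]; rfl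
      have h1 := termX_false_lower (ν := ν) hzB M hp'
      have h2 := norm_π_termX_le_Q1 (ν := ν) hzB M τ'
      have h3 : ν * D * D / 16 ≤
          (‖M.π (z 0 (τ' 0))‖ * ‖M.π (z 0 (τ' 0))‖) * (‖M.π (z 1 (τ' 1))‖ * ‖M.π (z 1 (τ' 1))‖) *
          (‖M.π (z 2 (τ' 2))‖ * ‖M.π (z 2 (τ' 2))‖) / 16 := by
        have c0 := hc 0
        have c1 := hc 1
        have c2 := hc 2
        fin_cases i
        · have e0 : τ' 0 = !τ 0 := by simp [hτ']
          have e1 : τ' 1 = τ 1 := by simp [hτ']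
          have e2 : τ' 2 = τ 2 := by simp [hτ']
          rw [e0, e1, e2, hτ1, hτ2]
          have hl : ν ≤ ‖M.π (z 0 (!τ 0))‖ * ‖M.π (z 0 (!τ 0))‖ := hlarge.le
          gcongr
        · have e0 : τ' 0 = τ 0 := by simp [hτ']
          have e1 : τ' 1 = !τ 1 := by simp [hτ']
          have e2 : τ' 2 = τ 2 := by simp [hτ']
          rw [e0, e1, e2, hτ0, hτ2]
          have hl : ν ≤ ‖M.π (z 1 (!τ 1))‖ * ‖M.π (z 1 (!τ 1))‖ := hlarge.le
          have : ν * D * D / 16 = D * ν * D / 16 := by ring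
          rw [this]
          gcongr
        · have e0 : τ' 0 = τ 0 := by simp [hτ']
          have e1 : τ' 1 = τ 1 := by simp [hτ']
          have e2 : τ' 2 = !τ 2 := by simp [hτ']
          rw [e0, e1, e2, hτ0, hτ1]
          have hl : ν ≤ ‖M.π (z 2 (!τ 2))‖ * ‖M.π (z 2 (!τ 2))‖ := hlarge.le
          have : ν * D * D / 16 = D * D * ν / 16 := by ring
          rw [this]
          gcongr
      linarith

include hzB in
lemma Q1_mem : Q1 z ν ∈ C.B I012 := by
  refine sum_mem fun τ _ => ?_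
  have h0 : XX ν (z 0) (τ 0) (par τ) ∈ C.B I012 :=
    C.B_mono (sub0_01.trans sub01_012) (XX_mem C (hzB 0) _ _)
  have h1 : XX ν (z 1) (τ 1) (par τ) ∈ C.B I012 :=
    C.B_mono (sub1_01.trans sub01_012) (XX_mem C (hzB 1) _ _)
  have h2 : XX ν (z 2) (τ 2) (par τ) ∈ C.B I012 :=
    C.B_mono sub2_012 (XX_mem C (hzB 2) _ _)
  exact mul_mem (mul_mem h0 h1) h2

include hzB in
lemma Q2_mem : Q2 z ν ∈ C.B I012 := by
  refine sum_mem fun τ _ => ?_
  have h0 : YY ν (z 0) (τ 0) (par τ) ∈ C.B I012 :=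
    C.B_mono (sub0_01.trans sub01_012) (YY_mem C (hzB 0) _ _)
  have h1 : YY ν (z 1) (τ 1) (par τ) ∈ C.B I012 :=
    C.B_mono (sub1_01.trans sub01_012) (YY_mem C (hzB 1) _ _)
  have h2 : YY ν (z 2) (τ 2) (par τ) ∈ C.B I012 :=
    C.B_mono sub2_012 (YY_mem C (hzB 2) _ _)
  exact mul_mem (mul_mem h0 h1) h2

/-- Orthogonalisation: a nonvanishing criterion for the positive part of a difference. -/
lemma posPart_ne_zero (M : MaxIdeal E) {x y : E} (hx : 0 ≤ x) (hy : 0 ≤ y)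
    (h : ‖x * y‖ < ‖M.π x‖ * ‖M.π x‖) : M.π ((x - y)⁺) ≠ 0 := by
  intro h0
  have hd : IsSelfAdjoint (x - y) := hx.isSelfAdjoint.sub hy.isSelfAdjoint
  have h1 := CFC.posPart_sub_negPart (x - y) hd
  have h2 : M.π x - M.π y = - M.π ((x - y)⁻) := by
    rw [← map_sub]
    calc M.π (x - y) = M.π ((x - y)⁺ - (x - y)⁻) := by rw [h1]
      _ = _ := by rw [map_sub, h0, zero_sub]
  have h3 : 0 ≤ M.π ((x - y)⁻) := π_nonneg M (CFC.negPart_nonneg _)
  have h4 : M.π x ≤ M.π y := by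
    have : M.π y - M.π x = M.π ((x - y)⁻) := by
      rw [← neg_sub, h2, neg_neg]
    exact sub_nonneg.1 (this ▸ h3)
  have h5 := norm_sq_le_of_le (π_nonneg M hx) h4
  rw [← map_mul] at h5
  have h6 := M.norm_π_le (x * y)
  linarith

include hzB hsq hn in
/-- The key theorem. -/
theorem key_theorem {δ : ℝ} (hδ : 0 < δ) :
    ∃ Z : E, Z ∈ C.B Set.univ ∧ Z * Z = 0 ∧
      ∀ M : MaxIdeal E, (∀ i, ∃ c, δ ≤ ‖M.π (z i c)‖) → M.π Z ≠ 0 := by
  set D : ℝ := min (δ * δ) 1 with hD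
  have hD0 : 0 < D := lt_min (mul_pos hδ hδ) one_pos
  have hD1 : D ≤ 1 := min_le_right _ _
  have hDδ : D ≤ δ * δ := min_le_left _ _
  set ν : ℝ := D ^ 4 / 300 with hνdef
  have hν : 0 < ν := by positivity
  have hνD : ν ≤ D ^ 4 / 8 := by
    rw [hνdef]
    have : 0 < D ^ 4 := by positivity
    linarith
  set Q := Q1 z ν with hQ
  set Q' := Q2 z ν with hQ'
  have hQ0 : 0 ≤ Q := Q1_nonneg hzB
  have hQ'0 : 0 ≤ Q' := Q2_nonneg hzB
  have hQB : Q ∈ C.B I012 := Q1_mem hzB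
  have hQ'B : Q' ∈ C.B I012 := Q2_mem hzB
  set P := (Q - Q')⁺ with hP
  set N := (Q - Q')⁻ with hN
  have hPB : P ∈ C.B I012 := C.posPart_mem_B (sub_mem hQB hQ'B)
  have hNB : N ∈ C.B I012 := C.negPart_mem_B (sub_mem hQB hQ'B)
  have hPN : P * N = 0 := CFC.posPart_mul_negPart _
  have hNP : N * P = 0 := CFC.negPart_mul_posPart _
  have hNeg : N = (Q' - Q)⁺ := by
    rw [hN, ← neg_sub, CFC.negPart_neg]
  set f := z 3 false with hf
  set t := z 3 true with ht
  have hfB : f ∈ C.B I3 := hzB 3 false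
  have htB : t ∈ C.B I3 := hzB 3 true
  have hff : f * f = 0 := hsq 3 false
  have htt : t * t = 0 := hsq 3 true
  have c1 : ∀ {x y : E}, x ∈ C.B I012 → y ∈ C.B I3 → x * y = y * x :=
    fun hx hy => C.comm_B disj012_3 hx hy
  have hfP : P * f = f * P := c1 hPB hfB
  have hfN : N * f = f * N := c1 hNB hfB
  have htP : P * t = t * P := c1 hPB htB
  have htN : N * t = t * N := c1 hNB htB
  refine ⟨f * P + t * N, ?_, ?_, ?_⟩
  · have s1 : I3 ⊆ Set.univ := Set.subset_univ _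
    have s2 : I012 ⊆ Set.univ := Set.subset_univ _
    exact add_mem (mul_mem (C.B_mono s1 hfB) (C.B_mono s2 hPB))
      (mul_mem (C.B_mono s1 htB) (C.B_mono s2 hNB))
  · calc (f * P + t * N) * (f * P + t * N)
        = f * (P * f) * P + f * (P * t) * N + t * (N * f) * P + t * (N * t) * N := by noncomm_ring
      _ = (f * f) * (P * P) + (f * t) * (P * N) + (t * f) * (N * P) + (t * t) * (N * N) := by
          rw [hfP, htP, hfN, htN]; noncomm_ring
      _ = 0 := by rw [hff, htt, hPN, hNP]; simp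
  · intro M hact h0
    have hact1 : ∀ i : Fin 4, ∃ c, D ≤ ‖M.π (z i c)‖ * ‖M.π (z i c)‖ := by
      intro i
      obtain ⟨c, hc⟩ := hact i
      refine ⟨c, hDδ.trans ?_⟩
      gcongr
    have hact2 : ∀ i : Fin 4, ∃ c, D ≤ ‖M.π (star (z i c))‖ * ‖M.π (star (z i c))‖ := by
      intro i
      obtain ⟨c, hc⟩ := hact1 i
      refine ⟨c, ?_⟩
      rwa [map_star, norm_star]
    have hnorm : ‖Q * Q'‖ ≤ ν * ν * ν := norm_Q1_mul_Q2 hzB hsq hn hν
    have hnorm' : ‖Q' * Q‖ ≤ ν * ν * ν := by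
      have : Q' * Q = star (Q * Q') := by
        rw [star_mul, hQ0.isSelfAdjoint.star_eq, hQ'0.isSelfAdjoint.star_eq]
      rw [this, norm_star]
      exact hnorm
    have hl1 : ν * D * D / 16 ≤ ‖M.π Q‖ := Q1_lower hzB hn M hν hD0 hνD hD1 hact1
    have hl2 : ν * D * D / 16 ≤ ‖M.π Q'‖ := by
      rw [hQ', Q2_eq]
      refine Q1_lower (C := C) (z := fun i c => star (z i c)) ?_ ?_ M hν hD0 hνD hD1 hact2
      · exact fun i c => C.star_mem_B (hzB i c)
      · exact fun i c => by rw [norm_star]; exact hn i c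
    have hkey : ν * ν * ν < (ν * D * D / 16) * (ν * D * D / 16) := by
      have h1 : (ν * D * D / 16) * (ν * D * D / 16) = ν * ν * (D ^ 4 / 256) := by ring
      rw [h1]
      have h2 : ν < D ^ 4 / 256 := by
        rw [hνdef]
        have : 0 < D ^ 4 := by positivity
        linarith
      have h3 : 0 < ν * ν := mul_pos hν hν
      exact mul_lt_mul_of_pos_left h2 h3
    have hlpos : 0 ≤ ν * D * D / 16 := by positivity
    have hP0 : M.π P ≠ 0 := by
      refine posPart_ne_zero M hQ0 hQ'0 ?_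
      calc ‖Q * Q'‖ ≤ ν * ν * ν := hnorm
        _ < (ν * D * D / 16) * (ν * D * D / 16) := hkey
        _ ≤ ‖M.π Q‖ * ‖M.π Q‖ := by gcongr
    have hN0 : M.π N ≠ 0 := by
      rw [hNeg]
      refine posPart_ne_zero M hQ'0 hQ0 ?_
      calc ‖Q' * Q‖ ≤ ν * ν * ν := hnorm'
        _ < (ν * D * D / 16) * (ν * D * D / 16) := hkey
        _ ≤ ‖M.π Q'‖ * ‖M.π Q'‖ := by gcongr
    -- the positive sum vanishes
    have hPsa : star P = P := (CFC.posPart_nonneg _).isSelfAdjoint.star_eq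
    have hNsa : star N = N := (CFC.negPart_nonneg _).isSelfAdjoint.star_eq
    have hstar : star (f * P + t * N) * (f * P + t * N)
        = star (f * P) * (f * P) + star (t * N) * (t * N) := by
      have hcP : P * star f = star f * P := c1 hPB (C.star_mem_B hfB)
      have hcN : N * star t = star t * N := c1 hNB (C.star_mem_B htB)
      have e1 : star (f * P) * (t * N) = 0 := by
        rw [star_mul, hPsa]
        calc P * star f * (t * N) = star f * (P * t) * N := by rw [hcP]; noncomm_ring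
          _ = (star f * t) * (P * N) := by rw [htP]; noncomm_ring
          _ = 0 := by rw [hPN]; simp
      have e2 : star (t * N) * (f * P) = 0 := by
        rw [star_mul, hNsa]
        calc N * star t * (f * P) = star t * (N * f) * P := by rw [hcN]; noncomm_ring
          _ = (star t * f) * (N * P) := by rw [hfN]; noncomm_ring
          _ = 0 := by rw [hNP]; simp
      rw [star_add, add_mul, mul_add, mul_add, e1, e2]
      abel
    have h2 : star (M.π (f * P)) * M.π (f * P) + star (M.π (t * N)) * M.π (t * N) = 0 := by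
      rw [← map_star, ← map_star, ← map_mul, ← map_mul, ← map_add, ← hstar, map_mul, h0, mul_zero]
    have h3 := nonneg_sum_eq_zero (star_mul_self_nonneg _) (star_mul_self_nonneg _) h2
    have h4 : M.π (f * P) = 0 := eq_zero_of_star_mul_self h3.1
    have h5 : M.π (t * N) = 0 := eq_zero_of_star_mul_self h3.2
    have hf0 : M.π f = 0 := by
      have h6 : M.π P * M.π f = 0 := by
        rw [← map_mul, hfP]; exact h4
      rcases C.prime_π M disj012_3 hPB hfB h6 with h7 | h7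
      · exact absurd h7 hP0
      · exact h7
    have ht0 : M.π t = 0 := by
      have h6 : M.π N * M.π t = 0 := by
        rw [← map_mul, htN]; exact h5
      rcases C.prime_π M disj012_3 hNB htB h6 with h7 | h7
      · exact absurd h7 hN0
      · exact h7
    obtain ⟨c, hc⟩ := hact 3
    cases c with
    | false =>
      have : M.π (z 3 false) = 0 := hf0
      rw [this, norm_zero] at hc
      linarith
    | true =>
      have : M.π (z 3 true) = 0 := ht0
      rw [this, norm_zero] at hc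
      linarith

end Main

end Vale.Agent.Lib.P101
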