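import Vale.Agent.Lib.P101.Coord

/-! Lower bounds for products of commuting positive elements in a simple quotient. -/

namespace Vale.Agent.Lib.P101

open scoped ComplexOrder

attribute [local instance] CStarAlgebra.spectralOrder CStarAlgebra.spectralOrderedRing

variable {E : Type*} [CStarAlgebra E]

lemma π_nonneg (M : MaxIdeal E) {x : E} (hx : 0 ≤ x) : 0 ≤ M.π x := map_nonneg M.π hx

lemma π_mono (M : MaxIdeal E) {x y : E} (h : x ≤ y) : M.π x ≤ M.π y := OrderHomClass.mono M.π h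

lemma π_real_smul (M : MaxIdeal E) (r : ℝ) (x : E) : M.π (r • x) = r • M.π x := by
  rw [← Complex.coe_smul, map_smul, Complex.coe_smul]

lemma isSelfAdjoint_algebraMap_real (c : ℝ) : IsSelfAdjoint (algebraMap ℝ E c) := by
  rw [IsSelfAdjoint, ← algebraMap_star_comm]
  simp

lemma π_algebraMap_real (M : MaxIdeal E) (c : ℝ) : M.π (algebraMap ℝ E c) = algebraMap ℝ M.Q c := by
  rw [Algebra.algebraMap_eq_smul_one, Algebra.algebraMap_eq_smul_one, π_real_smul, map_one]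

section Cut

variable (x : E) (c : ℝ)

/-- The cut element `(x - c)_+`. -/
noncomputable def cut : E := (x - algebraMap ℝ E c)⁺

lemma cut_nonneg : 0 ≤ cut x c := CFC.posPart_nonneg _

lemma cut_mem {U : Set E} (hx : x ∈ BB U) : cut x c ∈ BB U := by
  apply posPart_mem_BB
  refine sub_mem hx ?_
  have : algebraMap ℝ E c = algebraMap ℂ E (c : ℂ) := by
    rw [IsScalarTower.algebraMap_apply ℝ ℂ E]
    rfl
  rw [this]
  exact Subalgebra.algebraMap_mem _ _

variable {x c}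

lemma mul_cut (hx : IsSelfAdjoint x) :
    x * cut x c = c • cut x c + cut x c * cut x c := by
  have hd : IsSelfAdjoint (x - algebraMap ℝ E c) :=
    hx.sub (isSelfAdjoint_algebraMap_real c)
  have h1 := CFC.posPart_sub_negPart (x - algebraMap ℝ E c) hd
  have h2 := CFC.negPart_mul_posPart (x - algebraMap ℝ E c)
  have h3 : x = (cut x c - (x - algebraMap ℝ E c)⁻) + algebraMap ℝ E c := by
    rw [cut, h1]; abel
  have h4 : (x - algebraMap ℝ E c)⁻ * cut x c = 0 := h2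
  calc x * cut x c = ((cut x c - (x - algebraMap ℝ E c)⁻) + algebraMap ℝ E c) * cut x c := by
        rw [← h3]
    _ = cut x c * cut x c - (x - algebraMap ℝ E c)⁻ * cut x c
          + algebraMap ℝ E c * cut x c := by noncomm_ring
    _ = c • cut x c + cut x c * cut x c := by
        rw [h4, Algebra.algebraMap_eq_smul_one, smul_mul_assoc, one_mul]
        abel

lemma norm_π_le_of_cut (M : MaxIdeal E) (hx : 0 ≤ x) (hc : 0 ≤ c) (h : M.π (cut x c) = 0) :
    ‖M.π x‖ ≤ c := by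
  have hd : IsSelfAdjoint (x - algebraMap ℝ E c) :=
    hx.isSelfAdjoint.sub (isSelfAdjoint_algebraMap_real c)
  have h1 := CFC.posPart_sub_negPart (x - algebraMap ℝ E c) hd
  have h2 : M.π (x - algebraMap ℝ E c) = - M.π ((x - algebraMap ℝ E c)⁻) := by
    have h0 : M.π ((x - algebraMap ℝ E c)⁺) = 0 := h
    calc M.π (x - algebraMap ℝ E c)
        = M.π ((x - algebraMap ℝ E c)⁺ - (x - algebraMap ℝ E c)⁻) := by rw [h1]
      _ = _ := by rw [map_sub, h0, zero_sub]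
  have h3 : M.π x - algebraMap ℝ M.Q c = - M.π ((x - algebraMap ℝ E c)⁻) := by
    rw [← h2, map_sub, π_algebraMap_real]
  have h4 : 0 ≤ M.π ((x - algebraMap ℝ E c)⁻) := π_nonneg M (CFC.negPart_nonneg _)
  have h5 : M.π x ≤ algebraMap ℝ M.Q c := by
    have : algebraMap ℝ M.Q c - M.π x = M.π ((x - algebraMap ℝ E c)⁻) := by
      rw [← neg_sub, h3, neg_neg]
    exact sub_nonneg.1 (this ▸ h4)
  exact (CStarAlgebra.norm_le_iff_le_algebraMap _ hc (π_nonneg M hx)).2 h5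

end Cut

/-- `‖π x‖ ‖π y‖ / 4 ≤ ‖π (x y)‖` for commuting positive elements in disjoint coordinates. -/
theorem norm_mul_lower {ι : Type*} (C : CoordSys E ι) (M : MaxIdeal E) {I J : Set ι}
    (h : Disjoint I J) {x y : E} (hx : x ∈ C.B I) (hy : y ∈ C.B J) (hx0 : 0 ≤ x) (hy0 : 0 ≤ y) :
    ‖M.π x‖ * ‖M.π y‖ / 4 ≤ ‖M.π (x * y)‖ := by
  by_cases hl : ‖M.π x‖ = 0
  · rw [hl]; simp
  by_cases hl' : ‖M.π y‖ = 0
  · rw [hl']; simp
  have hlpos : 0 < ‖M.π x‖ := lt_of_le_of_ne (norm_nonneg _) (Ne.symm hl)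
  have hlpos' : 0 < ‖M.π y‖ := lt_of_le_of_ne (norm_nonneg _) (Ne.symm hl')
  set c := ‖M.π x‖ / 2 with hc
  set c' := ‖M.π y‖ / 2 with hc'
  have hcpos : 0 < c := half_pos hlpos
  have hcpos' : 0 < c' := half_pos hlpos'
  set ξ := cut x c with hξ
  set ζ := cut y c' with hζ
  have hξ0 : 0 ≤ ξ := cut_nonneg x c
  have hζ0 : 0 ≤ ζ := cut_nonneg y c'
  have hξB : ξ ∈ C.B I := cut_mem x c hx
  have hζB : ζ ∈ C.B J := cut_mem y c' hy
  have hξM : M.π ξ ≠ 0 := by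
    intro h0
    have := norm_π_le_of_cut M hx0 hcpos.le h0
    linarith
  have hζM : M.π ζ ≠ 0 := by
    intro h0
    have := norm_π_le_of_cut M hy0 hcpos'.le h0
    linarith
  have hw : M.π (ξ * ζ) ≠ 0 := by
    rw [map_mul]
    intro h0
    rcases C.prime_π M h hξB hζB h0 with h1 | h1
    · exact hξM h1
    · exact hζM h1
  have hcξζ : Commute ξ ζ := C.commute_B h hξB hζB
  have hcyξ : Commute y ξ := (C.commute_B h hξB hy).symm
  have hξx : x * ξ = c • ξ + ξ * ξ := mul_cut hx0.isSelfAdjoint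
  have hζy : y * ζ = c' • ζ + ζ * ζ := mul_cut hy0.isSelfAdjoint
  have hid : x * y * (ξ * ζ) = (c * c') • (ξ * ζ) +
      (c • (ξ * (ζ * ζ)) + c' • ((ξ * ξ) * ζ) + (ξ * ξ) * (ζ * ζ)) := by
    have h1 : x * y * (ξ * ζ) = (x * ξ) * (y * ζ) := by
      calc x * y * (ξ * ζ) = x * (y * ξ) * ζ := by noncomm_ring
        _ = x * (ξ * y) * ζ := by rw [hcyξ.eq]
        _ = _ := by noncomm_ring
    rw [h1, hξx, hζy]
    have h2 : ζ * ξ = ξ * ζ := hcξζ.eq.symm
    simp only [add_mul, mul_add, smul_mul_assoc, mul_smul_comm, smul_add, smul_smul, mul_assoc]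
    rw [mul_comm c' c]
    abel
  have hP : 0 ≤ c • (ξ * (ζ * ζ)) + c' • ((ξ * ξ) * ζ) + (ξ * ξ) * (ζ * ζ) := by
    have hζζ : 0 ≤ ζ * ζ := by
      have := star_mul_self_nonneg ζ
      rwa [hζ0.isSelfAdjoint.star_eq] at this
    have hξξ : 0 ≤ ξ * ξ := by
      have := star_mul_self_nonneg ξ
      rwa [hξ0.isSelfAdjoint.star_eq] at this
    have h1 : 0 ≤ ξ * (ζ * ζ) := Commute.mul_nonneg hξ0 hζζ (hcξζ.mul_right hcξζ)
    have h2 : 0 ≤ (ξ * ξ) * ζ := Commute.mul_nonneg hξξ hζ0 (hcξζ.mul_left hcξζ)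
    have h3 : 0 ≤ (ξ * ξ) * (ζ * ζ) :=
      Commute.mul_nonneg hξξ hζζ ((hcξζ.mul_right hcξζ).mul_left (hcξζ.mul_right hcξζ))
    exact add_nonneg (add_nonneg (smul_nonneg hcpos.le h1) (smul_nonneg hcpos'.le h2)) h3
  have hw0 : 0 ≤ ξ * ζ := Commute.mul_nonneg hξ0 hζ0 hcξζ
  have hle : (c * c') • (ξ * ζ) ≤ x * y * (ξ * ζ) := by
    rw [hid]
    exact le_add_of_nonneg_right hP
  have hleπ : (c * c') • M.π (ξ * ζ) ≤ M.π (x * y) * M.π (ξ * ζ) := by
    have := π_mono M hle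
    rw [map_mul] at this
    rwa [π_real_smul] at this
  have hn : (c * c') * ‖M.π (ξ * ζ)‖ ≤ ‖M.π (x * y)‖ * ‖M.π (ξ * ζ)‖ := by
    have h1 : 0 ≤ (c * c') • M.π (ξ * ζ) :=
      smul_nonneg (mul_pos hcpos hcpos').le (π_nonneg M hw0)
    have h2 := CStarAlgebra.norm_le_norm_of_nonneg_of_le h1 hleπ
    rw [norm_smul, Real.norm_eq_abs, abs_of_pos (mul_pos hcpos hcpos')] at h2
    exact h2.trans (norm_mul_le _ _)
  have hwpos : 0 < ‖M.π (ξ * ζ)‖ := norm_pos_iff.2 hw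
  have := le_of_mul_le_mul_right hn hwpos
  rw [hc, hc'] at this
  linarith

end Vale.Agent.Lib.P101
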