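import Vale.Agent.Lib.P101.Quot

/-! Maximal two-sided ideals of a unital C*-algebra and their quotients. -/

namespace Vale.Agent.Lib.P101

open scoped ComplexOrder

variable {E : Type*} [CStarAlgebra E]

/-- A proper two-sided ideal is contained in a maximal one. -/
lemma exists_coatom_ge (T : TwoSidedIdeal E) (hT : (1 : E) ∉ T) :
    ∃ m : TwoSidedIdeal E, T ≤ m ∧ IsCoatom m := by
  obtain ⟨m, hTm, hm⟩ := zorn_le_nonempty₀ {J : TwoSidedIdeal E | (1 : E) ∉ J} (by
    intro c hc hchain y hy
    let J : TwoSidedIdeal E := TwoSidedIdeal.mk' (⋃ j ∈ c, (j : Set E))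
      (by
        simp only [Set.mem_iUnion]
        exact ⟨y, hy, y.zero_mem⟩)
      (by
        intro a b ha hb
        simp only [Set.mem_iUnion] at ha hb ⊢
        obtain ⟨j, hj, hja⟩ := ha
        obtain ⟨k, hk, hkb⟩ := hb
        rcases hchain.total hj hk with h | h
        · exact ⟨k, hk, k.add_mem (h hja) hkb⟩
        · exact ⟨j, hj, j.add_mem hja (h hkb)⟩)
      (by
        intro a ha
        simp only [Set.mem_iUnion] at ha ⊢
        obtain ⟨j, hj, hja⟩ := ha
        exact ⟨j, hj, j.neg_mem hja⟩)
      (by
        intro a b hb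
        simp only [Set.mem_iUnion] at hb ⊢
        obtain ⟨j, hj, hjb⟩ := hb
        exact ⟨j, hj, j.mul_mem_left a b hjb⟩)
      (by
        intro a b ha
        simp only [Set.mem_iUnion] at ha ⊢
        obtain ⟨j, hj, hja⟩ := ha
        exact ⟨j, hj, j.mul_mem_right a b hja⟩)
    refine ⟨J, ?_, ?_⟩
    · intro h1
      rw [TwoSidedIdeal.mem_mk'] at h1
      simp only [Set.mem_iUnion] at h1
      obtain ⟨j, hj, h1j⟩ := h1
      exact hc hj h1j
    · intro j hj x hx
      show x ∈ J
      rw [TwoSidedIdeal.mem_mk']
      simp only [Set.mem_iUnion]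
      exact ⟨j, hj, hx⟩) T hT
  refine ⟨m, hTm, ?_⟩
  refine ⟨?_, ?_⟩
  · rintro rfl
    exact hm.prop (TwoSidedIdeal.mem_top E)
  · intro b hb
    by_contra hbtop
    have h1 : (1 : E) ∉ b := fun h => hbtop ((TwoSidedIdeal.one_mem_iff b).1 h)
    exact absurd (hm.le_of_ge h1 hb.le) (not_le_of_gt hb)

/-- The closure of a two-sided ideal. -/
noncomputable def closureIdeal (m : TwoSidedIdeal E) : TwoSidedIdeal E :=
  TwoSidedIdeal.mk' (closure (m : Set E))
    (subset_closure m.zero_mem)
    (fun ha hb => map_mem_closure₂ continuous_add ha hb (fun _ hx _ hy => m.add_mem hx hy))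
    (fun ha => map_mem_closure continuous_neg ha (fun _ hx => m.neg_mem hx))
    (fun {x y} hy => map_mem_closure (f := fun b => x * b) (by fun_prop) hy
      (fun _ hb => m.mul_mem_left x _ hb))
    (fun {x y} hx => map_mem_closure (f := fun b => b * y) (by fun_prop) hx
      (fun _ hb => m.mul_mem_right _ y hb))

/-- Maximal two-sided ideals are closed. -/
lemma isClosed_of_isCoatom {m : TwoSidedIdeal E} (hm : IsCoatom m) : IsClosed (m : Set E) := by
  have hle : m ≤ closureIdeal m := fun x hx => by
    show x ∈ closureIdeal m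
    rw [closureIdeal, TwoSidedIdeal.mem_mk']
    exact subset_closure hx
  rcases hle.eq_or_lt with h | h
  · have : (m : Set E) = closure (m : Set E) := by
      ext x
      constructor
      · intro hx
        exact subset_closure hx
      · intro hx
        have : x ∈ closureIdeal m := by
          rw [closureIdeal, TwoSidedIdeal.mem_mk']
          exact hx
        rw [← h] at this
        exact this
    rw [this]
    exact isClosed_closure
  · exfalso
    have htop := hm.2 _ h
    have h1 : (1 : E) ∈ closureIdeal m := by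
      rw [htop]; exact (TwoSidedIdeal.mem_top E)
    rw [closureIdeal, TwoSidedIdeal.mem_mk', Metric.mem_closure_iff] at h1
    obtain ⟨x, hx, hdist⟩ := h1 1 one_pos
    rw [dist_eq_norm] at hdist
    have hu : IsUnit x := by
      have h' : IsUnit (1 - (1 - x)) := isUnit_one_sub_of_norm_lt_one hdist
      simpa using h'
    obtain ⟨u, rfl⟩ := hu
    apply hm.1
    rw [← TwoSidedIdeal.one_mem_iff]
    have : (1 : E) = (↑u⁻¹ : E) * u := by simp
    rw [this]
    exact m.mul_mem_left _ _ hx

/-- A maximal two-sided ideal, bundled. -/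
structure MaxIdeal (E : Type*) [CStarAlgebra E] where
  /-- the ideal -/
  m : TwoSidedIdeal E
  isCoatom : IsCoatom m

namespace MaxIdeal

variable (M : MaxIdeal E)

instance instClosed : IsClosed (M.m.asIdeal : Set E) := by
  rw [TwoSidedIdeal.coe_asIdeal]
  exact isClosed_of_isCoatom M.isCoatom

/-- The simple quotient. -/
abbrev Q : Type _ := E ⧸ M.m.asIdeal

/-- The quotient map. -/
noncomputable def π : E →⋆ₐ[ℂ] M.Q := quotMk M.m.asIdeal

lemma π_eq_zero {x : E} : M.π x = 0 ↔ x ∈ M.m := by
  rw [π, quotMk_eq_zero, TwoSidedIdeal.mem_asIdeal]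

lemma π_surjective : Function.Surjective M.π := quotMk_surjective _

lemma norm_π_le (x : E) : ‖M.π x‖ ≤ ‖x‖ := norm_mk_le _ x

lemma one_notMem : (1 : E) ∉ M.m := fun h => M.isCoatom.1 ((TwoSidedIdeal.one_mem_iff _).1 h)

instance : Nontrivial M.Q := by
  refine ⟨⟨M.π 1, 0, ?_⟩⟩
  intro h
  exact M.one_notMem (M.π_eq_zero.1 h)

/-- maximality -/
lemma eq_top_of_gt {T : TwoSidedIdeal E} (hT : M.m ≤ T) {a : E} (ha : a ∈ T) (ha' : a ∉ M.m) :
    T = ⊤ := by
  refine M.isCoatom.2 T (lt_of_le_of_ne hT ?_)
  rintro rfl
  exact ha' ha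

end MaxIdeal

/-- Every proper ideal lies in some `MaxIdeal`. -/
lemma exists_maxIdeal (T : TwoSidedIdeal E) (hT : (1 : E) ∉ T) :
    ∃ M : MaxIdeal E, T ≤ M.m := by
  obtain ⟨m, h1, h2⟩ := exists_coatom_ge T hT
  exact ⟨⟨m, h2⟩, h1⟩

/-- `E` is topologically generated by `S` as a (non-star) algebra. -/
def Generates (S : Set E) : Prop :=
  ∀ R : Subalgebra ℂ E, IsClosed (R : Set E) → S ⊆ R → R = ⊤

lemma Generates.mono {S S' : Set E} (h : Generates S) (hS : S ⊆ S') : Generates S' :=
  fun R hR hS' => h R hR (hS.trans hS')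

/-- The prime lemma. -/
theorem prime_lemma (M : MaxIdeal E) (U : Set E) (hgen : Generates (U ∪ Set.centralizer U))
    {a b : E} (ha : a ∈ Set.centralizer (Set.centralizer U)) (hb : b ∈ Set.centralizer U)
    (hab : a * b ∈ M.m) : a ∈ M.m ∨ b ∈ M.m := by
  by_contra hcon
  push Not at hcon
  obtain ⟨ha', hb'⟩ := hcon
  -- the ideal T
  let C : Set E := {x | ∀ s ∈ Set.centralizer U, ∀ t ∈ Set.centralizer U, x * s * b * t ∈ M.m}
  have hCclosed : IsClosed C := by
    have hcl : IsClosed (M.m : Set E) := isClosed_of_isCoatom M.isCoatom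
    simp only [C, Set.ofPred_forall]
    refine isClosed_iInter fun s => isClosed_iInter fun _ => isClosed_iInter fun t =>
      isClosed_iInter fun _ => ?_
    exact hcl.preimage (f := fun x => x * s * b * t) (by fun_prop)
  -- right multiplication
  let R : Subalgebra ℂ E :=
    { carrier := {y | ∀ x ∈ C, x * y ∈ C}
      mul_mem' := by
        intro y y' hy hy' x hx
        have := hy' _ (hy x hx)
        rwa [mul_assoc] at this
      add_mem' := by
        intro y y' hy hy' x hx s hs t ht
        have h1 := hy x hx s hs t ht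
        have h2 := hy' x hx s hs t ht
        have : x * (y + y') * s * b * t = x * y * s * b * t + x * y' * s * b * t := by
          noncomm_ring
        rw [this]
        exact M.m.add_mem h1 h2
      algebraMap_mem' := by
        intro r x hx s hs t ht
        have h1 := hx s hs t ht
        have : x * (algebraMap ℂ E r) * s * b * t = (algebraMap ℂ E r) * (x * s * b * t) := by
          rw [Algebra.commutes r x |>.symm]; noncomm_ring
        rw [this]
        exact M.m.mul_mem_left _ _ h1 }
  have hRclosed : IsClosed (R : Set E) := by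
    show IsClosed {y | ∀ x ∈ C, x * y ∈ C}
    simp only [Set.ofPred_forall]
    refine isClosed_iInter fun x => isClosed_iInter fun _ => ?_
    exact hCclosed.preimage (f := fun y => x * y) (by fun_prop)
  have hRgen : U ∪ Set.centralizer U ⊆ (R : Set E) := by
    rintro y (hy | hy) x hx s hs t ht
    · -- `y ∈ U` commutes with `s b t`
      have h1 := hx s hs t ht
      have hys : y * s = s * y := (Set.mem_centralizer_iff.1 hs y hy)
      have hyb : y * b = b * y := (Set.mem_centralizer_iff.1 hb y hy)
      have hyt : y * t = t * y := (Set.mem_centralizer_iff.1 ht y hy)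
      have : x * y * s * b * t = x * s * b * t * y := by
        calc x * y * s * b * t = x * (y * s) * b * t := by noncomm_ring
          _ = x * s * (y * b) * t := by rw [hys]; noncomm_ring
          _ = x * s * b * (y * t) := by rw [hyb]; noncomm_ring
          _ = x * s * b * t * y := by rw [hyt]; noncomm_ring
      rw [this]
      exact M.m.mul_mem_right _ _ h1
    · have h1 := hx (y * s) (Set.mul_mem_centralizer hy hs) t ht
      have : x * y * s * b * t = x * (y * s) * b * t := by noncomm_ring
      rw [this]
      exact h1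
  have hRtop := hgen R hRclosed hRgen
  -- the two-sided ideal
  let T : TwoSidedIdeal E := TwoSidedIdeal.mk' C
    (by intro s _ t _; simp [M.m.zero_mem])
    (by
      intro x y hx hy s hs t ht
      have : (x + y) * s * b * t = x * s * b * t + y * s * b * t := by noncomm_ring
      rw [this]
      exact M.m.add_mem (hx s hs t ht) (hy s hs t ht))
    (by
      intro x hx s hs t ht
      have : (-x) * s * b * t = -(x * s * b * t) := by noncomm_ring
      rw [this]
      exact M.m.neg_mem (hx s hs t ht))
    (by
      intro x y hy s hs t ht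
      have : (x * y) * s * b * t = x * (y * s * b * t) := by noncomm_ring
      rw [this]
      exact M.m.mul_mem_left _ _ (hy s hs t ht))
    (by
      intro x y hx
      have hy : y ∈ R := by rw [hRtop]; trivial
      exact hy x hx)
  have hmT : M.m ≤ T := by
    intro x hx
    show x ∈ T
    rw [TwoSidedIdeal.mem_mk']
    intro s _ t _
    have : x * s * b * t = x * (s * b * t) := by noncomm_ring
    rw [this]
    exact M.m.mul_mem_right _ _ hx
  have haT : a ∈ T := by
    rw [TwoSidedIdeal.mem_mk']
    intro s hs t _
    have has : a * s = s * a := (Set.mem_centralizer_iff.1 ha s hs).symm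
    have : a * s * b * t = s * (a * b) * t := by
      rw [has]; noncomm_ring
    rw [this]
    exact M.m.mul_mem_right _ _ (M.m.mul_mem_left _ _ hab)
  have hTtop := M.eq_top_of_gt hmT haT ha'
  have h1T : (1 : E) ∈ T := by rw [hTtop]; exact (TwoSidedIdeal.mem_top E)
  rw [TwoSidedIdeal.mem_mk'] at h1T
  have hone : (1 : E) ∈ Set.centralizer U := by
    exact Set.one_mem_centralizer
  have := h1T 1 hone 1 hone
  simp only [mul_one, one_mul] at this
  exact hb' this

end Vale.Agent.Lib.P101
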