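import Vale.Agent.Lib.P101.Lower

/-! The polynomial merge of two commuting square-zero elements. -/

namespace Vale.Agent.Lib.P101

open scoped ComplexOrder

attribute [local instance] CStarAlgebra.spectralOrder CStarAlgebra.spectralOrderedRing

section Alg

variable {E : Type*} [CStarAlgebra E]

/-- `z z^* + z^* z` -/
def tt (z : E) : E := z * star z + star z * z

/-- `z^* z - z z^*` -/
def ww (z : E) : E := star z * z - z * star z

lemma star_tt (z : E) : star (tt z) = tt z := by
  simp [tt, star_mul]

lemma star_ww (z : E) : star (ww z) = ww z := by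
  simp [ww, star_mul]

lemma star_sq {z : E} (hz : z * z = 0) : star z * star z = 0 := by
  rw [← star_mul, hz, star_zero]

lemma z_tt {z : E} (hz : z * z = 0) : z * tt z = tt z * z := by
  have h : z * (z * star z) = 0 := by rw [← mul_assoc, hz, zero_mul]
  have h' : star z * z * z = 0 := by rw [mul_assoc, hz, mul_zero]
  simp only [tt, mul_add, add_mul, h, h', zero_add, add_zero]
  noncomm_ring

lemma z_ww {z : E} (hz : z * z = 0) : z * ww z = tt z * z := by
  have h : z * (z * star z) = 0 := by rw [← mul_assoc, hz, zero_mul]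
  have h' : star z * z * z = 0 := by rw [mul_assoc, hz, mul_zero]
  simp only [tt, ww, mul_sub, add_mul, h, h', add_zero, sub_zero]
  noncomm_ring

lemma ww_z {z : E} (hz : z * z = 0) : ww z * z = -(tt z * z) := by
  have h : z * (z * star z) = 0 := by rw [← mul_assoc, hz, zero_mul]
  have h' : star z * z * z = 0 := by rw [mul_assoc, hz, mul_zero]
  simp only [tt, ww, sub_mul, add_mul, h', add_zero, zero_sub]

lemma tt_ww {z : E} (hz : z * z = 0) : tt z * ww z = ww z * tt z := by
  have hs := star_sq hz
  have h1 : z * star z * (star z * z) = 0 := by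
    calc _ = z * (star z * star z) * z := by noncomm_ring
      _ = 0 := by rw [hs]; simp
  have h2 : star z * z * (z * star z) = 0 := by
    calc _ = star z * (z * z) * star z := by noncomm_ring
      _ = 0 := by rw [hz]; simp
  simp only [tt, ww, add_mul, sub_mul, mul_add, mul_sub, h1, h2]
  abel

/-- The merge of two commuting square-zero elements. -/
noncomputable def merge (z z' : E) : E :=
  tt z * z + tt z' * z' + Complex.I • (z * ww z' - ww z * z')

end Alg

section Main

variable {E : Type*} [CStarAlgebra E] {ι : Type*} (C : CoordSys E ι)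

lemma tt_mem {I : Set ι} {z : E} (hz : z ∈ C.B I) : tt z ∈ C.B I :=
  add_mem (mul_mem hz (C.star_mem_B hz)) (mul_mem (C.star_mem_B hz) hz)

lemma ww_mem {I : Set ι} {z : E} (hz : z ∈ C.B I) : ww z ∈ C.B I :=
  sub_mem (mul_mem (C.star_mem_B hz) hz) (mul_mem hz (C.star_mem_B hz))

lemma merge_mem {I J : Set ι} {z z' : E} (hz : z ∈ C.B I) (hz' : z' ∈ C.B J) :
    merge z z' ∈ C.B (I ∪ J) := by
  have h1 : z ∈ C.B (I ∪ J) := C.B_mono Set.subset_union_left hz
  have h2 : z' ∈ C.B (I ∪ J) := C.B_mono Set.subset_union_right hz'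
  exact add_mem (add_mem (mul_mem (tt_mem C h1) h1) (mul_mem (tt_mem C h2) h2))
    (Subalgebra.smul_mem _ (sub_mem (mul_mem h1 (ww_mem C h2)) (mul_mem (ww_mem C h1) h2)) _)

/-- `merge z z'` squares to zero. -/
theorem merge_sq {I J : Set ι} (h : Disjoint I J) {z z' : E} (hz : z ∈ C.B I) (hz' : z' ∈ C.B J)
    (hzz : z * z = 0) (hzz' : z' * z' = 0) : merge z z' * merge z z' = 0 := by
  set T := tt z with hT
  set w := ww z with hw
  set T' := tt z' with hT'
  set w' := ww z' with hw'
  have hTB : T ∈ C.B I := tt_mem C hz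
  have hwB : w ∈ C.B I := ww_mem C hz
  have hTB' : T' ∈ C.B J := tt_mem C hz'
  have hwB' : w' ∈ C.B J := ww_mem C hz'
  have c1 : ∀ {x y : E}, x ∈ C.B I → y ∈ C.B J → x * y = y * x := fun hx hy => C.comm_B h hx hy
  have F1 : z * T = T * z := z_tt hzz
  have F2 : z * w = T * z := z_ww hzz
  have F3 : w * z = -(T * z) := ww_z hzz
  have F4 : T * w = w * T := tt_ww hzz
  have F1' : z' * T' = T' * z' := z_tt hzz'
  have F2' : z' * w' = T' * z' := z_ww hzz'
  have F3' : w' * z' = -(T' * z') := ww_z hzz'
  have F4' : T' * w' = w' * T' := tt_ww hzz'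
  let u : E := T + Complex.I • w'
  let v : E := T' - Complex.I • w
  have hm : merge z z' = z * u + v * z' := by
    simp only [merge, u, v, mul_add, sub_mul, smul_mul_assoc, mul_smul_comm, smul_sub]
    rw [F1, ← hT, ← hT', ← hw, ← hw']
    abel
  have huz : z * u = u * z := by
    simp only [u, mul_add, add_mul, mul_smul_comm, smul_mul_assoc]
    rw [F1, c1 hz hwB']
  have hvz' : z' * v = v * z' := by
    simp only [v, mul_sub, sub_mul, mul_smul_comm, smul_mul_assoc]
    rw [F1', (c1 hwB hz')]
  have huv : u * v = v * u := by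
    simp only [u, v, mul_add, add_mul, mul_sub, sub_mul, mul_smul_comm, smul_mul_assoc]
    rw [c1 hTB hTB', c1 hwB hwB', F4, F4']
    simp only [smul_add, smul_sub]
    abel
  have hAA : (z * u) * (z * u) = 0 := by
    calc (z * u) * (z * u) = z * (u * z) * u := by noncomm_ring
      _ = z * (z * u) * u := by rw [huz]
      _ = (z * z) * u * u := by noncomm_ring
      _ = 0 := by rw [hzz]; simp
  have hBB : (v * z') * (v * z') = 0 := by
    calc (v * z') * (v * z') = v * (z' * v) * z' := by noncomm_ring
      _ = v * (v * z') * z' := by rw [hvz']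
      _ = v * v * (z' * z') := by noncomm_ring
      _ = 0 := by rw [hzz']; simp
  let p : E := T' - Complex.I • T
  let p' : E := T - Complex.I • T'
  let q : E := T' + Complex.I • T
  let q' : E := T + Complex.I • T'
  have hzv : z * v = p * z := by
    simp only [v, p, mul_sub, sub_mul, mul_smul_comm, smul_mul_assoc]
    rw [F2, c1 hz hTB']
  have huz' : u * z' = p' * z' := by
    simp only [u, p', add_mul, sub_mul, smul_mul_assoc]
    rw [F3', smul_neg]
    abel
  have hvz : v * z = q * z := by
    simp only [v, q, sub_mul, add_mul, smul_mul_assoc]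
    rw [F3, smul_neg]
    abel
  have hz'u : z' * u = q' * z' := by
    simp only [u, q', mul_add, add_mul, mul_smul_comm, smul_mul_assoc]
    rw [F2', (c1 hTB hz').symm]
  have hzp' : z * p' = p' * z := by
    simp only [p', mul_sub, sub_mul, mul_smul_comm, smul_mul_assoc]
    rw [F1, c1 hz hTB']
  have hzq' : z * q' = q' * z := by
    simp only [q', mul_add, add_mul, mul_smul_comm, smul_mul_assoc]
    rw [F1, c1 hz hTB']
  have hAB : (z * u) * (v * z') = p * p' * (z * z') := by
    calc (z * u) * (v * z') = z * (u * v) * z' := by noncomm_ring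
      _ = (z * v) * (u * z') := by rw [huv]; noncomm_ring
      _ = (p * z) * (p' * z') := by rw [hzv, huz']
      _ = p * (z * p') * z' := by noncomm_ring
      _ = p * (p' * z) * z' := by rw [hzp']
      _ = _ := by noncomm_ring
  have hBA : (v * z') * (z * u) = q * q' * (z * z') := by
    calc (v * z') * (z * u) = v * (z' * z) * u := by noncomm_ring
      _ = v * (z * z') * u := by rw [c1 hz hz']
      _ = (v * z) * (z' * u) := by noncomm_ring
      _ = (q * z) * (q' * z') := by rw [hvz, hz'u]
      _ = q * (z * q') * z' := by noncomm_ring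
      _ = q * (q' * z) * z' := by rw [hzq']
      _ = _ := by noncomm_ring
  have hpq : p * p' + q * q' = 0 := by
    simp only [p, p', q, q', mul_add, add_mul, mul_sub, sub_mul, mul_smul_comm, smul_mul_assoc,
      smul_sub, smul_add, smul_smul, Complex.I_mul_I]
    rw [c1 hTB hTB']
    simp only [neg_smul, one_smul]
    abel
  rw [hm]
  calc (z * u + v * z') * (z * u + v * z')
      = (z * u) * (z * u) + ((z * u) * (v * z') + (v * z') * (z * u)) + (v * z') * (v * z') := by
        noncomm_ring
    _ = 0 := by
        rw [hAA, hBB, hAB, hBA, ← add_mul, hpq]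
        simp

lemma π_tt (M : MaxIdeal E) (z : E) : M.π (tt z) = M.π z * star (M.π z) + star (M.π z) * M.π z := by
  simp [tt, map_star]

lemma π_ww (M : MaxIdeal E) (z : E) : M.π (ww z) = star (M.π z) * M.π z - M.π z * star (M.π z) := by
  simp [ww, map_star]

/-- `T z` vanishing forces `z` vanishing. -/
lemma π_eq_zero_of_tt_mul (M : MaxIdeal E) {z : E} (hzz : z * z = 0)
    (h : M.π (tt z * z) = 0) : M.π z = 0 := by
  have h' : star z * z * z = 0 := by rw [mul_assoc, hzz, mul_zero]
  have h1 : tt z * z = z * star z * z := by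
    simp only [tt, add_mul, h', add_zero]
  rw [h1] at h
  have h2 : M.π ((star z * z) * (star z * z)) = 0 := by
    have : (star z * z) * (star z * z) = star z * (z * star z * z) := by noncomm_ring
    rw [this, map_mul, h, mul_zero]
  rw [map_mul] at h2
  have hsa : IsSelfAdjoint (M.π (star z * z)) := by
    rw [IsSelfAdjoint, ← map_star]
    simp
  have h3 := eq_zero_of_sq hsa h2
  rw [map_mul, map_star] at h3
  exact eq_zero_of_star_mul_self h3

/-- If `merge z z'` lies in a maximal ideal, so do `z` and `z'`. -/
theorem merge_π (M : MaxIdeal E) {I J : Set ι} (h : Disjoint I J) {z z' : E}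
    (hz : z ∈ C.B I) (hz' : z' ∈ C.B J)
    (hzz : z * z = 0) (hzz' : z' * z' = 0) (hM : M.π (merge z z') = 0) :
    M.π z = 0 ∧ M.π z' = 0 := by
  -- reduction to: one of them vanishes
  have hone : M.π z = 0 ∨ M.π z' = 0 := by
    set T := tt z with hT
    set w := ww z with hw
    set T' := tt z' with hT'
    set w' := ww z' with hw'
    have hTB : T ∈ C.B I := tt_mem C hz
    have hwB : w ∈ C.B I := ww_mem C hz
    have hTB' : T' ∈ C.B J := tt_mem C hz'
    have c1 : ∀ {x y : E}, x ∈ C.B I → y ∈ C.B J → x * y = y * x := fun hx hy => C.comm_B h hx hy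
    have F1 : z * T = T * z := z_tt hzz
    have F2 : z * w = T * z := z_ww hzz
    let u : E := T + Complex.I • w'
    let v : E := T' - Complex.I • w
    have hm : merge z z' = z * u + v * z' := by
      simp only [merge, u, v, mul_add, sub_mul, smul_mul_assoc, mul_smul_comm, smul_sub]
      rw [F1, ← hT, ← hT', ← hw, ← hw']
      abel
    let p : E := T' - Complex.I • T
    let q : E := T' + Complex.I • T
    have hzv : z * v = p * z := by
      simp only [v, p, mul_sub, sub_mul, mul_smul_comm, smul_mul_assoc]
      rw [F2, c1 hz hTB']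
    have hzm : z * merge z z' = p * (z * z') := by
      rw [hm, mul_add, ← mul_assoc, hzz, zero_mul, zero_add, ← mul_assoc, hzv, mul_assoc]
    have hqp : q * p = T' * T' + T * T := by
      simp only [p, q, add_mul, mul_sub, mul_smul_comm, smul_mul_assoc,
        smul_sub, smul_add, smul_smul, Complex.I_mul_I]
      rw [c1 hTB hTB']
      simp only [neg_smul, one_smul]
      abel
    have h1 : M.π ((T' * T' + T * T) * (z * z')) = 0 := by
      rw [← hqp, mul_assoc, ← hzm, map_mul, map_mul, hM]
      simp
    have hsT : star T = T := star_tt z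
    have hsT' : star T' = T' := star_tt z'
    have h2 : M.π (star (T' * (z * z')) * (T' * (z * z')) + star (T * (z * z')) * (T * (z * z')))
        = 0 := by
      have : star (T' * (z * z')) * (T' * (z * z')) + star (T * (z * z')) * (T * (z * z'))
          = star (z * z') * ((T' * T' + T * T) * (z * z')) := by
        rw [star_mul T', star_mul T, hsT, hsT']
        noncomm_ring
      rw [this, map_mul, h1, mul_zero]
    have h2' : star (M.π (T' * (z * z'))) * M.π (T' * (z * z'))
        + star (M.π (T * (z * z'))) * M.π (T * (z * z')) = 0 := by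
      rw [← map_star, ← map_star, ← map_mul, ← map_mul, ← map_add]
      exact h2
    have h3 := nonneg_sum_eq_zero (star_mul_self_nonneg _) (star_mul_self_nonneg _) h2'
    have h4 : M.π (T * (z * z')) = 0 := eq_zero_of_star_mul_self h3.2
    have h5 : M.π (T * z) * M.π z' = 0 := by
      rw [← map_mul, mul_assoc]; exact h4
    rcases C.prime_π M h (mul_mem hTB hz) hz' h5 with h6 | h6
    · left
      exact π_eq_zero_of_tt_mul M hzz h6
    · right; exact h6
  have hmerge : M.π (merge z z') = M.π (tt z) * M.π z + M.π (tt z') * M.π z'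
      + Complex.I • (M.π z * M.π (ww z') - M.π (ww z) * M.π z') := by
    simp [merge, map_add, map_mul, map_sub, map_smul]
  rcases hone with h0 | h0
  · have ht : M.π (tt z) = 0 := by rw [π_tt, h0]; simp
    have hw : M.π (ww z) = 0 := by rw [π_ww, h0]; simp
    rw [hmerge, h0, ht, hw] at hM
    simp only [mul_zero, zero_mul, zero_add, sub_zero, smul_zero, add_zero] at hM
    rw [← map_mul] at hM
    exact ⟨h0, π_eq_zero_of_tt_mul M hzz' hM⟩
  · have ht : M.π (tt z') = 0 := by rw [π_tt, h0]; simp
    have hw : M.π (ww z') = 0 := by rw [π_ww, h0]; simp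
    rw [hmerge, h0, ht, hw] at hM
    simp only [mul_zero, zero_mul, add_zero, sub_zero, smul_zero] at hM
    rw [← map_mul] at hM
    exact ⟨π_eq_zero_of_tt_mul M hzz hM, h0⟩

end Main

end Vale.Agent.Lib.P101
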