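import Vale.Agent.Lib.P101.Inv

/-! Polynomial identities for the merge. -/

namespace Vale.Agent.Lib.P101

set_option linter.unusedSimpArgs false

section
variable {R : Type*} [Ring R] [Algebra ℂ R]

theorem merge_algebra (a b c d : R) (ha : a * a = 0) (hb : b * b = 0) (hc : c * c = 0)
    (hd : d * d = 0)
    (ca : c * a = a * c) (cb : c * b = b * c) (da : d * a = a * d) (db : d * b = b * d)
    (T T' w w' Z Zb : R)
    (hT : T = a * b + b * a) (hT' : T' = c * d + d * c)
    (hw : w = b * a - a * b) (hw' : w' = d * c - c * d)
    (hZ : Z = T * a + T' * c + Complex.I • (a * w' - w * c))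
    (hZb : Zb = b * T + d * T' - Complex.I • (w' * b - d * w)) :
    Z * Z = 0 ∧ Z * Zb + Zb * Z = (T * T + T' * T') * (T + T') ∧
      a * Zb * (Z * b) = (T * T + T' * T') * (a * b) * (a * b + d * c) := by
  have ha' : ∀ x : R, a * (a * x) = 0 := fun x => by rw [← mul_assoc, ha, zero_mul]
  have hb' : ∀ x : R, b * (b * x) = 0 := fun x => by rw [← mul_assoc, hb, zero_mul]
  have hc' : ∀ x : R, c * (c * x) = 0 := fun x => by rw [← mul_assoc, hc, zero_mul]
  have hd' : ∀ x : R, d * (d * x) = 0 := fun x => by rw [← mul_assoc, hd, zero_mul]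
  have ca' : ∀ x : R, c * (a * x) = a * (c * x) := fun x => by rw [← mul_assoc, ca, mul_assoc]
  have cb' : ∀ x : R, c * (b * x) = b * (c * x) := fun x => by rw [← mul_assoc, cb, mul_assoc]
  have da' : ∀ x : R, d * (a * x) = a * (d * x) := fun x => by rw [← mul_assoc, da, mul_assoc]
  have db' : ∀ x : R, d * (b * x) = b * (d * x) := fun x => by rw [← mul_assoc, db, mul_assoc]
  have hII : ∀ x : R, Complex.I • Complex.I • x = -x := fun x => by
    rw [smul_smul, Complex.I_mul_I, neg_smul, one_smul]
  subst hT hT' hw hw' hZ hZb
  refine ⟨?_, ?_, ?_⟩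
  · simp only [mul_add, add_mul, mul_sub, sub_mul, mul_smul_comm, smul_mul_assoc, smul_add,
      smul_sub, mul_assoc, ha, hb, hc, hd, ha', hb', hc', hd', ca, cb, da, db, ca', cb', da', db',
      mul_zero, zero_mul, add_zero, zero_add, sub_zero, zero_sub, neg_zero, smul_zero, hII,
      smul_neg, neg_neg]
    abel
  · simp only [mul_add, add_mul, mul_sub, sub_mul, mul_smul_comm, smul_mul_assoc, smul_add,
      smul_sub, mul_assoc, ha, hb, hc, hd, ha', hb', hc', hd', ca, cb, da, db, ca', cb', da', db',
      mul_zero, zero_mul, add_zero, zero_add, sub_zero, zero_sub, neg_zero, smul_zero, hII,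
      smul_neg, neg_neg]
    abel
  · simp only [mul_add, add_mul, mul_sub, sub_mul, mul_smul_comm, smul_mul_assoc, smul_add,
      smul_sub, mul_assoc, ha, hb, hc, hd, ha', hb', hc', hd', ca, cb, da, db, ca', cb', da', db',
      mul_zero, zero_mul, add_zero, zero_add, sub_zero, zero_sub, neg_zero, smul_zero, hII,
      smul_neg, neg_neg]
    abel
end

section
variable {E : Type*} [CStarAlgebra E]

lemma star_merge (z z' : E) :
    star (merge z z') = star z * tt z + star z' * tt z'
      - Complex.I • (ww z' * star z - star z' * ww z) := by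
  simp only [merge, star_add, star_mul, star_smul, star_sub, star_tt, star_ww, star_star,
    Complex.star_def, Complex.conj_I, neg_smul]
  abel

/-- The merge identities. -/
theorem merge_ids {z z' : E} (hz : z * z = 0) (hz' : z' * z' = 0)
    (ca : z' * z = z * z') (cb : z' * star z = star z * z')
    (da : star z' * z = z * star z') (db : star z' * star z = star z * star z') :
    merge z z' * merge z z' = 0 ∧
      tt (merge z z') = (tt z * tt z + tt z' * tt z') * (tt z + tt z') ∧
      z * star (merge z z') * (merge z z' * star z)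
        = (tt z * tt z + tt z' * tt z') * (z * star z) * (z * star z + star z' * z') := by
  have := merge_algebra z (star z) z' (star z') hz (star_sq hz) hz' (star_sq hz') ca cb da db
    (tt z) (tt z') (ww z) (ww z') (merge z z') (star (merge z z')) rfl rfl rfl rfl rfl
    (star_merge z z')
  exact this

end

end Vale.Agent.Lib.P101
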