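import Vale.Agent.Lib.P101.Glue3

/-! The twisted boundary conditions, and the map from `Z_{2,3}`. -/

namespace Vale.Agent.Lib.P101

set_option linter.unusedSectionVars false

open scoped Kronecker

noncomputable section

/-- The transposition of `(0,1)` and `(1,0)`. -/
def pi6 : Equiv.Perm (Fin 2 × Fin 3) := Equiv.swap (0, 1) (1, 0)

lemma pi6_pi6 (p : Fin 2 × Fin 3) : pi6 (pi6 p) = p := Equiv.swap_apply_self _ _ p

/-- The twisted copy of `M_3`: `n ↦ W (1 ⊗ n) W`, `W` the permutation matrix of `pi6`. -/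
def Nh : Matrix (Fin 3) (Fin 3) ℂ →⋆ₐ[ℂ] Mat6 where
  toFun n := (kr2 n).submatrix pi6 pi6
  map_one' := by
    rw [map_one]
    exact Matrix.submatrix_one_equiv pi6
  map_mul' a b := by
    rw [map_mul]
    exact (Matrix.submatrix_mul_equiv _ _ _ pi6 _).symm
  map_zero' := by
    rw [map_zero]
    rfl
  map_add' a b := by
    rw [map_add]
    rfl
  commutes' r := by
    have h : kr2 (algebraMap ℂ _ r) = algebraMap ℂ Mat6 r := kr2.commutes r
    rw [h]
    ext i j
    simp [Matrix.algebraMap_matrix_apply, EmbeddingLike.apply_eq_iff_eq]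
  map_star' a := by
    rw [map_star]
    rfl

@[simp] lemma Nh_apply (n : Matrix (Fin 3) (Fin 3) ℂ) (u z : Fin 2 × Fin 3) :
    Nh n u z = kr2 n (pi6 u) (pi6 z) := rfl

lemma kr1_injective : Function.Injective kr1 := by
  intro a b h
  ext i j
  have := congrFun (congrFun h (i, 0)) (j, 0)
  simpa [kr1] using this

lemma kr2_injective : Function.Injective kr2 := by
  intro a b h
  ext i j
  have := congrFun (congrFun h (0, i)) (0, j)
  simpa [kr2] using this

lemma Nh_injective : Function.Injective Nh := by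
  intro a b h
  apply kr2_injective
  ext u z
  have := congrFun (congrFun h (pi6 u)) (pi6 z)
  simpa [pi6_pi6] using this

/-- The permutation matrix. -/
def W6 : Mat6 := (1 : Mat6).submatrix pi6 id

lemma W6_mul (A : Mat6) : W6 * A = A.submatrix pi6 id := by
  ext u z
  simp [W6, Matrix.mul_apply, Matrix.one_apply]

lemma mul_W6 (A : Mat6) : A * W6 = A.submatrix id pi6 := by
  ext u z
  simp only [W6, Matrix.mul_apply, Matrix.submatrix_apply, id_eq, Matrix.one_apply,
    Matrix.submatrix_id_id]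
  rw [Finset.sum_eq_single (pi6 z)]
  · simp [pi6_pi6]
  · intro y _ hy
    have : pi6 y ≠ z := fun e => hy (by rw [← e, pi6_pi6])
    simp [this]
  · simp

lemma W6_mul_W6 : W6 * W6 = 1 := by
  rw [W6_mul]
  ext u z
  show (1 : Mat6) (pi6 (pi6 u)) z = (1 : Mat6) u z
  rw [pi6_pi6]

lemma W6_star : star W6 = W6 := by
  ext u z
  simp only [W6, Matrix.star_apply, Matrix.submatrix_apply, id_eq, Matrix.one_apply]
  by_cases h : pi6 z = u
  · have h2 : pi6 u = z := by rw [← h, pi6_pi6]
    simp [h, h2]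
  · have h2 : pi6 u ≠ z := fun e => h (by rw [← e, pi6_pi6])
    simp [h, h2]

/-- `cos (π u / 2)` -/
def csn : C(II, ℂ) := ⟨fun u => ((Real.cos (Real.pi * (u : ℝ) / 2) : ℝ) : ℂ), by fun_prop⟩

/-- `sin (π u / 2)` -/
def snn : C(II, ℂ) := ⟨fun u => ((Real.sin (Real.pi * (u : ℝ) / 2) : ℝ) : ℂ), by fun_prop⟩

/-- The path of unitaries `cos + i sin W`. -/
def UU : C(II, Mat6) := el csn 1 + el (Complex.I • snn) W6

lemma UU_apply (u : II) : UU u = csn u • (1 : Mat6) + (Complex.I * snn u) • W6 := by
  simp [UU]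

lemma UU_star_apply (u : II) : star (UU u) = csn u • (1 : Mat6) + (-Complex.I * snn u) • W6 := by
  rw [UU_apply, star_add, star_smul, star_smul, star_one, W6_star]
  have h1 : star (csn u) = csn u := Complex.conj_ofReal _
  have h2 : star (snn u) = snn u := Complex.conj_ofReal _
  rw [h1, star_mul', h2]
  congr 2
  simp

lemma csn_snn (u : II) : csn u * csn u + snn u * snn u = 1 := by
  simp only [csn, snn, ContinuousMap.coe_mk]
  rw [← Complex.ofReal_mul, ← Complex.ofReal_mul, ← Complex.ofReal_add, ← sq, ← sq,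
    Real.cos_sq_add_sin_sq]
  simp

lemma path_mul (a b i : ℂ) (hi : i * i = -1) :
    (a • (1 : Mat6) + (i * b) • W6) * (a • (1 : Mat6) + (-i * b) • W6) = (a * a + b * b) • 1 := by
  simp only [add_mul, mul_add, smul_mul_assoc, mul_smul_comm, one_mul, mul_one, W6_mul_W6, smul_add,
    smul_smul]
  have h2 : -i * b * (i * b) = b * b := by linear_combination (-b * b) * hi
  rw [h2]
  module

lemma UU_mul_star : UU * star UU = 1 := by
  ext1 u
  show UU u * star (UU u) = 1
  rw [UU_star_apply, UU_apply, path_mul _ _ _ Complex.I_mul_I, csn_snn, one_smul]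

lemma star_mul_UU : star UU * UU = 1 := by
  ext1 u
  show star (UU u) * UU u = 1
  rw [UU_star_apply, UU_apply]
  have h : (-Complex.I) * (-Complex.I) = -1 := by
    rw [neg_mul_neg, Complex.I_mul_I]
  have := path_mul (csn u) (snn u) (-Complex.I) h
  rw [neg_neg] at this
  rw [this, csn_snn, one_smul]

lemma UU_zero : UU 0 = 1 := by
  rw [UU_apply]
  simp [csn, snn]

lemma UU_one : UU 1 = Complex.I • W6 := by
  rw [UU_apply]
  simp [csn, snn]

lemma star_UU_one : star (UU 1) = (-Complex.I) • W6 := by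
  rw [UU_one, star_smul, W6_star]
  simp

/-- The conjugation by the path of unitaries sends `Z_{2,3}` to the twisted algebra. -/
lemma conj_mem {f : C(II, Mat6)} (hf : f ∈ Z23) : UU * f * star UU ∈ Ebd kr1 Nh := by
  obtain ⟨⟨a, ha⟩, ⟨b, hb⟩⟩ := hf
  refine ⟨⟨a, ?_⟩, ⟨b, ?_⟩⟩
  · show kr1 a = UU 0 * f 0 * star (UU 0)
    rw [UU_zero, star_one, one_mul, mul_one, ha]
    rfl
  · show Nh b = UU 1 * f 1 * star (UU 1)
    rw [star_UU_one, UU_one, hb]
    have h1 : (Complex.I • W6) * ((1 : Matrix (Fin 2) (Fin 2) ℂ) ⊗ₖ b) * ((-Complex.I) • W6)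
        = W6 * kr2 b * W6 := by
      simp only [smul_mul_assoc, mul_smul_comm, smul_smul]
      have : -Complex.I * Complex.I = 1 := by
        rw [neg_mul, Complex.I_mul_I, neg_neg]
      rw [this, one_smul]
      rfl
    rw [h1, W6_mul, mul_W6]
    ext u z
    rfl

/-- The map from `Z_{2,3}` to the twisted algebra. -/
def toEbd : Z23 →⋆ₐ[ℂ] Ebd kr1 Nh where
  toFun f := ⟨UU * f * star UU, conj_mem f.2⟩
  map_one' := by
    apply Subtype.ext
    show UU * ((1 : Z23) : C(II, Mat6)) * star UU = 1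
    rw [OneMemClass.coe_one, mul_one, UU_mul_star]
  map_mul' f g := by
    apply Subtype.ext
    show UU * ((f : C(II, Mat6)) * (g : C(II, Mat6))) * star UU
      = (UU * (f : C(II, Mat6)) * star UU) * (UU * (g : C(II, Mat6)) * star UU)
    calc UU * ((f : C(II, Mat6)) * (g : C(II, Mat6))) * star UU
        = UU * (f : C(II, Mat6)) * 1 * (g : C(II, Mat6)) * star UU := by noncomm_ring
      _ = UU * (f : C(II, Mat6)) * (star UU * UU) * (g : C(II, Mat6)) * star UU := by
          rw [star_mul_UU]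
      _ = _ := by noncomm_ring
  map_zero' := by
    apply Subtype.ext
    show UU * ((0 : Z23) : C(II, Mat6)) * star UU = 0
    simp
  map_add' f g := by
    apply Subtype.ext
    show UU * ((f : C(II, Mat6)) + (g : C(II, Mat6))) * star UU
      = UU * (f : C(II, Mat6)) * star UU + UU * (g : C(II, Mat6)) * star UU
    noncomm_ring
  commutes' r := by
    apply Subtype.ext
    show UU * (algebraMap ℂ C(II, Mat6) r) * star UU = algebraMap ℂ C(II, Mat6) r
    rw [Algebra.algebraMap_eq_smul_one, mul_smul_comm, smul_mul_assoc, mul_one, UU_mul_star]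
  map_star' f := by
    apply Subtype.ext
    show UU * star (f : C(II, Mat6)) * star UU = star (UU * (f : C(II, Mat6)) * star UU)
    rw [star_mul, star_mul, star_star]
    noncomm_ring

/-- Relations give a homomorphism from `Z_{2,3}`. -/
theorem exists_hom_of_glue {D : Type*} [Ring D] [StarRing D] [Algebra ℂ D] [StarModule ℂ D]
    (G : GlueData kr1 Nh D) : Nonempty (Z23 →⋆ₐ[ℂ] D) := by
  obtain ⟨Θ⟩ := exists_glue G kr1_injective Nh_injective
  exact ⟨Θ.comp toEbd⟩

end

end Vale.Agent.Lib.P101
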