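import Mathlib

/-! C*-quotients by closed two-sided ideals. -/

namespace Vale.Agent.Lib.P101

open scoped ComplexOrder

section Resolvent

variable {E : Type*} [CStarAlgebra E] [PartialOrder E] [StarOrderedRing E]

/-- `1 + star L * L` is invertible. -/
lemma isUnit_one_add_star_mul (L : E) : IsUnit (1 + star L * L) := by
  have h0 : (0 : E) ≤ star L * L := star_mul_self_nonneg L
  refine CStarAlgebra.isUnit_of_le (1 : E) ?_
  simp [h0]

/-- The resolvent `(1 + L^* L)^{-1}`. -/
noncomputable def resolv (L : E) : E := Ring.inverse (1 + star L * L)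

lemma resolv_mul (L : E) : resolv L * (1 + star L * L) = 1 :=
  Ring.inverse_mul_cancel _ (isUnit_one_add_star_mul L)

lemma mul_resolv (L : E) : (1 + star L * L) * resolv L = 1 :=
  Ring.mul_inverse_cancel _ (isUnit_one_add_star_mul L)

lemma resolv_nonneg (L : E) : 0 ≤ resolv L := by
  have hu := isUnit_one_add_star_mul L
  obtain ⟨u, hu'⟩ := hu
  have h0 : (0 : E) ≤ (u : E) := by
    rw [hu']
    exact add_nonneg zero_le_one (star_mul_self_nonneg L)
  have : resolv L = ((u⁻¹ : Eˣ) : E) := by
    rw [resolv, ← hu', Ring.inverse_unit]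
  rw [this]
  exact CFC.inv_nonneg_of_nonneg u h0

lemma resolv_isSelfAdjoint (L : E) : IsSelfAdjoint (resolv L) :=
  (resolv_nonneg L).isSelfAdjoint

lemma resolv_star (L : E) : star (resolv L) = resolv L := resolv_isSelfAdjoint L

lemma resolv_le_one (L : E) : resolv L ≤ 1 := by
  have hu := isUnit_one_add_star_mul L
  obtain ⟨u, hu'⟩ := hu
  have h1 : (1 : E) ≤ (u : E) := by
    rw [hu']
    simp [star_mul_self_nonneg L]
  have : resolv L = ((u⁻¹ : Eˣ) : E) := by
    rw [resolv, ← hu', Ring.inverse_unit]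
  rw [this]
  exact CStarAlgebra.inv_le_one h1

lemma norm_resolv_le (L : E) : ‖resolv L‖ ≤ 1 :=
  (CStarAlgebra.norm_le_one_iff_of_nonneg _ (resolv_nonneg L)).2 (resolv_le_one L)

/-- `h r = 1 - r`, with `h = L^*L`, `r = (1+h)^{-1}`. -/
lemma star_mul_resolv (L : E) : star L * L * resolv L = 1 - resolv L := by
  have := mul_resolv L
  rw [add_mul, one_mul] at this
  rw [eq_sub_iff_add_eq, add_comm]
  exact this

lemma resolv_star_mul (L : E) : resolv L * (star L * L) = 1 - resolv L := by
  have := resolv_mul L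
  rw [mul_add, mul_one] at this
  rw [eq_sub_iff_add_eq, add_comm]
  exact this

/-- The main estimate: `‖L (1 + L^*L)^{-1}‖ ≤ 1/2`. -/
lemma norm_mul_resolv_le (L : E) : ‖L * resolv L‖ ≤ 1 / 2 := by
  set r := resolv L with hr
  have hsr : star r = r := resolv_star L
  have hsa : IsSelfAdjoint r := resolv_isSelfAdjoint L
  have key : star (L * r) * (L * r) = r - r * r := by
    rw [star_mul, hsr]
    have : r * star L * (L * r) = r * (star L * L * r) := by noncomm_ring
    rw [this, star_mul_resolv L, mul_sub, mul_one]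
  have hsq : (0 : E) ≤ (r + r - 1) * (r + r - 1) := by
    have hsa' : IsSelfAdjoint (r + r - 1) := (hsa.add hsa).sub (IsSelfAdjoint.one E)
    have := star_mul_self_nonneg (r + r - 1)
    rwa [hsa'.star_eq] at this
  have h0 : (0 : E) ≤ r - r * r := by
    rw [← key]; exact star_mul_self_nonneg _
  have h4 : (4 : ℝ) • (r - r * r) = 1 - (r + r - 1) * (r + r - 1) := by
    rw [show (4 : ℝ) = 1 + 1 + 1 + 1 by norm_num]
    simp only [add_smul, one_smul]
    noncomm_ring
  have hn : ‖(4 : ℝ) • (r - r * r)‖ ≤ 1 := by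
    rw [CStarAlgebra.norm_le_one_iff_of_nonneg _ (smul_nonneg (by norm_num) h0), h4]
    simpa using hsq
  have hn' : ‖r - r * r‖ ≤ 1 / 4 := by
    rw [norm_smul] at hn
    have : ‖(4 : ℝ)‖ = 4 := by norm_num
    rw [this] at hn
    linarith
  have h2 : ‖L * r‖ * ‖L * r‖ = ‖r - r * r‖ := by
    rw [← key, CStarRing.norm_star_mul_self]
  have h3 : ‖L * r‖ * ‖L * r‖ ≤ (1 / 2) * (1 / 2) := by
    rw [h2]; linarith
  nlinarith [norm_nonneg (L * r)]

end Resolvent

section Quot

variable {E : Type*} [CStarAlgebra E] (I : Ideal E) [I.IsTwoSided]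

/-- Right approximate unit: for `j ∈ I`, `ν > 0` there is `r` with `1 - r ∈ I`,
`‖r‖ ≤ 1`, `‖j r‖ ≤ ν`. -/
lemma exists_approx_unit (j : E) (hj : j ∈ I) {ν : ℝ} (hν : 0 < ν) :
    ∃ r : E, 1 - r ∈ I ∧ ‖r‖ ≤ 1 ∧ ‖j * r‖ ≤ ν ∧ star r = r := by
  let _ := CStarAlgebra.spectralOrder E
  have := CStarAlgebra.spectralOrderedRing E
  let L : E := (ν⁻¹ : ℝ) • j
  refine ⟨resolv L, ?_, norm_resolv_le L, ?_, resolv_star L⟩
  · rw [← star_mul_resolv L]
    have hL : L ∈ I := by
      have : L = ((ν⁻¹ : ℝ) • (1 : E)) * j := by simp [L]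
      rw [this]
      exact I.mul_mem_left _ hj
    exact Ideal.mul_mem_right _ _ (I.mul_mem_left _ hL)
  · have h1 : j = ν • L := by simp [L, smul_smul, hν.ne']
    have h2 := norm_mul_resolv_le L
    have h3 : j * resolv L = ν • (L * resolv L) := by
      conv_lhs => rw [h1]
      rw [smul_mul_assoc]
    rw [h3, norm_smul, Real.norm_eq_abs, abs_of_pos hν]
    have : ‖L * resolv L‖ ≤ 1 := h2.trans (by norm_num)
    nlinarith

variable [hI : IsClosed (I : Set E)]

include hI in
/-- Closed two-sided ideals are star-closed. -/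
lemma star_mem_of_closed {x : E} (hx : x ∈ I) : star x ∈ I := by
  have hcl : star x ∈ closure (I : Set E) := by
    rw [Metric.mem_closure_iff]
    intro ε hε
    obtain ⟨r, hr1, hr2, hr3, hr4⟩ := exists_approx_unit I x hx (half_pos hε)
    refine ⟨star (x * (1 - r))  , ?_, ?_⟩
    · have : star (x * (1 - r)) = (1 - r) * star x := by
        simp [star_mul, star_sub, hr4]
      rw [this]
      exact Ideal.mul_mem_right _ _ hr1
    · have : star x - star (x * (1 - r)) = star (x * r) := by
        simp [star_mul, star_sub, mul_sub, hr4]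
      rw [dist_eq_norm, this, norm_star]
      linarith
  rwa [hI.closure_eq] at hcl

noncomputable instance quotNormedRing : NormedRing (E ⧸ I) :=
  { Ideal.Quotient.ring I, Submodule.Quotient.normedAddCommGroup I with
    dist_eq := dist_eq_norm_neg_add
    norm_mul_le := fun x y => le_of_forall_pos_le_add fun ε hε => by
      have := ((Metric.nhds_basis_ball.prod_nhds Metric.nhds_basis_ball).tendsto_iff
        Metric.nhds_basis_ball).mp (continuous_mul.tendsto (‖x‖, ‖y‖)) ε hε
      simp only [Set.mem_prod, Metric.mem_ball, and_imp, Prod.forall, Prod.exists] at this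
      rcases this with ⟨ε₁, ε₂, ⟨h₁, h₂⟩, h⟩
      obtain ⟨⟨a, rfl, ha⟩, ⟨b, rfl, hb⟩⟩ := Submodule.Quotient.norm_mk_lt (S := I) x h₁,
        Submodule.Quotient.norm_mk_lt (S := I) y h₂
      simp only [Real.dist_eq, abs_sub_lt_iff] at h
      specialize h ‖a‖ ‖b‖ ⟨by linarith, by linarith [Submodule.Quotient.norm_mk_le I a]⟩
        ⟨by linarith, by linarith [Submodule.Quotient.norm_mk_le I b]⟩
      calc
        _ ≤ ‖a‖ * ‖b‖ := (Submodule.Quotient.norm_mk_le I (a * b)).trans (norm_mul_le a b)
        _ ≤ _ := (sub_lt_iff_lt_add'.mp h.1).le }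

lemma norm_mk_le (x : E) : ‖Ideal.Quotient.mk I x‖ ≤ ‖x‖ :=
  Submodule.Quotient.norm_mk_le I x

noncomputable instance quotStar : Star (E ⧸ I) where
  star q := Quotient.liftOn' q (fun x => Ideal.Quotient.mk I (star x)) (by
    intro a b hab
    rw [Submodule.quotientRel_def] at hab
    rw [Ideal.Quotient.eq, ← star_sub]
    exact star_mem_of_closed I hab)

lemma star_mk (x : E) : star (Ideal.Quotient.mk I x) = Ideal.Quotient.mk I (star x) := rfl

noncomputable instance quotStarRing : StarRing (E ⧸ I) where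
  star_involutive q := by
    obtain ⟨x, rfl⟩ := Ideal.Quotient.mk_surjective q
    simp [star_mk]
  star_mul p q := by
    obtain ⟨x, rfl⟩ := Ideal.Quotient.mk_surjective p
    obtain ⟨y, rfl⟩ := Ideal.Quotient.mk_surjective q
    simp [← map_mul, star_mk]
  star_add p q := by
    obtain ⟨x, rfl⟩ := Ideal.Quotient.mk_surjective p
    obtain ⟨y, rfl⟩ := Ideal.Quotient.mk_surjective q
    simp [← map_add, star_mk]

noncomputable instance quotNormedAlgebra : NormedAlgebra ℂ (E ⧸ I) :=
  { Submodule.Quotient.normedSpace I ℂ, Ideal.Quotient.algebra ℂ with }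

noncomputable instance quotStarModule : StarModule ℂ (E ⧸ I) where
  star_smul c q := by
    obtain ⟨x, rfl⟩ := Ideal.Quotient.mk_surjective q
    rw [← Ideal.Quotient.mkₐ_eq_mk ℂ, ← map_smul, Ideal.Quotient.mkₐ_eq_mk, star_mk,
      star_mk, star_smul, ← Ideal.Quotient.mkₐ_eq_mk ℂ, map_smul]

noncomputable instance quotCStarRing : CStarRing (E ⧸ I) where
  norm_mul_self_le q := by
    obtain ⟨x, rfl⟩ := Ideal.Quotient.mk_surjective q
    refine le_of_forall_pos_le_add fun ε hε => ?_
    rw [star_mk, ← map_mul]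
    obtain ⟨y, hy1, hy2⟩ := Submodule.Quotient.norm_mk_lt (S := I)
      (Ideal.Quotient.mk I (star x * x)) (half_pos hε)
    have hj : y - star x * x ∈ I := by
      have : Ideal.Quotient.mk I y = Ideal.Quotient.mk I (star x * x) := hy1
      exact Ideal.Quotient.eq.1 this
    obtain ⟨r, hr1, hr2, hr3, hr4⟩ := exists_approx_unit I _ hj (half_pos hε)
    have hq : ‖Ideal.Quotient.mk I x‖ ≤ ‖x * r‖ := by
      have : Ideal.Quotient.mk I x = Ideal.Quotient.mk I (x * r) := by
        rw [Ideal.Quotient.eq]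
        have : x - x * r = x * (1 - r) := by noncomm_ring
        rw [this]
        exact I.mul_mem_left _ hr1
      rw [this]
      exact norm_mk_le I _
    have h1 : ‖x * r‖ * ‖x * r‖ = ‖star (x * r) * (x * r)‖ := (CStarRing.norm_star_mul_self).symm
    have h2 : star (x * r) * (x * r) = r * (y * r - (y - star x * x) * r) := by
      rw [star_mul, hr4]; noncomm_ring
    have h3 : ‖star (x * r) * (x * r)‖ ≤ ‖y‖ * 1 + ε / 2 := by
      rw [h2]
      calc ‖r * (y * r - (y - star x * x) * r)‖
          ≤ ‖r‖ * ‖y * r - (y - star x * x) * r‖ := norm_mul_le _ _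
        _ ≤ 1 * (‖y * r‖ + ‖(y - star x * x) * r‖) := by
            gcongr
            exact norm_sub_le _ _
        _ ≤ 1 * (‖y‖ * 1 + ε / 2) := by
            gcongr
            exact (norm_mul_le _ _).trans (by gcongr)
        _ = ‖y‖ * 1 + ε / 2 := by ring
    have hnn : 0 ≤ ‖Ideal.Quotient.mk I x‖ := norm_nonneg _
    nlinarith [norm_nonneg (x * r)]

noncomputable instance quotCStarAlgebra : CStarAlgebra (E ⧸ I) where

/-- The quotient map as a unital star-homomorphism. -/
noncomputable def quotMk : E →⋆ₐ[ℂ] E ⧸ I :=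
  { Ideal.Quotient.mkₐ ℂ I with
    map_star' := fun _ => rfl }

@[simp] lemma quotMk_apply (x : E) : quotMk I x = Ideal.Quotient.mk I x := rfl

lemma quotMk_surjective : Function.Surjective (quotMk I) := Ideal.Quotient.mk_surjective

lemma quotMk_eq_zero {x : E} : quotMk I x = 0 ↔ x ∈ I := Ideal.Quotient.eq_zero_iff_mem

end Quot

end Vale.Agent.Lib.P101
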