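import Vale.Agent.Lib.P101.Key

/-! Reducing the number of colours by one, given four commuting coordinates. -/

namespace Vale.Agent.Lib.P101

open scoped ComplexOrder

variable {E : Type*} [CStarAlgebra E]

/-- The merged colour over four coordinates. -/
noncomputable def merge4 (w : Fin 4 → E) : E := merge (w 0) (merge (w 1) (merge (w 2) (w 3)))

section

variable (C : CoordSys E (Fin 4))

lemma disj_a : Disjoint ({2} : Set (Fin 4)) {3} := by
  rw [Set.disjoint_left]; intro x hx hy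
  simp only [Set.mem_singleton_iff] at hx hy; subst hx; simp at hy

lemma disj_b : Disjoint ({1} : Set (Fin 4)) ({2} ∪ {3}) := by
  rw [Set.disjoint_left]; intro x hx hy
  simp only [Set.mem_singleton_iff, Set.mem_union] at hx hy; subst hx; simp at hy

lemma disj_c : Disjoint ({0} : Set (Fin 4)) ({1} ∪ ({2} ∪ {3})) := by
  rw [Set.disjoint_left]; intro x hx hy
  simp only [Set.mem_singleton_iff, Set.mem_union] at hx hy; subst hx; simp at hy

lemma merge4_sq {w : Fin 4 → E} (hw : ∀ i, w i ∈ C.B {i}) (hsq : ∀ i, w i * w i = 0) :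
    merge4 w * merge4 w = 0 := by
  have h1 := merge_sq C disj_a (hw 2) (hw 3) (hsq 2) (hsq 3)
  have h2 := merge_sq C disj_b (hw 1) (merge_mem C (hw 2) (hw 3)) (hsq 1) h1
  exact merge_sq C disj_c (hw 0) (merge_mem C (hw 1) (merge_mem C (hw 2) (hw 3))) (hsq 0) h2

lemma merge4_π (M : MaxIdeal E) {w : Fin 4 → E} (hw : ∀ i, w i ∈ C.B {i})
    (hsq : ∀ i, w i * w i = 0) (h : M.π (merge4 w) = 0) : ∀ i, M.π (w i) = 0 := by
  have h1 := merge_sq C disj_a (hw 2) (hw 3) (hsq 2) (hsq 3)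
  have h2 := merge_sq C disj_b (hw 1) (merge_mem C (hw 2) (hw 3)) (hsq 1) h1
  obtain ⟨a0, a1⟩ := merge_π C M disj_c (hw 0) (merge_mem C (hw 1) (merge_mem C (hw 2) (hw 3)))
    (hsq 0) h2 h
  obtain ⟨b0, b1⟩ := merge_π C M disj_b (hw 1) (merge_mem C (hw 2) (hw 3)) (hsq 1) h1 a1
  obtain ⟨c0, c1⟩ := merge_π C M disj_a (hw 2) (hw 3) (hsq 2) (hsq 3) b1
  intro i
  fin_cases i
  · exact a0
  · exact b0
  · exact c0
  · exact c1

/-- The core reduction step. -/
theorem reduce_core {n : ℕ} (x : Fin 4 → Option (Fin (n + 1)) → E)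
    (hx : ∀ i a, x i a ∈ C.B {i}) (hsq : ∀ i a, x i a * x i a = 0)
    (K : Fin 4 → ℝ)
    (hK : ∀ i, ∀ M : MaxIdeal E, 1 ≤ K i * ∑ a, ‖M.π (x i a)‖) :
    ∃ y : Option (Fin n) → E, (∀ a, y a * y a = 0) ∧
      (1 : E) ∈ TwoSidedIdeal.span (Set.range y) := by
  -- normalisation
  set Kb : ℝ := 1 + ∑ i, |K i| with hKb
  have hKbpos : 0 < Kb := by
    have : 0 ≤ ∑ i, |K i| := Finset.sum_nonneg fun _ _ => abs_nonneg _
    rw [hKb]; linarith
  have hKle : ∀ i, K i ≤ Kb := by
    intro i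
    have h1 : |K i| ≤ ∑ i, |K i| :=
      Finset.single_le_sum (f := fun i => |K i|) (fun _ _ => abs_nonneg _) (Finset.mem_univ i)
    have h2 := le_abs_self (K i)
    rw [hKb]; linarith
  set Sb : ℝ := 1 + ∑ i, ∑ a, ‖x i a‖ with hSb
  have hSbpos : 0 < Sb := by
    have : 0 ≤ ∑ i, ∑ a, ‖x i a‖ :=
      Finset.sum_nonneg fun _ _ => Finset.sum_nonneg fun _ _ => norm_nonneg _
    rw [hSb]; linarith
  have hxle : ∀ i a, ‖x i a‖ ≤ Sb := by
    intro i a
    have h1 : ‖x i a‖ ≤ ∑ a, ‖x i a‖ :=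
      Finset.single_le_sum (f := fun a => ‖x i a‖) (fun _ _ => norm_nonneg _) (Finset.mem_univ a)
    have h2 : ∑ a, ‖x i a‖ ≤ ∑ i, ∑ a, ‖x i a‖ :=
      Finset.single_le_sum (f := fun i => ∑ a, ‖x i a‖)
        (fun _ _ => Finset.sum_nonneg fun _ _ => norm_nonneg _) (Finset.mem_univ i)
    rw [hSb]; linarith
  set s : ℝ := Sb⁻¹ with hs
  have hspos : 0 < s := inv_pos.2 hSbpos
  let col : Bool → Option (Fin (n + 1)) := fun c => if c then some 0 else none
  let z : Fin 4 → Bool → E := fun i c => s • x i (col c)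
  have hzB : ∀ i c, z i c ∈ C.B {i} := fun i c => rsmul_mem C (hx i _) s
  have hzsq : ∀ i c, z i c * z i c = 0 := by
    intro i c
    simp only [z, smul_mul_assoc, mul_smul_comm, hsq, smul_zero]
  have hzn : ∀ i c, ‖z i c‖ ≤ 1 := by
    intro i c
    simp only [z]
    rw [norm_smul, Real.norm_eq_abs, abs_of_pos hspos, hs, inv_mul_le_iff₀ hSbpos, mul_one]
    exact hxle i _
  have hδ : 0 < s / (2 * Kb) := by positivity
  obtain ⟨Z, -, hZ2, hZ⟩ := key_theorem (C := C) hzB hzsq hzn hδ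
  let W : Fin n → E := fun j => merge4 (fun i => x i (some j.succ))
  let y : Option (Fin n) → E := fun a => match a with
    | none => Z
    | some j => W j
  have hwB : ∀ j i, x i (some (Fin.succ j)) ∈ C.B {i} := fun j i => hx i _
  have hwsq : ∀ (j : Fin n) i, x i (some (Fin.succ j)) * x i (some (Fin.succ j)) = 0 :=
    fun j i => hsq i _
  refine ⟨y, ?_, ?_⟩
  · intro a
    cases a with
    | none => exact hZ2
    | some j => exact merge4_sq C (hwB j) (hwsq j)
  · by_contra h1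
    obtain ⟨M, hM⟩ := exists_maxIdeal _ h1
    have hyM : ∀ a, M.π (y a) = 0 := by
      intro a
      rw [M.π_eq_zero]
      exact hM (TwoSidedIdeal.subset_span ⟨a, rfl⟩)
    have hwM : ∀ (j : Fin n) i, M.π (x i (some j.succ)) = 0 := by
      intro j i
      exact merge4_π C M (hwB j) (hwsq j) (hyM (some j)) i
    refine hZ M ?_ (hyM none)
    intro i
    have h2 := hK i M
    have h3 : ∑ a, ‖M.π (x i a)‖ = ‖M.π (x i none)‖ + ‖M.π (x i (some 0))‖ := by
      rw [Fintype.sum_option, Fin.sum_univ_succ]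
      simp [hwM]
    rw [h3] at h2
    have h4 : 0 ≤ ‖M.π (x i none)‖ + ‖M.π (x i (some 0))‖ := by positivity
    have h5 : 1 ≤ Kb * (‖M.π (x i none)‖ + ‖M.π (x i (some 0))‖) :=
      h2.trans (mul_le_mul_of_nonneg_right (hKle i) h4)
    have hnorm : ∀ c, ‖M.π (z i c)‖ = s * ‖M.π (x i (col c))‖ := by
      intro c
      simp only [z]
      rw [π_real_smul, norm_smul, Real.norm_eq_abs, abs_of_pos hspos]
    by_cases h6 : 1 / (2 * Kb) ≤ ‖M.π (x i none)‖
    · refine ⟨false, ?_⟩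
      rw [hnorm]
      have : s / (2 * Kb) = s * (1 / (2 * Kb)) := by ring
      rw [this]
      exact mul_le_mul_of_nonneg_left h6 hspos.le
    · refine ⟨true, ?_⟩
      rw [hnorm]
      have : s / (2 * Kb) = s * (1 / (2 * Kb)) := by ring
      rw [this]
      refine mul_le_mul_of_nonneg_left ?_ hspos.le
      push Not at h6
      have h7 : 1 / (2 * Kb) ≤ ‖M.π (x i (some 0))‖ := by
        by_contra h8
        push Not at h8
        have h9 : Kb * (‖M.π (x i none)‖ + ‖M.π (x i (some 0))‖) < Kb * (1 / (2 * Kb) + 1 / (2 * Kb)) :=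
          mul_lt_mul_of_pos_left (add_lt_add h6 h8) hKbpos
        have h10 : Kb * (1 / (2 * Kb) + 1 / (2 * Kb)) = 1 := by
          field_simp
          ring
        linarith
      exact h7

end

end Vale.Agent.Lib.P101
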