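import Vale.Agent.Lib.P101.Step
import Vale.Agent.Lib.P101.Cover

/-! From a full square-zero element to the invariant. -/

namespace Vale.Agent.Lib.P101

open scoped ComplexOrder

attribute [local instance] CStarAlgebra.spectralOrder CStarAlgebra.spectralOrderedRing

noncomputable section

variable {F : Type*} [CStarAlgebra F]

/-- `max (s - 1) 0` -/
def pf (s : ℝ) : ℝ := max (s - 1) 0

/-- The square root of `pf`. -/
def Lf (s : ℝ) : ℝ := Real.sqrt (pf s)

lemma pf_cont : Continuous pf := by unfold pf; fun_prop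

lemma Lf_cont : Continuous Lf := Real.continuous_sqrt.comp pf_cont

lemma Lf_mul (s : ℝ) : Lf s * Lf s = pf s := Real.mul_self_sqrt (le_max_right _ _)

lemma Qf_Lf (s : ℝ) : Qf s * Lf s = 0 := by
  unfold Qf Lf pf
  rcases le_total s 1 with h | h
  · rw [max_eq_right (a := s - 1) (b := 0) (by linarith)]
    simp
  · rw [max_eq_right (a := 1 - s) (b := 0) (by linarith)]
    simp

/-- Fullness of the cut-down element. -/
lemma full_cut {z : F} (hz : z * z = 0) (hact : ∀ M : MaxIdeal F, 1 < ‖M.π z‖) :
    (1 : F) ∈ TwoSidedIdeal.span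
      {cfc Lf (tt z) * (z * star z) * cfc Lf (tt z)} := by
  set D := tt z with hDdef
  have hD : IsSelfAdjoint D := tt_sa z
  set a := z * star z with ha
  have haD : a * D = D * a := by
    have h1 : Commute z D := z_tt hz
    have h2 : Commute (star z) D := star_tt_comm hz
    exact (h1.mul_left h2).eq
  have hDa : D * a = a * a := by
    have hb : star z * z * (z * star z) = 0 := by
      calc _ = star z * (z * z) * star z := by noncomm_ring
        _ = 0 := by rw [hz]; simp
    show (z * star z + star z * z) * a = a * a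
    rw [add_mul, hb, add_zero]
  set n₁ := cfc Lf D with hn₁
  have hn₁a : n₁ * a = a * n₁ := (Commute.cfc_real (Commute.symm haD) Lf).eq
  by_contra h1
  obtain ⟨M, hM⟩ := exists_maxIdeal _ h1
  have hC : M.π (n₁ * a * n₁) = 0 := by
    rw [M.π_eq_zero]
    exact hM (TwoSidedIdeal.subset_span rfl)
  have hp : n₁ * n₁ = cfc pf D := cf_mul Lf_cont Lf_cont Lf_mul
  have hCp : n₁ * a * n₁ = cfc pf D * a := by
    rw [← hp, mul_assoc, ← hn₁a]
    noncomm_ring
  rw [hCp] at hC
  have hsub : Qc D - cfc pf D = 1 - D := by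
    have h2 : Qc D - cfc pf D = cfc (fun s => Qf s - pf s) D :=
      (cfc_sub Qf pf D Qf_cont.continuousOn pf_cont.continuousOn).symm
    have h3 : (fun s => Qf s - pf s) = (fun s : ℝ => 1 - s) := by
      funext s
      unfold Qf pf
      rcases le_total s 1 with h | h
      · rw [max_eq_left (a := 1 - s) (by linarith), max_eq_right (a := s - 1) (by linarith)]
        ring
      · rw [max_eq_right (a := 1 - s) (by linarith), max_eq_left (a := s - 1) (by linarith)]
        ring
    rw [h2, h3, cf_one_sub (f := fun s => s) hD continuous_id, cf_id hD]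
  have hQ0 : 0 ≤ Qc D := cfc_nonneg (fun s _ => le_max_right _ _)
  have ha0 : 0 ≤ a := by simp [ha]
  have hQa : Commute (Qc D) a := Commute.cfc_real (Commute.symm haD) Qf
  have hQa0 : 0 ≤ Qc D * a := Commute.mul_nonneg hQ0 ha0 hQa
  -- the identity in the quotient
  have hid : a - a * a = Qc D * a - cfc pf D * a := by
    rw [← sub_mul, hsub, sub_mul, one_mul, hDa]
  have hπ : M.π a - M.π a * M.π a = M.π (Qc D * a) := by
    have := congrArg M.π hid
    rw [map_sub, map_sub, map_mul, hC, sub_zero] at this
    exact this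
  set A := M.π a with hA
  have hA0 : 0 ≤ A := π_nonneg M ha0
  have hle : A * A ≤ A := by
    have : 0 ≤ A - A * A := by
      rw [hπ]
      exact π_nonneg M hQa0
    exact sub_nonneg.1 this
  have hAA0 : 0 ≤ A * A := sq_nonneg_of_sa hA0.isSelfAdjoint
  have hn1 : ‖A * A‖ ≤ ‖A‖ := CStarAlgebra.norm_le_norm_of_nonneg_of_le hAA0 hle
  rw [norm_mul_self_of_nonneg hA0.isSelfAdjoint] at hn1
  have hnA : ‖A‖ = ‖M.π z‖ * ‖M.π z‖ := by
    rw [hA, ha, map_mul, map_star]
    exact CStarRing.norm_self_mul_star
  have h5 := hact M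
  have h6 : 1 < ‖A‖ := by
    rw [hnA]
    nlinarith
  nlinarith

/-- Cauchy-Schwarz for the symmetrization. -/
lemma sum_ge_two {C : F} (hC : 0 ≤ C) {ι : Type} [Fintype ι] (c d : ι → F)
    (hrel : 1 = ∑ i, c i * C * d i) :
    ∑ i, (c i * C * star (c i) + star (d i) * C * d i)
      = 1 + (1 + ∑ i, (c i - star (d i)) * C * star (c i - star (d i))) := by
  have hCs : star C = C := hC.isSelfAdjoint
  have h1 : (1 : F) = ∑ i, star (d i) * C * star (c i) := by
    have := congrArg star hrel
    rw [star_one, star_sum] at this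
    rw [this]
    refine Finset.sum_congr rfl fun i _ => ?_
    rw [star_mul, star_mul, hCs]
    noncomm_ring
  have h2 : ∀ i, (c i - star (d i)) * C * star (c i - star (d i))
      = (c i * C * star (c i) + star (d i) * C * d i) - c i * C * d i
        - star (d i) * C * star (c i) := by
    intro i
    rw [star_sub, star_star]
    noncomm_ring
  simp only [h2, Finset.sum_sub_distrib]
  rw [← hrel, ← h1]
  abel

theorem start_core {z : F} (hz : z * z = 0) (hact : ∀ M : MaxIdeal F, 1 < ‖M.π z‖) :
    ∃ (M : ℕ) (x s s₁ : F) (v : Fin (M + 1) → F), IsInv x s s₁ v := by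
  classical
  have hfull := full_cut hz hact
  obtain ⟨ι, _, j, c, d, hj, hrel⟩ := rep_of_mem_span_set hfull
  set D := tt z with hDdef
  have hD : IsSelfAdjoint D := tt_sa z
  set n₁ := cfc Lf D with hn₁
  have hn₁s : star n₁ = n₁ := cf_star _ _
  set a := z * star z with ha
  set C := n₁ * a * n₁ with hCdef
  have hj' : ∀ i, j i = C := fun i => hj i
  simp only [hj'] at hrel
  have hC0 : 0 ≤ C := by
    have ha0 : 0 ≤ a := by simp [ha]
    have := star_left_conjugate_nonneg ha0 n₁
    rwa [hn₁s] at this
  have hsum := sum_ge_two hC0 c d hrel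
  -- the total
  let u : ι ⊕ ι → F := Sum.elim c (fun i => star (d i))
  set Stot : F := ∑ m, u m * C * star (u m) with hStot
  have hS1 : Stot = ∑ i, (c i * C * star (c i) + star (d i) * C * d i) := by
    rw [hStot, Fintype.sum_sum_type, ← Finset.sum_add_distrib]
    refine Finset.sum_congr rfl fun i _ => ?_
    simp [u]
  have hE0 : 0 ≤ ∑ i, (c i - star (d i)) * C * star (c i - star (d i)) :=
    Finset.sum_nonneg fun i _ => by
      simpa using star_left_conjugate_nonneg hC0 (star (c i - star (d i)))
  have hS2 : Stot = 1 + (1 + ∑ i, (c i - star (d i)) * C * star (c i - star (d i))) := by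
    rw [hS1, hsum]
  have hnn := inv_sqrt (m := Stot) (add_nonneg zero_le_one hE0) hS2
  set nt := cfc nuf Stot with hnt
  have hnts : star nt = nt := cf_star _ _
  have hntS : nt * Stot = Stot * nt := (Commute.cfc_real (Commute.refl Stot) nuf).eq
  -- the cells
  let yh : ι ⊕ ι → F := fun m => n₁ * star (u m) * nt
  have hY : star z * star z = 0 := star_sq hz
  have htt : tt (star z) = D := by
    show star z * star (star z) + star (star z) * star z = z * star z + star z * z
    rw [star_star, add_comm]
  have hQn : Qc D * n₁ = 0 := by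
    have := cf_mul (D := D) Qf_cont Lf_cont (h := fun _ => 0) Qf_Lf
    rw [cfc_const_zero ℝ D] at this
    exact this
  have hyh : ∀ m, Qc D * yh m = 0 := by
    intro m
    show Qc D * (n₁ * star (u m) * nt) = 0
    rw [mul_assoc, ← mul_assoc (Qc D), hQn, zero_mul]
  let e := Fintype.equivFin (ι ⊕ ι)
  let y : Fin (Fintype.card (ι ⊕ ι) + 1) → F :=
    Fin.cases 0 (fun k => yh (e.symm k))
  refine ⟨Fintype.card (ι ⊕ ι), ?_⟩
  have hterm : ∀ m, star (star z * yh m) * (star z * yh m) = nt * (u m * C * star (u m)) * nt := by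
    intro m
    show star (star z * (n₁ * star (u m) * nt)) * (star z * (n₁ * star (u m) * nt)) = _
    simp only [star_mul, star_star, hnts, hn₁s]
    rw [hCdef, ha]
    simp only [mul_assoc]
  have hsumY : ∑ l, star (star z * y l) * (star z * y l) = 1 := by
    rw [Fin.sum_univ_succ]
    simp only [y, Fin.cases_zero, Fin.cases_succ, mul_zero, star_zero, zero_mul, zero_add]
    rw [Equiv.sum_comp e.symm (fun m => star (star z * yh m) * (star z * yh m))]
    simp only [hterm]
    rw [← Finset.sum_mul, ← Finset.mul_sum, ← hStot, mul_assoc, ← hntS, ← mul_assoc, hnn]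
  refine assemble (Y := star z) hY y 1 ?_ hsumY ?_
  · intro l
    rw [htt]
    refine Fin.cases ?_ (fun k => ?_) l
    · simp [y]
    · simpa [y] using hyh (e.symm k)
  · simp

/-- A full square-zero element gives the invariant. -/
theorem start {z : F} (hz : z * z = 0) (h1 : (1 : F) ∈ TwoSidedIdeal.span {z}) :
    ∃ (M : ℕ) (x s s₁ : F) (v : Fin (M + 1) → F), IsInv x s s₁ v := by
  classical
  obtain ⟨ι, _, j, c, d, hj, hrel⟩ := rep_of_mem_span_set h1
  have hj' : ∀ i, j i = z := fun i => hj i
  set L : ℝ := ∑ i, ‖c i‖ * ‖d i‖ with hL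
  have hL0 : 0 ≤ L := Finset.sum_nonneg fun _ _ => mul_nonneg (norm_nonneg _) (norm_nonneg _)
  let r : ℝ := 2 * (L + 1)
  have hr : 0 < r := by positivity
  refine start_core (z := r • z) ?_ ?_
  · rw [smul_mul_smul_comm, hz, smul_zero]
  · intro M
    have h2 := activity_of_rel (fun _ : Unit => z) (fun _ => ()) c d
      (by rw [hrel]; simp only [hj']) M
    simp only [Finset.univ_unique, Finset.sum_singleton] at h2
    have h3 : 1 ≤ L * ‖M.π z‖ := h2
    rw [π_real_smul, norm_smul, Real.norm_eq_abs, abs_of_pos hr]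
    have h4 : 0 ≤ ‖M.π z‖ := norm_nonneg _
    simp only [r]
    nlinarith

end

end Vale.Agent.Lib.P101
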