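import Vale.Agent.Lib.P101.Copy2

/-! The tuple invariant: several commuting square-zero elements with a common covering. -/

namespace Vale.Agent.Lib.P101

open scoped ComplexOrder

attribute [local instance] CStarAlgebra.spectralOrder CStarAlgebra.spectralOrderedRing

/-- The relations of the tuple invariant. -/
structure TInv {κ : Type*} {R : Type*} [Ring R] [Star R] {M : ℕ} (x : κ → R) (s s₁ : R)
    (v : Fin (M + 1) → R) : Prop where
  x_sq : ∀ c, x c * x c = 0
  x_comm : ∀ c c', c ≠ c' → x c * x c' = x c' * x c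
  x_scomm : ∀ c c', c ≠ c' → x c * star (x c') = star (x c') * x c
  s_star : star s = s
  s_norm : star s₁ * s₁ + s * s = 1
  s_x : ∀ c, s * x c = x c * s
  s_sx : ∀ c, s * star (x c) = star (x c) * s
  s_T : ∀ c, (1 - s * s) * (1 - (x c * star (x c) + star (x c) * x c)) = 0
  v_sum : ∑ l, star (v l) * v l = s * s
  v_range : ∀ c l, x c * star (x c) * v l = v l
  x_v : ∀ c l, x c * v l = 0
  s_v : ∀ l, s * v l = 0

/-- One coordinate of the tuple invariant. -/
lemma TInv.proj {κ : Type*} {R : Type*} [Ring R] [Star R] {M : ℕ} {x : κ → R} {s s₁ : R}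
    {v : Fin (M + 1) → R} (h : TInv x s s₁ v) (c : κ) : IsInv (x c) s s₁ v where
  x_sq := h.x_sq c
  s_star := h.s_star
  s_norm := h.s_norm
  s_x := h.s_x c
  s_sx := h.s_sx c
  s_T := h.s_T c
  v_sum := h.v_sum
  v_range := h.v_range c
  x_v := h.x_v c
  s_v := h.s_v

noncomputable section

variable {F : Type*} [CStarAlgebra F]

/-- Products of commuting positive contractions. -/
theorem prod_lemma {κ : Type*} [DecidableEq κ] (H : κ → F) (H0 : ∀ c, 0 ≤ H c) (H1 : ∀ c, H c ≤ 1)
    (Hc : ∀ c c', H c * H c' = H c' * H c) (S : Finset κ) :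
    ∃ P : F, 0 ≤ P ∧ P ≤ 1 ∧ (∀ c ∈ S, ∀ r, H c * r = 0 → P * r = 0) ∧
      (∀ w, (∀ c ∈ S, H c * w = w) → P * w = w) ∧
      (∀ y, (∀ c, H c * y = y * H c) → P * y = y * P) := by
  classical
  induction S using Finset.induction_on with
  | empty =>
    refine ⟨1, zero_le_one, le_rfl, by simp, by simp, by simp⟩
  | insert c S hc ih =>
    obtain ⟨P, hP0, hP1, hPa, hPb, hPc⟩ := ih
    have hcomm : P * H c = H c * P := hPc _ (fun c' => Hc c' c)
    refine ⟨P * H c, Commute.mul_nonneg hP0 (H0 c) hcomm, ?_, ?_, ?_, ?_⟩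
    · have h0 := Commute.mul_nonneg hP0 (H0 c) hcomm
      refine (CStarAlgebra.norm_le_one_iff_of_nonneg _ h0).1 ?_
      have h1 := (CStarAlgebra.norm_le_one_iff_of_nonneg _ hP0).2 hP1
      have h2 := (CStarAlgebra.norm_le_one_iff_of_nonneg _ (H0 c)).2 (H1 c)
      calc ‖P * H c‖ ≤ ‖P‖ * ‖H c‖ := norm_mul_le _ _
        _ ≤ 1 * 1 := by gcongr
        _ = 1 := one_mul 1
    · intro c' hc' r hr
      rw [Finset.mem_insert] at hc'
      rcases hc' with rfl | hc'
      · rw [mul_assoc, hr, mul_zero]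
      · rw [hcomm, mul_assoc, hPa c' hc' r hr, mul_zero]
    · intro w hw
      rw [mul_assoc, hw c (Finset.mem_insert_self _ _)]
      exact hPb w fun c' hc' => hw c' (Finset.mem_insert_of_mem hc')
    · intro y hy
      rw [mul_assoc, hy c, ← mul_assoc, hPc y hy, mul_assoc]

lemma sqrt_comm {a y : F} (h : a * y = y * a) : CFC.sqrt a * y = y * CFC.sqrt a := by
  rw [CFC.sqrt_eq_cfc]
  exact (Commute.cfc_nnreal (a := a) (b := y) h NNReal.sqrt)

lemma sqrt_star {a : F} : star (CFC.sqrt a) = CFC.sqrt a := by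
  have h : 0 ≤ CFC.sqrt a := CFC.sqrt_nonneg a
  exact h.isSelfAdjoint

/-- Assembling the tuple invariant. -/
theorem assembleT {κ : Type*} [Fintype κ] [DecidableEq κ] (x H : κ → F)
    (hx : ∀ c, x c * x c = 0)
    (x_comm : ∀ c c', c ≠ c' → x c * x c' = x c' * x c)
    (x_scomm : ∀ c c', c ≠ c' → x c * star (x c') = star (x c') * x c)
    (H0 : ∀ c, 0 ≤ H c) (H1 : ∀ c, H c ≤ 1) (Hc : ∀ c c', H c * H c' = H c' * H c)
    (Hx : ∀ c c', H c' * x c = x c * H c') (Hsx : ∀ c c', H c' * star (x c) = star (x c) * H c')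
    (HT : ∀ c, H c * (1 - tt (x c)) = 0)
    {M : ℕ} (w : Fin (M + 1) → F) (R : F) (hsum : ∑ l, star (w l) * w l = R)
    (hR : ∀ c, H c * (1 - R) = 1 - R)
    (hw1 : ∀ c l, x c * star (x c) * w l = w l) (hw2 : ∀ c l, x c * w l = 0)
    (hw3 : ∀ c l, H c * w l = w l) :
    ∃ (s s₁ : F) (v : Fin (M + 1) → F), TInv x s s₁ v := by
  obtain ⟨P, hP0, hP1, hPa, hPb, hPc⟩ := prod_lemma H H0 H1 Hc Finset.univ
  have hQ0 : 0 ≤ 1 - P := sub_nonneg.2 hP1
  set s := CFC.sqrt (1 - P) with hs
  set s₁ := CFC.sqrt P with hs₁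
  have hss : s * s = 1 - P := CFC.sqrt_mul_sqrt_self _ hQ0
  have hss₁ : s₁ * s₁ = P := CFC.sqrt_mul_sqrt_self _ hP0
  have hsst : star s = s := sqrt_star
  have hsst₁ : star s₁ = s₁ := sqrt_star
  have hcomm : ∀ y, (∀ c, H c * y = y * H c) → s * y = y * s := by
    intro y hy
    refine sqrt_comm ?_
    rw [sub_mul, mul_sub, one_mul, mul_one, hPc y hy]
  have hzero : ∀ y, P * y = y → s * y = 0 := by
    intro y hy
    apply eq_zero_of_star_mul_self
    rw [star_mul, hsst]
    calc star y * s * (s * y) = star y * ((s * s) * y) := by noncomm_ring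
      _ = 0 := by rw [hss, sub_mul, one_mul, hy, sub_self, mul_zero]
  have hs_w : ∀ l, s * w l = 0 := fun l =>
    hzero _ (hPb _ (fun c _ => hw3 c l))
  have hs_R : s * (1 - R) = 0 := hzero _ (hPb _ (fun c _ => hR c))
  refine ⟨s, s₁, fun l => w l * s, ⟨hx, x_comm, x_scomm, hsst, ?_, ?_, ?_, ?_, ?_, ?_, ?_, ?_⟩⟩
  · rw [hsst₁, hss₁, hss]; abel
  · intro c; exact hcomm _ (fun c' => Hx c c')
  · intro c; exact hcomm _ (fun c' => Hsx c c')
  · intro c
    rw [hss]
    have h2 : (1 : F) - (1 - P) = P := by abel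
    rw [h2]
    exact hPa c (Finset.mem_univ _) _ (HT c)
  · have h1 : ∀ l, star (w l * s) * (w l * s) = s * (star (w l) * w l) * s := by
      intro l
      rw [star_mul, hsst]
      noncomm_ring
    simp only [h1]
    rw [← Finset.sum_mul, ← Finset.mul_sum, hsum]
    have h2 : s * R = s := by
      rw [mul_sub, mul_one, sub_eq_zero] at hs_R
      exact hs_R.symm
    rw [h2]
  · intro c l
    rw [← mul_assoc, hw1]
  · intro c l
    rw [← mul_assoc, hw2, zero_mul]
  · intro l
    rw [← mul_assoc, hs_w, zero_mul]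

/-- The normalization with control on the generated algebra. -/
theorem normalizeB {Y : F} (hY : Y * Y = 0) {U : Set F} (hU : ∀ u ∈ U, star u ∈ U)
    (hYB : Y ∈ BB U) :
    ∃ x H : F, x ∈ BB U ∧ H ∈ BB U ∧ x * x = 0 ∧ 0 ≤ H ∧ H ≤ 1 ∧ H * x = x * H ∧
      H * star x = star x * H ∧ H * (1 - tt x) = 0 ∧
      (∀ y, Qc (tt Y) * y = 0 →
        x * star x * (Y * y) = Y * y ∧ x * (Y * y) = 0 ∧ H * (Y * y) = Y * y) ∧
      (∀ y, Qc (tt Y) * y = 0 → H * y = y) := by
  set D := tt Y with hDdef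
  have hD : IsSelfAdjoint D := tt_sa Y
  have hDB : D ∈ BB U :=
    add_mem (mul_mem hYB (star_mem_BB hU hYB)) (mul_mem (star_mem_BB hU hYB) hYB)
  have cY : ∀ f : ℝ → ℝ, Commute (cfc f D) Y := fun f =>
    Commute.cfc_real (a := D) (b := Y) (z_tt hY).symm f
  have csY : ∀ f : ℝ → ℝ, Commute (cfc f D) (star Y) := fun f =>
    Commute.cfc_real (a := D) (b := star Y) (star_tt_comm hY).symm f
  set n := cfc nuf D with hn
  have hns : star n = n := cf_star _ _
  have hnY : n * Y = Y * n := (cY nuf).eq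
  have hnsY : n * star Y = star Y * n := (csY nuf).eq
  let x : F := Y * n
  have hxs : star x = n * star Y := by
    show star (Y * n) = _
    rw [star_mul, hns]
  let s : F := cfc Gsf D
  let s₁ : F := cfc Ksf D
  have hss : star s = s := cf_star _ _
  have hss₁ : star s₁ = s₁ := cf_star _ _
  have hsY : s * Y = Y * s := (cY Gsf).eq
  have hssY : s * star Y = star Y * s := (csY Gsf).eq
  have hsn : s * n = n * s := cf_comm Gsf_cont nuf_cont
  have hsG : s * s = cfc Gf D := cf_mul Gsf_cont Gsf_cont Gsf_mul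
  have h11 : s₁ * s₁ = cfc (fun s => 1 - Gf s) D := cf_mul Ksf_cont Ksf_cont Ksf_mul
  have hsum : s₁ * s₁ = 1 - s * s := by
    rw [h11, cf_one_sub hD Gf_cont, hsG]
  have h2 : n * n * D = cfc tauf D := by
    have h4 : n * n = cfc (fun s => nuf s * nuf s) D := cf_mul nuf_cont nuf_cont (fun _ => rfl)
    rw [h4]
    exact cf_mul_self hD (nuf_cont.mul nuf_cont) (fun _ => rfl)
  have hTx : x * star x + star x * x = cfc tauf D := by
    have h1 : x * star x = n * n * (Y * star Y) := by
      rw [hxs]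
      show Y * n * (n * star Y) = _
      calc Y * n * (n * star Y) = (Y * n) * n * star Y := by noncomm_ring
        _ = (n * Y) * n * star Y := by rw [hnY]
        _ = n * (Y * n) * star Y := by noncomm_ring
        _ = n * (n * Y) * star Y := by rw [hnY]
        _ = _ := by noncomm_ring
    have h2' : star x * x = n * n * (star Y * Y) := by
      rw [hxs]
      show n * star Y * (Y * n) = _
      calc n * star Y * (Y * n) = n * (star Y * Y * n) := by noncomm_ring
        _ = n * (star Y * (n * Y)) := by rw [hnY]; noncomm_ring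
        _ = n * ((star Y * n) * Y) := by noncomm_ring
        _ = n * ((n * star Y) * Y) := by rw [hnsY]
        _ = _ := by noncomm_ring
    rw [h1, h2', ← mul_add, ← h2]
    rfl
  have hsy : ∀ y, Qc D * y = 0 → s * y = 0 := by
    intro y hy
    refine qc_imp hy Gsf_cont (fun s hs => ?_)
    unfold Gsf
    rw [Gf_of_ge hs]
    simp
  have hH : ∀ y, s * y = 0 → s₁ * s₁ * y = y := by
    intro y hy
    rw [hsum, sub_mul, one_mul, mul_assoc, hy, mul_zero, sub_zero]
  refine ⟨x, s₁ * s₁, mul_mem hYB (cfc_mem_BB hDB _), mul_mem (cfc_mem_BB hDB _) (cfc_mem_BB hDB _),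
    ?_, ?_, ?_, ?_, ?_, ?_, ?_, ?_⟩
  · show Y * n * (Y * n) = 0
    calc Y * n * (Y * n) = Y * (n * Y) * n := by noncomm_ring
      _ = Y * (Y * n) * n := by rw [hnY]
      _ = (Y * Y) * n * n := by noncomm_ring
      _ = 0 := by rw [hY]; simp
  · have := star_mul_self_nonneg s₁
    rwa [hss₁] at this
  · rw [hsum]
    have : 0 ≤ s * s := by
      have := star_mul_self_nonneg s
      rwa [hss] at this
    exact sub_le_self _ this
  · have h1 : s₁ * Y = Y * s₁ := (cY Ksf).eq
    have h3 : s₁ * n = n * s₁ := cf_comm Ksf_cont nuf_cont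
    show s₁ * s₁ * (Y * n) = Y * n * (s₁ * s₁)
    calc s₁ * s₁ * (Y * n) = s₁ * (s₁ * Y) * n := by noncomm_ring
      _ = s₁ * (Y * s₁) * n := by rw [h1]
      _ = (s₁ * Y) * (s₁ * n) := by noncomm_ring
      _ = (Y * s₁) * (n * s₁) := by rw [h1, h3]
      _ = Y * (s₁ * n) * s₁ := by noncomm_ring
      _ = Y * (n * s₁) * s₁ := by rw [h3]
      _ = _ := by noncomm_ring
  · have h1 : s₁ * star Y = star Y * s₁ := (csY Ksf).eq
    have h3 : s₁ * n = n * s₁ := cf_comm Ksf_cont nuf_cont
    rw [hxs]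
    calc s₁ * s₁ * (n * star Y) = s₁ * (s₁ * n) * star Y := by noncomm_ring
      _ = s₁ * (n * s₁) * star Y := by rw [h3]
      _ = (s₁ * n) * (s₁ * star Y) := by noncomm_ring
      _ = (n * s₁) * (star Y * s₁) := by rw [h1, h3]
      _ = n * (s₁ * star Y) * s₁ := by noncomm_ring
      _ = n * (star Y * s₁) * s₁ := by rw [h1]
      _ = _ := by noncomm_ring
  · show s₁ * s₁ * (1 - (x * star x + star x * x)) = 0
    rw [hTx, hsum, hsG, ← cf_one_sub hD Gf_cont, ← cf_one_sub hD tauf_cont]
    have := cf_mul (D := D) (f := fun s => 1 - Gf s) (g := fun s => 1 - tauf s)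
      (continuous_const.sub Gf_cont) (continuous_const.sub tauf_cont)
      (h := fun _ => 0) Gf_tauf
    rw [this]
    exact cfc_const_zero ℝ D
  · intro y hy
    have h1 : cfc (fun s => 1 - tauf s) D * y = 0 := by
      refine qc_imp hy (continuous_const.sub tauf_cont) (fun s hs => ?_)
      rw [tauf_of_ge (by linarith)]
      simp
    rw [cf_one_sub hD tauf_cont, sub_mul, one_mul, sub_eq_zero] at h1
    refine ⟨?_, ?_, ?_⟩
    · rw [hxs]
      show Y * n * (n * star Y) * (Y * y) = _
      have h3 : Y * star Y * Y = D * Y := (tt_mul_self hY).symm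
      calc Y * n * (n * star Y) * (Y * y) = (Y * n) * n * (star Y * Y) * y := by noncomm_ring
        _ = (n * Y) * n * (star Y * Y) * y := by rw [hnY]
        _ = n * (Y * n) * (star Y * Y) * y := by noncomm_ring
        _ = n * (n * Y) * (star Y * Y) * y := by rw [hnY]
        _ = n * n * (Y * star Y * Y) * y := by noncomm_ring
        _ = n * n * (D * Y) * y := by rw [h3]
        _ = n * n * ((Y * D)) * y := by rw [(z_tt hY)]
        _ = (n * n) * Y * D * y := by noncomm_ring
        _ = n * (n * Y) * D * y := by noncomm_ring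
        _ = n * (Y * n) * D * y := by rw [hnY]
        _ = (n * Y) * n * D * y := by noncomm_ring
        _ = (Y * n) * n * D * y := by rw [hnY]
        _ = Y * (n * n * D * y) := by noncomm_ring
        _ = Y * y := by rw [h2, ← h1]
    · show Y * n * (Y * y) = 0
      calc Y * n * (Y * y) = Y * (n * Y) * y := by noncomm_ring
        _ = Y * (Y * n) * y := by rw [hnY]
        _ = (Y * Y) * n * y := by noncomm_ring
        _ = 0 := by rw [hY]; simp
    · refine hH _ ?_
      have h5 := hsy y hy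
      calc s * (Y * y) = (s * Y) * y := by noncomm_ring
        _ = Y * (s * y) := by rw [hsY]; noncomm_ring
        _ = 0 := by rw [h5, mul_zero]
  · intro y hy
    exact hH _ (hsy y hy)

end

end Vale.Agent.Lib.P101
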