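import Vale.Agent.Lib.P101.TStep

/-! The start of the induction for the tuple invariant. -/

namespace Vale.Agent.Lib.P101

open scoped ComplexOrder

attribute [local instance] CStarAlgebra.spectralOrder CStarAlgebra.spectralOrderedRing

noncomputable section

variable {F : Type*} [CStarAlgebra F]

lemma tauf_le_one (s : ℝ) : tauf s ≤ 1 := by
  rcases le_total (1 / 4) s with h | h
  · rw [tauf_of_ge h]
  · unfold tauf nuf
    rw [max_eq_right h, Real.mul_self_sqrt (by norm_num)]
    linarith

/-- The square root of `1 - tauf`. -/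
def muf (s : ℝ) : ℝ := Real.sqrt (1 - tauf s)

lemma muf_cont : Continuous muf := Real.continuous_sqrt.comp (continuous_const.sub tauf_cont)

lemma muf_mul (s : ℝ) : muf s * muf s = 1 - tauf s :=
  Real.mul_self_sqrt (by linarith [tauf_le_one s])

lemma muf_of_ge {s : ℝ} (h : 1 / 4 ≤ s) : muf s = 0 := by
  unfold muf
  rw [tauf_of_ge h]
  simp

/-- If `(1 - g) y = 0` then `f(g) y = 0` for `f` vanishing on `[1/2, ∞)`. -/
lemma one_sub_imp {g y : F} (hg : IsSelfAdjoint g) (hy : (1 - g) * y = 0) {f : ℝ → ℝ}
    (hf : Continuous f) (h0 : ∀ s, 1 / 2 ≤ s → f s = 0) : cfc f g * y = 0 := by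
  let r : ℝ → ℝ := fun s => f s / max (1 - s) (1 / 2)
  have hmax : ∀ s : ℝ, 0 < max (1 - s) (1 / 2) := fun s => lt_max_of_lt_right (by norm_num)
  have hr : Continuous r := hf.div (by fun_prop) (fun s => (hmax s).ne')
  have e : ∀ s, r s * (1 - s) = f s := by
    intro s
    rcases le_total (1 / 2) s with h | h
    · simp [r, h0 s h]
    · have h1 : max (1 - s) (1 / 2) = 1 - s := max_eq_left (by linarith)
      have h3 : 1 - s ≠ 0 := by
        have : 0 < 1 - s := by linarith
        exact this.ne'
      simp only [r, h1]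
      field_simp
  have h1 : cfc (fun s : ℝ => 1 - s) g = 1 - g := by
    rw [cf_one_sub (f := fun s => s) hg continuous_id, cf_id hg]
  have h2 := cf_mul (D := g) hr (f := r) (g := fun s : ℝ => 1 - s) (h := f)
    (continuous_const.sub continuous_id) e
  rw [← h2, h1, mul_assoc, hy, mul_zero]

/-- If `g y = 0` then `(1 - Gf)(g) y = 0`. -/
lemma g_imp {g y : F} (hg : IsSelfAdjoint g) (hy : g * y = 0) : cfc Gf g * y = y := by
  let r : ℝ → ℝ := fun s => (1 - Gf s) / max s (1 / 8)
  have hmax : ∀ s : ℝ, 0 < max s (1 / 8) := fun s => lt_max_of_lt_right (by norm_num)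
  have hr : Continuous r := (continuous_const.sub Gf_cont).div (by fun_prop) (fun s => (hmax s).ne')
  have e : ∀ s, r s * s = 1 - Gf s := by
    intro s
    rcases le_total (1 / 4) s with h | h
    · have h1 : max s (1 / 8) = s := max_eq_left (by linarith)
      have h3 : s ≠ 0 := by
        have : 0 < s := by linarith
        exact this.ne'
      simp only [r, h1]
      field_simp
    · simp [r, Gf_of_le h]
  have h1 : cfc (fun s => 1 - Gf s) g * y = 0 := by
    rw [← cf_mul_self hg hr e, mul_assoc, hy, mul_zero]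
  rw [cf_one_sub hg Gf_cont, sub_mul, one_mul, sub_eq_zero] at h1
  exact h1.symm

/-- The covering of one coordinate. -/
theorem coord_cover {x s s₁ : F} {v : Fin 1 → F} (hI : IsInv x s s₁ v) {U : Set F}
    (hU : ∀ u ∈ U, star u ∈ U) (hxU : x ∈ U) (hsU : s ∈ U) (hvU : v 0 ∈ U) :
    ∃ (H : F) (C : Fin 3 → F), H ∈ BB U ∧ (∀ i, C i ∈ BB U) ∧ 0 ≤ H ∧ H ≤ 1 ∧ H * x = x * H ∧
      H * star x = star x * H ∧ H * (1 - tt x) = 0 ∧ ∑ i, star (C i) * C i = 1 ∧
      (∀ i, x * star x * C i = C i) ∧ (∀ i, x * C i = 0) ∧ (∀ i, H * C i = C i) := by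
  have hxB : x ∈ BB U := subset_BB U hxU
  have hsxB : star x ∈ BB U := subset_BB U (hU _ hxU)
  have hsB : s ∈ BB U := subset_BB U hsU
  have hvB : v 0 ∈ BB U := subset_BB U hvU
  set g := s * s with hg
  have hgB : g ∈ BB U := mul_mem hsB hsB
  have hg0 : 0 ≤ g := by
    have := star_mul_self_nonneg s
    rwa [hI.s_star] at this
  have hgsa : IsSelfAdjoint g := hg0.isSelfAdjoint
  have hgx : g * x = x * g := by
    rw [hg, mul_assoc, hI.s_x, ← mul_assoc, hI.s_x, mul_assoc]
  have hgsx : g * star x = star x * g := by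
    rw [hg, mul_assoc, hI.s_sx, ← mul_assoc, hI.s_sx, mul_assoc]
  have cx : ∀ f : ℝ → ℝ, cfc f g * x = x * cfc f g := fun f =>
    (Commute.cfc_real (a := g) (b := x) hgx f)
  have csx : ∀ f : ℝ → ℝ, cfc f g * star x = star x * cfc f g := fun f =>
    (Commute.cfc_real (a := g) (b := star x) hgsx f)
  have hg1 : g ≤ 1 := by
    have h1 : g = 1 - star s₁ * s₁ := by
      rw [← hI.s_norm]; abel
    rw [h1]
    exact sub_le_self _ (star_mul_self_nonneg s₁)
  have hT := hI.s_T
  set m := cfc muf g with hm
  set n := cfc nuf g with hn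
  set H := cfc Gf g with hH
  set a := x * star x with ha
  set b := star x * x with hb
  have hms : star m = m := cf_star _ _
  have hns : star n = n := cf_star _ _
  have hT' : (1 - g) * (1 - tt x) = 0 := hT
  have hmT : m * (1 - tt x) = 0 :=
    one_sub_imp hgsa hT' muf_cont (fun s hs => muf_of_ge (by linarith))
  have hHT : H * (1 - tt x) = 0 :=
    one_sub_imp hgsa hT' Gf_cont (fun s hs => Gf_of_ge hs)
  have hTm : tt x * m = m := by
    have h1 : tt x * m = m * tt x := by
      show (x * star x + star x * x) * m = m * (x * star x + star x * x)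
      rw [add_mul, mul_add]
      congr 1
      · rw [mul_assoc, ← csx muf, ← mul_assoc, ← cx muf, mul_assoc]
      · rw [mul_assoc, ← cx muf, ← mul_assoc, ← csx muf, mul_assoc]
    rw [h1]
    rw [mul_sub, mul_one, sub_eq_zero] at hmT
    exact hmT.symm
  have hss := star_sq hI.x_sq
  have hab : a * b = 0 := by
    calc a * b = x * (star x * star x) * x := by simp only [ha, hb]; noncomm_ring
      _ = 0 := by rw [hss]; simp
  have haam : a * a * m = a * m := by
    have h1 : a * tt x = a * a := by
      show a * (a + b) = a * a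
      rw [mul_add, hab, add_zero]
    rw [← h1, mul_assoc, hTm]
  have hTx : tt x * x = a * x := by
    show (a + b) * x = a * x
    rw [add_mul]
    have : b * x = 0 := by rw [hb, mul_assoc, hI.x_sq, mul_zero]
    rw [this, add_zero]
  have hamx : a * (x * m) = x * m := by
    rw [← mul_assoc, ← hTx, z_tt hI.x_sq |>.symm, mul_assoc, hTm]
  have hHm : H * m = m := cf_mul Gf_cont muf_cont (fun s => by
    rcases le_total (1 / 4) s with h | h
    · rw [muf_of_ge h, mul_zero]
    · rw [Gf_of_le h, one_mul])
  have hHa : H * a = a * H := by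
    rw [ha, ← mul_assoc, hH, cx Gf, mul_assoc, csx Gf, mul_assoc]
  have hgv : g * v 0 = 0 := by
    rw [hg, mul_assoc, hI.s_v, mul_zero]
  have hHv : H * v 0 = v 0 := g_imp hgsa hgv
  have hmg : ∀ f : ℝ → ℝ, cfc f g * g = g * cfc f g := fun f =>
    Commute.cfc_real (Commute.refl g) f
  refine ⟨H, ![x * m, a * m, v 0 * n], cfc_mem_BB hgB _, ?_, ?_, ?_, cx Gf, csx Gf, hHT, ?_, ?_, ?_, ?_⟩
  · intro i
    fin_cases i
    · exact mul_mem hxB (cfc_mem_BB hgB _)
    · exact mul_mem (mul_mem hxB hsxB) (cfc_mem_BB hgB _)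
    · exact mul_mem hvB (cfc_mem_BB hgB _)
  · exact cfc_nonneg (fun s _ => Gf_nonneg s)
  · exact cfc_le_one (A := F) Gf g (fun s _ => Gf_le_one s)
  · rw [Fin.sum_univ_three]
    simp only [Matrix.cons_val_zero, Matrix.cons_val_one, Matrix.cons_val]
    have hvv : star (v 0) * v 0 = g := by
      have := hI.v_sum
      rwa [Fin.sum_univ_one] at this
    have e0 : star (x * m) * (x * m) = m * (b * m) := by
      rw [star_mul, hms, hb]; noncomm_ring
    have e1 : star (a * m) * (a * m) = m * (a * a * m) := by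
      rw [star_mul, hms, ha, star_mul, star_star]; noncomm_ring
    have e2 : star (v 0 * n) * (v 0 * n) = cfc tauf g := by
      rw [star_mul, hns]
      calc n * star (v 0) * (v 0 * n) = n * (star (v 0) * v 0) * n := by noncomm_ring
        _ = n * (g * n) := by rw [hvv, mul_assoc]
        _ = n * (n * g) := by rw [hn, hmg nuf]
        _ = n * n * g := by noncomm_ring
        _ = _ := by
          rw [cf_mul nuf_cont nuf_cont (h := fun s => nuf s * nuf s) (fun _ => rfl)]
          exact cf_mul_self hgsa (nuf_cont.mul nuf_cont) (fun _ => rfl)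
    rw [e0, e1, e2, haam, ← mul_add, ← add_mul, add_comm b a]
    have e3 : (a + b) * m = m := hTm
    rw [e3, hm, cf_mul muf_cont muf_cont muf_mul, cf_one_sub hgsa tauf_cont]
    abel
  · intro i
    fin_cases i
    · exact hamx
    · show a * (a * m) = a * m
      rw [← mul_assoc, haam]
    · show a * (v 0 * n) = v 0 * n
      rw [← mul_assoc, hI.v_range]
  · intro i
    fin_cases i
    · show x * (x * m) = 0
      rw [← mul_assoc, hI.x_sq, zero_mul]
    · show x * (a * m) = 0
      rw [ha]
      calc x * (x * star x * m) = (x * x) * star x * m := by noncomm_ring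
        _ = 0 := by rw [hI.x_sq]; simp
    · show x * (v 0 * n) = 0
      rw [← mul_assoc, hI.x_v, zero_mul]
  · intro i
    fin_cases i
    · show H * (x * m) = x * m
      rw [← mul_assoc, hH, cx Gf, mul_assoc, ← hH, hHm]
    · show H * (a * m) = a * m
      rw [← mul_assoc, hHa, mul_assoc, hHm]
    · show H * (v 0 * n) = v 0 * n
      rw [← mul_assoc, hHv]

/-- Commuting copies of the invariant with one cell give the tuple invariant. -/
theorem tuple_start {κ : Type*} [Fintype κ] [DecidableEq κ] (x s s₁ : κ → F) (v : κ → Fin 1 → F)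
    (hI : ∀ c, IsInv (x c) (s c) (s₁ c) (v c))
    (hcross : ∀ c c', c ≠ c' → ∀ u ∈ invGens (x c) (s c) (v c),
      ∀ u' ∈ invGens (x c') (s c') (v c'), u * u' = u' * u) :
    ∃ (M : ℕ) (t t₁ : F) (w : Fin (M + 1) → F), TInv x t t₁ w := by
  classical
  let U : κ → Set F := fun c => invGens (x c) (s c) (v c)
  have hU : ∀ c, ∀ u ∈ U c, star u ∈ U c := fun c => invGens_star _ _ _
  have m_x : ∀ c, x c ∈ U c := fun c => by simp [U, invGens]
  have m_sx : ∀ c, star (x c) ∈ U c := fun c => by simp [U, invGens]
  have m_s : ∀ c, s c ∈ U c := fun c => by simp [U, invGens]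
  have m_v : ∀ c l, v c l ∈ U c := fun c l => Or.inl (Or.inr ⟨l, rfl⟩)
  have hstep := fun c => coord_cover (hI c) (hU c) (m_x c) (m_s c) (m_v c 0)
  choose H C hHB hCB hH0 hH1 hHx hHsx hHT hCs hCa hCx hCH using hstep
  have c3 : ∀ c c', c ≠ c' → ∀ u ∈ BB (U c), ∀ u' ∈ BB (U c'), u * u' = u' * u :=
    fun c c' hne => comm_BB (hcross c c' hne)
  have hxB : ∀ c, x c ∈ BB (U c) := fun c => subset_BB _ (m_x c)
  have hsxB : ∀ c, star (x c) ∈ BB (U c) := fun c => subset_BB _ (m_sx c)
  have hcov : ∀ S : Finset κ, ∃ (L : Type) (_ : Fintype L) (_ : Nonempty L) (E : L → F),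
      (∑ l, star (E l) * E l = 1) ∧
      (∀ c ∈ S, ∀ l, x c * star (x c) * E l = E l ∧ x c * E l = 0 ∧ H c * E l = E l) ∧
      (∀ c, c ∉ S → ∀ y ∈ BB (U c), ∀ l, y * E l = E l * y) := by
    intro S
    induction S using Finset.induction_on with
    | empty =>
      refine ⟨Unit, inferInstance, inferInstance, fun _ => 1, by simp, by simp, by simp⟩
    | insert c S hc ih =>
      obtain ⟨L, _, _, E, h1, h2, h3⟩ := ih
      refine ⟨L × Fin 3, inferInstance, inferInstance, fun p => E p.1 * C c p.2, ?_, ?_, ?_⟩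
      · rw [Fintype.sum_prod_type_right]
        have e : ∀ i : Fin 3, ∑ l, star (E l * C c i) * (E l * C c i) = star (C c i) * C c i := by
          intro i
          have e1 : ∀ l, star (E l * C c i) * (E l * C c i)
              = star (C c i) * (star (E l) * E l) * C c i := by
            intro l
            rw [star_mul]
            noncomm_ring
          simp only [e1]
          rw [← Finset.sum_mul, ← Finset.mul_sum, h1, mul_one]
        simp only [e]
        exact hCs c
      · rintro c' hc' ⟨l, i⟩
        rw [Finset.mem_insert] at hc'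
        by_cases hcc : c' = c
        · subst hcc
          have g1 := h3 c' hc _ (mul_mem (hxB c') (hsxB c')) l
          have g2 := h3 c' hc _ (hxB c') l
          have g3 := h3 c' hc _ (hHB c') l
          refine ⟨?_, ?_, ?_⟩
          · show x c' * star (x c') * (E l * C c' i) = E l * C c' i
            rw [← mul_assoc, g1, mul_assoc, hCa]
          · show x c' * (E l * C c' i) = 0
            rw [← mul_assoc, g2, mul_assoc, hCx, mul_zero]
          · show H c' * (E l * C c' i) = E l * C c' i
            rw [← mul_assoc, g3, mul_assoc, hCH]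
        · obtain ⟨g1, g2, g3⟩ := h2 c' (hc'.resolve_left hcc) l
          refine ⟨?_, ?_, ?_⟩
          · show x c' * star (x c') * (E l * C c i) = E l * C c i
            rw [← mul_assoc, g1]
          · show x c' * (E l * C c i) = 0
            rw [← mul_assoc, g2, zero_mul]
          · show H c' * (E l * C c i) = E l * C c i
            rw [← mul_assoc, g3]
      · rintro c' hc' y hy ⟨l, i⟩
        rw [Finset.mem_insert, not_or] at hc'
        show y * (E l * C c i) = E l * C c i * y
        rw [← mul_assoc, h3 c' hc'.2 y hy l, mul_assoc, c3 c' c hc'.1 y hy _ (hCB c i), mul_assoc]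
  obtain ⟨L, _, hL, E, h1, h2, -⟩ := hcov Finset.univ
  have hcard : 0 < Fintype.card L := Fintype.card_pos
  obtain ⟨M, hM⟩ : ∃ M, Fintype.card L = M + 1 := ⟨Fintype.card L - 1, by omega⟩
  let e : Fin (M + 1) ≃ L := (Fintype.equivFinOfCardEq hM).symm
  have hsum : ∑ l, star (E (e l)) * E (e l) = 1 := by
    rw [Equiv.sum_comp e (fun l => star (E l) * E l), h1]
  obtain ⟨t, t₁, w, hw⟩ := assembleT x H (fun c => (hI c).x_sq)
    (fun c c' hne => c3 c c' hne _ (hxB c) _ (hxB c'))
    (fun c c' hne => c3 c c' hne _ (hxB c) _ (hsxB c'))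
    hH0 hH1
    (fun c c' => by
      by_cases hcc : c = c'
      · subst hcc; rfl
      · exact c3 c c' hcc _ (hHB c) _ (hHB c'))
    (fun c c' => by
      by_cases hcc : c = c'
      · subst hcc; exact hHx c
      · exact (c3 c c' hcc _ (hxB c) _ (hHB c')).symm)
    (fun c c' => by
      by_cases hcc : c = c'
      · subst hcc; exact hHsx c
      · exact (c3 c c' hcc _ (hsxB c) _ (hHB c')).symm)
    hHT (fun l => E (e l)) 1 hsum (by simp)
    (fun c l => (h2 c (Finset.mem_univ _) _).1)
    (fun c l => (h2 c (Finset.mem_univ _) _).2.1)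
    (fun c l => (h2 c (Finset.mem_univ _) _).2.2)
  exact ⟨M, t, t₁, w, hw⟩

/-- Sequences of commuting copies of the invariant. -/
theorem commuting_copies (hinv : CopyInv F) {x₀ s₀ s₁₀ : F} {v₀ : Fin 1 → F}
    (h₀ : IsInv x₀ s₀ s₁₀ v₀) (k : ℕ) :
    ∃ (x s s₁ : ℕ → F) (v : ℕ → Fin 1 → F), (∀ i < k, IsInv (x i) (s i) (s₁ i) (v i)) ∧
      ∀ i j, i < j → j < k → ∀ u ∈ invGens (x i) (s i) (v i),
        ∀ u' ∈ invGens (x j) (s j) (v j), u * u' = u' * u := by
  classical
  induction k with
  | zero => exact ⟨fun _ => x₀, fun _ => s₀, fun _ => s₁₀, fun _ => v₀, by simp, by simp⟩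
  | succ k ih =>
    obtain ⟨x, s, s₁, v, h1, h2⟩ := ih
    let W : Set F := ⋃ i ∈ Finset.range k, invGens (x i) (s i) (v i)
    have hW : W.Finite := Set.Finite.biUnion (Finset.finite_toSet _)
      (fun i _ => invGens_finite _ _ _)
    obtain ⟨x', s', s₁', v', hI', g1, g2, g3, g4, g5, g6⟩ := hinv 0 x₀ s₀ s₁₀ v₀ h₀ W hW
    refine ⟨Function.update x k x', Function.update s k s', Function.update s₁ k s₁',
      Function.update v k v', ?_, ?_⟩
    · intro i hi
      by_cases hik : i = k
      · subst hik
        simpa using hI'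
      · have hi' : i < k := by omega
        simpa [Function.update_of_ne hik] using h1 i hi'
    · intro i j hij hj u hu u' hu'
      have hik : i ≠ k := by omega
      simp only [Function.update_of_ne hik] at hu
      by_cases hjk : j = k
      · subst hjk
        rw [Function.update_self, Function.update_self, Function.update_self] at hu'
        have huW : u ∈ W := by
          simp only [W, Set.mem_iUnion]
          exact ⟨i, Finset.mem_range.2 hij, hu⟩
        have : u' ∈ Set.centralizer W := by
          simp only [invGens, Set.mem_union, Set.mem_insert_iff, Set.mem_singleton_iff,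
            Set.mem_range] at hu'
          rcases hu' with ((rfl | rfl | rfl | rfl) | ⟨l, rfl⟩) | ⟨l, rfl⟩
          · exact g1
          · exact g2
          · exact g3
          · exact g4
          · exact g5 l
          · exact g6 l
        exact Set.mem_centralizer_iff.1 this u huW
      · simp only [Function.update_of_ne hjk] at hu'
        exact h2 i j hij (by omega) u hu u' hu'

/-- The tuple invariant for `Fin k`, with many cells. -/
theorem tuple_start_fin (hinv : CopyInv F) {x₀ s₀ s₁₀ : F} {v₀ : Fin 1 → F}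
    (h₀ : IsInv x₀ s₀ s₁₀ v₀) (k : ℕ) :
    ∃ (x : Fin k → F) (M : ℕ) (t t₁ : F) (w : Fin (M + 1) → F), TInv x t t₁ w := by
  obtain ⟨x, s, s₁, v, h1, h2⟩ := commuting_copies hinv h₀ k
  refine ⟨fun c => x c, ?_⟩
  refine tuple_start (fun c : Fin k => x c) (fun c => s c) (fun c => s₁ c) (fun c => v c)
    (fun c => h1 c c.2) ?_
  intro c c' hne u hu u' hu'
  rcases lt_or_gt_of_ne (Fin.val_ne_of_ne hne) with h | h
  · exact h2 _ _ h c'.2 u hu u' hu'
  · exact (h2 _ _ h c.2 u' hu' u hu).symm

end

end Vale.Agent.Lib.P101
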