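import Vale.Agent.Lib.P101.TInv

/-! The reduction step for the tuple invariant. -/

namespace Vale.Agent.Lib.P101

open scoped ComplexOrder

attribute [local instance] CStarAlgebra.spectralOrder CStarAlgebra.spectralOrderedRing

noncomputable section

variable {F : Type*} [CStarAlgebra F]

/-- The merge lies in the generated bicommutant. -/
lemma merge_mem_BB {z z' : F} {U : Set F} (hz : z ∈ BB U) (hzs : star z ∈ BB U) (hz' : z' ∈ BB U)
    (hzs' : star z' ∈ BB U) : merge z z' ∈ BB U := by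
  have htt : ∀ u, u ∈ BB U → star u ∈ BB U → tt u ∈ BB U := fun u h1 h2 =>
    add_mem (mul_mem h1 h2) (mul_mem h2 h1)
  have hww : ∀ u, u ∈ BB U → star u ∈ BB U → ww u ∈ BB U := fun u h1 h2 =>
    sub_mem (mul_mem h2 h1) (mul_mem h1 h2)
  unfold merge
  refine add_mem (add_mem (mul_mem (htt _ hz hzs) hz) (mul_mem (htt _ hz' hzs') hz')) ?_
  exact Subalgebra.smul_mem _ (sub_mem (mul_mem hz (hww _ hz' hzs')) (mul_mem (hww _ hz hzs) hz')) _

/-- One coordinate of the reduction step. -/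
theorem coord_step {z z' : F} (hz : z * z = 0) (hz' : z' * z' = 0)
    (ca : z' * z = z * z') (cb : z' * star z = star z * z')
    (da : star z' * z = z * star z') (db : star z' * star z = star z * star z')
    {U : Set F} (hU : ∀ u ∈ U, star u ∈ U) (hzU : z ∈ U) (hzU' : z' ∈ U) :
    ∃ xt Ht t : F, xt ∈ BB U ∧ Ht ∈ BB U ∧ t ∈ BB U ∧ xt * xt = 0 ∧ 0 ≤ Ht ∧ Ht ≤ 1 ∧
      Ht * xt = xt * Ht ∧ Ht * star xt = star xt * Ht ∧ Ht * (1 - tt xt) = 0 ∧
      (∀ y, z * star z * y = y → tt z * y = y →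
        star (t * y) * (t * y) = star y * y ∧ xt * star xt * (t * y) = t * y ∧
          xt * (t * y) = 0 ∧ Ht * (t * y) = t * y) ∧
      (∀ r, tt z * r = r → Ht * r = r) ∧ (∀ r, tt z' * r = r → Ht * r = r) := by
  -- the two small generating sets
  let U₁ : Set F := {z, star z}
  let U₂ : Set F := {z', star z'}
  have hU₁ : ∀ u ∈ U₁, star u ∈ U₁ := by
    rintro u (rfl | rfl)
    · exact Or.inr rfl
    · simp [U₁]
  have hU₂ : ∀ u ∈ U₂, star u ∈ U₂ := by
    rintro u (rfl | rfl)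
    · exact Or.inr rfl
    · simp [U₂]
  have hcomm : ∀ u ∈ U₁, ∀ u' ∈ U₂, u * u' = u' * u := by
    rintro u (rfl | rfl) u' (rfl | rfl)
    · exact ca.symm
    · exact da.symm
    · exact cb.symm
    · exact db.symm
  have c1 := comm_BB hcomm
  have hz1 : z ∈ BB U₁ := subset_BB U₁ (Or.inl rfl)
  have hzs1 : star z ∈ BB U₁ := subset_BB U₁ (Or.inr rfl)
  have hz2 : z' ∈ BB U₂ := subset_BB U₂ (Or.inl rfl)
  have hzs2 : star z' ∈ BB U₂ := subset_BB U₂ (Or.inr rfl)
  have hzB : z ∈ BB U := subset_BB U hzU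
  have hzsB : star z ∈ BB U := subset_BB U (hU _ hzU)
  have hzB' : z' ∈ BB U := subset_BB U hzU'
  have hzsB' : star z' ∈ BB U := subset_BB U (hU _ hzU')
  set T := tt z with hT
  set T' := tt z' with hT'
  set a := z * star z with ha
  set b' := star z' * z' with hb'
  have hTB : T ∈ BB U₁ := add_mem (mul_mem hz1 hzs1) (mul_mem hzs1 hz1)
  have haB : a ∈ BB U₁ := mul_mem hz1 hzs1
  have hTB' : T' ∈ BB U₂ := add_mem (mul_mem hz2 hzs2) (mul_mem hzs2 hz2)
  have hbB' : b' ∈ BB U₂ := mul_mem hzs2 hz2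
  have cTT' : Commute T T' := c1 _ hTB _ hTB'
  obtain ⟨hY, hD, hK⟩ := merge_ids (z := z) (z' := z') hz hz' ca cb da db
  set Y := merge z z' with hYdef
  have hYB : Y ∈ BB U := merge_mem_BB hzB hzsB hzB' hzsB'
  set m' := (1 + T' * T') * (1 + b') with hm'
  have hTT0 : 0 ≤ T' * T' := sq_nonneg_of_sa (tt_nonneg z').isSelfAdjoint
  have hb0 : 0 ≤ b' := star_mul_self_nonneg z'
  have cTb' : Commute T' b' := tt_comm_b z' hz'
  have hTTb : 0 ≤ T' * T' * b' := Commute.mul_nonneg hTT0 hb0 (cTb'.mul_left cTb')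
  have hmeq : m' = 1 + (T' * T' + b' + T' * T' * b') := by
    rw [hm']; noncomm_ring
  have hnn := inv_sqrt (m := m') (c := T' * T' + b' + T' * T' * b')
    (add_nonneg (add_nonneg hTT0 hb0) hTTb) hmeq
  set n' := cfc nuf m' with hn'
  have hmB : m' ∈ BB U₂ :=
    mul_mem (add_mem (one_mem _) (mul_mem hTB' hTB')) (add_mem (one_mem _) hbB')
  have hnB : n' ∈ BB U₂ := cfc_mem_BB hmB nuf
  have hmBU : m' ∈ BB U := by
    refine mul_mem (add_mem (one_mem _) (mul_mem ?_ ?_)) (add_mem (one_mem _) (mul_mem hzsB' hzB'))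
    · exact add_mem (mul_mem hzB' hzsB') (mul_mem hzsB' hzB')
    · exact add_mem (mul_mem hzB' hzsB') (mul_mem hzsB' hzB')
  have hns : star n' = n' := cf_star _ _
  have hnm : n' * m' = m' * n' := (Commute.cfc_real (Commute.refl m') nuf).eq
  have hDsa : IsSelfAdjoint (tt Y) := tt_sa Y
  obtain ⟨xt, Ht, hxB, hHB, hxx, hH0, hH1, hHx, hHsx, hHT, hnorm, hHq⟩ := normalizeB hY hU hYB
  refine ⟨xt, Ht, Y * star z * n', hxB, hHB, mul_mem (mul_mem hYB hzsB) (cfc_mem_BB hmBU nuf), hxx,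
    hH0, hH1, hHx, hHsx, hHT, ?_, ?_, ?_⟩
  · intro y h1 h2
    have hTw : T * (n' * y) = n' * y := by
      rw [← mul_assoc, c1 _ hTB _ hnB, mul_assoc, h2]
    have haw : a * (n' * y) = n' * y := by
      rw [← mul_assoc, c1 _ haB _ hnB, mul_assoc, h1]
    have cTsz : T * star z = star z * T := (star_tt_comm hz).symm
    set y' := star z * (n' * y) with hy'
    have hTy : T * y' = y' := by
      rw [hy', ← mul_assoc, cTsz, mul_assoc, hTw]
    have hQy : Qc (tt Y) * y' = 0 := qc_of_fix (tt_nonneg z') cTT' hD hDsa hTy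
    have e1 : Y * star z * n' * y = Y * y' := by
      rw [hy']; noncomm_ring
    rw [e1]
    obtain ⟨g1, g2, g3⟩ := hnorm y' hQy
    refine ⟨?_, g1, g2, g3⟩
    have e2 : Y * y' = (Y * star z) * (n' * y) := by
      rw [hy']; noncomm_ring
    have e3' : star (Y * star z) = z * star Y := by
      rw [star_mul, star_star]
    have e4 : (z * star Y * (Y * star z)) * (n' * y) = m' * (n' * y) := by
      rw [hK]
      exact kact cTT' (c1 _ haB _ hbB') (c1 _ hTB _ hbB') haw hTw
    rw [e2, star_mul (Y * star z), e3', star_mul n', hns]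
    calc star y * n' * (z * star Y) * (Y * star z * (n' * y))
        = star y * n' * ((z * star Y * (Y * star z)) * (n' * y)) := by noncomm_ring
      _ = star y * n' * (m' * (n' * y)) := by rw [e4]
      _ = star y * (n' * (m' * n')) * y := by noncomm_ring
      _ = star y * (n' * (n' * m')) * y := by rw [hnm]
      _ = star y * (n' * n' * m') * y := by noncomm_ring
      _ = star y * y := by rw [hnn, mul_one]
  · intro r hr
    exact hHq r (qc_of_fix (tt_nonneg z') cTT' hD hDsa hr)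
  · intro r hr
    refine hHq r (qc_of_fix (P := T') (P' := T) (tt_nonneg z) cTT'.symm ?_ hDsa hr)
    rw [hD, add_comm (T * T), add_comm T]

/-- The generators of the tuple invariant, with adjoints. -/
def tGens {κ : Type*} {M : ℕ} (x : κ → F) (s : F) (v : Fin (M + 1) → F) : Set F :=
  Set.range x ∪ Set.range (fun c => star (x c)) ∪ {s} ∪ Set.range v ∪
    Set.range (fun l => star (v l))

lemma tGens_star {κ : Type*} {M : ℕ} (x : κ → F) {s : F} (hs : star s = s)
    (v : Fin (M + 1) → F) : ∀ u ∈ tGens x s v, star u ∈ tGens x s v := by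
  intro u hu
  simp only [tGens, Set.mem_union, Set.mem_range, Set.mem_singleton_iff] at hu ⊢
  rcases hu with (((⟨l, rfl⟩ | ⟨l, rfl⟩) | rfl) | ⟨l, rfl⟩) | ⟨l, rfl⟩
  · exact Or.inl (Or.inl (Or.inl (Or.inr ⟨l, rfl⟩)))
  · exact Or.inl (Or.inl (Or.inl (Or.inl ⟨l, by simp⟩)))
  · exact Or.inl (Or.inl (Or.inr hs))
  · exact Or.inr ⟨l, rfl⟩
  · exact Or.inl (Or.inr ⟨l, by simp⟩)

/-- The reduction step for the tuple invariant. -/
theorem tinv_step {κ : Type*} [Fintype κ] [DecidableEq κ] (c₀ : κ) {M : ℕ} {x x' : κ → F}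
    {s s₁ s' s₁' : F} {v v' : Fin (M + 1 + 1) → F} (hI : TInv x s s₁ v) (hI' : TInv x' s' s₁' v')
    (hcomm : ∀ u ∈ tGens x s v, ∀ u' ∈ tGens x' s' v', u * u' = u' * u) :
    ∃ (y : κ → F) (t t₁ : F) (w : Fin (M + 1) → F), TInv y t t₁ w := by
  classical
  have c2 := comm_BB hcomm
  have m_x : ∀ c, x c ∈ tGens x s v := fun c => Or.inl (Or.inl (Or.inl (Or.inl ⟨c, rfl⟩)))
  have m_sx : ∀ c, star (x c) ∈ tGens x s v := fun c => Or.inl (Or.inl (Or.inl (Or.inr ⟨c, rfl⟩)))
  have m_s : s ∈ tGens x s v := Or.inl (Or.inl (Or.inr rfl))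
  have m_v : ∀ l, v l ∈ tGens x s v := fun l => Or.inl (Or.inr ⟨l, rfl⟩)
  have m_sv : ∀ l, star (v l) ∈ tGens x s v := fun l => Or.inr ⟨l, rfl⟩
  have m_x' : ∀ c, x' c ∈ tGens x' s' v' := fun c => Or.inl (Or.inl (Or.inl (Or.inl ⟨c, rfl⟩)))
  have m_sx' : ∀ c, star (x' c) ∈ tGens x' s' v' := fun c =>
    Or.inl (Or.inl (Or.inl (Or.inr ⟨c, rfl⟩)))
  have m_s' : s' ∈ tGens x' s' v' := Or.inl (Or.inl (Or.inr rfl))
  have m_v' : ∀ l, v' l ∈ tGens x' s' v' := fun l => Or.inl (Or.inr ⟨l, rfl⟩)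
  have m_sv' : ∀ l, star (v' l) ∈ tGens x' s' v' := fun l => Or.inr ⟨l, rfl⟩
  -- the coordinate algebras
  let Uc : κ → Set F := fun c => {x c, star (x c), x' c, star (x' c)}
  have hUc : ∀ c, ∀ u ∈ Uc c, star u ∈ Uc c := by
    rintro c u (rfl | rfl | rfl | rfl)
    · exact Or.inr (Or.inl rfl)
    · simp [Uc]
    · exact Or.inr (Or.inr (Or.inr rfl))
    · simp [Uc]
  have hcross : ∀ c c', c ≠ c' → ∀ u ∈ Uc c, ∀ u' ∈ Uc c', u * u' = u' * u := by
    intro c c' hne
    have h1 := hI.x_comm c c' hne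
    have h2 := hI.x_scomm c c' hne
    have h3 := hI.x_scomm c' c hne.symm
    have h1' := hI'.x_comm c c' hne
    have h2' := hI'.x_scomm c c' hne
    have h3' := hI'.x_scomm c' c hne.symm
    have e1 : star (x c) * star (x c') = star (x c') * star (x c) := by
      rw [← star_mul, ← star_mul, h1]
    have e1' : star (x' c) * star (x' c') = star (x' c') * star (x' c) := by
      rw [← star_mul, ← star_mul, h1']
    rintro u (rfl | rfl | rfl | rfl) u' (rfl | rfl | rfl | rfl)
    · exact h1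
    · exact h2
    · exact hcomm _ (m_x c) _ (m_x' c')
    · exact hcomm _ (m_x c) _ (m_sx' c')
    · exact h3.symm
    · exact e1
    · exact hcomm _ (m_sx c) _ (m_x' c')
    · exact hcomm _ (m_sx c) _ (m_sx' c')
    · exact (hcomm _ (m_x c') _ (m_x' c)).symm
    · exact (hcomm _ (m_sx c') _ (m_x' c)).symm
    · exact h1'
    · exact h2'
    · exact (hcomm _ (m_x c') _ (m_sx' c)).symm
    · exact (hcomm _ (m_sx c') _ (m_sx' c)).symm
    · exact h3'.symm
    · exact e1'
  have c3 : ∀ c c', c ≠ c' → ∀ u ∈ BB (Uc c), ∀ u' ∈ BB (Uc c'), u * u' = u' * u :=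
    fun c c' hne => comm_BB (hcross c c' hne)
  have hstep := fun c => coord_step (hI.x_sq c) (hI'.x_sq c)
    (hcomm _ (m_x c) _ (m_x' c)).symm (hcomm _ (m_sx c) _ (m_x' c)).symm
    (hcomm _ (m_x c) _ (m_sx' c)).symm (hcomm _ (m_sx c) _ (m_sx' c)).symm
    (U := Uc c) (hUc c) (Or.inl rfl) (Or.inr (Or.inr (Or.inl rfl)))
  choose y H t hyB hHB htB hyy hH0 hH1 hHy hHsy hHT htr hfix hfix' using hstep
  have hsyB : ∀ c, star (y c) ∈ BB (Uc c) := fun c => star_mem_BB (hUc c) (hyB c)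
  have hxB : ∀ c, x c ∈ BB (Uc c) := fun c => subset_BB _ (Or.inl rfl)
  have hsxB : ∀ c, star (x c) ∈ BB (Uc c) := fun c => subset_BB _ (Or.inr (Or.inl rfl))
  have haB : ∀ c, x c * star (x c) ∈ BB (Uc c) := fun c => mul_mem (hxB c) (hsxB c)
  have hTB : ∀ c, tt (x c) ∈ BB (Uc c) := fun c =>
    add_mem (mul_mem (hxB c) (hsxB c)) (mul_mem (hsxB c) (hxB c))
  have hHstar : ∀ c, star (H c) = H c := fun c => (hH0 c).isSelfAdjoint
  -- the cells before transport
  have hs'B : s' ∈ BB (tGens x' s' v') := subset_BB _ m_s'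
  let W := wcell s' (x' c₀) v v'
  have hsumW : ∑ k, star (W k) * W k = s * s * (s' * s') :=
    wcell_sum (hI.proj c₀) (hI'.proj c₀) (A := BB (tGens x s v)) (A' := BB (tGens x' s' v')) c2
      (fun u hu => star_mem_BB (tGens_star _ hI'.s_star _) hu)
      (fun l => subset_BB _ (m_v l)) (fun l => subset_BB _ (m_sv l)) hs'B
      (subset_BB _ (m_x' c₀)) (fun l => subset_BB _ (m_v' l))
  have haW : ∀ c k, x c * star (x c) * W k = W k := by
    intro c k
    show x c * star (x c) * (v k.castSucc * s' + v (Fin.last _) * qcell (x' c₀) v' k) = _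
    rw [mul_add, ← mul_assoc, ← mul_assoc, hI.v_range, hI.v_range]
    rfl
  have hTW : ∀ c k, tt (x c) * W k = W k := by
    intro c k
    show tt (x c) * (v k.castSucc * s' + v (Fin.last _) * qcell (x' c₀) v' k) = _
    rw [mul_add, ← mul_assoc, ← mul_assoc, (hI.proj c).T_v, (hI.proj c).T_v]
    rfl
  -- the transport, one coordinate at a time
  have htrans : ∀ S : Finset κ, ∃ w : Fin (M + 1) → F,
      (∀ k, star (w k) * w k = star (W k) * W k) ∧
      (∀ c ∈ S, ∀ k, y c * star (y c) * w k = w k ∧ y c * w k = 0 ∧ H c * w k = w k) ∧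
      (∀ c, c ∉ S → ∀ k, x c * star (x c) * w k = w k ∧ tt (x c) * w k = w k) := by
    intro S
    induction S using Finset.induction_on with
    | empty =>
      exact ⟨W, fun _ => rfl, by simp, fun c _ k => ⟨haW c k, hTW c k⟩⟩
    | insert c S hc ih =>
      obtain ⟨w, h1, h2, h3⟩ := ih
      refine ⟨fun k => t c * w k, ?_, ?_, ?_⟩
      · intro k
        have := (htr c (w k) (h3 c hc k).1 (h3 c hc k).2).1
        rw [this, h1]
      · intro c' hc' k
        have hne := (h3 c hc k)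
        rw [Finset.mem_insert] at hc'
        by_cases hcc : c' = c
        · subst hcc
          have := htr c' (w k) (h3 c' hc k).1 (h3 c' hc k).2
          exact ⟨this.2.1, this.2.2.1, this.2.2.2⟩
        · have hc'S : c' ∈ S := hc'.resolve_left hcc
          obtain ⟨g1, g2, g3⟩ := h2 c' hc'S k
          have e1 : (y c' * star (y c')) * t c = t c * (y c' * star (y c')) :=
            c3 c' c hcc _ (mul_mem (hyB c') (hsyB c')) _ (htB c)
          have e2 : y c' * t c = t c * y c' := c3 c' c hcc _ (hyB c') _ (htB c)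
          have e3 : H c' * t c = t c * H c' := c3 c' c hcc _ (hHB c') _ (htB c)
          refine ⟨?_, ?_, ?_⟩
          · rw [← mul_assoc, e1, mul_assoc, g1]
          · rw [← mul_assoc, e2, mul_assoc, g2, mul_zero]
          · rw [← mul_assoc, e3, mul_assoc, g3]
      · intro c' hc' k
        rw [Finset.mem_insert, not_or] at hc'
        obtain ⟨g1, g2⟩ := h3 c' hc'.2 k
        have e1 : (x c' * star (x c')) * t c = t c * (x c' * star (x c')) :=
          c3 c' c hc'.1 _ (haB c') _ (htB c)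
        have e2 : tt (x c') * t c = t c * tt (x c') := c3 c' c hc'.1 _ (hTB c') _ (htB c)
        refine ⟨?_, ?_⟩
        · rw [← mul_assoc, e1, mul_assoc, g1]
        · rw [← mul_assoc, e2, mul_assoc, g2]
  obtain ⟨w, hw1, hw2, -⟩ := htrans Finset.univ
  have hwsum : ∑ k, star (w k) * w k = s * s * (s' * s') := by
    simp only [hw1]
    exact hsumW
  have hss : (s * s) * (s' * s') = (s' * s') * (s * s) := by
    have h1 : s * s ∈ BB (tGens x s v) := mul_mem (subset_BB _ m_s) (subset_BB _ m_s)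
    exact c2 _ h1 _ (mul_mem hs'B hs'B)
  have hR : ∀ c, H c * (1 - s * s * (s' * s')) = 1 - s * s * (s' * s') := by
    intro c
    have h1 : H c * (1 - s * s) = 1 - s * s := hfix c _ (hI.proj c).T_fix
    have h2 : H c * (1 - s' * s') = 1 - s' * s' := hfix' c _ (hI'.proj c).T_fix
    have h3 : 1 - s * s * (s' * s') = (1 - s * s) + (1 - s' * s') * (s * s) := by
      rw [hss]; noncomm_ring
    rw [h3, mul_add, h1, ← mul_assoc, h2]
  have hHcross : ∀ c c', c ≠ c' → ∀ u ∈ BB (Uc c), u * H c' = H c' * u := fun c c' hne u hu =>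
    c3 c c' hne u hu _ (hHB c')
  obtain ⟨s₂, s₃, v₂, h⟩ := assembleT y H hyy
    (fun c c' hne => c3 c c' hne _ (hyB c) _ (hyB c'))
    (fun c c' hne => c3 c c' hne _ (hyB c) _ (hsyB c'))
    hH0 hH1
    (fun c c' => by
      by_cases hcc : c = c'
      · subst hcc; rfl
      · exact c3 c c' hcc _ (hHB c) _ (hHB c'))
    (fun c c' => by
      by_cases hcc : c = c'
      · subst hcc; exact hHy c
      · exact (hHcross c c' hcc _ (hyB c)).symm)
    (fun c c' => by
      by_cases hcc : c = c'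
      · subst hcc; exact hHsy c
      · exact (hHcross c c' hcc _ (hsyB c)).symm)
    hHT w _ hwsum hR
    (fun c l => (hw2 c (Finset.mem_univ _) l).1)
    (fun c l => (hw2 c (Finset.mem_univ _) l).2.1)
    (fun c l => (hw2 c (Finset.mem_univ _) l).2.2)
  exact ⟨y, s₂, s₃, v₂, h⟩

end

end Vale.Agent.Lib.P101
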