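import Vale.Agent.Lib.P101.Cover2
import Vale.Agent.Lib.P101.Defs

/-! Reindexing in the ultrapower and the copying property of `F_ω(A)`. -/

namespace Vale.Agent.Lib.P101

open Filter Topology BoundedContinuousFunction

variable {A : Type*} [CStarAlgebra A] {ω : Ultrafilter ℕ}

section Reindex

lemma tendsto_one_div (hω : (ω : Filter ℕ) ≤ cofinite) :
    Tendsto (fun k : ℕ => 1 / ((k : ℝ) + 1)) (ω : Filter ℕ) (𝓝 0) := by
  have h := tendsto_one_div_add_atTop_nhds_zero_nat (𝕜 := ℝ)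
  rw [← Nat.cofinite_eq_atTop] at h
  exact h.mono_left hω

theorem exists_reindex [TopologicalSpace.SeparableSpace A] (hω : (ω : Filter ℕ) ≤ cofinite)
    (T X Y : Finset (ℕ →ᵇ A))
    (hT : ∀ t ∈ T, Tendsto (fun n => ‖t n‖) (ω : Filter ℕ) (𝓝 0))
    (hX : ∀ x ∈ X, ∀ a : A, Tendsto (fun n => ‖x n * a - a * x n‖) (ω : Filter ℕ) (𝓝 0)) :
    ∃ m : ℕ → ℕ,
      (∀ t ∈ T, Tendsto (fun k => ‖t (m k)‖) (ω : Filter ℕ) (𝓝 0)) ∧
      (∀ x ∈ X, ∀ a : A, Tendsto (fun k => ‖x (m k) * a - a * x (m k)‖) (ω : Filter ℕ) (𝓝 0)) ∧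
      (∀ x ∈ X, ∀ y ∈ Y,
        Tendsto (fun k => ‖x (m k) * y k - y k * x (m k)‖) (ω : Filter ℕ) (𝓝 0)) := by
  let b : ℕ → A := TopologicalSpace.denseSeq A
  have hev : ∀ k : ℕ, ∀ᶠ l in (ω : Filter ℕ),
      (∀ t ∈ T, ‖t l‖ < 1 / ((k : ℝ) + 1)) ∧
      (∀ x ∈ X, ∀ i ∈ Finset.range (k + 1), ‖x l * b i - b i * x l‖ < 1 / ((k : ℝ) + 1)) ∧
      (∀ x ∈ X, ∀ y ∈ Y, ‖x l * y k - y k * x l‖ < 1 / ((k : ℝ) + 1)) := by
    intro k
    have hk : (0 : ℝ) < 1 / ((k : ℝ) + 1) := by positivity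
    refine Eventually.and ?_ (Eventually.and ?_ ?_)
    · rw [Filter.eventually_all_finset]
      intro t ht
      exact (hT t ht).eventually (gt_mem_nhds hk)
    · rw [Filter.eventually_all_finset]
      intro x hx
      rw [Filter.eventually_all_finset]
      intro i _
      exact (hX x hx (b i)).eventually (gt_mem_nhds hk)
    · rw [Filter.eventually_all_finset]
      intro x hx
      rw [Filter.eventually_all_finset]
      intro y _
      exact (hX x hx (y k)).eventually (gt_mem_nhds hk)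
  choose m hm using fun k => (hev k).exists
  have h1k := tendsto_one_div (ω := ω) hω
  refine ⟨m, ?_, ?_, ?_⟩
  · intro t ht
    exact squeeze_zero (fun _ => norm_nonneg _) (fun k => ((hm k).1 t ht).le) h1k
  · intro x hx a
    rw [Metric.tendsto_nhds]
    intro ε hε
    set C := ‖x‖ with hC
    have hCpos : 0 < 4 * (C + 1) := by positivity
    obtain ⟨i, hi⟩ := (TopologicalSpace.denseRange_denseSeq A).exists_dist_lt a
      (div_pos hε hCpos)
    have hi' : ‖a - b i‖ < ε / (4 * (C + 1)) := by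
      rw [← dist_eq_norm]; exact hi
    have hev1 : ∀ᶠ k in (ω : Filter ℕ), i ≤ k := by
      have : ∀ᶠ k in (cofinite : Filter ℕ), i ≤ k := by
        rw [Nat.cofinite_eq_atTop]
        exact eventually_ge_atTop i
      exact hω this
    have hev2 : ∀ᶠ k : ℕ in (ω : Filter ℕ), 1 / ((k : ℝ) + 1) < ε / 2 :=
      h1k.eventually (gt_mem_nhds (half_pos hε))
    filter_upwards [hev1, hev2] with k hk1 hk2
    rw [Real.dist_eq, sub_zero, abs_of_nonneg (norm_nonneg _)]
    have h3 := (hm k).2.1 x hx i (Finset.mem_range.2 (Nat.lt_succ_of_le hk1))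
    have h4 : x (m k) * a - a * x (m k) = (x (m k) * b i - b i * x (m k))
        + x (m k) * (a - b i) - (a - b i) * x (m k) := by noncomm_ring
    have hxn : ‖x (m k)‖ ≤ C := x.norm_coe_le_norm _
    have h5 : ‖x (m k) * (a - b i)‖ ≤ C * ‖a - b i‖ :=
      (norm_mul_le _ _).trans (mul_le_mul_of_nonneg_right hxn (norm_nonneg _))
    have h6 : ‖(a - b i) * x (m k)‖ ≤ ‖a - b i‖ * C :=
      (norm_mul_le _ _).trans (mul_le_mul_of_nonneg_left hxn (norm_nonneg _))
    have h7 : ‖x (m k) * a - a * x (m k)‖ ≤ ‖x (m k) * b i - b i * x (m k)‖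
        + C * ‖a - b i‖ + ‖a - b i‖ * C := by
      rw [h4]
      refine (norm_sub_le _ _).trans ?_
      refine add_le_add ?_ h6
      refine (norm_add_le _ _).trans ?_
      exact add_le_add le_rfl h5
    have h8 : 2 * C * ‖a - b i‖ ≤ 2 * (C + 1) * (ε / (4 * (C + 1))) := by
      have hC0 : 0 ≤ C := norm_nonneg _
      have := hi'.le
      gcongr
      linarith
    have h9 : 2 * (C + 1) * (ε / (4 * (C + 1))) = ε / 2 := by
      have hC1 : (C + 1) ≠ 0 := by positivity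
      field_simp
      ring
    nlinarith
  · intro x hx y hy
    exact squeeze_zero (fun _ => norm_nonneg _) (fun k => ((hm k).2.2 x hx y hy).le) h1k

/-- Reindexing as a ring homomorphism. -/
noncomputable def rei (m : ℕ → ℕ) : (ℕ →ᵇ A) →+* (ℕ →ᵇ A) where
  toFun u := u.compContinuous ⟨m, continuous_of_discreteTopology⟩
  map_one' := by ext; simp
  map_mul' x y := by ext; simp
  map_zero' := by ext; simp
  map_add' x y := by ext; simp

@[simp] lemma rei_apply (m : ℕ → ℕ) (u : ℕ →ᵇ A) (k : ℕ) : rei m u k = u (m k) := rfl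

lemma rei_star (m : ℕ → ℕ) (u : ℕ →ᵇ A) : rei m (star u) = star (rei m u) := by
  ext k; simp

end Reindex

section Quot

variable (A ω) in
lemma qk_surjective : Function.Surjective (qk A ω) :=
  Ideal.Quotient.mk_surjective

lemma qk_eq_zero {u : ℕ →ᵇ A} :
    qk A ω u = 0 ↔ Tendsto (fun n => ‖u n‖) (ω : Filter ℕ) (𝓝 0) := by
  rw [← mem_nullIdeal, ← TwoSidedIdeal.mem_asIdeal]
  exact Ideal.Quotient.eq_zero_iff_mem

lemma star_qk (u : ℕ →ᵇ A) : star (qk A ω u) = qk A ω (star u) := rfl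

lemma qk_eq_iff {u v : ℕ →ᵇ A} :
    qk A ω u = qk A ω v ↔ Tendsto (fun n => ‖u n - v n‖) (ω : Filter ℕ) (𝓝 0) := by
  rw [← sub_eq_zero, ← map_sub, qk_eq_zero]
  rfl

lemma diag_eq (a : A) : diag A ω a = qk A ω (const ℕ a) := rfl

lemma star_diag (a : A) : star (diag A ω a) = diag A ω (star a) := by
  rw [diag_eq, star_qk, diag_eq]
  congr 1

lemma qk_comm_iff {u : ℕ →ᵇ A} {a : A} :
    qk A ω (const ℕ a * u) = qk A ω (u * const ℕ a) ↔
      Tendsto (fun n => ‖u n * a - a * u n‖) (ω : Filter ℕ) (𝓝 0) := by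
  rw [eq_comm, qk_eq_iff]
  have : ∀ n, (u * const ℕ a) n - (const ℕ a * u) n = u n * a - a * u n := fun n => rfl
  simp only [this]

/-- Centrality of a lift. -/
lemma central_of_mem {u : ℕ →ᵇ A} (h : qk A ω u ∈ FOmegaSub A ω) (a : A) :
    Tendsto (fun n => ‖u n * a - a * u n‖) (ω : Filter ℕ) (𝓝 0) := by
  rw [FOmegaSub, StarSubalgebra.mem_centralizer_iff] at h
  have h1 := (h (diag A ω a) ⟨a, rfl⟩).1
  rw [diag_eq, ← map_mul, ← map_mul] at h1
  exact qk_comm_iff.1 h1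

lemma mem_of_central {u : ℕ →ᵇ A}
    (h : ∀ a : A, Tendsto (fun n => ‖u n * a - a * u n‖) (ω : Filter ℕ) (𝓝 0)) :
    qk A ω u ∈ FOmegaSub A ω := by
  rw [FOmegaSub, StarSubalgebra.mem_centralizer_iff]
  rintro _ ⟨a, rfl⟩
  constructor
  · rw [diag_eq, ← map_mul, ← map_mul]
    exact qk_comm_iff.2 (h a)
  · rw [star_diag, diag_eq, ← map_mul, ← map_mul]
    exact qk_comm_iff.2 (h (star a))

lemma central_star {u : ℕ →ᵇ A}
    (h : ∀ a : A, Tendsto (fun n => ‖u n * a - a * u n‖) (ω : Filter ℕ) (𝓝 0)) (a : A) :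
    Tendsto (fun n => ‖(star u) n * a - a * (star u) n‖) (ω : Filter ℕ) (𝓝 0) := by
  have := h (star a)
  refine this.congr fun n => ?_
  have h1 : (star u) n * a - a * (star u) n = star (star a * u n - u n * star a) := by
    simp [star_sub, star_mul, BoundedContinuousFunction.star_apply]
  rw [h1, norm_star, norm_sub_rev]

end Quot

end Vale.Agent.Lib.P101
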