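import Vale.Agent.Lib.P101.ZO

/-! A homomorphism from a limit of subalgebras into an ultrapower. -/

universe u

namespace Vale.Agent.Lib.P101

open Filter Topology BoundedContinuousFunction

noncomputable section

section Approx

variable {Z F : Type*} [CStarAlgebra Z] [CStarAlgebra F] {ω : Ultrafilter ℕ}
variable {C : ℕ → Type*} [∀ k, Ring (C k)] [∀ k, StarRing (C k)] [∀ k, Algebra ℂ (C k)]

/-- Asymptotic homomorphisms give homomorphisms into the ultrapower. -/
theorem hom_of_approx (hω : (ω : Filter ℕ) ≤ cofinite) (ι : ∀ k, C k →⋆ₐ[ℂ] Z)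
    (ρ : ∀ k, C k →⋆ₐ[ℂ] F) (hb : ∀ k t, ‖ρ k t‖ ≤ ‖ι k t‖)
    (hd : ∀ (z : Z) (ε : ℝ), 0 < ε → ∃ k0, ∀ k, k0 ≤ k → ∃ t : C k, ‖ι k t - z‖ < ε) :
    Nonempty (Z →⋆ₐ[ℂ] AOmega F ω) := by
  classical
  have hω' : (ω : Filter ℕ) ≤ atTop := by
    rw [← Nat.cofinite_eq_atTop]
    exact hω
  let Good : Z → (ℕ →ᵇ F) → Prop := fun z u =>
    ∃ t : ∀ m, C m, (∀ m, u m = ρ m (t m)) ∧ Tendsto (fun m => ι m (t m)) atTop (𝓝 z)
  have hex : ∀ z, ∃ u, Good z u := by
    intro z
    have hchoice : ∀ m, ∃ t : C m, ‖ι m t - z‖ <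
        Metric.infDist z (Set.range (ι m)) + 1 / ((m : ℝ) + 1) := by
      intro m
      have hpos : (0 : ℝ) < 1 / ((m : ℝ) + 1) := by positivity
      have h1 : Metric.infDist z (Set.range (ι m)) <
          Metric.infDist z (Set.range (ι m)) + 1 / ((m : ℝ) + 1) := by linarith
      obtain ⟨y, ⟨t, rfl⟩, hy⟩ := (Metric.infDist_lt_iff (show (Set.range (ι m)).Nonempty from ⟨ι m 0, 0, rfl⟩)).1 h1
      exact ⟨t, by rw [dist_comm, dist_eq_norm] at hy; exact hy⟩
    choose t ht using hchoice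
    have hlim : Tendsto (fun m => ι m (t m)) atTop (𝓝 z) := by
      rw [tendsto_iff_norm_sub_tendsto_zero, Metric.tendsto_atTop]
      intro ε hε
      obtain ⟨k0, hk0⟩ := hd z (ε / 2) (half_pos hε)
      obtain ⟨N, hN⟩ := exists_nat_one_div_lt (half_pos hε)
      refine ⟨max k0 N, fun m hm => ?_⟩
      obtain ⟨t', ht'⟩ := hk0 m (le_trans (le_max_left _ _) hm)
      have h1 : Metric.infDist z (Set.range (ι m)) ≤ dist z (ι m t') :=
        Metric.infDist_le_dist_of_mem ⟨t', rfl⟩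
      rw [dist_comm, dist_eq_norm] at h1
      have h2 : 1 / ((m : ℝ) + 1) ≤ 1 / ((N : ℝ) + 1) := by
        apply one_div_le_one_div_of_le (by positivity)
        have : (N : ℝ) ≤ m := by exact_mod_cast le_trans (le_max_right _ _) hm
        linarith
      have h3 := ht m
      rw [Real.dist_eq, sub_zero, abs_of_nonneg (norm_nonneg _)]
      linarith
    obtain ⟨B, hB⟩ := (hlim.norm).bddAbove_range
    have hB' : ∀ m, ‖ρ m (t m)‖ ≤ B := fun m =>
      (hb m _).trans (hB ⟨m, rfl⟩)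
    exact ⟨ofNormedAddCommGroupDiscrete (fun m => ρ m (t m)) B hB', t, fun _ => rfl, hlim⟩
  have huniq : ∀ z u u', Good z u → Good z u' → qk F ω u = qk F ω u' := by
    rintro z u u' ⟨t, ht1, ht2⟩ ⟨t', ht1', ht2'⟩
    rw [qk_eq_iff]
    have h1 : Tendsto (fun m => ‖ι m (t m) - ι m (t' m)‖) atTop (𝓝 0) := by
      have := (ht2.sub ht2').norm
      simpa using this
    refine squeeze_zero (fun _ => norm_nonneg _) (fun m => ?_) (h1.mono_left hω')
    rw [ht1, ht1', ← map_sub, ← map_sub]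
    exact hb m _
  choose L hL using hex
  have hadd : ∀ z z', Good (z + z') (L z + L z') := by
    intro z z'
    obtain ⟨t, ht1, ht2⟩ := hL z
    obtain ⟨t', ht1', ht2'⟩ := hL z'
    refine ⟨fun m => t m + t' m, fun m => ?_, ?_⟩
    · rw [map_add, ← ht1, ← ht1']
      rfl
    · simpa only [map_add] using ht2.add ht2'
  have hmul : ∀ z z', Good (z * z') (L z * L z') := by
    intro z z'
    obtain ⟨t, ht1, ht2⟩ := hL z
    obtain ⟨t', ht1', ht2'⟩ := hL z'
    refine ⟨fun m => t m * t' m, fun m => ?_, ?_⟩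
    · rw [map_mul, ← ht1, ← ht1']
      rfl
    · simpa only [map_mul] using ht2.mul ht2'
  have hstar : ∀ z, Good (star z) (star (L z)) := by
    intro z
    obtain ⟨t, ht1, ht2⟩ := hL z
    refine ⟨fun m => star (t m), fun m => ?_, ?_⟩
    · rw [map_star, ← ht1]
      rfl
    · simpa only [map_star] using ht2.star
  have halg : ∀ r : ℂ, Good (algebraMap ℂ Z r) (algebraMap ℂ _ r) := by
    intro r
    refine ⟨fun m => algebraMap ℂ _ r, fun m => ?_, ?_⟩
    · rw [AlgHomClass.commutes]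
      rfl
    · simp only [AlgHomClass.commutes]
      exact tendsto_const_nhds
  let ψ : Z → AOmega F ω := fun z => qk F ω (L z)
  have ψ_add : ∀ z z', ψ (z + z') = ψ z + ψ z' := fun z z' => by
    show qk F ω _ = qk F ω _ + qk F ω _
    rw [← map_add]
    exact huniq _ _ _ (hL _) (hadd z z')
  have ψ_mul : ∀ z z', ψ (z * z') = ψ z * ψ z' := fun z z' => by
    show qk F ω _ = qk F ω _ * qk F ω _
    rw [← map_mul]
    exact huniq _ _ _ (hL _) (hmul z z')
  have ψ_star : ∀ z, ψ (star z) = star (ψ z) := fun z => by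
    show qk F ω _ = star (qk F ω _)
    rw [star_qk]
    exact huniq _ _ _ (hL _) (hstar z)
  have ψ_alg : ∀ r, ψ (algebraMap ℂ Z r) = algebraMap ℂ _ r := fun r => by
    have h1 : qk F ω (algebraMap ℂ (ℕ →ᵇ F) r) = algebraMap ℂ (AOmega F ω) r :=
      AlgHomClass.commutes (qkH (A := F) (ω := ω)) r
    rw [← h1]
    exact huniq _ _ _ (hL _) (halg r)
  refine ⟨{ toFun := ψ
            map_one' := ?_
            map_mul' := ψ_mul
            map_zero' := ?_
            map_add' := ψ_add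
            commutes' := ψ_alg
            map_star' := ψ_star }⟩
  · have := ψ_alg 1
    rwa [map_one, map_one] at this
  · have := ψ_alg 0
    rwa [map_zero, map_zero] at this

end Approx

section DPnorm

open scoped Matrix.Norms.L2Operator Kronecker

variable {p q : ℕ}

lemma DP_closed : IsClosed (DP p q : Set C(unitInterval, Matrix (Fin p × Fin q) (Fin p × Fin q) ℂ)) := by
  let L₀ : Matrix (Fin p) (Fin p) ℂ →ₗ[ℂ] Matrix (Fin p × Fin q) (Fin p × Fin q) ℂ :=
    { toFun := fun a => a ⊗ₖ (1 : Matrix (Fin q) (Fin q) ℂ)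
      map_add' := fun a b => Matrix.add_kronecker a b _
      map_smul' := fun r a => Matrix.smul_kronecker r a _ }
  let L₁ : Matrix (Fin q) (Fin q) ℂ →ₗ[ℂ] Matrix (Fin p × Fin q) (Fin p × Fin q) ℂ :=
    { toFun := fun b => (1 : Matrix (Fin p) (Fin p) ℂ) ⊗ₖ b
      map_add' := fun a b => Matrix.kronecker_add _ a b
      map_smul' := fun r a => Matrix.kronecker_smul r _ a }
  have h0 : IsClosed (LinearMap.range L₀ : Set (Matrix (Fin p × Fin q) (Fin p × Fin q) ℂ)) :=
    Submodule.closed_of_finiteDimensional _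
  have h1 : IsClosed (LinearMap.range L₁ : Set (Matrix (Fin p × Fin q) (Fin p × Fin q) ℂ)) :=
    Submodule.closed_of_finiteDimensional _
  have e : (DP p q : Set C(unitInterval, Matrix (Fin p × Fin q) (Fin p × Fin q) ℂ)) =
      (fun f => f 0) ⁻¹' (LinearMap.range L₀ : Set _) ∩
        (fun f => f 1) ⁻¹' (LinearMap.range L₁ : Set _) := by
    ext f
    constructor
    · rintro ⟨⟨a, ha⟩, ⟨b, hb⟩⟩
      exact ⟨⟨a, ha.symm⟩, ⟨b, hb.symm⟩⟩
    · rintro ⟨⟨a, ha⟩, ⟨b, hb⟩⟩
      exact ⟨⟨a, ha.symm⟩, ⟨b, hb.symm⟩⟩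
  rw [e]
  exact (h0.preimage (continuous_eval_const (0 : unitInterval))).inter
    (h1.preimage (continuous_eval_const (1 : unitInterval)))

/-- The norm estimate for homomorphisms from dimension drop algebras. -/
theorem dp_norm_le {Z F : Type*} [CStarAlgebra Z] [CStarAlgebra F] (ι : DP p q →⋆ₐ[ℂ] Z)
    (hι : Function.Injective ι) (ρ : DP p q →⋆ₐ[ℂ] F) (t : DP p q) : ‖ρ t‖ ≤ ‖ι t‖ := by
  have hcl := DP_closed (p := p) (q := q)
  have : IsClosed (DP p q : Set C(unitInterval, Matrix (Fin p × Fin q) (Fin p × Fin q) ℂ)) := hcl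
  have h1 : ‖ι t‖ = ‖t‖ := NonUnitalStarAlgHom.norm_map ι hι t
  have h2 : ‖ρ t‖ ≤ ‖t‖ := NonUnitalStarAlgHom.norm_apply_le ρ t
  rw [h1]
  exact h2

end DPnorm

end

end Vale.Agent.Lib.P101
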