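import Vale.Agent.Lib.P101.ZMain

/-! The local approximation property from the half-flip. -/

universe u

namespace Vale.Agent.Lib.P101

open Filter Topology BoundedContinuousFunction

noncomputable section

section Data

variable {A Z X : Type u} [CStarAlgebra A] [CStarAlgebra Z] [CStarAlgebra X] {ω : Ultrafilter ℕ}

lemma norm_one_le' : ‖(1 : X)‖ ≤ 1 := by
  nontriviality X
  rw [CStarRing.norm_one]

lemma dsH_ev {U : DS X} {ε : ℝ} (h : ‖dsH (ω := ω) U‖ < ε) :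
    ∀ᶠ p in (ω : Filter ℕ).curry (ω : Filter ℕ), ‖U p.1 p.2‖ < ε :=
  Filter.eventually_curry_iff.2 (dsH_norm_lt h)

lemma exists_of_curry {P : ℕ × ℕ → Prop} (h : ∀ᶠ p in (ω : Filter ℕ).curry (ω : Filter ℕ), P p) :
    ∃ p, P p := by
  obtain ⟨m, hm⟩ := (Filter.eventually_curry_iff.1 h).exists
  obtain ⟨n, hn⟩ := hm.exists
  exact ⟨(m, n), hn⟩

/-- The half-flip, at the level of representing double sequences. -/
theorem flip_extract (hZ : IsJiangSu Z) (ιX : A →⋆ₐ[ℂ] X) (ψX : Z →⋆ₐ[ℂ] X)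
    (hc : ∀ a z, ιX a * ψX z = ψX z * ιX a) (ψ : Z →⋆ₐ[ℂ] OO A ω)
    (hψ : ∀ a z, ddH a * ψ z = ψ z * ddH a) (Ũ : Z → DS A) (hŨ : ∀ z, dsH (ω := ω) (Ũ z) = ψ z)
    (G : Finset Z) {δ : ℝ} (hδ0 : 0 < δ) :
    ∃ U : DS X, star (dsH (ω := ω) U) * dsH U = 1 ∧ dsH (ω := ω) U * star (dsH U) = 1 ∧
      (∀ a, dsH (ω := ω) U * ddH (ιX a) = ddH (ιX a) * dsH U) ∧
      ∀ z ∈ G, ‖dsH (ω := ω) U * dsH (compD ιX (Ũ z)) * star (dsH U) - ddH (ψX z)‖ < δ := by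
  let J : OO A ω →⋆ₐ[ℂ] OO X ω := mapOO ιX
  let c : Z →⋆ₐ[ℂ] OO X ω := J.comp ψ
  let d : Z →⋆ₐ[ℂ] OO X ω := ddH.comp ψX
  let T : Set (OO X ω) := Set.range fun a => ddH (ιX a)
  have hcz : ∀ z, c z = dsH (compD ιX (Ũ z)) := fun z => by
    show mapOO ιX (ψ z) = _
    rw [← hŨ z, mapOO_dsH]
  have hdz : ∀ z, d z = dsH (constH (constH (ψX z))) := fun z => rfl
  obtain ⟨w, hw1, hw2, hw3, hw4⟩ := flip_rel hZ T
    (by
      rintro _ ⟨a, rfl⟩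
      exact ⟨star a, by simp only [map_star]⟩) c d
    (by
      intro z z'
      rw [hcz, hdz]
      refine dsH_mul_eq fun m n => ?_
      exact hc _ _)
    (by
      rintro _ ⟨a, rfl⟩ z
      show ddH (ιX a) * J (ψ z) = J (ψ z) * ddH (ιX a)
      have h1 : ddH (ω := ω) (ιX a) = J (ddH a) := (mapOO_ddH ιX a).symm
      rw [h1, ← map_mul, ← map_mul, hψ])
    (by
      rintro _ ⟨a, rfl⟩ z
      show ddH (ιX a) * ddH (ψX z) = ddH (ψX z) * ddH (ιX a)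
      rw [← map_mul, ← map_mul, hc])
    G hδ0
  obtain ⟨U, rfl⟩ := dsH_surjective w
  refine ⟨U, hw1, hw2, fun a => (hw3 _ ⟨a, rfl⟩).symm, fun z hz => ?_⟩
  have := hw4 z hz
  rw [hcz] at this
  exact this

/-- Passing to one index of a double sequence. -/
theorem flip_index (ιX : A →⋆ₐ[ℂ] X) (ψX : Z →⋆ₐ[ℂ] X) (Ũ : Z → DS A) (F : Finset A) (G : Finset Z)
    {δ : ℝ} (hδ0 : 0 < δ) (U : DS X) (h1 : star (dsH (ω := ω) U) * dsH U = 1)
    (h2 : dsH (ω := ω) U * star (dsH U) = 1)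
    (h3 : ∀ a, dsH (ω := ω) U * ddH (ιX a) = ddH (ιX a) * dsH U)
    (h4 : ∀ z ∈ G, ‖dsH (ω := ω) U * dsH (compD ιX (Ũ z)) * star (dsH U) - ddH (ψX z)‖ < δ) :
    ∃ m n, ‖1 - star (U m n) * U m n‖ < δ ∧ ‖1 - U m n * star (U m n)‖ < δ ∧
      (∀ a ∈ F, ‖U m n * ιX a - ιX a * U m n‖ < δ) ∧
      ∀ z ∈ G, ‖U m n * ιX (Ũ z m n) * star (U m n) - ψX z‖ < δ := by
  have e1 : ∀ᶠ p in (ω : Filter ℕ).curry (ω : Filter ℕ), ‖(1 - star U * U) p.1 p.2‖ < δ := by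
    refine dsH_ev ?_
    have e : dsH (ω := ω) (1 - star U * U) = 1 - star (dsH (ω := ω) U) * dsH U := by
      simp only [map_sub, map_one, map_mul, map_star]
    rw [e, h1, sub_self, norm_zero]
    exact hδ0
  have e2 : ∀ᶠ p in (ω : Filter ℕ).curry (ω : Filter ℕ), ‖(1 - U * star U) p.1 p.2‖ < δ := by
    refine dsH_ev ?_
    have e : dsH (ω := ω) (1 - U * star U) = 1 - dsH (ω := ω) U * star (dsH U) := by
      simp only [map_sub, map_one, map_mul, map_star]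
    rw [e, h2, sub_self, norm_zero]
    exact hδ0
  have e3 : ∀ᶠ p in (ω : Filter ℕ).curry (ω : Filter ℕ), ∀ a ∈ F,
      ‖(U * constH (constH (ιX a)) - constH (constH (ιX a)) * U) p.1 p.2‖ < δ := by
    rw [Filter.eventually_all_finset]
    intro a _
    refine dsH_ev ?_
    have e : dsH (ω := ω) (U * constH (constH (ιX a)) - constH (constH (ιX a)) * U)
        = dsH (ω := ω) U * ddH (ιX a) - ddH (ιX a) * dsH U := by
      simp only [map_sub, map_mul]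
      rfl
    rw [e, h3, sub_self, norm_zero]
    exact hδ0
  have e4 : ∀ᶠ p in (ω : Filter ℕ).curry (ω : Filter ℕ), ∀ z ∈ G,
      ‖(U * compD ιX (Ũ z) * star U - constH (constH (ψX z))) p.1 p.2‖ < δ := by
    rw [Filter.eventually_all_finset]
    intro z hz
    refine dsH_ev ?_
    have e : dsH (ω := ω) (U * compD ιX (Ũ z) * star U - constH (constH (ψX z)))
        = dsH (ω := ω) U * dsH (compD ιX (Ũ z)) * star (dsH U) - ddH (ψX z) := by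
      simp only [map_sub, map_mul, map_star]
      rfl
    rw [e]
    exact h4 z hz
  obtain ⟨⟨m, n⟩, g1, g2, g3, g4⟩ := exists_of_curry (ω := ω) (e1.and (e2.and (e3.and e4)))
  exact ⟨m, n, g1, g2, g3, g4⟩

/-- From a near-unitary to a unitary, keeping the estimates. -/
theorem flip_fix (ιX : A →⋆ₐ[ℂ] X) (ψX : Z →⋆ₐ[ℂ] X) (F : Finset A) (G : Finset Z) (CF CG : ℝ)
    (hCF0 : 0 ≤ CF) (hCG0 : 0 ≤ CG) (haF : ∀ a ∈ F, ‖a‖ ≤ CF) (b : Z → A)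
    (hzG : ∀ z ∈ G, ‖b z‖ ≤ CG) {δ ε : ℝ} (hδ0 : 0 < δ) (hδ1 : δ ≤ 1 / 2)
    (hδ2 : δ * (1 + 8 * CF) < ε) (hδ3 : δ * (1 + 12 * CG) < ε) (u₀ : X)
    (h1 : ‖1 - star u₀ * u₀‖ < δ) (h2 : ‖1 - u₀ * star u₀‖ < δ)
    (h3 : ∀ a ∈ F, ‖u₀ * ιX a - ιX a * u₀‖ < δ)
    (h4 : ∀ z ∈ G, ‖u₀ * ιX (b z) * star u₀ - ψX z‖ < δ) :
    ∃ v : X, star v * v = 1 ∧ v * star v = 1 ∧ (∀ a ∈ F, ‖v * ιX a - ιX a * v‖ < ε) ∧
      ∀ z ∈ G, ∃ b : A, ‖v * ιX b * star v - ψX z‖ < ε := by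
  obtain ⟨v, hv1, hv2, hv3⟩ := near_unitary hδ1 h1.le (h2.trans (by linarith))
  -- the bound on `u₀`
  have hu₀n : ‖u₀‖ ≤ 2 := by
    have h5 : ‖u₀‖ * ‖u₀‖ = ‖star u₀ * u₀‖ := CStarRing.norm_star_mul_self.symm
    have h6 : ‖star u₀ * u₀‖ ≤ ‖(1 : X)‖ + ‖1 - star u₀ * u₀‖ := by
      have := norm_sub_le (1 : X) (1 - star u₀ * u₀)
      simpa using this
    have h7 := norm_one_le' (X := X)
    have h8 := norm_nonneg u₀
    nlinarith
  have hvu : ‖v - u₀‖ ≤ 4 * δ := by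
    refine hv3.trans ?_
    nlinarith [norm_nonneg u₀]
  have hvn : ‖v‖ ≤ 1 := norm_le_one_of_isometry hv1
  have hιn : ∀ a, ‖ιX a‖ ≤ ‖a‖ := fun a => NonUnitalStarAlgHom.norm_apply_le ιX a
  refine ⟨v, hv1, hv2, ?_, ?_⟩
  · intro a ha
    have e : v * ιX a - ιX a * v = (v - u₀) * ιX a - ιX a * (v - u₀) + (u₀ * ιX a - ιX a * u₀) := by
      noncomm_ring
    have h5 := h3 a ha
    have h6 : ‖(v - u₀) * ιX a‖ ≤ 4 * δ * CF :=
      (norm_mul_le _ _).trans (mul_le_mul hvu ((hιn a).trans (haF a ha)) (norm_nonneg _)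
        (by positivity))
    have h7 : ‖ιX a * (v - u₀)‖ ≤ CF * (4 * δ) :=
      (norm_mul_le _ _).trans (mul_le_mul ((hιn a).trans (haF a ha)) hvu (norm_nonneg _) hCF0)
    rw [e]
    calc ‖(v - u₀) * ιX a - ιX a * (v - u₀) + (u₀ * ιX a - ιX a * u₀)‖
        ≤ ‖(v - u₀) * ιX a‖ + ‖ιX a * (v - u₀)‖ + ‖u₀ * ιX a - ιX a * u₀‖ :=
          (norm_add_le _ _).trans (add_le_add (norm_sub_le _ _) le_rfl)
      _ < ε := by nlinarith
  · intro z hz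
    refine ⟨b z, ?_⟩
    have hbn : ‖ιX (b z)‖ ≤ CG := (hιn _).trans (hzG z hz)
    have e : v * ιX (b z) * star v - ψX z = (v - u₀) * ιX (b z) * star v
        + u₀ * ιX (b z) * star (v - u₀) + (u₀ * ιX (b z) * star u₀ - ψX z) := by
      rw [star_sub]
      noncomm_ring
    have h5 := h4 z hz
    have h6 : ‖(v - u₀) * ιX (b z) * star v‖ ≤ 4 * δ * CG * 1 := by
      refine norm_mul₃_le.trans ?_
      have h7 : ‖star v‖ ≤ 1 := by rwa [norm_star]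
      gcongr
    have h7 : ‖u₀ * ιX (b z) * star (v - u₀)‖ ≤ 2 * CG * (4 * δ) := by
      refine norm_mul₃_le.trans ?_
      rw [norm_star]
      gcongr
    rw [e]
    calc ‖(v - u₀) * ιX (b z) * star v + u₀ * ιX (b z) * star (v - u₀)
          + (u₀ * ιX (b z) * star u₀ - ψX z)‖
        ≤ ‖(v - u₀) * ιX (b z) * star v‖ + ‖u₀ * ιX (b z) * star (v - u₀)‖
          + ‖u₀ * ιX (b z) * star u₀ - ψX z‖ :=
          (norm_add_le _ _).trans (add_le_add (norm_add_le _ _) le_rfl)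
      _ < ε := by nlinarith

/-- The first consequence of the half-flip: unitaries almost commuting with `A` and moving the
central copy of `Z` into `A`. -/
theorem local_flip (hZ : IsJiangSu Z) (ιX : A →⋆ₐ[ℂ] X) (ψX : Z →⋆ₐ[ℂ] X)
    (hc : ∀ a z, ιX a * ψX z = ψX z * ιX a) (ψ : Z →⋆ₐ[ℂ] OO A ω)
    (hψ : ∀ a z, ddH a * ψ z = ψ z * ddH a) (F : Finset A) (G : Finset Z) {ε : ℝ} (hε : 0 < ε) :
    ∃ v : X, star v * v = 1 ∧ v * star v = 1 ∧ (∀ a ∈ F, ‖v * ιX a - ιX a * v‖ < ε) ∧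
      ∀ z ∈ G, ∃ b : A, ‖v * ιX b * star v - ψX z‖ < ε := by
  classical
  have hl : ∀ z, ∃ U : DS A, dsH (ω := ω) U = ψ z := fun z => dsH_surjective _
  choose Ũ hŨ using hl
  set CF : ℝ := ∑ a ∈ F, ‖a‖ with hCF
  set CG : ℝ := ∑ z ∈ G, ‖Ũ z‖ with hCG
  have hCF0 : 0 ≤ CF := Finset.sum_nonneg fun _ _ => norm_nonneg _
  have hCG0 : 0 ≤ CG := Finset.sum_nonneg fun _ _ => norm_nonneg _
  have haF : ∀ a ∈ F, ‖a‖ ≤ CF := fun a ha =>
    Finset.single_le_sum (f := fun a => ‖a‖) (fun _ _ => norm_nonneg _) ha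
  have hzG : ∀ z ∈ G, ∀ m n, ‖Ũ z m n‖ ≤ CG := fun z hz m n =>
    ((Ũ z m).norm_coe_le_norm n).trans (((Ũ z).norm_coe_le_norm m).trans
      (Finset.single_le_sum (f := fun z => ‖Ũ z‖) (fun _ _ => norm_nonneg _) hz))
  -- the small constant
  obtain ⟨δ, hδ0, hδ1, hδ2, hδ3⟩ : ∃ δ : ℝ, 0 < δ ∧ δ ≤ 1 / 2 ∧ δ * (1 + 8 * CF) < ε ∧
      δ * (1 + 12 * CG) < ε := by
    refine ⟨min (1 / 2) (ε / (2 * (1 + 8 * CF + 12 * CG))), ?_, min_le_left _ _, ?_, ?_⟩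
    · have : 0 < ε / (2 * (1 + 8 * CF + 12 * CG)) := by positivity
      exact lt_min (by norm_num) this
    · have h1 : min (1 / 2) (ε / (2 * (1 + 8 * CF + 12 * CG))) ≤ ε / (2 * (1 + 8 * CF + 12 * CG)) :=
        min_le_right _ _
      have h2 : ε / (2 * (1 + 8 * CF + 12 * CG)) * (1 + 8 * CF) < ε := by
        rw [div_mul_eq_mul_div, div_lt_iff₀ (by positivity)]
        nlinarith
      exact lt_of_le_of_lt (by gcongr) h2
    · have h1 : min (1 / 2) (ε / (2 * (1 + 8 * CF + 12 * CG))) ≤ ε / (2 * (1 + 8 * CF + 12 * CG)) :=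
        min_le_right _ _
      have h2 : ε / (2 * (1 + 8 * CF + 12 * CG)) * (1 + 12 * CG) < ε := by
        rw [div_mul_eq_mul_div, div_lt_iff₀ (by positivity)]
        nlinarith
      exact lt_of_le_of_lt (by gcongr) h2
  obtain ⟨U, h1, h2, h3, h4⟩ := flip_extract hZ ιX ψX hc ψ hψ Ũ hŨ G hδ0
  obtain ⟨m, n, g1, g2, g3, g4⟩ := flip_index (ω := ω) ιX ψX Ũ F G hδ0 U h1 h2 h3 h4
  exact flip_fix ιX ψX F G CF CG hCF0 hCG0 haF (fun z => Ũ z m n) (fun z hz => hzG z hz m n)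
    hδ0 hδ1 hδ2 hδ3 (U m n) g1 g2 g3 g4

end Data

end

end Vale.Agent.Lib.P101
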