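import Vale.Agent.Lib.P101.ZApprox
import Vale.Agent.Lib.P101.Step

/-! Near-unitaries, and the one-sided intertwining argument. -/

universe u

namespace Vale.Agent.Lib.P101

open Filter Topology

open scoped ComplexOrder

attribute [local instance] CStarAlgebra.spectralOrder CStarAlgebra.spectralOrderedRing

noncomputable section

section Near

variable {X : Type*} [CStarAlgebra X]

lemma norm_le_one_of_isometry {v : X} (h : star v * v = 1) : ‖v‖ ≤ 1 := by
  nontriviality X
  have h1 : ‖v‖ * ‖v‖ = ‖star v * v‖ := CStarRing.norm_star_mul_self.symm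
  rw [h, CStarRing.norm_one] at h1
  have h3 := norm_nonneg v
  nlinarith

/-- A near-unitary is close to a unitary. -/
theorem near_unitary {u₀ : X} {δ : ℝ} (hδ : δ ≤ 1 / 2) (h1 : ‖1 - star u₀ * u₀‖ ≤ δ)
    (h2 : ‖1 - u₀ * star u₀‖ < 1) :
    ∃ v : X, star v * v = 1 ∧ v * star v = 1 ∧ ‖v - u₀‖ ≤ 2 * ‖u₀‖ * δ := by
  nontriviality X
  set h := star u₀ * u₀ with hh
  set k := 1 - h with hk
  have hsa : IsSelfAdjoint h := .star_mul_self u₀
  have hksa : IsSelfAdjoint k := (IsSelfAdjoint.one X).sub hsa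
  have hk1 : k ≤ algebraMap ℝ X ‖k‖ := IsSelfAdjoint.le_algebraMap_norm_self hksa
  have hk2 : k ≤ (1 / 2 : ℝ) • (1 : X) := by
    refine hk1.trans ?_
    rw [Algebra.algebraMap_eq_smul_one]
    exact smul_le_smul_of_nonneg_right (h1.trans hδ) zero_le_one
  -- `h ≥ 1/2`
  have hc0 : 0 ≤ h - (1 / 2 : ℝ) • (1 : X) := by
    have : h - (1 / 2 : ℝ) • (1 : X) = (1 / 2 : ℝ) • (1 : X) - k := by
      obtain ⟨a, ha⟩ : ∃ a : X, a = (1 / 2 : ℝ) • (1 : X) := ⟨_, rfl⟩
      have e : a + a = 1 := by
        rw [ha, ← add_smul]; norm_num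
      rw [← ha, hk, ← e]
      abel
    rw [this]
    exact sub_nonneg.2 hk2
  set m := (2 : ℝ) • h with hm
  have hm1 : m = 1 + (2 : ℝ) • (h - (1 / 2 : ℝ) • (1 : X)) := by
    rw [smul_sub, smul_smul, hm]
    norm_num
  have hnn := inv_sqrt (m := m) (smul_nonneg (by norm_num) hc0) hm1
  set n := cfc nuf m with hn
  have hns : star n = n := cf_star _ _
  have hn0 : 0 ≤ n := cfc_nonneg (fun s _ => Real.sqrt_nonneg _)
  have hnm : n * m = m * n := (Commute.cfc_real (Commute.refl m) nuf).eq
  have hnh : n * h = h * n := by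
    have h3 : n * ((2 : ℝ) • h) = ((2 : ℝ) • h) * n := hnm
    rw [mul_smul_comm, smul_mul_assoc] at h3
    exact smul_right_injective _ (by norm_num : (2 : ℝ) ≠ 0) h3
  set q := Real.sqrt 2 with hq
  have hq2 : q * q = 2 := Real.mul_self_sqrt (by norm_num)
  set r := q • n with hr
  have hrs : star r = r := by
    rw [hr, star_smul, hns]
    simp
  have hr0 : 0 ≤ r := smul_nonneg (Real.sqrt_nonneg _) hn0
  have hrh : r * h = h * r := by
    rw [hr, smul_mul_assoc, mul_smul_comm, hnh]
  have hrrh : r * r * h = 1 := by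
    have : r * r = (2 : ℝ) • (n * n) := by
      rw [hr, smul_mul_smul_comm, hq2]
    rw [this, smul_mul_assoc, ← mul_smul_comm, ← hnn]
  have hrr2 : ‖r * r‖ ≤ 2 := by
    have h3 : 0 ≤ r * r := sq_nonneg_of_sa hr0.isSelfAdjoint
    have h4 : r * r ≤ (2 : ℝ) • (1 : X) := by
      have h5 : 0 ≤ star r * (h - (1 / 2 : ℝ) • (1 : X)) * r := star_left_conjugate_nonneg hc0 r
      rw [hrs] at h5
      have h6 : r * (h - (1 / 2 : ℝ) • (1 : X)) * r = 1 - (1 / 2 : ℝ) • (r * r) := by
        rw [mul_sub, sub_mul, mul_assoc r h r, ← hrh, ← mul_assoc, hrrh]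
        simp
      rw [h6] at h5
      have h7 : (1 / 2 : ℝ) • (r * r) ≤ 1 := sub_nonneg.1 h5
      have h8 := smul_le_smul_of_nonneg_left h7 (by norm_num : (0 : ℝ) ≤ 2)
      rw [smul_smul] at h8
      norm_num at h8
      exact h8
    have h5 := CStarAlgebra.norm_le_norm_of_nonneg_of_le h3 h4
    rw [norm_smul, CStarRing.norm_one] at h5
    simpa using h5
  set t := r - 1 with ht
  have htsa : IsSelfAdjoint t := hr0.isSelfAdjoint.sub (IsSelfAdjoint.one X)
  have hQ : r * r - 1 = t * (r + 1) := by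
    rw [ht]; noncomm_ring
  have hQk : r * r - 1 = r * r * k := by
    rw [hk, mul_sub, mul_one, hrrh]
  have htle : ‖t‖ ≤ 2 * δ := by
    have hQsa : IsSelfAdjoint (r * r - 1) :=
      (sq_nonneg_of_sa hr0.isSelfAdjoint).isSelfAdjoint.sub (IsSelfAdjoint.one X)
    have h3 : t * t ≤ (r * r - 1) * (r * r - 1) := by
      apply sub_nonneg.1
      have h4 : (r * r - 1) * (r * r - 1) - t * t = star t * (r * r + r + r) * t := by
        rw [htsa.star_eq, hQ, ht]
        noncomm_ring
      rw [h4]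
      refine star_left_conjugate_nonneg ?_ t
      exact add_nonneg (add_nonneg (sq_nonneg_of_sa hr0.isSelfAdjoint) hr0) hr0
    have h4 : 0 ≤ t * t := sq_nonneg_of_sa htsa
    have h5 := CStarAlgebra.norm_le_norm_of_nonneg_of_le h4 h3
    rw [norm_mul_self_of_nonneg htsa, norm_mul_self_of_nonneg hQsa] at h5
    have h6 : ‖t‖ ≤ ‖r * r - 1‖ := by
      by_contra h7
      rw [not_le] at h7
      nlinarith [norm_nonneg (r * r - 1), norm_nonneg t]
    refine h6.trans ?_
    rw [hQk]
    calc ‖r * r * k‖ ≤ ‖r * r‖ * ‖k‖ := norm_mul_le _ _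
      _ ≤ 2 * δ := by
        have hδ0 : 0 ≤ δ := (norm_nonneg _).trans h1
        gcongr
  refine ⟨u₀ * r, ?_, ?_, ?_⟩
  · rw [star_mul, hrs]
    calc r * star u₀ * (u₀ * r) = r * h * r := by rw [hh]; noncomm_ring
      _ = r * (r * h) := by rw [mul_assoc, ← hrh]
      _ = r * r * h := by noncomm_ring
      _ = 1 := hrrh
  · rw [star_mul, hrs]
    have hU : IsUnit (u₀ * star u₀) := by
      have := isUnit_one_sub_of_norm_lt_one h2
      rwa [sub_sub_cancel] at this
    have e : (1 - u₀ * r * (r * star u₀)) * (u₀ * star u₀) = 0 := by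
      calc (1 - u₀ * r * (r * star u₀)) * (u₀ * star u₀)
          = u₀ * star u₀ - u₀ * (r * r * (star u₀ * u₀)) * star u₀ := by noncomm_ring
        _ = 0 := by rw [← hh, hrrh]; noncomm_ring
    have e2 := (hU.mul_left_eq_zero).1 e
    exact (sub_eq_zero.1 e2).symm
  · have : u₀ * r - u₀ = u₀ * t := by
      rw [ht]; noncomm_ring
    rw [this]
    calc ‖u₀ * t‖ ≤ ‖u₀‖ * ‖t‖ := norm_mul_le _ _
      _ ≤ ‖u₀‖ * (2 * δ) := by gcongr
      _ = _ := by ring

end Near

section Inter

variable {A X : Type*} [CStarAlgebra A] [CStarAlgebra X]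

/-- The one-sided intertwining argument. -/
theorem intertwine [TopologicalSpace.SeparableSpace A] [TopologicalSpace.SeparableSpace X]
    (ι : A →⋆ₐ[ℂ] X) (hι : Function.Injective ι)
    (H : ∀ (F : Finset A) (G : Finset X) (ε : ℝ), 0 < ε → ∃ u : X, star u * u = 1 ∧ u * star u = 1 ∧
      (∀ a ∈ F, ‖u * ι a * star u - ι a‖ < ε) ∧ ∀ x ∈ G, ∃ b, ‖u * ι b * star u - x‖ < ε) :
    ∃ α : A →⋆ₐ[ℂ] X, Function.Bijective α := by
  classical
  let a : ℕ → A := TopologicalSpace.denseSeq A
  let x : ℕ → X := TopologicalSpace.denseSeq X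
  let St := {p : X × Finset A // star p.1 * p.1 = 1 ∧ p.1 * star p.1 = 1}
  have hstep : ∀ (n : ℕ) (σ : St), ∃ σ' : St, (σ.1.2 ∪ {a n} ⊆ σ'.1.2) ∧
      (∀ b ∈ σ.1.2 ∪ {a n}, ‖σ'.1.1 * ι b * star σ'.1.1 - σ.1.1 * ι b * star σ.1.1‖ < (1 / 2) ^ n) ∧
      ∀ i ≤ n, ∃ b ∈ σ'.1.2, ‖σ'.1.1 * ι b * star σ'.1.1 - x i‖ < (1 / 2) ^ n := by
    rintro n ⟨⟨v, F⟩, hv1, hv2⟩
    simp only at hv1 hv2 ⊢
    have hvn : ‖v‖ ≤ 1 := norm_le_one_of_isometry hv1
    have hvn' : ‖star v‖ ≤ 1 := by rwa [norm_star]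
    obtain ⟨u, hu1, hu2, hu3, hu4⟩ := H (F ∪ {a n})
      ((Finset.range (n + 1)).image fun i => star v * x i * v) ((1 / 2) ^ n) (by positivity)
    have hb : ∀ i ∈ Finset.range (n + 1), ∃ b, ‖u * ι b * star u - star v * x i * v‖ < (1 / 2) ^ n :=
      fun i hi => hu4 _ (Finset.mem_image_of_mem _ hi)
    choose! b hb using hb
    refine ⟨⟨⟨v * u, F ∪ {a n} ∪ (Finset.range (n + 1)).image b⟩, ?_, ?_⟩, ?_, ?_, ?_⟩
    · show star (v * u) * (v * u) = 1
      rw [star_mul]
      calc star u * star v * (v * u) = star u * (star v * v) * u := by noncomm_ring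
        _ = 1 := by rw [hv1, mul_one, hu1]
    · show v * u * star (v * u) = 1
      rw [star_mul]
      calc v * u * (star u * star v) = v * (u * star u) * star v := by noncomm_ring
        _ = 1 := by rw [hu2, mul_one, hv2]
    · exact Finset.subset_union_left
    · intro c hc
      show ‖v * u * ι c * star (v * u) - v * ι c * star v‖ < _
      have e : v * u * ι c * star (v * u) - v * ι c * star v
          = v * (u * ι c * star u - ι c) * star v := by
        rw [star_mul]; noncomm_ring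
      rw [e]
      calc ‖v * (u * ι c * star u - ι c) * star v‖
          ≤ ‖v‖ * ‖u * ι c * star u - ι c‖ * ‖star v‖ := norm_mul₃_le
        _ ≤ 1 * ‖u * ι c * star u - ι c‖ * 1 := by gcongr
        _ < _ := by simpa using hu3 c hc
    · intro i hi
      have hi' : i ∈ Finset.range (n + 1) := Finset.mem_range.2 (by omega)
      refine ⟨b i, Finset.mem_union_right _ (Finset.mem_image_of_mem _ hi'), ?_⟩
      show ‖v * u * ι (b i) * star (v * u) - x i‖ < _
      have e : v * u * ι (b i) * star (v * u) - x i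
          = v * (u * ι (b i) * star u - star v * x i * v) * star v := by
        have e1 : x i = v * (star v * x i * v) * star v := by
          calc x i = (v * star v) * x i * (v * star v) := by rw [hv2]; simp
            _ = _ := by noncomm_ring
        rw [star_mul]
        nth_rw 1 [e1]
        noncomm_ring
      rw [e]
      calc ‖v * (u * ι (b i) * star u - star v * x i * v) * star v‖
          ≤ ‖v‖ * ‖u * ι (b i) * star u - star v * x i * v‖ * ‖star v‖ := norm_mul₃_le
        _ ≤ 1 * ‖u * ι (b i) * star u - star v * x i * v‖ * 1 := by gcongr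
        _ < _ := by simpa using hb i hi'
  choose step hs1 hs2 hs3 using hstep
  let s : ℕ → St := fun n => Nat.rec ⟨⟨1, ∅⟩, by simp, by simp⟩ (fun n σ => step n σ) n
  have hs_succ : ∀ n, s (n + 1) = step n (s n) := fun n => rfl
  let v : ℕ → X := fun n => (s n).1.1
  let F : ℕ → Finset A := fun n => (s n).1.2
  have hv1 : ∀ n, star (v n) * v n = 1 := fun n => (s n).2.1
  have hv2 : ∀ n, v n * star (v n) = 1 := fun n => (s n).2.2
  let αn : ℕ → A → X := fun n c => v n * ι c * star (v n)
  have hF1 : ∀ n, F n ⊆ F (n + 1) := fun n c hc => by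
    have := hs1 n (s n) (Finset.mem_union_left _ hc)
    rw [← hs_succ] at this
    exact this
  have hFmono : ∀ k n, k ≤ n → F k ⊆ F n := by
    intro k n hkn
    induction hkn with
    | refl => exact subset_rfl
    | step _ ih => exact ih.trans (hF1 _)
  have ha : ∀ n, a n ∈ F (n + 1) := fun n => by
    have := hs1 n (s n) (Finset.mem_union_right _ (Finset.mem_singleton_self _))
    rw [← hs_succ] at this
    exact this
  have hdist : ∀ n, ∀ c ∈ F n, dist (αn n c) (αn (n + 1) c) < (1 / 2) ^ n := by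
    intro n c hc
    have := hs2 n (s n) c (Finset.mem_union_left _ hc)
    rw [← hs_succ] at this
    rw [dist_comm, dist_eq_norm]
    exact this
  have happ : ∀ n, ∀ i ≤ n, ∃ b ∈ F (n + 1), ‖αn (n + 1) b - x i‖ < (1 / 2) ^ n := by
    intro n i hi
    have := hs3 n (s n) i hi
    rw [← hs_succ] at this
    exact this
  -- the approximating homomorphisms
  have hα_add : ∀ n c d, αn n (c + d) = αn n c + αn n d := fun n c d => by
    simp only [αn, map_add]; noncomm_ring
  have hα_sub : ∀ n c d, αn n (c - d) = αn n c - αn n d := fun n c d => by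
    simp only [αn, map_sub]; noncomm_ring
  have hα_mul : ∀ n c d, αn n (c * d) = αn n c * αn n d := fun n c d => by
    simp only [αn, map_mul]
    calc v n * (ι c * ι d) * star (v n) = v n * ι c * 1 * ι d * star (v n) := by noncomm_ring
      _ = v n * ι c * (star (v n) * v n) * ι d * star (v n) := by rw [hv1]
      _ = _ := by noncomm_ring
  have hα_star : ∀ n c, αn n (star c) = star (αn n c) := fun n c => by
    simp only [αn, map_star, star_mul, star_star]
    noncomm_ring
  have hα_alg : ∀ n (r : ℂ), αn n (algebraMap ℂ A r) = algebraMap ℂ X r := fun n r => by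
    simp only [αn, AlgHomClass.commutes]
    rw [Algebra.algebraMap_eq_smul_one, mul_smul_comm, smul_mul_assoc, mul_one, hv2]
  have hnorm_ι : ∀ c, ‖ι c‖ = ‖c‖ := NonUnitalStarAlgHom.norm_map ι hι
  have hα_norm : ∀ n c, ‖αn n c‖ = ‖c‖ := by
    intro n c
    have hvn : ‖v n‖ ≤ 1 := norm_le_one_of_isometry (hv1 n)
    have hvn' : ‖star (v n)‖ ≤ 1 := by rwa [norm_star]
    apply le_antisymm
    · calc ‖v n * ι c * star (v n)‖ ≤ ‖v n‖ * ‖ι c‖ * ‖star (v n)‖ := norm_mul₃_le
        _ ≤ 1 * ‖ι c‖ * 1 := by gcongr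
        _ = ‖c‖ := by rw [mul_one, one_mul, hnorm_ι]
    · rw [← hnorm_ι]
      have e : ι c = star (v n) * (v n * ι c * star (v n)) * v n := by
        calc ι c = (star (v n) * v n) * ι c * (star (v n) * v n) := by rw [hv1]; simp
          _ = _ := by noncomm_ring
      rw [e]
      calc ‖star (v n) * (v n * ι c * star (v n)) * v n‖
          ≤ ‖star (v n)‖ * ‖v n * ι c * star (v n)‖ * ‖v n‖ := norm_mul₃_le
        _ ≤ 1 * ‖v n * ι c * star (v n)‖ * 1 := by gcongr
        _ = _ := by rw [mul_one, one_mul]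
  -- Cauchy on the finite sets
  have hgeo : ∀ (k : ℕ) c, c ∈ F k → ∀ n, dist (αn (n + k) c) (αn (n + 1 + k) c)
      ≤ (1 / 2) ^ k * (1 / 2) ^ n := by
    intro k c hc n
    have h1 := hdist (n + k) c (hFmono k (n + k) (by omega) hc)
    have e : n + 1 + k = n + k + 1 := by omega
    rw [e, mul_comm, ← pow_add]
    exact h1.le
  have hC₀ : ∀ (k : ℕ) c, c ∈ F k → CauchySeq fun n => αn n c := by
    intro k c hc
    rw [← cauchySeq_shift k]
    exact cauchySeq_of_le_geometric (1 / 2) ((1 / 2) ^ k) (by norm_num) (hgeo k c hc)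
  have hC : ∀ c, CauchySeq fun n => αn n c := by
    intro c
    rw [Metric.cauchySeq_iff]
    intro ε hε
    obtain ⟨i, hi⟩ := (TopologicalSpace.denseRange_denseSeq A).exists_dist_lt c
      (by positivity : 0 < ε / 3)
    obtain ⟨N, hN⟩ := Metric.cauchySeq_iff.1 (hC₀ (i + 1) _ (ha i)) (ε / 3) (by positivity)
    refine ⟨N, fun m hm n hn => ?_⟩
    have h1 := hN m hm n hn
    have h2 : dist (αn m c) (αn m (a i)) = dist c (a i) := by
      rw [dist_eq_norm, dist_eq_norm, ← hα_sub, hα_norm]
    have h3 : dist (αn n c) (αn n (a i)) = dist c (a i) := by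
      rw [dist_eq_norm, dist_eq_norm, ← hα_sub, hα_norm]
    have hi' : dist c (a i) < ε / 3 := hi
    calc dist (αn m c) (αn n c) ≤ dist (αn m c) (αn m (a i)) + dist (αn m (a i)) (αn n (a i))
          + dist (αn n (a i)) (αn n c) := dist_triangle4 _ _ _ _
      _ < ε := by rw [h2, dist_comm (αn n (a i)), h3]; linarith
  have hlim : ∀ c, ∃ y, Tendsto (fun n => αn n c) atTop (𝓝 y) := fun c =>
    cauchySeq_tendsto_of_complete (hC c)
  choose L hL using hlim
  have L_add : ∀ c d, L (c + d) = L c + L d := fun c d =>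
    tendsto_nhds_unique (by simpa only [hα_add] using hL (c + d)) ((hL c).add (hL d))
  have L_mul : ∀ c d, L (c * d) = L c * L d := fun c d =>
    tendsto_nhds_unique (by simpa only [hα_mul] using hL (c * d)) ((hL c).mul (hL d))
  have L_star : ∀ c, L (star c) = star (L c) := fun c =>
    tendsto_nhds_unique (by simpa only [hα_star] using hL (star c)) (hL c).star
  have L_alg : ∀ r, L (algebraMap ℂ A r) = algebraMap ℂ X r := fun r =>
    tendsto_nhds_unique (hL _) (by simpa only [hα_alg] using tendsto_const_nhds)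
  have L_norm : ∀ c, ‖L c‖ = ‖c‖ := fun c =>
    tendsto_nhds_unique (hL c).norm (by simpa only [hα_norm] using tendsto_const_nhds)
  let α : A →⋆ₐ[ℂ] X :=
    { toFun := L
      map_one' := by
        have := L_alg 1
        rwa [map_one, map_one] at this
      map_mul' := L_mul
      map_zero' := by
        have := L_alg 0
        rwa [map_zero, map_zero] at this
      map_add' := L_add
      commutes' := L_alg
      map_star' := L_star }
  have hiso : Isometry α := AddMonoidHomClass.isometry_of_norm α L_norm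
  refine ⟨α, hiso.injective, ?_⟩
  -- surjectivity
  have hcl : IsClosed (Set.range α) := hiso.isClosedEmbedding.isClosed_range
  have hdense : Dense (Set.range α) := by
    intro y
    rw [Metric.mem_closure_iff]
    intro ε hε
    obtain ⟨i, hi⟩ := (TopologicalSpace.denseRange_denseSeq X).exists_dist_lt y
      (by positivity : 0 < ε / 3)
    obtain ⟨N, hN⟩ := exists_pow_lt_of_lt_one (by positivity : 0 < ε / 3)
      (by norm_num : (1 / 2 : ℝ) < 1)
    obtain ⟨n, hn1, hn2⟩ : ∃ n, i ≤ n ∧ N ≤ n := ⟨max i N, le_max_left _ _, le_max_right _ _⟩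
    have hpow : ((1 : ℝ) / 2) ^ n < ε / 3 :=
      (pow_le_pow_of_le_one (by norm_num) (by norm_num) hn2).trans_lt hN
    obtain ⟨b, hb1, hb2⟩ := happ n i hn1
    refine ⟨L b, ⟨b, rfl⟩, ?_⟩
    -- the distance from the approximant to the limit
    have hd0 : dist (αn (0 + (n + 1)) b) (L b) ≤ (1 / 2) ^ (n + 1) / (1 - 1 / 2) := by
      have hL' : Tendsto (fun m => αn (m + (n + 1)) b) atTop (𝓝 (L b)) :=
        (tendsto_add_atTop_iff_nat (n + 1)).2 (hL b)
      exact dist_le_of_le_geometric_of_tendsto₀ (1 / 2) ((1 / 2) ^ (n + 1)) (by norm_num)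
        (hgeo (n + 1) b hb1) hL'
    have hd1 : ((1 : ℝ) / 2) ^ (n + 1) / (1 - 1 / 2) = (1 / 2) ^ n := by
      rw [pow_succ]; ring
    rw [hd1, zero_add] at hd0
    have hb2' : dist (αn (n + 1) b) (x i) < (1 / 2) ^ n := by
      rw [dist_eq_norm]; exact hb2
    have hi' : dist y (x i) < ε / 3 := hi
    calc dist y (L b) ≤ dist y (x i) + dist (x i) (αn (n + 1) b) + dist (αn (n + 1) b) (L b) :=
          dist_triangle4 _ _ _ _
      _ < ε := by rw [dist_comm (x i)]; linarith
  intro y
  have : y ∈ Set.range α := by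
    rw [← hcl.closure_eq]
    exact hdense y
  exact this

end Inter

end

end Vale.Agent.Lib.P101
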