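import Vale.Agent.Lib.P101.ZInter

/-! Subalgebras generated by two commuting images, and the graph construction. -/

universe u

namespace Vale.Agent.Lib.P101

open Filter Topology BoundedContinuousFunction

open scoped Pointwise

noncomputable section

section ProdSub

variable {A Z W : Type*} [Ring A] [StarRing A] [Algebra ℂ A] [Ring Z] [StarRing Z] [Algebra ℂ Z]
  [Ring W] [StarRing W] [Algebra ℂ W] [StarModule ℂ W]

/-- The generators. -/
def prodGen (f : A →⋆ₐ[ℂ] W) (g : Z →⋆ₐ[ℂ] W) : Set W := {x | ∃ a z, x = f a * g z}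

/-- The star-subalgebra spanned by the products of two commuting images. -/
def prodSub (f : A →⋆ₐ[ℂ] W) (g : Z →⋆ₐ[ℂ] W) (hc : ∀ a z, f a * g z = g z * f a) :
    StarSubalgebra ℂ W where
  carrier := (Submodule.span ℂ (prodGen f g) : Set W)
  mul_mem' := by
    intro x y hx hy
    have h1 : x * y ∈ Submodule.span ℂ (prodGen f g) * Submodule.span ℂ (prodGen f g) :=
      Submodule.mul_mem_mul hx hy
    rw [Submodule.span_mul_span] at h1
    refine Submodule.span_mono ?_ h1
    rintro _ ⟨_, ⟨a, z, rfl⟩, _, ⟨a', z', rfl⟩, rfl⟩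
    refine ⟨a * a', z * z', ?_⟩
    show f a * g z * (f a' * g z') = _
    rw [map_mul, map_mul]
    calc f a * g z * (f a' * g z') = f a * (g z * f a') * g z' := by noncomm_ring
      _ = f a * (f a' * g z) * g z' := by rw [hc]
      _ = _ := by noncomm_ring
  add_mem' := Submodule.add_mem _
  algebraMap_mem' := by
    intro r
    refine Submodule.subset_span ⟨algebraMap ℂ A r, 1, ?_⟩
    rw [map_one, mul_one, AlgHomClass.commutes]
  star_mem' := by
    intro x hx
    refine Submodule.span_induction (p := fun y _ => star y ∈ Submodule.span ℂ (prodGen f g))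
      ?_ ?_ ?_ ?_ hx
    · rintro _ ⟨a, z, rfl⟩
      refine Submodule.subset_span ⟨star a, star z, ?_⟩
      rw [star_mul, map_star, map_star]
      have h2 := congrArg star (hc a z)
      rwa [star_mul, star_mul] at h2
    · simp
    · intro y y' _ _ h h'
      rw [star_add]
      exact Submodule.add_mem _ h h'
    · intro r y _ h
      rw [star_smul]
      exact Submodule.smul_mem _ _ h

lemma mem_prodSub {f : A →⋆ₐ[ℂ] W} {g : Z →⋆ₐ[ℂ] W} {hc : ∀ a z, f a * g z = g z * f a} {x : W} :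
    x ∈ prodSub f g hc ↔ x ∈ Submodule.span ℂ (prodGen f g) := Iff.rfl

lemma gen_mem_prodSub {f : A →⋆ₐ[ℂ] W} {g : Z →⋆ₐ[ℂ] W} {hc : ∀ a z, f a * g z = g z * f a}
    (a : A) (z : Z) : f a * g z ∈ prodSub f g hc := Submodule.subset_span ⟨a, z, rfl⟩

end ProdSub

section Graph

variable {X Y : Type*} [CStarAlgebra X] [CStarAlgebra Y]

/-- A closed graph construction for star-homomorphisms. -/
theorem hom_of_graph (E₀ : StarSubalgebra ℂ (X × Y)) (hb : ∀ p ∈ E₀, ‖p.2‖ ≤ ‖p.1‖)
    (hd : Dense (Prod.fst '' (E₀ : Set (X × Y)))) :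
    ∃ γ : X →⋆ₐ[ℂ] Y, ∀ p ∈ E₀, γ p.1 = p.2 := by
  let E := E₀.topologicalClosure
  have hcl : IsClosed (E : Set (X × Y)) := E₀.isClosed_topologicalClosure
  have : IsClosed (E : Set (X × Y)) := hcl
  have hb' : ∀ p ∈ E, ‖p.2‖ ≤ ‖p.1‖ := by
    have hc : IsClosed {p : X × Y | ‖p.2‖ ≤ ‖p.1‖} :=
      isClosed_le (continuous_norm.comp continuous_snd) (continuous_norm.comp continuous_fst)
    have hsub : (E₀ : Set (X × Y)) ⊆ {p : X × Y | ‖p.2‖ ≤ ‖p.1‖} := fun p hp => hb p hp
    have := closure_minimal hsub hc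
    intro p hp
    exact this hp
  let π₁ : E →⋆ₐ[ℂ] X := (StarAlgHom.fst ℂ X Y).comp E.subtype
  let π₂ : E →⋆ₐ[ℂ] Y := (StarAlgHom.snd ℂ X Y).comp E.subtype
  have hπ : ∀ u v : E, π₁ u = π₁ v → π₂ u = π₂ v := by
    intro u v huv
    have h1 : ‖((u : X × Y) - v).2‖ ≤ ‖((u : X × Y) - v).1‖ := hb' _ (sub_mem u.2 v.2)
    have h2 : ((u : X × Y) - v).1 = 0 := sub_eq_zero.2 huv
    rw [h2, norm_zero] at h1
    exact sub_eq_zero.1 (norm_le_zero_iff.1 h1)
  have hinj : Function.Injective π₁ := by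
    intro u v huv
    exact Subtype.ext (Prod.ext huv (hπ u v huv))
  have hiso : Isometry π₁ := NonUnitalStarAlgHom.isometry π₁ hinj
  have hrcl : IsClosed (Set.range π₁) := hiso.isClosedEmbedding.isClosed_range
  have hsurj : Function.Surjective π₁ := by
    intro x
    have h1 : Prod.fst '' (E₀ : Set (X × Y)) ⊆ Set.range π₁ := by
      rintro _ ⟨p, hp, rfl⟩
      exact ⟨⟨p, E₀.le_topologicalClosure hp⟩, rfl⟩
    have h2 : closure (Prod.fst '' (E₀ : Set (X × Y))) ⊆ Set.range π₁ :=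
      closure_minimal h1 hrcl
    exact h2 (hd x)
  obtain ⟨γ, hγ⟩ := exists_factor π₁ π₂ hsurj hπ
  refine ⟨γ, fun p hp => ?_⟩
  exact hγ ⟨p, E₀.le_topologicalClosure hp⟩

end Graph

end

end Vale.Agent.Lib.P101
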