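import Vale.Agent.Lib.P101.Ultra
import Vale.Agent.Lib.P101.ZDefs

/-! The ultrapower as a functor, iterated ultrapowers, and some lemmas. -/

universe u

namespace Vale.Agent.Lib.P101

open Filter Topology BoundedContinuousFunction

noncomputable section

/-- Factoring a homomorphism through a surjective one. -/
theorem exists_factor {E Q Y : Type*} [Ring E] [StarRing E] [Algebra ℂ E] [Ring Q] [StarRing Q]
    [Algebra ℂ Q] [Ring Y] [StarRing Y] [Algebra ℂ Y] (q : E →⋆ₐ[ℂ] Q) (f : E →⋆ₐ[ℂ] Y)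
    (hq : Function.Surjective q) (h : ∀ u v, q u = q v → f u = f v) :
    ∃ g : Q →⋆ₐ[ℂ] Y, ∀ u, g (q u) = f u := by
  choose L hL using hq
  have key : ∀ u, f (L (q u)) = f u := fun u => h _ _ (hL _)
  have key2 : ∀ x, q (L x) = x := hL
  refine ⟨{ toFun := fun x => f (L x)
            map_one' := ?_
            map_mul' := ?_
            map_zero' := ?_
            map_add' := ?_
            commutes' := ?_
            map_star' := ?_ }, key⟩
  · rw [← map_one q, key, map_one]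
  · intro x y
    have : L (x * y) = L (q (L x * L y)) := by rw [map_mul, key2, key2]
    rw [← map_mul, this, key]
  · rw [← map_zero q, key, map_zero]
  · intro x y
    have : L (x + y) = L (q (L x + L y)) := by rw [map_add, key2, key2]
    rw [← map_add, this, key]
  · intro r
    have : L (algebraMap ℂ Q r) = L (q (algebraMap ℂ E r)) := by rw [AlgHomClass.commutes]
    rw [this, key, AlgHomClass.commutes]
  · intro x
    have : L (star x) = L (q (star (L x))) := by rw [map_star, key2]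
    rw [this, key, map_star]

section Basic

variable {A : Type*} [CStarAlgebra A] {ω : Ultrafilter ℕ}

/-- The norm in the ultrapower is the limit of the norms. -/
lemma qk_norm_lt {u : ℕ →ᵇ A} {ε : ℝ} (h : ‖qk A ω u‖ < ε) :
    ∀ᶠ n in (ω : Filter ℕ), ‖u n‖ < ε := by
  have hpos : 0 < (ε - ‖qk A ω u‖) / 2 := by linarith
  obtain ⟨y, hy1, hy2⟩ := Submodule.Quotient.norm_mk_lt (S := (nullIdeal A ω).asIdeal)
    (qk A ω u) hpos
  have hy3 : qk A ω y = qk A ω u := hy1
  have hy2' : ‖y‖ < ‖qk A ω u‖ + (ε - ‖qk A ω u‖) / 2 := hy2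
  have hy4 := (qk_eq_iff.1 hy3.symm).eventually (gt_mem_nhds hpos)
  filter_upwards [hy4] with n hn
  have h1 : ‖u n‖ ≤ ‖u n - y n‖ + ‖y n‖ := by
    simpa using norm_add_le (u n - y n) (y n)
  have h2 : ‖y n‖ ≤ ‖y‖ := y.norm_coe_le_norm n
  linarith

/-- The quotient map as a star-homomorphism. -/
def qkH : (ℕ →ᵇ A) →⋆ₐ[ℂ] AOmega A ω := quotMk (nullIdeal A ω).asIdeal

@[simp] lemma qkH_apply (u : ℕ →ᵇ A) : qkH (ω := ω) u = qk A ω u := rfl

lemma qkH_surjective : Function.Surjective (qkH (A := A) (ω := ω)) := qk_surjective A ω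

/-- The constant sequences as a star-homomorphism. -/
def constH : A →⋆ₐ[ℂ] (ℕ →ᵇ A) where
  toFun a := const ℕ a
  map_one' := rfl
  map_mul' _ _ := rfl
  map_zero' := rfl
  map_add' _ _ := rfl
  commutes' r := by
    ext n
    rfl
  map_star' _ := rfl

@[simp] lemma constH_apply (a : A) (n : ℕ) : constH a n = a := rfl

/-- The diagonal embedding as a star-homomorphism. -/
def diagH : A →⋆ₐ[ℂ] AOmega A ω := qkH.comp constH

lemma diagH_apply (a : A) : diagH (ω := ω) a = qk A ω (const ℕ a) := rfl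

/-- The diagonal embedding is isometric. -/
lemma norm_diagH' (a : A) : ‖a‖ ≤ ‖diagH (ω := ω) a‖ := by
  refine le_of_forall_gt fun ε hε => ?_
  obtain ⟨n, hn⟩ := (qk_norm_lt (u := const ℕ a) (ω := ω) hε).exists
  exact hn

variable {C : Type*} [CStarAlgebra C]

/-- Composition of a bounded sequence with a star-homomorphism. -/
def compH (π : A →⋆ₐ[ℂ] C) : (ℕ →ᵇ A) →⋆ₐ[ℂ] (ℕ →ᵇ C) where
  toFun u := ofNormedAddCommGroupDiscrete (fun n => π (u n)) ‖u‖
    (fun n => (NonUnitalStarAlgHom.norm_apply_le π (u n)).trans (u.norm_coe_le_norm n))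
  map_one' := by
    ext n
    exact map_one π
  map_mul' u v := by
    ext n
    exact map_mul π _ _
  map_zero' := by
    ext n
    exact map_zero π
  map_add' u v := by
    ext n
    exact map_add π _ _
  commutes' r := by
    ext n
    exact AlgHomClass.commutes π r
  map_star' u := by
    ext n
    exact map_star π _

@[simp] lemma compH_apply (π : A →⋆ₐ[ℂ] C) (u : ℕ →ᵇ A) (n : ℕ) : compH π u n = π (u n) := rfl

lemma exists_mapO (π : A →⋆ₐ[ℂ] C) :
    ∃ g : AOmega A ω →⋆ₐ[ℂ] AOmega C ω, ∀ u, g (qkH u) = qkH (compH π u) := by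
  refine exists_factor qkH (qkH.comp (compH π)) qkH_surjective ?_
  intro u v huv
  have h1 : Tendsto (fun n => ‖u n - v n‖) (ω : Filter ℕ) (𝓝 0) := qk_eq_iff.1 huv
  show qk C ω (compH π u) = qk C ω (compH π v)
  rw [qk_eq_iff]
  refine squeeze_zero (fun _ => norm_nonneg _) (fun n => ?_) h1
  show ‖π (u n) - π (v n)‖ ≤ _
  rw [← map_sub]
  exact NonUnitalStarAlgHom.norm_apply_le π _

/-- The functoriality of the ultrapower. -/
def mapO (π : A →⋆ₐ[ℂ] C) : AOmega A ω →⋆ₐ[ℂ] AOmega C ω := Classical.choose (exists_mapO π)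

lemma mapO_qkH (π : A →⋆ₐ[ℂ] C) (u : ℕ →ᵇ A) :
    mapO (ω := ω) π (qkH u) = qkH (compH π u) :=
  Classical.choose_spec (exists_mapO π) u

lemma mapO_diagH (π : A →⋆ₐ[ℂ] C) (a : A) :
    mapO (ω := ω) π (diagH a) = diagH (π a) := by
  rw [diagH_apply, ← qkH_apply, mapO_qkH]
  rw [diagH_apply, ← qkH_apply]
  congr 1

end Basic

section Double

variable {A : Type*} [CStarAlgebra A] {ω : Ultrafilter ℕ}

/-- The iterated ultrapower. -/
abbrev OO (A : Type*) [CStarAlgebra A] (ω : Ultrafilter ℕ) : Type _ := AOmega (AOmega A ω) ω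

/-- The double diagonal embedding. -/
def ddH : A →⋆ₐ[ℂ] OO A ω := diagH.comp diagH

/-- Double sequences. -/
abbrev DS (A : Type*) [CStarAlgebra A] : Type _ := ℕ →ᵇ (ℕ →ᵇ A)

/-- The quotient map from double sequences. -/
def dsH : DS A →⋆ₐ[ℂ] OO A ω := qkH.comp (compH qkH)

lemma dsH_surjective : Function.Surjective (dsH (A := A) (ω := ω)) := by
  intro W
  obtain ⟨U, rfl⟩ := qkH_surjective W
  have hl : ∀ m, ∃ x : ℕ →ᵇ A, qkH (ω := ω) x = U m ∧ ‖x‖ ≤ ‖U m‖ + 1 := by
    intro m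
    obtain ⟨y, hy1, hy2⟩ := Submodule.Quotient.norm_mk_lt (S := (nullIdeal A ω).asIdeal)
      (U m) (zero_lt_one)
    exact ⟨y, hy1, hy2.le⟩
  choose x hx1 hx2 using hl
  refine ⟨ofNormedAddCommGroupDiscrete x (‖U‖ + 1) (fun m =>
    (hx2 m).trans (by linarith [U.norm_coe_le_norm m])), ?_⟩
  show qkH (compH qkH _) = qkH U
  congr 1
  ext1 m
  exact hx1 m

/-- The iterated limit of the norms. -/
lemma dsH_norm_lt {U : DS A} {ε : ℝ} (h : ‖dsH (ω := ω) U‖ < ε) :
    ∀ᶠ m in (ω : Filter ℕ), ∀ᶠ n in (ω : Filter ℕ), ‖U m n‖ < ε := by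
  filter_upwards [qk_norm_lt (ω := ω) h] with m hm
  exact qk_norm_lt (ω := ω) hm

lemma dsH_const (a : A) : dsH (ω := ω) (constH (constH a)) = ddH a := by
  rfl

variable {C : Type*} [CStarAlgebra C]

/-- The functoriality of double sequences. -/
def compD (π : A →⋆ₐ[ℂ] C) : DS A →⋆ₐ[ℂ] DS C := compH (compH π)

@[simp] lemma compD_apply (π : A →⋆ₐ[ℂ] C) (U : DS A) (m n : ℕ) : compD π U m n = π (U m n) := rfl

/-- The functoriality of the iterated ultrapower. -/
def mapOO (π : A →⋆ₐ[ℂ] C) : OO A ω →⋆ₐ[ℂ] OO C ω := mapO (mapO π)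

lemma mapOO_dsH (π : A →⋆ₐ[ℂ] C) (U : DS A) :
    mapOO (ω := ω) π (dsH U) = dsH (compD π U) := by
  show mapO (mapO π) (qkH (compH qkH U)) = qkH (compH qkH (compH (compH π) U))
  rw [mapO_qkH]
  congr 1
  ext m : 1
  show mapO π (qkH (U m)) = qkH (compH π (U m))
  rw [mapO_qkH]

lemma mapOO_ddH (π : A →⋆ₐ[ℂ] C) (a : A) :
    mapOO (ω := ω) π (ddH a) = ddH (π a) := by
  rw [← dsH_const, mapOO_dsH, ← dsH_const]
  congr 1

lemma dsH_mul_eq {U V : DS A} (h : ∀ m n, U m n * V m n = V m n * U m n) :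
    dsH (ω := ω) U * dsH V = dsH V * dsH U := by
  rw [← map_mul, ← map_mul]
  congr 1
  ext m n
  exact h m n

/-- The double diagonal is isometric. -/
lemma norm_ddH (a : A) : ‖a‖ ≤ ‖ddH (ω := ω) a‖ :=
  (norm_diagH' a).trans (norm_diagH' _)

lemma ddH_injective : Function.Injective (ddH (A := A) (ω := ω)) := by
  intro a b h
  have h1 := norm_ddH (ω := ω) (a - b)
  rw [map_sub, h, sub_self, norm_zero] at h1
  exact sub_eq_zero.1 (norm_le_zero_iff.1 h1)

end Double

section Flip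

/-- The half-flip relative to a star-closed set. -/
theorem flip_rel {Z V : Type u} [CStarAlgebra Z] [CStarAlgebra V] (hZ : IsJiangSu Z)
    (T : Set V) (hT : ∀ t ∈ T, star t ∈ T) (c d : Z →⋆ₐ[ℂ] V)
    (hcd : ∀ z z', c z * d z' = d z' * c z)
    (hc : ∀ t ∈ T, ∀ z, t * c z = c z * t) (hd : ∀ t ∈ T, ∀ z, t * d z = d z * t)
    (G : Finset Z) {ε : ℝ} (hε : 0 < ε) :
    ∃ w : V, star w * w = 1 ∧ w * star w = 1 ∧ (∀ t ∈ T, t * w = w * t) ∧
      ∀ z ∈ G, ‖w * c z * star w - d z‖ < ε := by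
  classical
  let K : StarSubalgebra ℂ V := StarSubalgebra.centralizer ℂ T
  have hcl : IsClosed (K : Set V) := by
    rw [StarSubalgebra.coe_centralizer]
    exact Set.isClosed_centralizer _
  have : IsClosed (K : Set V) := hcl
  have hmem : ∀ x : V, (∀ t ∈ T, t * x = x * t) → x ∈ K := by
    intro x hx
    rw [StarSubalgebra.mem_centralizer_iff]
    intro t ht
    exact ⟨hx t ht, hx _ (hT t ht)⟩
  let c' : Z →⋆ₐ[ℂ] K := c.codRestrict K (fun z => hmem _ (fun t ht => hc t ht z))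
  let d' : Z →⋆ₐ[ℂ] K := d.codRestrict K (fun z => hmem _ (fun t ht => hd t ht z))
  obtain ⟨w, h1, h2, h3⟩ := hZ.flip K c' d' (fun z z' => Subtype.ext (hcd z z')) G ε hε
  refine ⟨w, congrArg Subtype.val h1, congrArg Subtype.val h2, ?_, ?_⟩
  · intro t ht
    exact ((StarSubalgebra.mem_centralizer_iff ℂ).1 w.2 t ht).1
  · intro z hz
    exact h3 z hz

end Flip

end

end Vale.Agent.Lib.P101
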