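import Vale.Agent.Lib.P101.ZFlip

/-! The isomorphism `A ≅ X` and the universal property of `X`. -/

universe u

namespace Vale.Agent.Lib.P101

open Filter Topology BoundedContinuousFunction

noncomputable section

/-- Star homomorphisms of C*-algebras are continuous. -/
lemma star_hom_continuous {B C : Type u} [CStarAlgebra B] [CStarAlgebra C] (φ : B →⋆ₐ[ℂ] C) :
    Continuous φ :=
  AddMonoidHomClass.continuous_of_bound φ 1 (fun x => by
    simpa using NonUnitalStarAlgHom.norm_apply_le φ x)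

section Data

variable {A Z X : Type u} [CStarAlgebra A] [CStarAlgebra Z] [CStarAlgebra X] {ω : Ultrafilter ℕ}

/-- Approximation of elements of the algebra generated by `ιX A` and `ψX Z`. -/
lemma tm_of_mem (ιX : A →⋆ₐ[ℂ] X) (ψX : Z →⋆ₐ[ℂ] X) (hc : ∀ a z, ιX a * ψX z = ψX z * ιX a) {x : X}
    (hx : x ∈ prodSub ιX ψX hc) :
    ∃ (F₀ : Finset A) (G₀ : Finset Z) (C : ℝ), 0 ≤ C ∧ ∀ (v : X) (δ : ℝ), star v * v = 1 →
      v * star v = 1 → 0 < δ → δ ≤ 1 → (∀ a ∈ F₀, ‖v * ιX a - ιX a * v‖ < δ) →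
      (∀ z ∈ G₀, ∃ b, ‖v * ιX b * star v - ψX z‖ < δ) → ∃ b, ‖v * ιX b * star v - x‖ ≤ C * δ := by
  classical
  refine Submodule.span_induction (p := fun x _ => ∃ (F₀ : Finset A) (G₀ : Finset Z) (C : ℝ), 0 ≤ C ∧
      ∀ (v : X) (δ : ℝ), star v * v = 1 → v * star v = 1 → 0 < δ → δ ≤ 1 →
      (∀ a ∈ F₀, ‖v * ιX a - ιX a * v‖ < δ) → (∀ z ∈ G₀, ∃ b, ‖v * ιX b * star v - ψX z‖ < δ) →
      ∃ b, ‖v * ιX b * star v - x‖ ≤ C * δ) ?_ ?_ ?_ ?_ hx
  · rintro _ ⟨a, z, rfl⟩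
    refine ⟨{a}, {z}, ‖a‖ + ‖ψX z‖ + 1, by positivity, ?_⟩
    intro v δ hv1 hv2 hδ0 hδ1 h1 h2
    obtain ⟨b₀, hb₀⟩ := h2 z (Finset.mem_singleton_self _)
    refine ⟨a * b₀, ?_⟩
    have h3 := h1 a (Finset.mem_singleton_self _)
    have e : v * ιX (a * b₀) * star v - ιX a * ψX z = (v * ιX a - ιX a * v) * (ιX b₀ * star v)
        + ιX a * (v * ιX b₀ * star v - ψX z) := by
      rw [map_mul]; noncomm_ring
    have hsv : ‖star v‖ ≤ 1 := by
      rw [norm_star]; exact norm_le_one_of_isometry hv1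
    have h4 : ‖ιX b₀ * star v‖ ≤ ‖ψX z‖ + 1 := by
      have e2 : ιX b₀ * star v = star v * (v * ιX b₀ * star v) := by
        calc ιX b₀ * star v = (star v * v) * ιX b₀ * star v := by rw [hv1, one_mul]
          _ = _ := by noncomm_ring
      rw [e2]
      have e3 : ‖v * ιX b₀ * star v‖ ≤ ‖ψX z‖ + δ := by
        have := norm_add_le (v * ιX b₀ * star v - ψX z) (ψX z)
        rw [sub_add_cancel] at this
        linarith
      calc ‖star v * (v * ιX b₀ * star v)‖ ≤ ‖star v‖ * ‖v * ιX b₀ * star v‖ := norm_mul_le _ _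
        _ ≤ 1 * (‖ψX z‖ + 1) := by
            gcongr
            linarith
        _ = _ := one_mul _
    have hιa : ‖ιX a‖ ≤ ‖a‖ := NonUnitalStarAlgHom.norm_apply_le ιX a
    rw [e]
    calc ‖(v * ιX a - ιX a * v) * (ιX b₀ * star v) + ιX a * (v * ιX b₀ * star v - ψX z)‖
        ≤ ‖v * ιX a - ιX a * v‖ * ‖ιX b₀ * star v‖ + ‖ιX a‖ * ‖v * ιX b₀ * star v - ψX z‖ :=
          (norm_add_le _ _).trans (add_le_add (norm_mul_le _ _) (norm_mul_le _ _))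
      _ ≤ δ * (‖ψX z‖ + 1) + ‖a‖ * δ := by
          gcongr
      _ = _ := by ring
  · refine ⟨∅, ∅, 0, le_rfl, fun v δ _ _ _ _ _ _ => ⟨0, by simp⟩⟩
  · rintro x y _ _ ⟨F₁, G₁, C₁, hC₁, h₁⟩ ⟨F₂, G₂, C₂, hC₂, h₂⟩
    refine ⟨F₁ ∪ F₂, G₁ ∪ G₂, C₁ + C₂, add_nonneg hC₁ hC₂, ?_⟩
    intro v δ hv1 hv2 hδ0 hδ1 h1 h2
    obtain ⟨b₁, hb₁⟩ := h₁ v δ hv1 hv2 hδ0 hδ1 (fun a ha => h1 a (Finset.mem_union_left _ ha))
      (fun z hz => h2 z (Finset.mem_union_left _ hz))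
    obtain ⟨b₂, hb₂⟩ := h₂ v δ hv1 hv2 hδ0 hδ1 (fun a ha => h1 a (Finset.mem_union_right _ ha))
      (fun z hz => h2 z (Finset.mem_union_right _ hz))
    refine ⟨b₁ + b₂, ?_⟩
    have e : v * ιX (b₁ + b₂) * star v - (x + y) = (v * ιX b₁ * star v - x)
        + (v * ιX b₂ * star v - y) := by
      rw [map_add]; noncomm_ring
    rw [e, add_mul]
    exact (norm_add_le _ _).trans (add_le_add hb₁ hb₂)
  · rintro r x _ ⟨F₁, G₁, C₁, hC₁, h₁⟩
    refine ⟨F₁, G₁, ‖r‖ * C₁, by positivity, ?_⟩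
    intro v δ hv1 hv2 hδ0 hδ1 h1 h2
    obtain ⟨b₁, hb₁⟩ := h₁ v δ hv1 hv2 hδ0 hδ1 h1 h2
    refine ⟨r • b₁, ?_⟩
    have e : v * ιX (r • b₁) * star v - r • x = r • (v * ιX b₁ * star v - x) := by
      rw [map_smul, smul_sub, mul_smul_comm, smul_mul_assoc]
    rw [e, norm_smul, mul_assoc ‖r‖]
    exact mul_le_mul_of_nonneg_left hb₁ (norm_nonneg r)

/-- The approximation property needed for the intertwining. -/
theorem local_full (hZ : IsJiangSu Z) (ιX : A →⋆ₐ[ℂ] X) (ψX : Z →⋆ₐ[ℂ] X)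
    (hc : ∀ a z, ιX a * ψX z = ψX z * ιX a) (ψ : Z →⋆ₐ[ℂ] OO A ω)
    (hψ : ∀ a z, ddH a * ψ z = ψ z * ddH a) (hdense : Dense (prodSub ιX ψX hc : Set X))
    (F : Finset A) (G : Finset X) {ε : ℝ} (hε : 0 < ε) :
    ∃ v : X, star v * v = 1 ∧ v * star v = 1 ∧ (∀ a ∈ F, ‖v * ιX a * star v - ιX a‖ < ε) ∧
      ∀ x ∈ G, ∃ b, ‖v * ιX b * star v - x‖ < ε := by
  classical
  have hl : ∀ x : X, ∃ x' ∈ prodSub ιX ψX hc, ‖x' - x‖ < ε / 2 := by
    intro x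
    obtain ⟨x', hx1, hx2⟩ := Metric.dense_iff.1 hdense x (ε / 2) (half_pos hε)
    refine ⟨x', hx2, ?_⟩
    rw [Metric.mem_ball, dist_eq_norm] at hx1
    exact hx1
  choose x' hx' hx'2 using hl
  have ht := fun x => tm_of_mem ιX ψX hc (hx' x)
  choose F₀ G₀ C hC0 hC using ht
  set Ctot : ℝ := ∑ x ∈ G, C x with hCtot
  have hCtot0 : 0 ≤ Ctot := Finset.sum_nonneg fun x _ => hC0 x
  have hCle : ∀ x ∈ G, C x ≤ Ctot := fun x hx =>
    Finset.single_le_sum (f := fun x => C x) (fun x _ => hC0 x) hx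
  obtain ⟨δ, hδ0, hδ1, hδ2, hδ3⟩ : ∃ δ : ℝ, 0 < δ ∧ δ ≤ 1 ∧ δ < ε ∧ Ctot * δ < ε / 2 := by
    refine ⟨min 1 (min (ε / 2) (ε / (2 * (Ctot + 1)))), ?_, min_le_left _ _, ?_, ?_⟩
    · have h1 : 0 < ε / (2 * (Ctot + 1)) := by positivity
      exact lt_min one_pos (lt_min (half_pos hε) h1)
    · refine lt_of_le_of_lt ((min_le_right _ _).trans (min_le_left _ _)) (half_lt_self hε)
    · have h1 : min 1 (min (ε / 2) (ε / (2 * (Ctot + 1)))) ≤ ε / (2 * (Ctot + 1)) :=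
        (min_le_right _ _).trans (min_le_right _ _)
      have h2 : Ctot * (ε / (2 * (Ctot + 1))) < ε / 2 := by
        rw [mul_div_assoc', div_lt_div_iff₀ (by positivity) (by norm_num)]
        nlinarith
      exact lt_of_le_of_lt (by gcongr) h2
  obtain ⟨v, hv1, hv2, hv3, hv4⟩ := local_flip hZ ιX ψX hc ψ hψ (F ∪ G.biUnion F₀) (G.biUnion G₀) hδ0
  refine ⟨v, hv1, hv2, ?_, ?_⟩
  · intro a ha
    have e : v * ιX a * star v - ιX a = (v * ιX a - ιX a * v) * star v := by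
      calc v * ιX a * star v - ιX a = v * ιX a * star v - ιX a * (v * star v) := by rw [hv2, mul_one]
        _ = _ := by noncomm_ring
    rw [e]
    have hsv : ‖star v‖ ≤ 1 := by
      rw [norm_star]; exact norm_le_one_of_isometry hv1
    calc ‖(v * ιX a - ιX a * v) * star v‖ ≤ ‖v * ιX a - ιX a * v‖ * ‖star v‖ := norm_mul_le _ _
      _ ≤ ‖v * ιX a - ιX a * v‖ * 1 := by gcongr
      _ < ε := by
        rw [mul_one]
        exact (hv3 a (Finset.mem_union_left _ ha)).trans hδ2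
  · intro x hx
    obtain ⟨b, hb⟩ := hC x v δ hv1 hv2 hδ0 hδ1
      (fun a ha => hv3 a (Finset.mem_union_right _ (Finset.mem_biUnion.2 ⟨x, hx, ha⟩)))
      (fun z hz => hv4 z (Finset.mem_biUnion.2 ⟨x, hx, hz⟩))
    refine ⟨b, ?_⟩
    have e : v * ιX b * star v - x = (v * ιX b * star v - x' x) + (x' x - x) := by abel
    rw [e]
    have h1 : C x * δ ≤ Ctot * δ := by
      gcongr
      exact hCle x hx
    have h2 := hx'2 x
    calc ‖(v * ιX b * star v - x' x) + (x' x - x)‖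
        ≤ ‖v * ιX b * star v - x' x‖ + ‖x' x - x‖ := norm_add_le _ _
      _ < ε := by linarith

/-- The algebra `X` is separable. -/
lemma separable_X [TopologicalSpace.SeparableSpace A] [TopologicalSpace.SeparableSpace Z]
    (ιX : A →⋆ₐ[ℂ] X) (ψX : Z →⋆ₐ[ℂ] X)
    (hc : ∀ a z, ιX a * ψX z = ψX z * ιX a) (hdense : Dense (prodSub ιX ψX hc : Set X)) :
    TopologicalSpace.SeparableSpace X := by
  have h0 : prodGen ιX ψX = Set.range (fun p : A × Z => ιX p.1 * ψX p.2) := by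
    ext x
    constructor
    · rintro ⟨a, z, rfl⟩
      exact ⟨(a, z), rfl⟩
    · rintro ⟨⟨a, z⟩, rfl⟩
      exact ⟨a, z, rfl⟩
  have h1 : TopologicalSpace.IsSeparable (prodGen ιX ψX) := by
    rw [h0]
    refine TopologicalSpace.isSeparable_range ?_
    exact ((star_hom_continuous ιX).comp continuous_fst).mul ((star_hom_continuous ψX).comp continuous_snd)
  have h2 := (h1.span (R := ℂ)).closure
  have h3 : closure ((Submodule.span ℂ (prodGen ιX ψX) : Submodule ℂ X) : Set X) = Set.univ :=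
    hdense.closure_eq
  rw [h3] at h2
  exact TopologicalSpace.isSeparable_univ_iff.1 h2

/-- The first inclusion is close to an isomorphism. -/
theorem exists_iso [TopologicalSpace.SeparableSpace A] [TopologicalSpace.SeparableSpace Z]
    (hZ : IsJiangSu Z) (ιX : A →⋆ₐ[ℂ] X) (hι : Function.Injective ιX) (ψX : Z →⋆ₐ[ℂ] X)
    (hc : ∀ a z, ιX a * ψX z = ψX z * ιX a) (ψ : Z →⋆ₐ[ℂ] OO A ω)
    (hψ : ∀ a z, ddH a * ψ z = ψ z * ddH a) (hdense : Dense (prodSub ιX ψX hc : Set X)) :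
    ∃ α : A →⋆ₐ[ℂ] X, Function.Bijective α := by
  have := separable_X ιX ψX hc hdense
  exact intertwine ιX hι (fun F G ε hε => local_full hZ ιX ψX hc ψ hψ hdense F G hε)

section Univ

variable {Y : Type u} [CStarAlgebra Y]

/-- The approximate formula for elements of the graph. -/
lemma graph_rep (ιX : A →⋆ₐ[ℂ] X) (ψX : Z →⋆ₐ[ℂ] X) (α' : A →⋆ₐ[ℂ] Y) (β : Z →⋆ₐ[ℂ] Y)
    (hc : ∀ a z, (ιX.prod α') a * (ψX.prod β) z = (ψX.prod β) z * (ιX.prod α') a)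
    (ψ : Z →⋆ₐ[ℂ] OO A ω) (Θ : X →⋆ₐ[ℂ] OO A ω) (hΘ1 : ∀ a, Θ (ιX a) = ddH a)
    (hΘ2 : ∀ z, Θ (ψX z) = ψ z) {p : X × Y} (hp : p ∈ prodSub (ιX.prod α') (ψX.prod β) hc) :
    ∃ (G₀ : Finset Z) (C : ℝ), 0 ≤ C ∧ ∀ (w : OO Y ω) (δ : ℝ),
      (∀ a, ddH (α' a) * w = w * ddH (α' a)) → 0 < δ →
      (∀ z ∈ G₀, ‖w * mapOO α' (ψ z) * star w - ddH (β z)‖ < δ) →
      ‖w * mapOO α' (Θ p.1) * star w - ddH p.2‖ ≤ C * δ := by
  classical
  refine Submodule.span_induction (p := fun p _ => ∃ (G₀ : Finset Z) (C : ℝ), 0 ≤ C ∧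
      ∀ (w : OO Y ω) (δ : ℝ), (∀ a, ddH (α' a) * w = w * ddH (α' a)) → 0 < δ →
      (∀ z ∈ G₀, ‖w * mapOO α' (ψ z) * star w - ddH (β z)‖ < δ) →
      ‖w * mapOO α' (Θ p.1) * star w - ddH p.2‖ ≤ C * δ) ?_ ?_ ?_ ?_ hp
  · rintro _ ⟨a, z, rfl⟩
    refine ⟨{z}, ‖α' a‖, norm_nonneg _, ?_⟩
    intro w δ h1 hδ0 h2
    have h3 := h2 z (Finset.mem_singleton_self _)
    show ‖w * mapOO α' (Θ (ιX a * ψX z)) * star w - ddH (α' a * β z)‖ ≤ _
    have e0 : mapOO (ω := ω) α' (Θ (ιX a * ψX z)) = ddH (α' a) * mapOO α' (ψ z) := by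
      rw [map_mul, map_mul, hΘ1, hΘ2, mapOO_ddH]
    have e : w * mapOO α' (Θ (ιX a * ψX z)) * star w - ddH (α' a * β z)
        = ddH (α' a) * (w * mapOO α' (ψ z) * star w - ddH (β z)) := by
      rw [e0, map_mul]
      calc w * (ddH (α' a) * mapOO α' (ψ z)) * star w - ddH (α' a) * ddH (β z)
          = (w * ddH (α' a)) * mapOO α' (ψ z) * star w - ddH (α' a) * ddH (β z) := by noncomm_ring
        _ = _ := by rw [← h1]; noncomm_ring
    rw [e]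
    calc ‖ddH (α' a) * (w * mapOO α' (ψ z) * star w - ddH (β z))‖
        ≤ ‖ddH (ω := ω) (α' a)‖ * ‖w * mapOO α' (ψ z) * star w - ddH (β z)‖ := norm_mul_le _ _
      _ ≤ ‖α' a‖ * δ := by
          gcongr
          exact NonUnitalStarAlgHom.norm_apply_le ddH _
  · refine ⟨∅, 0, le_rfl, fun w δ _ _ _ => ?_⟩
    simp
  · rintro x y _ _ ⟨G₁, C₁, hC₁, h₁⟩ ⟨G₂, C₂, hC₂, h₂⟩
    refine ⟨G₁ ∪ G₂, C₁ + C₂, add_nonneg hC₁ hC₂, ?_⟩
    intro w δ h1 hδ0 h2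
    have e : w * mapOO α' (Θ (x + y).1) * star w - ddH (x + y).2
        = (w * mapOO α' (Θ x.1) * star w - ddH x.2) + (w * mapOO α' (Θ y.1) * star w - ddH y.2) := by
      rw [Prod.fst_add, Prod.snd_add, map_add, map_add, map_add]
      noncomm_ring
    rw [e, add_mul]
    exact (norm_add_le _ _).trans (add_le_add
      (h₁ w δ h1 hδ0 fun z hz => h2 z (Finset.mem_union_left _ hz))
      (h₂ w δ h1 hδ0 fun z hz => h2 z (Finset.mem_union_right _ hz)))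
  · rintro r x _ ⟨G₁, C₁, hC₁, h₁⟩
    refine ⟨G₁, ‖r‖ * C₁, by positivity, ?_⟩
    intro w δ h1 hδ0 h2
    have e : w * mapOO α' (Θ (r • x).1) * star w - ddH (r • x).2
        = r • (w * mapOO α' (Θ x.1) * star w - ddH x.2) := by
      rw [Prod.smul_fst, Prod.smul_snd, map_smul, map_smul, map_smul, smul_sub, mul_smul_comm,
        smul_mul_assoc]
    rw [e, norm_smul, mul_assoc ‖r‖]
    exact mul_le_mul_of_nonneg_left (h₁ w δ h1 hδ0 h2) (norm_nonneg r)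

/-- The universal property: existence. -/
theorem univ_exists (hZ : IsJiangSu Z) (ιX : A →⋆ₐ[ℂ] X) (ψX : Z →⋆ₐ[ℂ] X)
    (hc : ∀ a z, ιX a * ψX z = ψX z * ιX a) (ψ : Z →⋆ₐ[ℂ] OO A ω)
    (hψ : ∀ a z, ddH a * ψ z = ψ z * ddH a) (hdense : Dense (prodSub ιX ψX hc : Set X))
    (Θ : X →⋆ₐ[ℂ] OO A ω) (hΘ1 : ∀ a, Θ (ιX a) = ddH a) (hΘ2 : ∀ z, Θ (ψX z) = ψ z)
    (α' : A →⋆ₐ[ℂ] Y) (β : Z →⋆ₐ[ℂ] Y) (hαβ : ∀ a z, α' a * β z = β z * α' a) :
    ∃ γ : X →⋆ₐ[ℂ] Y, (∀ a, γ (ιX a) = α' a) ∧ ∀ z, γ (ψX z) = β z := by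
  classical
  have hc' : ∀ a z, (ιX.prod α') a * (ψX.prod β) z = (ψX.prod β) z * (ιX.prod α') a :=
    fun a z => Prod.ext (hc a z) (hαβ a z)
  let E₀ := prodSub (ιX.prod α') (ψX.prod β) hc'
  have hl : ∀ z, ∃ U : DS A, dsH (ω := ω) U = ψ z := fun z => dsH_surjective _
  choose Ũ hŨ using hl
  have hbound : ∀ p ∈ E₀, ‖p.2‖ ≤ ‖p.1‖ := by
    intro p hp
    obtain ⟨G₀, C, hC0, hC⟩ := graph_rep ιX ψX α' β hc' ψ Θ hΘ1 hΘ2 hp
    refine le_of_forall_pos_le_add fun ε hε => ?_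
    have hδ : 0 < ε / (C + 1) := by positivity
    let ξ : Z →⋆ₐ[ℂ] OO Y ω := (mapOO α').comp ψ
    let βh : Z →⋆ₐ[ℂ] OO Y ω := ddH.comp β
    have hξz : ∀ z, ξ z = dsH (compD α' (Ũ z)) := fun z => by
      show mapOO α' (ψ z) = _
      rw [← hŨ z, mapOO_dsH]
    have hβz : ∀ z, βh z = dsH (constH (constH (β z))) := fun z => rfl
    obtain ⟨w, hw1, hw2, hw3, hw4⟩ := flip_rel hZ (Set.range fun a => ddH (ω := ω) (α' a))
      (by
        rintro _ ⟨a, rfl⟩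
        exact ⟨star a, by simp only [map_star]⟩) ξ βh
      (by
        intro z z'
        rw [hξz, hβz]
        refine dsH_mul_eq fun m n => ?_
        exact hαβ _ _)
      (by
        rintro _ ⟨a, rfl⟩ z
        show ddH (α' a) * mapOO α' (ψ z) = mapOO α' (ψ z) * ddH (α' a)
        have h1 : ddH (ω := ω) (α' a) = mapOO α' (ddH a) := (mapOO_ddH α' a).symm
        rw [h1, ← map_mul, ← map_mul, hψ])
      (by
        rintro _ ⟨a, rfl⟩ z
        show ddH (α' a) * ddH (β z) = ddH (β z) * ddH (α' a)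
        rw [← map_mul, ← map_mul, hαβ])
      G₀ hδ
    have h5 := hC w (ε / (C + 1)) (fun a => hw3 _ ⟨a, rfl⟩) hδ hw4
    have h6 : C * (ε / (C + 1)) ≤ ε := by
      rw [mul_div_assoc', div_le_iff₀ (by positivity)]
      nlinarith
    have h7 : ‖w‖ ≤ 1 := norm_le_one_of_isometry hw1
    have h8 : ‖star w‖ ≤ 1 := by rwa [norm_star]
    have h9 : ‖w * mapOO α' (Θ p.1) * star w‖ ≤ ‖p.1‖ := by
      refine norm_mul₃_le.trans ?_
      have h10 : ‖mapOO (ω := ω) α' (Θ p.1)‖ ≤ ‖p.1‖ :=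
        (NonUnitalStarAlgHom.norm_apply_le (mapOO α') _).trans
          (NonUnitalStarAlgHom.norm_apply_le Θ _)
      calc ‖w‖ * ‖mapOO α' (Θ p.1)‖ * ‖star w‖ ≤ 1 * ‖p.1‖ * 1 := by gcongr
        _ = _ := by ring
    have h11 : ‖p.2‖ ≤ ‖ddH (ω := ω) p.2‖ := norm_ddH _
    have h12 : ‖ddH (ω := ω) p.2‖ ≤ ‖w * mapOO α' (Θ p.1) * star w - ddH p.2‖
        + ‖w * mapOO α' (Θ p.1) * star w‖ := by
      have := norm_sub_le (w * mapOO α' (Θ p.1) * star w)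
        (w * mapOO α' (Θ p.1) * star w - ddH (ω := ω) p.2)
      rw [sub_sub_cancel] at this
      linarith
    linarith
  have hdE : Dense (Prod.fst '' (E₀ : Set (X × Y))) := by
    refine hdense.mono ?_
    intro x hx
    refine Submodule.span_induction (p := fun x _ => x ∈ Prod.fst '' (E₀ : Set (X × Y))) ?_ ?_ ?_ ?_ hx
    · rintro _ ⟨a, z, rfl⟩
      exact ⟨(ιX a * ψX z, α' a * β z), gen_mem_prodSub (f := ιX.prod α') (g := ψX.prod β) a z, rfl⟩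
    · exact ⟨0, zero_mem _, rfl⟩
    · rintro x y _ _ ⟨p, hp, rfl⟩ ⟨q, hq, rfl⟩
      exact ⟨p + q, add_mem hp hq, rfl⟩
    · rintro r x _ ⟨p, hp, rfl⟩
      exact ⟨r • p, SMulMemClass.smul_mem r hp, rfl⟩
  obtain ⟨γ, hγ⟩ := hom_of_graph E₀ hbound hdE
  refine ⟨γ, fun a => ?_, fun z => ?_⟩
  · have h1 := hγ _ (gen_mem_prodSub (f := ιX.prod α') (g := ψX.prod β) (hc := hc') a 1)
    simpa using h1
  · have h1 := hγ _ (gen_mem_prodSub (f := ιX.prod α') (g := ψX.prod β) (hc := hc') 1 z)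
    simpa using h1

/-- The universal property: uniqueness. -/
theorem univ_unique (ιX : A →⋆ₐ[ℂ] X) (ψX : Z →⋆ₐ[ℂ] X)
    (hc : ∀ a z, ιX a * ψX z = ψX z * ιX a) (hdense : Dense (prodSub ιX ψX hc : Set X))
    (γ₁ γ₂ : X →⋆ₐ[ℂ] Y) (h1 : ∀ a, γ₁ (ιX a) = γ₂ (ιX a)) (h2 : ∀ z, γ₁ (ψX z) = γ₂ (ψX z)) :
    γ₁ = γ₂ := by
  have h3 : Set.EqOn γ₁ γ₂ (prodSub ιX ψX hc : Set X) := by
    intro x hx
    refine Submodule.span_induction (p := fun x _ => γ₁ x = γ₂ x) ?_ ?_ ?_ ?_ hx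
    · rintro _ ⟨a, z, rfl⟩
      rw [map_mul, map_mul, h1, h2]
    · simp
    · intro x y _ _ hx hy
      rw [map_add, map_add, hx, hy]
    · intro r x _ hx
      rw [map_smul, map_smul, hx]
  have h4 := Continuous.ext_on hdense (star_hom_continuous γ₁) (star_hom_continuous γ₂) h3
  exact DFunLike.coe_injective h4

end Univ

end Data

end

end Vale.Agent.Lib.P101
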